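import Mathlib

/-!
Row 86, Part A4 (helper371): algebraic definitions for the numeric certificate.
`z = -I rho`, `b = l+6`, `ak k = lam + l/2 - I om + k`.
`g k` = `G` at level `k` (= -z U'(a_k)/U(a_k)), `(u,y) = (U(a), -z U'(a)) / U(a_3)`.
-/

set_option autoImplicit false

open Complex

namespace Crest.Agent.R086.A4

noncomputable section

/-- level parameter `a_k` -/
def ak (l : ℕ) (om : ℝ) (lam : ℂ) (k : ℕ) : ℂ := lam + (l : ℂ) / 2 - I * om + k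

/-- `z = -I rho` -/
def zz (rho : ℝ) : ℂ := -I * rho

/-- one downward step `(U(a), -zU'(a)) ↦ (U(a-1), -zU'(a-1))` -/
def stp (l : ℕ) (z a : ℂ) (p : ℂ × ℂ) : ℂ × ℂ :=
  ((a - (l + 6) + z) * p.1 + p.2, (a - 1) * (p.2 + z * p.1))

/-- `(u_0, y_0)` from `g_3` -/
def uy (l : ℕ) (om rho : ℝ) (lam g : ℂ) : ℂ × ℂ :=
  stp l (zz rho) (ak l om lam 1) (stp l (zz rho) (ak l om lam 2)
    (stp l (zz rho) (ak l om lam 3) (1, g)))

/-- the normalised Wronskian at level 3; `g` belongs to `lam`, `g'` to `conj lam` -/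
def Wr (l : ℕ) (om rho : ℝ) (lam g g' : ℂ) : ℂ :=
  (uy l om rho lam g).2 * (starRingEnd ℂ) (uy l om rho ((starRingEnd ℂ) lam) g').1 +
    (starRingEnd ℂ) (uy l om rho ((starRingEnd ℂ) lam) g').2 * (uy l om rho lam g).1

/-- `g` follows the backward recursion for levels `4..M` and starts in the half plane of Theorem V. -/
def Chain (l : ℕ) (om rho : ℝ) (lam : ℂ) (M : ℕ) (g : ℕ → ℂ) : Prop :=
  ((l : ℝ) + 5) / 2 ≤ (g M).re ∧
  ∀ k : ℕ, 3 ≤ k → k < M →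
    g k = (ak l om lam (k + 1) - 1) * (g (k + 1) + zz rho) /
      (g (k + 1) + zz rho + ak l om lam (k + 1) - (l + 6))

/-- the known zeros -/
def Zs : ℕ → Finset ℂ
  | 0 => {0, 1}
  | 1 => {1 / 2}
  | _ => ∅

/-- comparison polynomial without the known zeros -/
def pp (l : ℕ) (lam : ℂ) : ℂ :=
  match l with
  | 0 => (lam + 1) ^ 4
  | 1 => (lam + 1) ^ 5
  | 2 => (lam + 1) ^ 2 * (lam + 3 / 2) ^ 4
  | (n + 3) => (lam + 1) ^ 2 * (lam + ((n : ℂ) + 3)) ^ 4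

/-- full comparison polynomial: `λ(λ-1)(λ+1)^4`, `(λ-1/2)(λ+1)^5`, `(λ+1)^2(λ+3/2)^4`,
`(λ+1)^2(λ+l)^4` for `l ≥ 3`. -/
def PP (l : ℕ) (lam : ℂ) : ℂ :=
  match l with
  | 0 => lam * (lam - 1) * (lam + 1) ^ 4
  | 1 => (lam - 1 / 2) * (lam + 1) ^ 5
  | 2 => (lam + 1) ^ 2 * (lam + 3 / 2) ^ 4
  | (n + 3) => (lam + 1) ^ 2 * (lam + ((n : ℂ) + 3)) ^ 4

theorem PP_eq (l : ℕ) (lam : ℂ) : PP l lam = pp l lam * ∏ ζ ∈ Zs l, (lam - ζ) := by
  match l with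
  | 0 =>
    simp only [PP, pp, Zs]
    rw [Finset.prod_insert (by simp), Finset.prod_singleton]; ring
  | 1 => simp [PP, pp, Zs]; ring
  | 2 => simp [PP, pp, Zs]
  | (n + 3) => simp [PP, pp, Zs]

/-- the boundary of the rectangle `[x0, 5/2] × [-T, T]` -/
def Bd (x0 T : ℝ) : Set ℂ :=
  {lam : ℂ | (lam.re = x0 ∧ |lam.im| ≤ T) ∨ (|lam.im| = T ∧ x0 ≤ lam.re ∧ lam.re ≤ 5 / 2) ∨
    (lam.re = 5 / 2 ∧ |lam.im| ≤ T)}


/-- the boundary of the rectangle `[x0, x1] × [-T, T]` (general right side) -/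
def BdR (x0 x1 T : ℝ) : Set ℂ :=
  {lam : ℂ | (lam.re = x0 ∧ |lam.im| ≤ T) ∨ (|lam.im| = T ∧ x0 ≤ lam.re ∧ lam.re ≤ x1) ∨
    (lam.re = x1 ∧ |lam.im| ≤ T)}

/-- **NUMERIC CERTIFICATE**, general rectangle. Final plan (helper522, 12712):
`CertR 0 om rho (-1/20) (3/2) 3 M`, `CertR 1 om rho 0 1 (5/2) M`, `CertR 2 om rho 0 (1/2) 2 M`. -/
def CertR (l : ℕ) (om rho x0 x1 T : ℝ) (M : ℕ) : Prop :=
  ∀ lam ∈ BdR x0 x1 T, ∀ g g' : ℕ → ℂ, Chain l om rho lam M g →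
    Chain l om rho ((starRingEnd ℂ) lam) M g' →
    0 < (Wr l om rho lam (g 3) (g' 3) * (starRingEnd ℂ) (PP l lam)).re

end

end Crest.Agent.R086.A4
private theorem rz_d2aa323c4a : type_of% @_root_.Crest.Agent.R086.A4.PP.eq_1 := @_root_.Crest.Agent.R086.A4.PP.eq_1 -- L60
private theorem rz_82fd93459f : type_of% @_root_.Crest.Agent.R086.A4.Zs.eq_1 := @_root_.Crest.Agent.R086.A4.Zs.eq_1 -- L45
private theorem rz_7a500d4daf : type_of% @_root_.Crest.Agent.R086.A4.pp.eq_1 := @_root_.Crest.Agent.R086.A4.pp.eq_1 -- L51
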