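import Mathlib
import Crest.Agent.R086.JInt
import Crest.Agent.R086.A3Ode

-- ▼ part R086/A3Int
section

/-!
Row 86 (S0114), Part A, module A3, part (2) (helper592): for `rho ≥ 5` and `3/10 ≤ om ≤ 2/5`
  Re ( conj (m J(1-i om, 4+i om, rho)) * J(1-i om, 5+i om, rho) ) > 0,   m = 5 + i om.
Taylor expansion of `(1+is)^(4+i om)`, `(1+is)^(5+i om)` with remainder without growth.
-/

set_option autoImplicit false

open MeasureTheory Complex Set Filter Topology

namespace Crest.Agent.R086.A3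

open Crest.Agent.R086.JInt

lemma norm_g_le_one {c : ℂ} (h0 : c.re ≤ 0) (h1 : 0 ≤ c.im) {s : ℝ} (hs : 0 ≤ s) :
    ‖((1 : ℂ) + I * s) ^ c‖ ≤ 1 := by
  rw [Complex.norm_cpow_of_ne_zero (one_add_ne s)]
  have h2 : ‖(1 : ℂ) + I * s‖ ^ c.re ≤ 1 :=
    Real.rpow_le_one_of_one_le_of_nonpos (norm_one_add_ge s) h0
  have h3 : 0 ≤ arg ((1 : ℂ) + I * s) := by
    rw [Complex.arg_nonneg_iff]
    simpa using hs
  have h4 : 1 ≤ Real.exp (arg ((1 : ℂ) + I * s) * c.im) := Real.one_le_exp (mul_nonneg h3 h1)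
  calc ‖(1 : ℂ) + I * s‖ ^ c.re / Real.exp (arg ((1 : ℂ) + I * s) * c.im)
      ≤ ‖(1 : ℂ) + I * s‖ ^ c.re / 1 := by
        apply div_le_div_of_nonneg_left _ one_pos h4
        exact Real.rpow_nonneg (norm_nonneg _) _
    _ ≤ 1 := by simpa using h2

lemma hasDerivAt_g (c : ℂ) (s : ℝ) :
    HasDerivAt (fun x : ℝ => ((1 : ℂ) + I * (x : ℂ)) ^ c) (I * c * (1 + I * (s : ℂ)) ^ (c - 1)) s := by
  have := (((hasDerivAt_id (s : ℂ)).const_mul I).const_add 1).cpow_const (c := c) (one_add_slit s)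
  have h := this.comp_ofReal
  refine h.congr_deriv ?_
  simp only [id]
  ring

/-- One Taylor step. -/
lemma taylor_step {c : ℂ} {p P : ℝ → ℂ} {K : ℝ} {n : ℕ}
    (hb : ∀ s : ℝ, 0 ≤ s → ‖((1 : ℂ) + I * s) ^ (c - 1) - p s‖ ≤ K * s ^ n)
    (hP : ∀ s : ℝ, HasDerivAt P (I * c * p s) s) (hP0 : P 0 = 1) (s : ℝ) (hs : 0 ≤ s) :
    ‖((1 : ℂ) + I * s) ^ c - P s‖ ≤ ‖c‖ * K / (n + 1) * s ^ (n + 1) := by
  have hd : ∀ x : ℝ, HasDerivAt (fun x : ℝ => ((1 : ℂ) + I * (x : ℂ)) ^ c - P x)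
      (I * c * (1 + I * (x : ℂ)) ^ (c - 1) - I * c * p x) x := fun x =>
    (hasDerivAt_g c x).sub (hP x)
  have hB : ∀ x : ℝ, HasDerivAt (fun x : ℝ => ‖c‖ * K / (n + 1) * x ^ (n + 1)) (‖c‖ * (K * x ^ n)) x := by
    intro x
    have := (hasDerivAt_pow (n + 1) x).const_mul (‖c‖ * K / (n + 1))
    refine this.congr_deriv ?_
    have : (n : ℝ) + 1 ≠ 0 := by positivity
    push_cast
    field_simp
  refine image_norm_le_of_norm_deriv_right_le_deriv_boundary (a := 0) (b := s)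
    (f := fun x : ℝ => ((1 : ℂ) + I * (x : ℂ)) ^ c - P x)
    (f' := fun x => I * c * (1 + I * (x : ℂ)) ^ (c - 1) - I * c * p x)
    (fun x _ => (hd x).continuousAt.continuousWithinAt)
    (fun x _ => (hd x).hasDerivWithinAt) (B := fun x : ℝ => ‖c‖ * K / (n + 1) * x ^ (n + 1))
    (B' := fun x => ‖c‖ * (K * x ^ n)) ?_ hB ?_ ⟨hs, le_rfl⟩
  · simp [hP0]
  · intro x hx
    rw [← mul_sub, norm_mul, norm_mul, Complex.norm_I, one_mul]
    exact mul_le_mul_of_nonneg_left (hb x hx.1) (norm_nonneg _)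

/-- Taylor polynomials of `(1+is)^c`. -/
noncomputable def T1 (_ : ℂ) (_ : ℝ) : ℂ := 1
noncomputable def T2 (c : ℂ) (s : ℝ) : ℂ := 1 + I * c * s
noncomputable def T3 (c : ℂ) (s : ℝ) : ℂ := 1 + I * c * s - c * (c - 1) / 2 * s ^ 2
noncomputable def T4 (c : ℂ) (s : ℝ) : ℂ :=
  1 + I * c * s - c * (c - 1) / 2 * s ^ 2 - I * (c * (c - 1) * (c - 2)) / 6 * s ^ 3
noncomputable def T5 (c : ℂ) (s : ℝ) : ℂ :=
  1 + I * c * s - c * (c - 1) / 2 * s ^ 2 - I * (c * (c - 1) * (c - 2)) / 6 * s ^ 3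
    + c * (c - 1) * (c - 2) * (c - 3) / 24 * s ^ 4

lemma hasDerivAt_rpow' (n : ℕ) (s : ℝ) :
    HasDerivAt (fun x : ℝ => (x : ℂ) ^ n) (n * (s : ℂ) ^ (n - 1)) s := by
  have := ((hasDerivAt_id s).ofReal_comp).fun_pow n
  simpa using this

lemma hasDerivAt_T1 (c : ℂ) (s : ℝ) : HasDerivAt (T1 c) (I * c * 0) s := by
  unfold T1
  simpa using hasDerivAt_const s (1 : ℂ)

lemma hasDerivAt_T2 (c : ℂ) (s : ℝ) : HasDerivAt (T2 c) (I * c * T1 (c - 1) s) s := by
  unfold T2 T1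
  have h1 := (hasDerivAt_rpow' 1 s).const_mul (I * c)
  refine ((h1.const_add 1).congr_deriv (by simp)).congr_of_eventuallyEq ?_
  filter_upwards with x
  simp

lemma hasDerivAt_T3 (c : ℂ) (s : ℝ) : HasDerivAt (T3 c) (I * c * T2 (c - 1) s) s := by
  unfold T3 T2
  have h1 := (hasDerivAt_rpow' 1 s).const_mul (I * c)
  have h2 := (hasDerivAt_rpow' 2 s).const_mul (c * (c - 1) / 2)
  refine (((h1.const_add 1).sub h2).congr_deriv ?_).congr_of_eventuallyEq ?_
  · have hI : I * I = -1 := Complex.I_mul_I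
    push_cast
    linear_combination (-(c * (c - 1) * s)) * hI
  · filter_upwards with x
    simp

lemma hasDerivAt_T4 (c : ℂ) (s : ℝ) : HasDerivAt (T4 c) (I * c * T3 (c - 1) s) s := by
  unfold T4 T3
  have h1 := (hasDerivAt_rpow' 1 s).const_mul (I * c)
  have h2 := (hasDerivAt_rpow' 2 s).const_mul (c * (c - 1) / 2)
  have h3 := (hasDerivAt_rpow' 3 s).const_mul (I * (c * (c - 1) * (c - 2)) / 6)
  refine ((((h1.const_add 1).sub h2).sub h3).congr_deriv ?_).congr_of_eventuallyEq ?_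
  · have hI : I * I = -1 := Complex.I_mul_I
    push_cast
    linear_combination (-(c * (c - 1) * s)) * hI
  · filter_upwards with x
    simp

lemma hasDerivAt_T5 (c : ℂ) (s : ℝ) : HasDerivAt (T5 c) (I * c * T4 (c - 1) s) s := by
  unfold T5 T4
  have h1 := (hasDerivAt_rpow' 1 s).const_mul (I * c)
  have h2 := (hasDerivAt_rpow' 2 s).const_mul (c * (c - 1) / 2)
  have h3 := (hasDerivAt_rpow' 3 s).const_mul (I * (c * (c - 1) * (c - 2)) / 6)
  have h4 := (hasDerivAt_rpow' 4 s).const_mul (c * (c - 1) * (c - 2) * (c - 3) / 24)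
  refine (((((h1.const_add 1).sub h2).sub h3).add h4).congr_deriv ?_).congr_of_eventuallyEq ?_
  · have hI : I * I = -1 := Complex.I_mul_I
    push_cast
    linear_combination (-(c * (c - 1) * s) + (c * (c - 1) * (c - 2) * (c - 3) / 6 * s ^ 3)) * hI
  · filter_upwards with x
    simp

/-- remainder bound for `c = 4 + i om` -/
lemma taylor4 {om : ℝ} (hom : 0 ≤ om) (s : ℝ) (hs : 0 ≤ s) :
    ‖((1 : ℂ) + I * s) ^ (4 + I * om : ℂ) - T4 (4 + I * om) s‖ ≤
      ‖(4 + I * om : ℂ)‖ * ‖(3 + I * om : ℂ)‖ * ‖(2 + I * om : ℂ)‖ * ‖(1 + I * om : ℂ)‖ / 24 * s ^ 4 := by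
  have r0 : ∀ s : ℝ, 0 ≤ s → ‖((1 : ℂ) + I * s) ^ ((1 + I * om : ℂ) - 1) - 0‖ ≤ 1 * s ^ 0 := by
    intro s hs
    have : (1 + I * om : ℂ) - 1 = I * om := by ring
    rw [this, sub_zero, pow_zero, mul_one]
    exact norm_g_le_one (by simp) (by simpa using hom) hs
  have r1 := taylor_step r0 (fun s => hasDerivAt_T1 _ s) (by simp [T1])
  have e1 : (2 + I * om : ℂ) - 1 = 1 + I * om := by ring
  have r2 := taylor_step (c := 2 + I * om) (p := T1 (2 + I * om - 1)) (by rw [e1]; exact r1)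
    (fun s => hasDerivAt_T2 _ s) (by simp [T2])
  have e2 : (3 + I * om : ℂ) - 1 = 2 + I * om := by ring
  have r3 := taylor_step (c := 3 + I * om) (p := T2 (3 + I * om - 1)) (by rw [e2]; exact r2)
    (fun s => hasDerivAt_T3 _ s) (by simp [T3])
  have e3 : (4 + I * om : ℂ) - 1 = 3 + I * om := by ring
  have r4 := taylor_step (c := 4 + I * om) (p := T3 (4 + I * om - 1)) (by rw [e3]; exact r3)
    (fun s => hasDerivAt_T4 _ s) (by simp [T4])
  refine (r4 s hs).trans (le_of_eq ?_)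
  push_cast
  ring

lemma taylor5 {om : ℝ} (hom : 0 ≤ om) (s : ℝ) (hs : 0 ≤ s) :
    ‖((1 : ℂ) + I * s) ^ (5 + I * om : ℂ) - T5 (5 + I * om) s‖ ≤
      ‖(5 + I * om : ℂ)‖ * ‖(4 + I * om : ℂ)‖ * ‖(3 + I * om : ℂ)‖ * ‖(2 + I * om : ℂ)‖
        * ‖(1 + I * om : ℂ)‖ / 120 * s ^ 5 := by
  have e4 : (5 + I * om : ℂ) - 1 = 4 + I * om := by ring
  have r5 := taylor_step (c := 5 + I * om) (p := T4 (5 + I * om - 1))
    (by rw [e4]; exact taylor4 hom) (fun s => hasDerivAt_T5 _ s) (by simp [T5])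
  refine (r5 s hs).trans (le_of_eq ?_)
  push_cast
  ring

/-! ### integrals -/

lemma J_zero {a : ℂ} {rho : ℝ} (ha : 0 < a.re) (hr : 0 < rho) :
    J a 0 rho = (1 / (rho : ℂ)) ^ a * Gamma a := by
  have h := Complex.integral_cpow_mul_exp_neg_mul_Ioi (a := a) (r := rho) ha hr
  rw [← h]
  unfold J jf
  apply setIntegral_congr_fun measurableSet_Ioi
  intro s _
  simp only [cpow_zero, mul_one]
  rw [mul_comm]

lemma J_zero_succ {a : ℂ} {rho : ℝ} (ha : 0 < a.re) (hr : 0 < rho) :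
    J (a + 1) 0 rho = a / rho * J a 0 rho := by
  have ha0 : a ≠ 0 := by rintro rfl; simp at ha
  have hr0 : (rho : ℂ) ≠ 0 := by exact_mod_cast hr.ne'
  have h1 : 0 < (a + 1).re := by simp; linarith
  rw [J_zero ha hr, J_zero h1 hr, Complex.Gamma_add_one a ha0,
    Complex.cpow_add _ _ (one_div_ne_zero hr0), Complex.cpow_one]
  field_simp

lemma integral_pow_exp {rho : ℝ} (hr : 0 < rho) (n : ℕ) :
    ∫ s in Ioi (0 : ℝ), Real.exp (-(rho * s)) * s ^ n = n.factorial / rho ^ (n + 1) := by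
  have h := Real.integral_rpow_mul_exp_neg_mul_Ioi (a := (n : ℝ) + 1) (r := rho) (by positivity) hr
  rw [Real.Gamma_nat_eq_factorial] at h
  have e : ∫ s in Ioi (0 : ℝ), Real.exp (-(rho * s)) * s ^ n =
      ∫ t in Ioi (0 : ℝ), t ^ ((n : ℝ) + 1 - 1) * Real.exp (-(rho * t)) := by
    apply setIntegral_congr_fun measurableSet_Ioi
    intro s _
    simp only [add_sub_cancel_right, Real.rpow_natCast]
    ring
  rw [e, h]
  have : (1 / rho) ^ ((n : ℝ) + 1) = (1 / rho) ^ (n + 1) := by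
    rw [← Real.rpow_natCast]
    push_cast
    rfl
  rw [this, one_div, inv_pow]
  ring

lemma integrable_pow_exp {rho : ℝ} (hr : 0 < rho) (n : ℕ) :
    IntegrableOn (fun s : ℝ => Real.exp (-(rho * s)) * s ^ n) (Ioi 0) := by
  have h := integrableOn_rpow_mul_exp_neg_mul_rpow (s := (n : ℝ)) (p := 1) (b := rho)
    (by have : (0:ℝ) ≤ n := by positivity
        linarith) one_pos hr
  refine h.congr_fun ?_ measurableSet_Ioi
  intro s _
  simp only [Real.rpow_natCast, Real.rpow_one, neg_mul]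
  ring

/-- error of replacing `(1+is)^c` by `P` in `J a c rho`, `Re a = 1`. -/
lemma J_sub_le {a c : ℂ} {rho : ℝ} (ha : a.re = 1) (hr : 0 < rho) {P : ℝ → ℂ} {C : ℝ} {n : ℕ}
    (hP : ∀ s : ℝ, 0 ≤ s → ‖((1 : ℂ) + I * s) ^ c - P s‖ ≤ C * s ^ n)
    (hint : IntegrableOn (fun s : ℝ => jf a 0 rho s * P s) (Ioi 0)) :
    ‖J a c rho - ∫ s in Ioi (0 : ℝ), jf a 0 rho s * P s‖ ≤ C * (n.factorial / rho ^ (n + 1)) := by
  unfold J
  rw [← integral_sub (jf_integrable (by rw [ha]; exact one_pos) hr) hint, ← integral_pow_exp hr n,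
    ← integral_const_mul]
  apply norm_integral_le_of_norm_le ((integrable_pow_exp hr n).const_mul C)
  filter_upwards [ae_restrict_mem measurableSet_Ioi] with s hs
  have hs' : (0 : ℝ) < s := hs
  have e : jf a c rho s - jf a 0 rho s * P s =
      (cexp (-((rho : ℂ) * s)) * (s : ℂ) ^ (a - 1)) * ((1 + I * s) ^ c - P s) := by
    unfold jf
    simp only [cpow_zero, mul_one]
    ring
  rw [e, norm_mul, norm_mul, Complex.norm_cpow_eq_rpow_re_of_pos hs', Complex.norm_exp]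
  have h1 : (a - 1).re = 0 := by simp [ha]
  have h2 : (-((rho : ℂ) * s)).re = -(rho * s) := by simp
  rw [h1, h2, Real.rpow_zero, mul_one]
  calc Real.exp (-(rho * s)) * ‖((1 : ℂ) + I * s) ^ c - P s‖
      ≤ Real.exp (-(rho * s)) * (C * s ^ n) := by
        gcongr
        exact hP s hs'.le
    _ = _ := by ring

lemma jf_mul_pow {s : ℝ} (hs : 0 < s) (a : ℂ) (rho : ℝ) (k : ℕ) :
    jf a 0 rho s * (s : ℂ) ^ k = jf (a + k) 0 rho s := by
  induction k with
  | zero => simp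
  | succ k ih =>
    rw [pow_succ, ← mul_assoc, ih]
    push_cast
    rw [← add_assoc, jf_succ hs]
    ring

lemma integrable_jf_pow {a : ℂ} {rho : ℝ} (ha : 0 < a.re) (hr : 0 < rho) (k : ℕ) :
    IntegrableOn (fun s : ℝ => jf a 0 rho s * (s : ℂ) ^ k) (Ioi 0) := by
  have h : 0 < (a + k).re := by
    simp only [add_re, natCast_re]
    positivity
  refine (jf_integrable (c := 0) h hr).congr_fun ?_ measurableSet_Ioi
  intro s hs
  exact (jf_mul_pow hs a rho k).symm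

lemma integral_jf_pow {a : ℂ} {rho : ℝ} (k : ℕ) :
    ∫ s in Ioi (0 : ℝ), jf a 0 rho s * (s : ℂ) ^ k = J (a + k) 0 rho := by
  unfold J
  exact setIntegral_congr_fun measurableSet_Ioi fun s hs => jf_mul_pow hs a rho k

lemma J_zero_pow {a : ℂ} {rho : ℝ} (ha : 0 < a.re) (hr : 0 < rho) :
    J (a + 1) 0 rho = a / rho * J a 0 rho ∧
    J (a + 2) 0 rho = a * (a + 1) / rho ^ 2 * J a 0 rho ∧
    J (a + 3) 0 rho = a * (a + 1) * (a + 2) / rho ^ 3 * J a 0 rho ∧
    J (a + 4) 0 rho = a * (a + 1) * (a + 2) * (a + 3) / rho ^ 4 * J a 0 rho := by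
  have hr0 : (rho : ℂ) ≠ 0 := by exact_mod_cast hr.ne'
  have h1 := J_zero_succ ha hr
  have h2 := J_zero_succ (a := a + 1) (by simp; linarith) hr
  have h3 := J_zero_succ (a := a + 2) (by simp; linarith) hr
  have h4 := J_zero_succ (a := a + 3) (by simp; linarith) hr
  rw [show a + 1 + 1 = a + 2 by ring] at h2
  rw [show a + 2 + 1 = a + 3 by ring] at h3
  rw [show a + 3 + 1 = a + 4 by ring] at h4
  refine ⟨h1, ?_, ?_, ?_⟩
  · rw [h2, h1]; field_simp
  · rw [h3, h2, h1]; field_simp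
  · rw [h4, h3, h2, h1]; field_simp

/-- the main parts -/
noncomputable def MB (a c : ℂ) (v : ℝ) : ℂ :=
  1 + I * c * (a * v) - c * (c - 1) / 2 * (a * (a + 1) * v ^ 2)
    - I * (c * (c - 1) * (c - 2)) / 6 * (a * (a + 1) * (a + 2) * v ^ 3)

noncomputable def MA (a c : ℂ) (v : ℝ) : ℂ :=
  MB a c v + c * (c - 1) * (c - 2) * (c - 3) / 24 * (a * (a + 1) * (a + 2) * (a + 3) * v ^ 4)

lemma integral_T4 {a : ℂ} {rho : ℝ} (ha : 0 < a.re) (hr : 0 < rho) (c : ℂ) :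
    IntegrableOn (fun s : ℝ => jf a 0 rho s * T4 c s) (Ioi 0) ∧
    ∫ s in Ioi (0 : ℝ), jf a 0 rho s * T4 c s = J a 0 rho * MB a c (1 / rho) := by
  have hr0 : (rho : ℂ) ≠ 0 := by exact_mod_cast hr.ne'
  have i0 := integrable_jf_pow ha hr 0
  have i1 := (integrable_jf_pow ha hr 1).const_mul (I * c)
  have i2 := (integrable_jf_pow ha hr 2).const_mul (c * (c - 1) / 2)
  have i3 := (integrable_jf_pow ha hr 3).const_mul (I * (c * (c - 1) * (c - 2)) / 6)
  have e : (fun s : ℝ => jf a 0 rho s * T4 c s) = fun s : ℝ =>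
      (((jf a 0 rho s * (s : ℂ) ^ 0) + (I * c) * (jf a 0 rho s * (s : ℂ) ^ 1))
        - (c * (c - 1) / 2) * (jf a 0 rho s * (s : ℂ) ^ 2))
        - (I * (c * (c - 1) * (c - 2)) / 6) * (jf a 0 rho s * (s : ℂ) ^ 3) := by
    funext s
    unfold T4
    ring
  rw [e]
  have j1 : Integrable (fun s : ℝ => (jf a 0 rho s * (s : ℂ) ^ 0)
      + (I * c) * (jf a 0 rho s * (s : ℂ) ^ 1)) (volume.restrict (Ioi 0)) := i0.add i1
  have j2 : Integrable (fun s : ℝ => (jf a 0 rho s * (s : ℂ) ^ 0)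
      + (I * c) * (jf a 0 rho s * (s : ℂ) ^ 1)
      - (c * (c - 1) / 2) * (jf a 0 rho s * (s : ℂ) ^ 2)) (volume.restrict (Ioi 0)) := j1.sub i2
  refine ⟨j2.sub i3, ?_⟩
  rw [integral_sub j2 i3, integral_sub j1 i2, integral_add i0 i1]
  simp only [integral_const_mul, integral_jf_pow]
  obtain ⟨h1, h2, h3, -⟩ := J_zero_pow ha hr
  unfold MB
  push_cast
  rw [add_zero, h1, h2, h3]
  field_simp

lemma integral_T5 {a : ℂ} {rho : ℝ} (ha : 0 < a.re) (hr : 0 < rho) (c : ℂ) :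
    IntegrableOn (fun s : ℝ => jf a 0 rho s * T5 c s) (Ioi 0) ∧
    ∫ s in Ioi (0 : ℝ), jf a 0 rho s * T5 c s = J a 0 rho * MA a c (1 / rho) := by
  have hr0 : (rho : ℂ) ≠ 0 := by exact_mod_cast hr.ne'
  obtain ⟨i4, e4⟩ := integral_T4 ha hr c
  have i5 := (integrable_jf_pow ha hr 4).const_mul (c * (c - 1) * (c - 2) * (c - 3) / 24)
  have e : (fun s : ℝ => jf a 0 rho s * T5 c s) = fun s : ℝ =>
      (jf a 0 rho s * T4 c s) + (c * (c - 1) * (c - 2) * (c - 3) / 24) * (jf a 0 rho s * (s : ℂ) ^ 4) := by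
    funext s
    unfold T4 T5
    ring
  rw [e]
  refine ⟨i4.add i5, ?_⟩
  rw [integral_add i4 i5, e4, integral_const_mul, integral_jf_pow]
  obtain ⟨-, -, -, h4⟩ := J_zero_pow ha hr
  unfold MA
  push_cast
  rw [h4]
  field_simp

end Crest.Agent.R086.A3
end

-- ▼ part R086/A3Pos
section

/-!
Row 86 (S0114), Part A, module A3, part (2), numerical part (helper592).
-/

set_option autoImplicit false

open MeasureTheory Complex Set Filter Topology

namespace Crest.Agent.R086.A3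

open Crest.Agent.R086.JInt

/-- `sinh x ≤ 4 x` on `[0, 1.26]`. -/
lemma sinh_le_four_mul {x : ℝ} (h0 : 0 ≤ x) (h1 : x ≤ 1.26) : Real.sinh x ≤ 4 * x := by
  have a1 : Real.exp x ≤ 4 := by
    have b1 : Real.exp x ≤ Real.exp (1 + 0.26) := Real.exp_le_exp.mpr (by linarith)
    have b2 : Real.exp (0.26 : ℝ) ≤ 1 / (1 - 0.26) := by
      have := Real.one_sub_le_exp_neg (0.26 : ℝ)
      rw [Real.exp_neg] at this
      have hp : (0 : ℝ) < Real.exp 0.26 := Real.exp_pos _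
      rw [le_div_iff₀ (by norm_num)]
      have h3 := mul_le_mul_of_nonneg_left this hp.le
      rw [mul_inv_cancel₀ hp.ne'] at h3
      exact h3
    have b3 := Real.exp_one_lt_d9
    rw [Real.exp_add] at b1
    have b4 : Real.exp 1 * Real.exp (0.26 : ℝ) ≤ 2.7182818286 * (1 / (1 - 0.26)) := by
      apply mul_le_mul b3.le b2 (Real.exp_pos _).le (by norm_num)
    have b5 : (2.7182818286 : ℝ) * (1 / (1 - 0.26)) ≤ 4 := by norm_num
    linarith
  have a2 : Real.exp (-x) = (Real.exp x)⁻¹ := Real.exp_neg x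
  have hp := Real.exp_pos x
  have a3 : 1 - 2 * x ≤ Real.exp (-x) * Real.exp (-x) := by
    rw [← Real.exp_add]
    have := Real.one_sub_le_exp_neg (2 * x)
    calc 1 - 2 * x ≤ Real.exp (-(2 * x)) := this
      _ = _ := by congr 1; ring
  have a4 : Real.exp x * Real.exp (-x) = 1 := by rw [← Real.exp_add]; simp
  rw [Real.sinh_eq]
  have a5 : Real.exp x - Real.exp (-x) ≤ 2 * x * Real.exp x := by
    have h := mul_le_mul_of_nonneg_left a3 hp.le
    have : Real.exp x * (Real.exp (-x) * Real.exp (-x)) = Real.exp (-x) := by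
      rw [← mul_assoc, a4, one_mul]
    nlinarith
  have a6 : 2 * x * Real.exp x ≤ 2 * x * 4 := by
    apply mul_le_mul_of_nonneg_left a1 (by linarith)
  linarith

lemma norm_Gamma_ge {om : ℝ} (h0 : 0 < om) (h1 : om ≤ 2 / 5) :
    1 / 2 ≤ ‖Complex.Gamma (1 - I * om)‖ := by
  have hpi := Real.pi_pos
  have hx0 : 0 < Real.pi * om := by positivity
  have hx1 : Real.pi * om ≤ 1.26 := by
    have := Real.pi_lt_d2
    nlinarith
  have hs := sinh_le_four_mul hx0.le hx1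
  have hsp : 0 < Real.sinh (Real.pi * om) := Real.sinh_pos_iff.mpr hx0
  have hI0 : I * (om : ℂ) ≠ 0 := mul_ne_zero I_ne_zero (by exact_mod_cast h0.ne')
  have e1 := Complex.Gamma_mul_Gamma_one_sub (I * om)
  have e2 := Complex.Gamma_add_one (I * om) hI0
  have e3 : ‖Complex.Gamma (I * om + 1)‖ = ‖Complex.Gamma (1 - I * om)‖ := by
    have : (I * om + 1 : ℂ) = (starRingEnd ℂ) (1 - I * om) := by
      simp [Complex.conj_ofReal]
      ring
    rw [this, Complex.Gamma_conj, Complex.norm_conj]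
  have e4 : ‖Complex.Gamma (1 - I * om)‖ ^ 2 = Real.pi * om / Real.sinh (Real.pi * om) := by
    have h5 : ‖Complex.Gamma (1 - I * om)‖ ^ 2 = om * (‖Complex.Gamma (I * om) * Complex.Gamma (1 - I * om)‖) := by
      rw [sq]
      nth_rewrite 1 [← e3]
      rw [e2, norm_mul, norm_mul, norm_mul, Complex.norm_I, one_mul, Complex.norm_real,
        Real.norm_of_nonneg h0.le, mul_assoc]
    rw [h5, e1]
    have h6 : Complex.sin (Real.pi * (I * om)) = Complex.sinh (((Real.pi * om : ℝ) : ℂ)) * I := by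
      rw [← Complex.sin_mul_I]
      congr 1
      push_cast
      ring
    rw [h6, norm_div, norm_mul, Complex.norm_I, mul_one, Complex.norm_real,
      Real.norm_of_nonneg hpi.le, ← Complex.ofReal_sinh, Complex.norm_real,
      Real.norm_of_nonneg hsp.le]
    ring
  have h7 : 1 / 4 ≤ ‖Complex.Gamma (1 - I * om)‖ ^ 2 := by
    rw [e4, le_div_iff₀ hsp]
    linarith
  nlinarith [norm_nonneg (Complex.Gamma (1 - I * om))]

/-- real and imaginary parts of `m B`, `m = 5 + i om`, `B = MB (1 - i om) (4 + i om) v` -/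
lemma mB_re (om v : ℝ) : ((5 + I * om : ℂ) * MB (1 - I * om) (4 + I * om) v).re =
    5 + (11 * om - om ^ 3) * v + (-60 - 57 / 2 * om ^ 2 - 9 / 2 * om ^ 4) * v ^ 2
      + (-66 * om - 107 / 6 * om ^ 3 + 1 / 3 * om ^ 5 + 1 / 6 * om ^ 7) * v ^ 3 := by
  unfold MB
  have e2 : (v : ℂ) ^ 2 = ((v ^ 2 : ℝ) : ℂ) := by push_cast; rfl
  have e3 : (v : ℂ) ^ 3 = ((v ^ 3 : ℝ) : ℂ) := by push_cast; rfl
  rw [e2, e3]
  simp only [add_re, add_im, mul_re, mul_im, sub_re, sub_im, div_ofNat_re, div_ofNat_im, I_re, I_im,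
    ofReal_re, ofReal_im, one_re, one_im, re_ofNat, im_ofNat]
  ring

lemma mB_im (om v : ℝ) : ((5 + I * om : ℂ) * MB (1 - I * om) (4 + I * om) v).im =
    om + (20 + 8 * om ^ 2) * v + (43 * om + 13 / 2 * om ^ 3 - 1 / 2 * om ^ 5) * v ^ 2
      + (-120 - 274 / 3 * om ^ 2 - 62 / 3 * om ^ 4 - 4 / 3 * om ^ 6) * v ^ 3 := by
  unfold MB
  have e2 : (v : ℂ) ^ 2 = ((v ^ 2 : ℝ) : ℂ) := by push_cast; rfl
  have e3 : (v : ℂ) ^ 3 = ((v ^ 3 : ℝ) : ℂ) := by push_cast; rfl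
  rw [e2, e3]
  simp only [add_re, add_im, mul_re, mul_im, sub_re, sub_im, div_ofNat_re, div_ofNat_im, I_re, I_im,
    ofReal_re, ofReal_im, one_re, one_im, re_ofNat, im_ofNat]
  ring

lemma A_re (om v : ℝ) : (MA (1 - I * om) (5 + I * om) v).re =
    1 + 4 * om * v + (-20 - 5 / 2 * om ^ 2 - 1 / 2 * om ^ 4) * v ^ 2
      + (-63 * om - 16 * om ^ 3 - om ^ 5) * v ^ 3
      + (120 + 449 / 6 * om ^ 2 + 389 / 24 * om ^ 4 + 17 / 12 * om ^ 6 + 1 / 24 * om ^ 8) * v ^ 4 := by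
  unfold MA MB
  have e2 : (v : ℂ) ^ 2 = ((v ^ 2 : ℝ) : ℂ) := by push_cast; rfl
  have e3 : (v : ℂ) ^ 3 = ((v ^ 3 : ℝ) : ℂ) := by push_cast; rfl
  have e4 : (v : ℂ) ^ 4 = ((v ^ 4 : ℝ) : ℂ) := by push_cast; rfl
  rw [e2, e3, e4]
  simp only [add_re, add_im, mul_re, mul_im, sub_re, sub_im, div_ofNat_re, div_ofNat_im, I_re, I_im,
    ofReal_re, ofReal_im, one_re, one_im, re_ofNat, im_ofNat]
  ring

lemma A_im (om v : ℝ) : (MA (1 - I * om) (5 + I * om) v).im =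
    (5 + om ^ 2) * v + (21 * om + 3 * om ^ 3) * v ^ 2
      + (-60 - 85 / 6 * om ^ 2 - 7 / 3 * om ^ 4 - 1 / 6 * om ^ 6) * v ^ 3
      + (-96 * om - 122 / 3 * om ^ 3 - 29 / 6 * om ^ 5 - 1 / 6 * om ^ 7) * v ^ 4 := by
  unfold MA MB
  have e2 : (v : ℂ) ^ 2 = ((v ^ 2 : ℝ) : ℂ) := by push_cast; rfl
  have e3 : (v : ℂ) ^ 3 = ((v ^ 3 : ℝ) : ℂ) := by push_cast; rfl
  have e4 : (v : ℂ) ^ 4 = ((v ^ 4 : ℝ) : ℂ) := by push_cast; rfl
  rw [e2, e3, e4]
  simp only [add_re, add_im, mul_re, mul_im, sub_re, sub_im, div_ofNat_re, div_ofNat_im, I_re, I_im,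
    ofReal_re, ofReal_im, one_re, one_im, re_ofNat, im_ofNat]
  ring

section bounds
variable {om v : ℝ}

lemma mono_le (h0 : 0 ≤ om) (h1 : om ≤ 2 / 5) (hv0 : 0 ≤ v) (hv1 : v ≤ 1 / 5) (i j : ℕ) :
    om ^ i * v ^ j ≤ (2 / 5) ^ i * (1 / 5) ^ j := by
  gcongr

lemma mono_nonneg (h0 : 0 ≤ om) (hv0 : 0 ≤ v) (i j : ℕ) : 0 ≤ om ^ i * v ^ j := by positivity

lemma main_ge (h0 : 3 / 10 ≤ om) (h1 : om ≤ 2 / 5) (hv0 : 0 ≤ v) (hv1 : v ≤ 1 / 5) :
    3 ≤ ((starRingEnd ℂ ((5 + I * om : ℂ) * MB (1 - I * om) (4 + I * om) v)) *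
      MA (1 - I * om) (5 + I * om) v).re := by
  have hom : 0 ≤ om := by linarith
  rw [mul_re, conj_re, conj_im, mB_re, mB_im, A_re, A_im]
  have U := mono_le hom h1 hv0 hv1
  have L := mono_nonneg (om := om) (v := v) hom hv0
  have q : 5 + 36 * om * v - 60 * v ^ 2 ≥ 4.7 := by nlinarith
  nlinarith [U 1 3, U 2 4, U 4 4, U 6 4, U 8 4, U 1 5, U 3 5, U 5 5, U 7 5, U 9 5, U 11 5,
    U 2 6, U 4 6, U 6 6, U 8 6, U 10 6, U 12 6, L 2 2, L 3 3, L 1 7, L 3 7, L 5 7, L 7 7,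
    L 9 7, L 11 7, L 13 7, L 15 7]

lemma norm_A_le (h0 : 3 / 10 ≤ om) (h1 : om ≤ 2 / 5) (hv0 : 0 ≤ v) (hv1 : v ≤ 1 / 5) :
    ‖MA (1 - I * om) (5 + I * om) v‖ ≤ 3 := by
  have hom : 0 ≤ om := by linarith
  have U := mono_le hom h1 hv0 hv1
  have L := mono_nonneg (om := om) (v := v) hom hv0
  have hr : |(MA (1 - I * om) (5 + I * om) v).re| ≤ 1.55 := by
    rw [A_re, abs_le]
    constructor
    · linarith [U 1 1, U 0 2, U 2 2, U 4 2, U 1 3, U 3 3, U 5 3, U 0 4, U 2 4, U 4 4, U 6 4, U 8 4,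
        L 1 1, L 0 2, L 2 2, L 4 2, L 1 3, L 3 3, L 5 3, L 0 4, L 2 4, L 4 4, L 6 4, L 8 4]
    · linarith [U 1 1, U 0 2, U 2 2, U 4 2, U 1 3, U 3 3, U 5 3, U 0 4, U 2 4, U 4 4, U 6 4, U 8 4,
        L 1 1, L 0 2, L 2 2, L 4 2, L 1 3, L 3 3, L 5 3, L 0 4, L 2 4, L 4 4, L 6 4, L 8 4]
  have hi : |(MA (1 - I * om) (5 + I * om) v).im| ≤ 1.4 := by
    rw [A_im, abs_le]
    constructor
    · linarith [U 0 1, U 2 1, U 1 2, U 3 2, U 0 3, U 2 3, U 4 3, U 6 3, U 1 4, U 3 4, U 5 4, U 7 4,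
        L 0 1, L 2 1, L 1 2, L 3 2, L 0 3, L 2 3, L 4 3, L 6 3, L 1 4, L 3 4, L 5 4, L 7 4]
    · linarith [U 0 1, U 2 1, U 1 2, U 3 2, U 0 3, U 2 3, U 4 3, U 6 3, U 1 4, U 3 4, U 5 4, U 7 4,
        L 0 1, L 2 1, L 1 2, L 3 2, L 0 3, L 2 3, L 4 3, L 6 3, L 1 4, L 3 4, L 5 4, L 7 4]
  exact (Complex.norm_le_abs_re_add_abs_im _).trans (by linarith)

lemma norm_mB_le (h0 : 3 / 10 ≤ om) (h1 : om ≤ 2 / 5) (hv0 : 0 ≤ v) (hv1 : v ≤ 1 / 5) :
    ‖(5 + I * om : ℂ) * MB (1 - I * om) (4 + I * om) v‖ ≤ 11.5 := by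
  have hom : 0 ≤ om := by linarith
  have U := mono_le hom h1 hv0 hv1
  have L := mono_nonneg (om := om) (v := v) hom hv0
  have hr : |((5 + I * om : ℂ) * MB (1 - I * om) (4 + I * om) v).re| ≤ 6 := by
    rw [mB_re, abs_le]
    constructor
    · linarith [U 1 1, U 3 1, U 0 2, U 2 2, U 4 2, U 1 3, U 3 3, U 5 3, U 7 3,
        L 1 1, L 3 1, L 0 2, L 2 2, L 4 2, L 1 3, L 3 3, L 5 3, L 7 3]
    · linarith [U 1 1, U 3 1, U 0 2, U 2 2, U 4 2, U 1 3, U 3 3, U 5 3, U 7 3,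
        L 1 1, L 3 1, L 0 2, L 2 2, L 4 2, L 1 3, L 3 3, L 5 3, L 7 3]
  have hi : |((5 + I * om : ℂ) * MB (1 - I * om) (4 + I * om) v).im| ≤ 5.5 := by
    rw [mB_im, abs_le]
    constructor
    · linarith [U 1 0, U 0 1, U 2 1, U 1 2, U 3 2, U 5 2, U 0 3, U 2 3, U 4 3, U 6 3,
        L 1 0, L 0 1, L 2 1, L 1 2, L 3 2, L 5 2, L 0 3, L 2 3, L 4 3, L 6 3]
    · linarith [U 1 0, U 0 1, U 2 1, U 1 2, U 3 2, U 5 2, U 0 3, U 2 3, U 4 3, U 6 3,
        L 1 0, L 0 1, L 2 1, L 1 2, L 3 2, L 5 2, L 0 3, L 2 3, L 4 3, L 6 3]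
  exact (Complex.norm_le_abs_re_add_abs_im _).trans (by linarith)

end bounds

lemma norm_k_le {om k : ℝ} (h0 : 0 ≤ om) (h1 : om ≤ 2 / 5) (K : ℝ) (hK : 0 ≤ K)
    (h : k ^ 2 + 4 / 25 ≤ K ^ 2) : ‖((k : ℂ) + I * om)‖ ≤ K := by
  refine (pow_le_pow_iff_left₀ (norm_nonneg _) hK two_ne_zero).mp ?_
  rw [← Complex.normSq_eq_norm_sq, normSq_apply]
  simp only [add_re, add_im, mul_re, mul_im, I_re, I_im, ofReal_re, ofReal_im]
  nlinarith

/-- Part (2) of A3. -/
theorem re_pos {om rho : ℝ} (h0 : 3 / 10 ≤ om) (h1 : om ≤ 2 / 5) (hr : 5 ≤ rho) :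
    0 < ((starRingEnd ℂ ((5 + I * om : ℂ) * J (1 - I * om) (4 + I * om) rho)) *
      J (1 - I * om) (5 + I * om) rho).re := by
  have hom : 0 ≤ om := by linarith
  have hom' : 0 < om := by linarith
  have hr0 : 0 < rho := by linarith
  have ha : (1 - I * om : ℂ).re = 1 := by simp
  have ha0 : 0 < (1 - I * om : ℂ).re := by rw [ha]; exact one_pos
  set v : ℝ := 1 / rho with hv
  have hv0 : 0 < v := by positivity
  have hv1 : v ≤ 1 / 5 := one_div_le_one_div_of_le (by norm_num) hr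
  set X : ℂ := J (1 - I * om) 0 rho with hX
  have hXn : v / 2 ≤ ‖X‖ := by
    rw [hX, J_zero ha0 hr0, norm_mul]
    have e : ‖(1 / (rho : ℂ)) ^ (1 - I * om : ℂ)‖ = v := by
      have : (1 / (rho : ℂ)) = ((v : ℝ) : ℂ) := by rw [hv]; push_cast; rfl
      rw [this, Complex.norm_cpow_eq_rpow_re_of_pos hv0, ha, Real.rpow_one]
    rw [e]
    have := norm_Gamma_ge hom' h1
    nlinarith
  have hXpos : 0 < ‖X‖ := by linarith [half_pos hv0]
  -- expansions
  obtain ⟨i4, e4⟩ := integral_T4 ha0 hr0 (4 + I * om)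
  obtain ⟨i5, e5⟩ := integral_T5 ha0 hr0 (5 + I * om)
  have b4 := J_sub_le ha hr0 (taylor4 hom) i4
  have b5 := J_sub_le ha hr0 (taylor5 hom) i5
  rw [e4, ← hX, ← hv] at b4
  rw [e5, ← hX, ← hv] at b5
  have n1 : ‖(1 + I * om : ℂ)‖ ≤ 1.08 := by
    have := norm_k_le hom h1 (k := 1) 1.08 (by norm_num) (by norm_num)
    simpa using this
  have n2 : ‖(2 + I * om : ℂ)‖ ≤ 2.04 := by
    have := norm_k_le hom h1 (k := 2) 2.04 (by norm_num) (by norm_num)
    simpa using this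
  have n3 : ‖(3 + I * om : ℂ)‖ ≤ 3.03 := by
    have := norm_k_le hom h1 (k := 3) 3.03 (by norm_num) (by norm_num)
    simpa using this
  have n4 : ‖(4 + I * om : ℂ)‖ ≤ 4.03 := by
    have := norm_k_le hom h1 (k := 4) 4.03 (by norm_num) (by norm_num)
    simpa using this
  have n5 : ‖(5 + I * om : ℂ)‖ ≤ 5.02 := by
    have := norm_k_le hom h1 (k := 5) 5.02 (by norm_num) (by norm_num)
    simpa using this
  have p4 : ‖(4 + I * om : ℂ)‖ * ‖(3 + I * om : ℂ)‖ * ‖(2 + I * om : ℂ)‖ * ‖(1 + I * om : ℂ)‖ ≤ 27 := by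
    calc _ ≤ 4.03 * 3.03 * 2.04 * (1.08 : ℝ) := by gcongr
      _ ≤ 27 := by norm_num
  have p5 : ‖(5 + I * om : ℂ)‖ * ‖(4 + I * om : ℂ)‖ * ‖(3 + I * om : ℂ)‖ * ‖(2 + I * om : ℂ)‖
      * ‖(1 + I * om : ℂ)‖ ≤ 136 := by
    calc _ ≤ 5.02 * 4.03 * 3.03 * 2.04 * (1.08 : ℝ) := by gcongr
      _ ≤ 136 := by norm_num
  set A : ℂ := MA (1 - I * om) (5 + I * om) v with hA
  set B : ℂ := MB (1 - I * om) (4 + I * om) v with hB
  set J4 : ℂ := J (1 - I * om) (4 + I * om) rho with hJ4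
  set J5 : ℂ := J (1 - I * om) (5 + I * om) rho with hJ5
  set E4 : ℂ := J4 - X * B with hE4
  set E5 : ℂ := J5 - X * A with hE5
  have c4 : ‖E4‖ ≤ ‖X‖ * 0.0865 := by
    have hv4 : v ^ 4 ≤ 1 / 625 := by
      calc v ^ 4 ≤ (1 / 5) ^ 4 := by gcongr
        _ = 1 / 625 := by norm_num
    have e : ((Nat.factorial 4 : ℕ) : ℝ) / rho ^ (4 + 1) = 24 * v ^ 4 * v := by
      rw [hv]
      have : ((Nat.factorial 4 : ℕ) : ℝ) = 24 := by norm_num [Nat.factorial]
      rw [this]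
      field_simp
    rw [e] at b4
    calc ‖E4‖ ≤ _ := b4
      _ ≤ 27 / 24 * (24 * v ^ 4 * v) := by gcongr
      _ = 27 * v ^ 4 * v := by ring
      _ ≤ 27 * (1 / 625) * (2 * ‖X‖) := by
          gcongr
          linarith
      _ ≤ ‖X‖ * 0.0865 := by nlinarith
  have c5 : ‖E5‖ ≤ ‖X‖ * 0.0875 := by
    have hv5 : v ^ 5 ≤ 1 / 3125 := by
      calc v ^ 5 ≤ (1 / 5) ^ 5 := by gcongr
        _ = 1 / 3125 := by norm_num
    have e : ((Nat.factorial 5 : ℕ) : ℝ) / rho ^ (5 + 1) = 120 * v ^ 5 * v := by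
      rw [hv]
      have : ((Nat.factorial 5 : ℕ) : ℝ) = 120 := by norm_num [Nat.factorial]
      rw [this]
      field_simp
    rw [e] at b5
    calc ‖E5‖ ≤ _ := b5
      _ ≤ 136 / 120 * (120 * v ^ 5 * v) := by gcongr
      _ = 136 * v ^ 5 * v := by ring
      _ ≤ 136 * (1 / 3125) * (2 * ‖X‖) := by
          gcongr
          linarith
      _ ≤ ‖X‖ * 0.0875 := by nlinarith
  have hmain : 3 ≤ ((starRingEnd ℂ ((5 + I * om : ℂ) * B)) * A).re :=
    main_ge h0 h1 hv0.le hv1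
  have hAn : ‖A‖ ≤ 3 := norm_A_le h0 h1 hv0.le hv1
  have hBn : ‖(5 + I * om : ℂ) * B‖ ≤ 11.5 := norm_mB_le h0 h1 hv0.le hv1
  have d4 : J4 = X * B + E4 := by rw [hE4]; ring
  have d5 : J5 = X * A + E5 := by rw [hE5]; ring
  have expand : (starRingEnd ℂ ((5 + I * om : ℂ) * J4)) * J5 =
      ((normSq X : ℝ) : ℂ) * ((starRingEnd ℂ ((5 + I * om : ℂ) * B)) * A)
      + ((starRingEnd ℂ (X * ((5 + I * om : ℂ) * B))) * E5
        + (starRingEnd ℂ ((5 + I * om : ℂ) * E4)) * (X * A)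
        + (starRingEnd ℂ ((5 + I * om : ℂ) * E4)) * E5) := by
    rw [d4, d5, Complex.normSq_eq_conj_mul_self]
    simp only [map_mul, map_add]
    ring
  rw [expand, add_re, re_ofReal_mul]
  have herr : ‖(starRingEnd ℂ (X * ((5 + I * om : ℂ) * B))) * E5
        + (starRingEnd ℂ ((5 + I * om : ℂ) * E4)) * (X * A)
        + (starRingEnd ℂ ((5 + I * om : ℂ) * E4)) * E5‖ ≤ ‖X‖ ^ 2 * 2.8 := by
    refine (norm_add₃_le).trans ?_
    have m1 : ‖(starRingEnd ℂ (X * ((5 + I * om : ℂ) * B))) * E5‖ ≤ ‖X‖ ^ 2 * (11.5 * 0.0875) := by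
      rw [norm_mul, Complex.norm_conj, norm_mul]
      calc ‖X‖ * ‖(5 + I * om : ℂ) * B‖ * ‖E5‖ ≤ ‖X‖ * 11.5 * (‖X‖ * 0.0875) := by gcongr
        _ = _ := by ring
    have m2 : ‖(starRingEnd ℂ ((5 + I * om : ℂ) * E4)) * (X * A)‖ ≤ ‖X‖ ^ 2 * (5.02 * 0.0865 * 3) := by
      rw [norm_mul, Complex.norm_conj, norm_mul, norm_mul]
      calc ‖(5 + I * om : ℂ)‖ * ‖E4‖ * (‖X‖ * ‖A‖) ≤ 5.02 * (‖X‖ * 0.0865) * (‖X‖ * 3) := by gcongr
        _ = _ := by ring
    have m3 : ‖(starRingEnd ℂ ((5 + I * om : ℂ) * E4)) * E5‖ ≤ ‖X‖ ^ 2 * (5.02 * 0.0865 * 0.0875) := by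
      rw [norm_mul, Complex.norm_conj, norm_mul]
      calc ‖(5 + I * om : ℂ)‖ * ‖E4‖ * ‖E5‖ ≤ 5.02 * (‖X‖ * 0.0865) * (‖X‖ * 0.0875) := by gcongr
        _ = _ := by ring
    nlinarith [sq_nonneg ‖X‖]
  have hre := (Complex.abs_re_le_norm ((starRingEnd ℂ (X * ((5 + I * om : ℂ) * B))) * E5
        + (starRingEnd ℂ ((5 + I * om : ℂ) * E4)) * (X * A)
        + (starRingEnd ℂ ((5 + I * om : ℂ) * E4)) * E5)).trans herr
  have hre' := (abs_le.mp hre).1
  have hsq : normSq X = ‖X‖ ^ 2 := Complex.normSq_eq_norm_sq X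
  rw [hsq]
  have h9 : 0 < ‖X‖ ^ 2 := by positivity
  nlinarith

end Crest.Agent.R086.A3
end

-- ▼ part R086/A3
section

/-!
Row 86 (S0114), Part A, module A3 (helper592).  The outgoing solution
  `W om rho = -((5 + i om) J(1-i om, 4+i om, rho) + i rho J(1-i om, 5+i om, rho))`
(`= (a+1-b-i rho) J(a+1,b-a-2) + rho J(a+2,b-a-2)`, `a = -i om`, `b = 6`)
satisfies  `W' = om J(1-i om, 5+i om)`,  `rho W'' + (6 + i rho) W' + om W = 0`, and if
`J(1-i om, 5+i om, rho0) = 0` (obstacle profile, `3/10 ≤ om ≤ 2/5`), then `|W|` is strictly decreasing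
on `[rho0, ∞)`, with limit `|Γ(1 - i om)| > 0`.
-/

set_option autoImplicit false

open MeasureTheory Complex Set Filter Topology

namespace Crest.Agent.R086.A3

open Crest.Agent.R086.JInt

noncomputable def j4 (om rho : ℝ) : ℂ := J (1 - I * om) (4 + I * om) rho
noncomputable def j5 (om rho : ℝ) : ℂ := J (1 - I * om) (5 + I * om) rho

/-- outgoing solution in the variable `rho = r^2/4` -/
noncomputable def W (om rho : ℝ) : ℂ := -((5 + I * om) * j4 om rho + I * rho * j5 om rho)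

lemma W_eq (om : ℝ) {rho : ℝ} (hr : 0 < rho) :
    W om rho = (-5 - I * om - I * rho) * J (1 - I * om) (4 + I * om) rho
      + rho * J (2 - I * om) (4 + I * om) rho := by
  have h := J_shift (a := 1 - I * om) (c := 4 + I * om) (rho := rho) (by simp) hr
  rw [show (4 + I * om + 1 : ℂ) = 5 + I * om by ring,
    show (1 - I * om + 1 : ℂ) = 2 - I * om by ring] at h
  unfold W j4 j5
  rw [h]
  have hI : I * I = -1 := Complex.I_mul_I
  linear_combination (-(rho : ℂ) * J (2 - I * om) (4 + I * om) rho) * hI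

lemma hasDerivAt_j4 (om : ℝ) {rho : ℝ} (hr : 0 < rho) :
    HasDerivAt (j4 om) (I * (j5 om rho - j4 om rho)) rho := by
  have h := J_shift (a := 1 - I * om) (c := 4 + I * om) (rho := rho) (by simp) hr
  rw [show (4 + I * om + 1 : ℂ) = 5 + I * om by ring] at h
  have h1 := J_hasDerivAt (a := 1 - I * om) (c := 4 + I * om) (rho := rho) (by simp) hr
  refine h1.congr_deriv ?_
  unfold j4 j5
  rw [h]
  have hI : I * I = -1 := Complex.I_mul_I
  linear_combination (-J (1 - I * om + 1) (4 + I * om) rho) * hI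

lemma hasDerivAt_j5 (om : ℝ) {rho : ℝ} (hr : 0 < rho) :
    HasDerivAt (j5 om) (((5 + I * om) * j4 om rho - 6 * j5 om rho) / rho) rho := by
  have hr0 : (rho : ℂ) ≠ 0 := by exact_mod_cast hr.ne'
  have hp1 : 0 < (1 - I * om : ℂ).re := by simp
  have hp2 : 0 < (1 - I * om + 1 : ℂ).re := by simp
  have s1 := J_shift (a := 1 - I * om) (c := 4 + I * om) (rho := rho) hp1 hr
  have s2 := J_shift (a := 1 - I * om + 1) (c := 4 + I * om) (rho := rho) hp2 hr
  have ib := J_ibp (a := 1 - I * om) (c := 4 + I * om) (rho := rho) hp1 hr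
  rw [show (4 + I * om + 1 : ℂ) = 5 + I * om by ring] at s1 s2
  rw [show (1 - I * om + 1 + 1 : ℂ) = 1 - I * om + 2 by ring] at s2
  have h1 := J_hasDerivAt (a := 1 - I * om) (c := 5 + I * om) (rho := rho) hp1 hr
  refine h1.congr_deriv ?_
  unfold j4 j5
  rw [s2, s1, eq_div_iff hr0]
  have hI : I * I = -1 := Complex.I_mul_I
  linear_combination (-I) * ib + (J (1 - I * om) (4 + I * om) rho * (1 - I * om)
    - rho * J (1 - I * om + 1) (4 + I * om) rho) * hI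

lemma hasDerivAt_W (om : ℝ) {rho : ℝ} (hr : 0 < rho) :
    HasDerivAt (W om) (om * j5 om rho) rho := by
  have hr0 : (rho : ℂ) ≠ 0 := by exact_mod_cast hr.ne'
  have h4 := (hasDerivAt_j4 om hr).const_mul (5 + I * om : ℂ)
  have h5 := hasDerivAt_j5 om hr
  have hid : HasDerivAt (fun x : ℝ => I * (x : ℂ)) I rho := by
    have := ((hasDerivAt_id rho).ofReal_comp).const_mul I
    simpa using this
  have h := (h4.add (hid.mul h5)).neg
  refine (h.congr_of_eventuallyEq ?_).congr_deriv ?_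
  · filter_upwards with x
    simp [W]
  · field_simp
    have hI : I * I = -1 := Complex.I_mul_I
    linear_combination (-(om : ℂ) * j5 om rho) * hI


/-- nondegeneracy: `(j4, j5) ≠ (0, 0)`. -/
lemma j45_ne {om rho : ℝ} (h0 : 3 / 10 ≤ om) (h1 : om ≤ 2 / 5) (hr : 0 < rho) :
    ¬ (j4 om rho = 0 ∧ j5 om rho = 0) := by
  rintro ⟨e4, e5⟩
  rcases le_or_gt 5 rho with h | h
  · have := re_pos h0 h1 h
    change 0 < ((starRingEnd ℂ ((5 + I * om : ℂ) * j4 om rho)) * j5 om rho).re at this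
    rw [e5] at this
    simp at this
  · -- uniqueness for the linear system on [rho, 5]
    let v : ℝ → ℂ × ℂ → ℂ × ℂ := fun t y =>
      (I * (y.2 - y.1), ((5 + I * om) * y.1 - 6 * y.2) / t)
    have hL : ∀ t ∈ Ico rho 5, LipschitzOnWith (Real.toNNReal (12 / rho + 2)) (v t) Set.univ := by
      intro t ht
      have ht0 : 0 < t := hr.trans_le ht.1
      refine LipschitzOnWith.of_dist_le_mul ?_
      intro x _ y _
      rw [Real.coe_toNNReal _ (by positivity), Prod.dist_eq, Prod.dist_eq]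
      simp only [dist_eq_norm]
      set M := max ‖x.1 - y.1‖ ‖x.2 - y.2‖ with hM
      have m1 : ‖x.1 - y.1‖ ≤ M := le_max_left _ _
      have m2 : ‖x.2 - y.2‖ ≤ M := le_max_right _ _
      have hM0 : 0 ≤ M := (norm_nonneg _).trans m1
      apply max_le
      · have : I * (x.2 - x.1) - I * (y.2 - y.1) = I * ((x.2 - y.2) - (x.1 - y.1)) := by ring
        simp only [v]
        rw [this, norm_mul, Complex.norm_I, one_mul]
        have := norm_sub_le (x.2 - y.2) (x.1 - y.1)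
        have h12 : 0 ≤ 12 / rho * M := by positivity
        nlinarith
      · have e : ((5 + I * om) * x.1 - 6 * x.2) / t - ((5 + I * om) * y.1 - 6 * y.2) / t =
            ((5 + I * om) * (x.1 - y.1) - 6 * (x.2 - y.2)) / t := by ring
        simp only [v]
        rw [e, norm_div, Complex.norm_real, Real.norm_of_nonneg ht0.le]
        have n5 : ‖(5 + I * om : ℂ)‖ ≤ 6 := by
          have := norm_k_le (by linarith : 0 ≤ om) h1 (k := 5) 6 (by norm_num) (by norm_num)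
          simpa using this
        have h3 : ‖(5 + I * om) * (x.1 - y.1) - 6 * (x.2 - y.2)‖ ≤ 12 * M := by
          refine (norm_sub_le _ _).trans ?_
          rw [norm_mul, norm_mul]
          have : ‖(6 : ℂ)‖ = 6 := by simp
          rw [this]
          nlinarith [norm_nonneg (x.1 - y.1), norm_nonneg (x.2 - y.2)]
        calc _ ≤ 12 * M / t := by gcongr
          _ ≤ 12 * M / rho := by
            gcongr
            exact ht.1
          _ = 12 / rho * M := by ring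
          _ ≤ _ := by nlinarith
    have hd : ∀ t ∈ Icc rho 5, HasDerivAt (fun t => (j4 om t, j5 om t)) (v t (j4 om t, j5 om t)) t := by
      intro t ht
      have ht0 : 0 < t := hr.trans_le ht.1
      exact (hasDerivAt_j4 om ht0).prodMk (hasDerivAt_j5 om ht0)
    have hz : ∀ t ∈ Icc rho 5, HasDerivAt (fun _ : ℝ => ((0 : ℂ), (0 : ℂ))) (v t (0, 0)) t := by
      intro t _
      have : v t (0, 0) = 0 := by simp [v]
      rw [this]
      exact hasDerivAt_const t _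
    have huniq := ODE_solution_unique_of_mem_Icc_right (v := v) (s := fun _ => Set.univ)
      (K := Real.toNNReal (12 / rho + 2)) (f := fun t => (j4 om t, j5 om t))
      (g := fun _ => ((0 : ℂ), (0 : ℂ))) (a := rho) (b := 5) hL
      (fun t ht => (hd t ht).continuousAt.continuousWithinAt)
      (fun t ht => (hd t ⟨ht.1, ht.2.le⟩).hasDerivWithinAt) (fun _ _ => Set.mem_univ _)
      (fun t ht => (hz t ht).continuousAt.continuousWithinAt)
      (fun t ht => (hz t ⟨ht.1, ht.2.le⟩).hasDerivWithinAt) (fun _ _ => Set.mem_univ _)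
      (by simp [e4, e5])
    have h5 := huniq (⟨h.le, le_rfl⟩ : (5 : ℝ) ∈ Icc rho 5)
    simp only [Prod.mk.injEq] at h5
    have := re_pos h0 h1 (le_refl (5 : ℝ))
    change 0 < ((starRingEnd ℂ ((5 + I * om : ℂ) * j4 om 5)) * j5 om 5).re at this
    rw [h5.2] at this
    simp at this

lemma W_ne_of_j5 {om rho : ℝ} (h0 : 3 / 10 ≤ om) (h1 : om ≤ 2 / 5) (hr : 0 < rho)
    (h5 : j5 om rho = 0) : W om rho ≠ 0 := by
  intro h
  apply j45_ne h0 h1 hr
  refine ⟨?_, h5⟩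
  unfold W at h
  rw [h5, mul_zero, add_zero, neg_eq_zero, mul_eq_zero] at h
  rcases h with h | h
  · have := congrArg Complex.re h
    simp at this
  · exact h

/-- part (2) in terms of `W` -/
lemma re_W_neg_of_ge {om rho : ℝ} (h0 : 3 / 10 ≤ om) (h1 : om ≤ 2 / 5) (hr : 5 ≤ rho) :
    ((starRingEnd ℂ (W om rho)) * (om * j5 om rho)).re < 0 := by
  have h := re_pos h0 h1 hr
  change 0 < ((starRingEnd ℂ ((5 + I * om : ℂ) * j4 om rho)) * j5 om rho).re at h
  have hom : 0 < om := by linarith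
  have e : (starRingEnd ℂ (W om rho)) * (om * j5 om rho) =
      ((om : ℝ) : ℂ) * (-((starRingEnd ℂ ((5 + I * om : ℂ) * j4 om rho)) * j5 om rho)
        + I * ((rho * normSq (j5 om rho) : ℝ) : ℂ)) := by
    unfold W
    push_cast
    rw [Complex.normSq_eq_conj_mul_self]
    simp only [map_neg, map_add, map_mul, conj_I, conj_ofReal]
    ring
  rw [e, re_ofReal_mul, add_re, neg_re]
  have : (I * ((rho * normSq (j5 om rho) : ℝ) : ℂ)).re = 0 := by
    simp only [mul_re, I_re, I_im, ofReal_re, ofReal_im]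
    ring
  rw [this]
  nlinarith

/-- the solution in the variable `r` -/
noncomputable def Ur (om r : ℝ) : ℂ := W om (r ^ 2 / 4)
/-- its derivative -/
noncomputable def Ur1 (om r : ℝ) : ℂ := r / 2 * (om * j5 om (r ^ 2 / 4))

lemma hasDerivAt_sq (r : ℝ) : HasDerivAt (fun r : ℝ => r ^ 2 / 4) (r / 2) r := by
  have := (hasDerivAt_pow 2 r).div_const 4
  refine this.congr_deriv ?_
  norm_num
  ring

lemma hasDerivAt_Ur (om : ℝ) {r : ℝ} (hr : 0 < r) : HasDerivAt (Ur om) (Ur1 om r) r := by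
  have h := (hasDerivAt_W om (rho := r ^ 2 / 4) (by positivity)).scomp r (hasDerivAt_sq r)
  refine h.congr_deriv ?_
  unfold Ur1
  simp

lemma hasDerivAt_Ur1 (om : ℝ) {r : ℝ} (hr : 0 < r) :
    HasDerivAt (Ur1 om) (-(11 / r + I * r / 2) * Ur1 om r - om * Ur om r) r := by
  have hr0 : (r : ℂ) ≠ 0 := by exact_mod_cast hr.ne'
  have hp : 0 < r ^ 2 / 4 := by positivity
  have h := (hasDerivAt_j5 om hp).scomp r (hasDerivAt_sq r)
  have hid : HasDerivAt (fun x : ℝ => (x : ℂ) / 2) (1 / 2) r := by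
    have := ((hasDerivAt_id r).ofReal_comp).div_const 2
    simpa using this
  have h2 := hid.mul (h.const_mul (om : ℂ))
  refine (h2.congr_of_eventuallyEq ?_).congr_deriv ?_
  · filter_upwards with x
    simp [Ur1, Function.comp]
  · unfold Ur1 Ur W
    simp only [Function.comp, real_smul]
    push_cast
    field_simp
    ring

/-- **A3**, differential form: `Re (conj U * U') < 0` for `r > R`. -/
theorem re_U_neg {om R : ℝ} (h0 : 3 / 10 ≤ om) (h1 : om ≤ 2 / 5) (hR : 0 < R)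
    (hz : j5 om (R ^ 2 / 4) = 0) {r : ℝ} (hr : R < r) :
    ((starRingEnd ℂ (Ur om r)) * Ur1 om r).re < 0 := by
  have hr0 : 0 < r := hR.trans hr
  rcases le_total (r ^ 2 / 4) 5 with h | h
  · have hb : r ^ 4 / 16 + om * r ^ 2 ≤ 36 := by
      have h2 : r ^ 2 ≤ 20 := by linarith
      have h3 : 0 ≤ r ^ 2 := sq_nonneg r
      have h4 : r ^ 4 = r ^ 2 * r ^ 2 := by ring
      rw [h4]
      nlinarith
    refine re_conj_mul_neg (R := R) (b := r) hR (by linarith : 0 < om) hb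
      (fun x hx => (hasDerivAt_Ur om (hR.trans_le hx.1)).continuousAt.continuousWithinAt)
      (fun x hx => (hasDerivAt_Ur1 om (hR.trans_le hx.1)).continuousAt.continuousWithinAt)
      (fun x hx => hasDerivAt_Ur om (hR.trans hx.1))
      (fun x hx => hasDerivAt_Ur1 om (hR.trans hx.1)) ?_ ?_ r ⟨hr, le_rfl⟩
    · exact W_ne_of_j5 h0 h1 (by positivity) hz
    · simp [Ur1, hz]
  · have h2 := re_W_neg_of_ge h0 h1 h
    have e : (starRingEnd ℂ (Ur om r)) * Ur1 om r =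
        ((r / 2 : ℝ) : ℂ) * ((starRingEnd ℂ (W om (r ^ 2 / 4))) * (om * j5 om (r ^ 2 / 4))) := by
      unfold Ur Ur1
      push_cast
      ring
    rw [e, re_ofReal_mul]
    have : 0 < r / 2 := by positivity
    nlinarith

/-- **A3**: `|U|^2` strictly decreasing on `[R, ∞)`. -/
theorem normSq_strictAnti {om R : ℝ} (h0 : 3 / 10 ≤ om) (h1 : om ≤ 2 / 5) (hR : 0 < R)
    (hz : j5 om (R ^ 2 / 4) = 0) : StrictAntiOn (fun r => normSq (Ur om r)) (Ici R) := by
  have hpos : ∀ x ∈ Ici R, 0 < x := fun x hx => hR.trans_le hx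
  refine strictAntiOn_of_deriv_neg (convex_Ici R)
    (fun x hx => (hasDerivAt_normSq (hasDerivAt_Ur om (hpos x hx))).continuousAt.continuousWithinAt) ?_
  intro x hx
  rw [interior_Ici] at hx
  rw [(hasDerivAt_normSq (hasDerivAt_Ur om (hR.trans hx))).deriv]
  have := re_U_neg h0 h1 hR hz hx
  linarith

theorem norm_strictAnti {om R : ℝ} (h0 : 3 / 10 ≤ om) (h1 : om ≤ 2 / 5) (hR : 0 < R)
    (hz : j5 om (R ^ 2 / 4) = 0) : StrictAntiOn (fun r => ‖Ur om r‖) (Ici R) := by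
  intro x hx y hy hxy
  have h := normSq_strictAnti h0 h1 hR hz hx hy hxy
  simp only [normSq_eq_norm_sq] at h
  exact lt_of_pow_lt_pow_left₀ 2 (norm_nonneg _) h

/-- normalised obstacle profile outside the core -/
noncomputable def Un (om R r : ℝ) : ℂ := Ur om r / Ur om R

theorem norm_Un_lt_one {om R : ℝ} (h0 : 3 / 10 ≤ om) (h1 : om ≤ 2 / 5) (hR : 0 < R)
    (hz : j5 om (R ^ 2 / 4) = 0) {r : ℝ} (hr : R < r) : ‖Un om R r‖ < 1 := by
  have hne : Ur om R ≠ 0 := W_ne_of_j5 h0 h1 (by positivity) hz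
  unfold Un
  rw [norm_div, div_lt_one (norm_pos_iff.mpr hne)]
  exact norm_strictAnti h0 h1 hR hz (Set.mem_Ici.mpr le_rfl) hr.le hr

theorem norm_Un_strictAnti {om R : ℝ} (h0 : 3 / 10 ≤ om) (h1 : om ≤ 2 / 5) (hR : 0 < R)
    (hz : j5 om (R ^ 2 / 4) = 0) : StrictAntiOn (fun r => ‖Un om R r‖) (Ici R) := by
  have hne : Ur om R ≠ 0 := W_ne_of_j5 h0 h1 (by positivity) hz
  intro x hx y hy hxy
  have h := norm_strictAnti h0 h1 hR hz hx hy hxy
  simp only [Un, norm_div] at h ⊢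
  exact div_lt_div_of_pos_right h (norm_pos_iff.mpr hne)

/-! ### the limit at infinity -/

lemma norm_X (om : ℝ) {rho : ℝ} (hr : 0 < rho) :
    ‖J (1 - I * om) 0 rho‖ = 1 / rho * ‖Complex.Gamma (1 - I * om)‖ := by
  have ha : (1 - I * om : ℂ).re = 1 := by simp
  rw [J_zero (by rw [ha]; exact one_pos) hr, norm_mul]
  congr 1
  have : (1 / (rho : ℂ)) = ((1 / rho : ℝ) : ℂ) := by push_cast; rfl
  rw [this, Complex.norm_cpow_eq_rpow_re_of_pos (by positivity), ha, Real.rpow_one]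

lemma tendsto_MB (a c : ℂ) : Tendsto (fun rho : ℝ => MB a c (1 / rho)) atTop (𝓝 1) := by
  have h : ContinuousAt (MB a c) 0 := by
    unfold MB
    fun_prop
  have h1 : Tendsto (fun rho : ℝ => 1 / rho) atTop (𝓝 0) := by
    simpa using tendsto_inv_atTop_zero
  have h2 := h.tendsto.comp h1
  have h3 : MB a c 0 = 1 := by simp [MB]
  rw [h3] at h2
  exact h2

lemma tendsto_MA (a c : ℂ) : Tendsto (fun rho : ℝ => MA a c (1 / rho)) atTop (𝓝 1) := by
  have h : ContinuousAt (MA a c) 0 := by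
    unfold MA MB
    fun_prop
  have h1 : Tendsto (fun rho : ℝ => 1 / rho) atTop (𝓝 0) := by
    simpa using tendsto_inv_atTop_zero
  have h2 := h.tendsto.comp h1
  have h3 : MA a c 0 = 1 := by simp [MA, MB]
  rw [h3] at h2
  exact h2

theorem tendsto_norm_W {om : ℝ} (h0 : 0 ≤ om) :
    Tendsto (fun rho : ℝ => ‖W om rho‖) atTop (𝓝 ‖Complex.Gamma (1 - I * om)‖) := by
  have ha : (1 - I * om : ℂ).re = 1 := by simp
  have ha0 : 0 < (1 - I * om : ℂ).re := by rw [ha]; exact one_pos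
  set G : ℝ := ‖Complex.Gamma (1 - I * om)‖ with hG
  set C4 : ℝ := ‖(4 + I * om : ℂ)‖ * ‖(3 + I * om : ℂ)‖ * ‖(2 + I * om : ℂ)‖ * ‖(1 + I * om : ℂ)‖ / 24
    with hC4
  set C5 : ℝ := ‖(5 + I * om : ℂ)‖ * ‖(4 + I * om : ℂ)‖ * ‖(3 + I * om : ℂ)‖ * ‖(2 + I * om : ℂ)‖
        * ‖(1 + I * om : ℂ)‖ / 120 with hC5
  -- bounds
  have b4 : ∀ rho : ℝ, 0 < rho → ‖j4 om rho‖ ≤
      1 / rho * G * ‖MB (1 - I * om) (4 + I * om) (1 / rho)‖ + C4 * (24 * (1 / rho) ^ 5) := by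
    intro rho hr
    obtain ⟨i4, e4⟩ := integral_T4 ha0 hr (4 + I * om)
    have b4 := J_sub_le ha hr (taylor4 h0) i4
    rw [e4] at b4
    have e : ((Nat.factorial 4 : ℕ) : ℝ) / rho ^ (4 + 1) = 24 * (1 / rho) ^ 5 := by
      have : ((Nat.factorial 4 : ℕ) : ℝ) = 24 := by norm_num [Nat.factorial]
      rw [this]
      field_simp
    rw [e] at b4
    have h := norm_le_norm_add_norm_sub' (J (1 - I * om) (4 + I * om) rho)
      (J (1 - I * om) 0 rho * MB (1 - I * om) (4 + I * om) (1 / rho))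
    rw [norm_mul, norm_X om hr] at h
    calc ‖j4 om rho‖ ≤ _ := h
      _ ≤ _ := by gcongr
  have b5 : ∀ rho : ℝ, 0 < rho → ‖j5 om rho -
      J (1 - I * om) 0 rho * MA (1 - I * om) (5 + I * om) (1 / rho)‖ ≤ C5 * (120 * (1 / rho) ^ 6) := by
    intro rho hr
    obtain ⟨i5, e5⟩ := integral_T5 ha0 hr (5 + I * om)
    have b5 := J_sub_le ha hr (taylor5 h0) i5
    rw [e5] at b5
    have e : ((Nat.factorial 5 : ℕ) : ℝ) / rho ^ (5 + 1) = 120 * (1 / rho) ^ 6 := by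
      have : ((Nat.factorial 5 : ℕ) : ℝ) = 120 := by norm_num [Nat.factorial]
      rw [this]
      field_simp
    rw [e] at b5
    exact b5
  have hinv : Tendsto (fun rho : ℝ => 1 / rho) atTop (𝓝 0) := by
    simpa using tendsto_inv_atTop_zero
  have key : Tendsto (fun rho : ℝ => ‖MA (1 - I * om) (5 + I * om) (1 / rho)‖ * G) atTop (𝓝 G) := by
    have := ((tendsto_MA (1 - I * om) (5 + I * om)).norm).mul_const G
    simpa using this
  have hdiff : Tendsto (fun rho : ℝ => ‖W om rho‖ - ‖MA (1 - I * om) (5 + I * om) (1 / rho)‖ * G)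
      atTop (𝓝 0) := by
    have hbound : Tendsto (fun rho : ℝ => ‖(5 + I * om : ℂ)‖ *
        (1 / rho * G * ‖MB (1 - I * om) (4 + I * om) (1 / rho)‖ + C4 * (24 * (1 / rho) ^ 5))
        + C5 * (120 * (1 / rho) ^ 5)) atTop (𝓝 0) := by
      have t1 := ((hinv.mul_const G).mul (tendsto_MB (1 - I * om) (4 + I * om)).norm)
      have t2 := ((hinv.pow 5).const_mul 24).const_mul C4
      have t3 := ((hinv.pow 5).const_mul 120).const_mul C5
      have := ((t1.add t2).const_mul ‖(5 + I * om : ℂ)‖).add t3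
      simpa using this
    refine squeeze_zero_norm' ?_ hbound
    filter_upwards [eventually_gt_atTop (0 : ℝ)] with rho hr
    have e1 : ‖MA (1 - I * om) (5 + I * om) (1 / rho)‖ * G =
        ‖-(I * rho * (J (1 - I * om) 0 rho * MA (1 - I * om) (5 + I * om) (1 / rho)))‖ := by
      rw [norm_neg, norm_mul, norm_mul, norm_mul, Complex.norm_I, Complex.norm_real,
        Real.norm_of_nonneg hr.le, norm_X om hr, hG]
      field_simp
    rw [e1, Real.norm_eq_abs]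
    refine (abs_norm_sub_norm_le _ _).trans ?_
    have e2 : W om rho - -(I * rho * (J (1 - I * om) 0 rho * MA (1 - I * om) (5 + I * om) (1 / rho))) =
        -((5 + I * om) * j4 om rho) - I * rho * (j5 om rho -
      J (1 - I * om) 0 rho * MA (1 - I * om) (5 + I * om) (1 / rho)) := by
      unfold W
      ring
    rw [e2]
    refine (norm_sub_le _ _).trans ?_
    rw [norm_neg, norm_mul, norm_mul, norm_mul, Complex.norm_I, Complex.norm_real,
        Real.norm_of_nonneg hr.le, one_mul]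
    have c4 := mul_le_mul_of_nonneg_left (b4 rho hr) (norm_nonneg (5 + I * om : ℂ))
    have c5 := mul_le_mul_of_nonneg_left (b5 rho hr) hr.le
    have e3 : rho * (C5 * (120 * (1 / rho) ^ 6)) = C5 * (120 * (1 / rho) ^ 5) := by
      field_simp
    rw [e3] at c5
    exact add_le_add c4 c5
  have := hdiff.add key
  simpa using this

lemma Gamma_ne {om : ℝ} : Complex.Gamma (1 - I * om) ≠ 0 :=
  Complex.Gamma_ne_zero_of_re_pos (by simp)

/-- lower bound for all `r ≥ R`. -/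
theorem norm_U_ge {om R : ℝ} (h0 : 3 / 10 ≤ om) (h1 : om ≤ 2 / 5) (hR : 0 < R)
    (hz : j5 om (R ^ 2 / 4) = 0) {r : ℝ} (hr : R ≤ r) :
    ‖Complex.Gamma (1 - I * om)‖ < ‖Ur om r‖ := by
  have hanti := norm_strictAnti h0 h1 hR hz
  have hlim : Tendsto (fun r : ℝ => ‖Ur om r‖) atTop (𝓝 ‖Complex.Gamma (1 - I * om)‖) := by
    have h := tendsto_norm_W (om := om) (by linarith)
    have h2 : Tendsto (fun r : ℝ => r ^ 2 / 4) atTop atTop :=
      (tendsto_pow_atTop two_ne_zero).atTop_div_const (by norm_num)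
    exact h.comp h2
  have h2 : ‖Complex.Gamma (1 - I * om)‖ ≤ ‖Ur om (r + 1)‖ := by
    refine le_of_tendsto hlim ?_
    filter_upwards [eventually_gt_atTop (r + 1)] with x hx
    have hm : ∀ y, r ≤ y → y ∈ Ici R := fun y hy => hr.trans hy
    exact (hanti (hm _ (by linarith)) (hm _ (by linarith)) hx).le
  have h3 : ‖Ur om (r + 1)‖ < ‖Ur om r‖ :=
    hanti hr (show R ≤ r + 1 by linarith) (by linarith)
  linarith

theorem tendsto_norm_Ur {om : ℝ} (h0 : 0 ≤ om) :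
    Tendsto (fun r : ℝ => ‖Ur om r‖) atTop (𝓝 ‖Complex.Gamma (1 - I * om)‖) := by
  have h := tendsto_norm_W (om := om) h0
  have h2 : Tendsto (fun r : ℝ => r ^ 2 / 4) atTop atTop :=
    (tendsto_pow_atTop two_ne_zero).atTop_div_const (by norm_num)
  exact h.comp h2

/-- The whole package: with `U = Un om R` (normalised outgoing solution, `U(R) = 1`, `U'(R) = 0`). -/
theorem main {om R : ℝ} (h0 : 3 / 10 ≤ om) (h1 : om ≤ 2 / 5) (hR : 0 < R)
    (hz : j5 om (R ^ 2 / 4) = 0) :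
    ∃ U1 : ℝ → ℂ,
      (∀ r, 0 < r → HasDerivAt (Un om R) (U1 r) r) ∧
      (∀ r, 0 < r → HasDerivAt U1 (-(11 / r + I * r / 2) * U1 r - om * Un om R r) r) ∧
      Un om R R = 1 ∧ U1 R = 0 ∧
      (∀ r, R < r → ((starRingEnd ℂ (Un om R r)) * U1 r).re < 0) ∧
      StrictAntiOn (fun r => ‖Un om R r‖) (Ici R) ∧
      (∀ r, R < r → ‖Un om R r‖ < 1) ∧
      ∃ q : ℝ, 0 < q ∧ Tendsto (fun r => ‖Un om R r‖) atTop (𝓝 q) ∧ ∀ r, R ≤ r → q < ‖Un om R r‖ := by
  have hne : Ur om R ≠ 0 := W_ne_of_j5 h0 h1 (by positivity) hz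
  have hpos : 0 < ‖Ur om R‖ := norm_pos_iff.mpr hne
  have hG : 0 < ‖Complex.Gamma (1 - I * om)‖ := norm_pos_iff.mpr Gamma_ne
  refine ⟨fun r => Ur1 om r / Ur om R, ?_, ?_, ?_, ?_, ?_, norm_Un_strictAnti h0 h1 hR hz,
    fun r hr => norm_Un_lt_one h0 h1 hR hz hr,
    ‖Complex.Gamma (1 - I * om)‖ / ‖Ur om R‖, div_pos hG hpos, ?_, ?_⟩
  · intro r hr
    exact (hasDerivAt_Ur om hr).div_const _
  · intro r hr
    refine ((hasDerivAt_Ur1 om hr).div_const _).congr_deriv ?_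
    unfold Un
    ring
  · exact div_self hne
  · simp [Ur1, hz]
  · intro r hr
    have h := re_U_neg h0 h1 hR hz hr
    have e : (starRingEnd ℂ (Un om R r)) * (Ur1 om r / Ur om R) =
        ((1 / normSq (Ur om R) : ℝ) : ℂ) * ((starRingEnd ℂ (Ur om r)) * Ur1 om r) := by
      unfold Un
      push_cast
      rw [Complex.normSq_eq_conj_mul_self, map_div₀]
      have hc : (starRingEnd ℂ) (Ur om R) ≠ 0 := by simpa using hne
      field_simp
    rw [e, re_ofReal_mul]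
    have : 0 < 1 / normSq (Ur om R) := by
      have := normSq_pos.mpr hne
      positivity
    nlinarith
  · have := (tendsto_norm_Ur (om := om) (by linarith)).div_const ‖Ur om R‖
    refine this.congr (fun r => ?_)
    simp [Un]
  · intro r hr
    have h := norm_U_ge h0 h1 hR hz hr
    unfold Un
    rw [norm_div]
    exact div_lt_div_of_pos_right h hpos

end Crest.Agent.R086.A3
end

-- ▼ part R086/ALower

/-!
Row 86, Part A (helper522): `3/5 |U(R)| ≤ |U(r)|` for `r ≥ R` (from 592's A3: `|U(r)| > |Γ(1 - i om)|`,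
and the Taylor expansion of order 4 of `(1+is)^(4+i om)` at `rho = R²/4`).
-/

set_option autoImplicit false

open MeasureTheory Complex Set Filter Topology

namespace Crest.Agent.R086.A3

open Crest.Agent.R086.JInt

lemma MA_re (om v : ℝ) : (MA (1 - I * om) (4 + I * om) v).re =
    1 + (3 * om) * v + (-12 - 7/2 * om ^ 2 - 1/2 * om ^ 4) * v ^ 2
      + (-18 * om - 13/2 * om ^ 3 - 1/2 * om ^ 5) * v ^ 3
      + (24 + 205/6 * om ^ 2 + 91/8 * om ^ 4 + 5/4 * om ^ 6 + 1/24 * om ^ 8) * v ^ 4 := by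
  unfold MA MB
  have e2 : (v : ℂ) ^ 2 = ((v ^ 2 : ℝ) : ℂ) := by push_cast; rfl
  have e3 : (v : ℂ) ^ 3 = ((v ^ 3 : ℝ) : ℂ) := by push_cast; rfl
  have e4 : (v : ℂ) ^ 4 = ((v ^ 4 : ℝ) : ℂ) := by push_cast; rfl
  rw [e2, e3, e4]
  simp only [add_re, add_im, mul_re, mul_im, sub_re, sub_im, div_ofNat_re, div_ofNat_im, I_re, I_im,
    ofReal_re, ofReal_im, one_re, one_im, re_ofNat, im_ofNat]
  ring

lemma MA_im (om v : ℝ) : (MA (1 - I * om) (4 + I * om) v).im =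
    (4 + om ^ 2) * v + (11 * om + 2 * om ^ 3) * v ^ 2
      + (-24 - 44/3 * om ^ 2 - 17/6 * om ^ 4 - 1/6 * om ^ 6) * v ^ 3 := by
  unfold MA MB
  have e2 : (v : ℂ) ^ 2 = ((v ^ 2 : ℝ) : ℂ) := by push_cast; rfl
  have e3 : (v : ℂ) ^ 3 = ((v ^ 3 : ℝ) : ℂ) := by push_cast; rfl
  have e4 : (v : ℂ) ^ 4 = ((v ^ 4 : ℝ) : ℂ) := by push_cast; rfl
  rw [e2, e3, e4]
  simp only [add_re, add_im, mul_re, mul_im, sub_re, sub_im, div_ofNat_re, div_ofNat_im, I_re, I_im,
    ofReal_re, ofReal_im, one_re, one_im, re_ofNat, im_ofNat]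
  ring

lemma norm_MA_le {om v : ℝ} (h1 : 0.334776 ≤ om) (h2 : om ≤ 0.3347762) (h3 : 0.369676 ≤ v)
    (h4 : v ≤ 0.369677) : ‖MA (1 - I * om) (4 + I * om) v‖ ≤ 3 / 4 := by
  have ho : 0 ≤ om := by linarith
  have hv : 0 ≤ v := by linarith
  have U : ∀ i j : ℕ, om ^ i * v ^ j ≤ 0.3347762 ^ i * 0.369677 ^ j := fun i j => by gcongr
  have L : ∀ i j : ℕ, (0.334776 : ℝ) ^ i * 0.369676 ^ j ≤ om ^ i * v ^ j := fun i j => by gcongr
  have hre1 : (MA (1 - I * om) (4 + I * om) v).re ≤ -0.11 := by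
    rw [MA_re]
    have u1 := U 1 1
    have l1 := L 0 2; have l2 := L 2 2; have l3 := L 4 2
    have l4 := L 1 3; have l5 := L 3 3; have l6 := L 5 3
    have u2 := U 0 4; have u3 := U 2 4; have u4 := U 4 4; have u5 := U 6 4; have u6 := U 8 4
    norm_num at u1 l1 l2 l3 l4 l5 l6 u2 u3 u4 u5 u6
    nlinarith
  have hre2 : -0.118 ≤ (MA (1 - I * om) (4 + I * om) v).re := by
    rw [MA_re]
    have u1 := L 1 1
    have l1 := U 0 2; have l2 := U 2 2; have l3 := U 4 2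
    have l4 := U 1 3; have l5 := U 3 3; have l6 := U 5 3
    have u2 := L 0 4; have u3 := L 2 4; have u4 := L 4 4; have u5 := L 6 4; have u6 := L 8 4
    norm_num at u1 l1 l2 l3 l4 l5 l6 u2 u3 u4 u5 u6
    nlinarith
  have him1 : (MA (1 - I * om) (4 + I * om) v).im ≤ 0.737 := by
    rw [MA_im]
    have u1 := U 2 1; have u2 := U 1 2; have u3 := U 3 2
    have l1 := L 0 3; have l2 := L 2 3; have l3 := L 4 3; have l4 := L 6 3
    norm_num at u1 u2 u3 l1 l2 l3 l4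
    nlinarith
  have him2 : 0 ≤ (MA (1 - I * om) (4 + I * om) v).im := by
    rw [MA_im]
    have u1 := L 2 1; have u2 := L 1 2; have u3 := L 3 2
    have l1 := U 0 3; have l2 := U 2 3; have l3 := U 4 3; have l4 := U 6 3
    norm_num at u1 u2 u3 l1 l2 l3 l4
    nlinarith
  have h5 : ‖MA (1 - I * om) (4 + I * om) v‖ ^ 2 ≤ (3 / 4) ^ 2 := by
    rw [Complex.sq_norm, normSq_apply]
    nlinarith
  exact le_of_sq_le_sq h5 (by norm_num)

lemma norm_ki_le {k om K : ℝ} (hK : 0 ≤ K) (h : k ^ 2 + om ^ 2 ≤ K ^ 2) :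
    ‖((k : ℂ) + I * om)‖ ≤ K := by
  have h5 : ‖((k : ℂ) + I * om)‖ ^ 2 ≤ K ^ 2 := by
    rw [Complex.sq_norm, normSq_apply]
    simp
    nlinarith
  exact le_of_sq_le_sq h5 hK

/-- remainder bound of order 5 for `c = 4 + i om` -/
lemma taylor45 {om : ℝ} (hom : 0 ≤ om) (s : ℝ) (hs : 0 ≤ s) :
    ‖((1 : ℂ) + I * s) ^ (4 + I * om : ℂ) - T5 (4 + I * om) s‖ ≤
      ‖(4 + I * om : ℂ)‖ * ‖(3 + I * om : ℂ)‖ * ‖(2 + I * om : ℂ)‖ * ‖(1 + I * om : ℂ)‖
        * ‖(I * om : ℂ)‖ / 120 * s ^ 5 := by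
  have r0 : ∀ s : ℝ, 0 ≤ s → ‖((1 : ℂ) + I * s) ^ ((I * om : ℂ) - 1) - 0‖ ≤ 1 * s ^ 0 := by
    intro s hs
    rw [sub_zero, pow_zero, mul_one]
    exact norm_g_le_one (by simp) (by simpa using hom) hs
  have r1 := taylor_step r0 (fun s => hasDerivAt_T1 _ s) (by simp [T1])
  have e1 : (1 + I * om : ℂ) - 1 = I * om := by ring
  have r2 := taylor_step (c := 1 + I * om) (p := T1 (1 + I * om - 1)) (by rw [e1]; exact r1)
    (fun s => hasDerivAt_T2 _ s) (by simp [T2])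
  have e2 : (2 + I * om : ℂ) - 1 = 1 + I * om := by ring
  have r3 := taylor_step (c := 2 + I * om) (p := T2 (2 + I * om - 1)) (by rw [e2]; exact r2)
    (fun s => hasDerivAt_T3 _ s) (by simp [T3])
  have e3 : (3 + I * om : ℂ) - 1 = 2 + I * om := by ring
  have r4 := taylor_step (c := 3 + I * om) (p := T3 (3 + I * om - 1)) (by rw [e3]; exact r3)
    (fun s => hasDerivAt_T4 _ s) (by simp [T4])
  have e4 : (4 + I * om : ℂ) - 1 = 3 + I * om := by ring
  have r5 := taylor_step (c := 4 + I * om) (p := T4 (4 + I * om - 1)) (by rw [e4]; exact r4)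
    (fun s => hasDerivAt_T5 _ s) (by simp [T5])
  refine (r5 s hs).trans (le_of_eq ?_)
  push_cast
  ring

/-- **lower bound**: `3/5 |U(R)| ≤ |U(r)|`. -/
theorem lower {om R : ℝ} (h1 : 0.3347760 ≤ om) (h2 : om ≤ 0.3347762) (hR : 0 < R)
    (h3 : 2.7050680 ≤ R ^ 2 / 4) (h4 : R ^ 2 / 4 ≤ 2.7050684) (hz : j5 om (R ^ 2 / 4) = 0)
    {r : ℝ} (hr : R ≤ r) : 3 / 5 * ‖Ur om R‖ ≤ ‖Ur om r‖ := by
  have hU := norm_U_ge (by linarith) (by linarith) hR hz hr
  set G : ℝ := ‖Complex.Gamma (1 - I * om)‖ with hG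
  have hG2 : 1 / 2 ≤ G := norm_Gamma_ge (by linarith) (by linarith)
  set rho : ℝ := R ^ 2 / 4 with hrho
  have hrho0 : 0 < rho := by linarith
  have ha : (1 - I * om : ℂ).re = 1 := by simp
  have ha0 : 0 < (1 - I * om : ℂ).re := by rw [ha]; exact one_pos
  obtain ⟨i5, e5⟩ := integral_T5 (a := 1 - I * om) ha0 hrho0 (4 + I * om)
  have b5 := J_sub_le ha hrho0 (taylor45 (by linarith)) i5
  rw [e5] at b5
  have hJ0 : ‖J (1 - I * om) 0 rho‖ = 1 / rho * G := by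
    rw [J_zero ha0 hrho0, norm_mul, ← hG]
    congr 1
    have : (1 / (rho : ℂ)) = ((1 / rho : ℝ) : ℂ) := by push_cast; rfl
    rw [this, Complex.norm_cpow_eq_rpow_re_of_pos (by positivity), ha, Real.rpow_one]
  -- numeric bounds
  have hv1 : 0.369676 ≤ 1 / rho := by
    rw [le_div_iff₀ hrho0]; linarith
  have hv2 : 1 / rho ≤ 0.369677 := by
    rw [div_le_iff₀ hrho0]; linarith
  have hMA := norm_MA_le (by linarith) h2 hv1 hv2
  have n1 : ‖(1 + I * om : ℂ)‖ ≤ 1.0546 := by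
    have := norm_ki_le (k := 1) (om := om) (K := 1.0546) (by norm_num) (by nlinarith)
    simpa using this
  have n2 : ‖(2 + I * om : ℂ)‖ ≤ 2.0279 := by
    have := norm_ki_le (k := 2) (om := om) (K := 2.0279) (by norm_num) (by nlinarith)
    simpa using this
  have n3 : ‖(3 + I * om : ℂ)‖ ≤ 3.0187 := by
    have := norm_ki_le (k := 3) (om := om) (K := 3.0187) (by norm_num) (by nlinarith)
    simpa using this
  have n4 : ‖(4 + I * om : ℂ)‖ ≤ 4.0140 := by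
    have := norm_ki_le (k := 4) (om := om) (K := 4.0140) (by norm_num) (by nlinarith)
    simpa using this
  have n5 : ‖(5 + I * om : ℂ)‖ ≤ 5.0113 := by
    have := norm_ki_le (k := 5) (om := om) (K := 5.0113) (by norm_num) (by nlinarith)
    simpa using this
  have n0 : ‖(I * om : ℂ)‖ ≤ 0.3347762 := by
    rw [norm_mul, Complex.norm_I, one_mul, Complex.norm_real, Real.norm_of_nonneg (by linarith)]
    exact h2
  have hC : ‖(4 + I * om : ℂ)‖ * ‖(3 + I * om : ℂ)‖ * ‖(2 + I * om : ℂ)‖ * ‖(1 + I * om : ℂ)‖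
        * ‖(I * om : ℂ)‖ / 120 ≤ 4.0140 * 3.0187 * 2.0279 * 1.0546 * 0.3347762 / 120 := by
    gcongr
  have hf : ((Nat.factorial 5 : ℕ) : ℝ) / rho ^ (5 + 1) ≤ 120 * 0.369677 ^ 6 := by
    have e1 : ((Nat.factorial 5 : ℕ) : ℝ) = 120 := by norm_num [Nat.factorial]
    have e2 : (120 : ℝ) / rho ^ (5 + 1) = 120 * (1 / rho) ^ 6 := by field_simp
    rw [e1, e2]
    gcongr
  have hrem : ‖(4 + I * om : ℂ)‖ * ‖(3 + I * om : ℂ)‖ * ‖(2 + I * om : ℂ)‖ * ‖(1 + I * om : ℂ)‖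
        * ‖(I * om : ℂ)‖ / 120 * (((Nat.factorial 5 : ℕ) : ℝ) / rho ^ (5 + 1)) ≤ 0.0223 := by
    refine (mul_le_mul hC hf (by positivity) (by norm_num)).trans (by norm_num)
  have hj4 : ‖j4 om rho‖ ≤ 0.369677 * G * (3 / 4) + 0.0223 := by
    have t1 : ‖J (1 - I * om) 0 rho * MA (1 - I * om) (4 + I * om) (1 / rho)‖ ≤
        0.369677 * G * (3 / 4) := by
      rw [norm_mul, hJ0]
      gcongr
    have t2 : j4 om rho = (j4 om rho - J (1 - I * om) 0 rho * MA (1 - I * om) (4 + I * om) (1 / rho))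
        + J (1 - I * om) 0 rho * MA (1 - I * om) (4 + I * om) (1 / rho) := by ring
    rw [t2]
    refine (norm_add_le _ _).trans ?_
    have t3 : ‖j4 om rho - J (1 - I * om) 0 rho * MA (1 - I * om) (4 + I * om) (1 / rho)‖ ≤ 0.0223 :=
      b5.trans hrem
    linarith
  have hW : ‖Ur om R‖ ≤ 5.0113 * (0.369677 * G * (3 / 4) + 0.0223) := by
    unfold Ur W
    rw [← hrho, hz, mul_zero, add_zero, norm_neg, norm_mul]
    exact mul_le_mul n5 hj4 (norm_nonneg _) (by norm_num)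
  nlinarith

end Crest.Agent.R086.A3
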