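import Mathlib
import Crest.Agent.R086.JW

/-!
Row 86, Part A (helper444): the outgoing solution of degree `l` in the variable `r`:
`Phi l mu r = r^l W(mu + l/2, l+6, r²/4)`, which solves (mu = lam + eps - i om)
`Phi'' + (11/r + i r/2) Phi' + (i mu - l(l+10)/r²) Phi = 0` for `r > 0`, `Re mu > -1 - l/2`.
-/

set_option autoImplicit false

open MeasureTheory Complex Set Filter Topology
open scoped ContDiff

namespace Crest.Agent.R086.JCx

/-- `r²/4` as a complex number -/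
noncomputable def zr (r : ℝ) : ℂ := ((r ^ 2 / 4 : ℝ) : ℂ)

theorem zr_re (r : ℝ) : (zr r).re = r ^ 2 / 4 := Complex.ofReal_re _

theorem zr_re_pos {r : ℝ} (hr : 0 < r) : 0 < (zr r).re := by rw [zr_re]; positivity

theorem norm_zr (r : ℝ) : ‖zr r‖ = r ^ 2 / 4 := by
  unfold zr
  rw [Complex.norm_real, Real.norm_of_nonneg (by positivity)]

theorem zr_eq (r : ℝ) : zr r = (r : ℂ) ^ 2 / 4 := by simp [zr]

theorem zr_hasDerivAt (r : ℝ) : HasDerivAt zr ((r : ℂ) / 2) r := by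
  have h : HasDerivAt (fun r : ℝ => (r ^ 2 / 4 : ℝ)) (r / 2) r := by
    have := ((hasDerivAt_id r).pow 2).div_const 4
    refine this.congr_deriv ?_
    simp
    ring
  have := h.ofReal_comp
  refine HasDerivAt.congr_deriv (f := zr) this ?_
  push_cast
  ring

/-- outgoing solution of degree `l` -/
noncomputable def Phi (l : ℕ) (mu : ℂ) (r : ℝ) : ℂ :=
  (r : ℂ) ^ l * W (mu + l / 2) (l + 6) (zr r)

/-- its derivative in `r` -/
noncomputable def Phi1 (l : ℕ) (mu : ℂ) (r : ℝ) : ℂ :=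
  (r : ℂ) ^ l * (((l : ℂ) / r) * W (mu + l / 2) (l + 6) (zr r)
    + (r / 2) * W1 (mu + l / 2) (l + 6) (zr r))

theorem re_cond {l : ℕ} {mu : ℂ} (h : -1 - (l : ℝ) / 2 < mu.re) : -1 < (mu + (l : ℂ) / 2).re := by
  have : ((l : ℂ) / 2).re = (l : ℝ) / 2 := by
    rw [show ((l : ℂ) / 2) = (((l : ℝ) / 2 : ℝ) : ℂ) by push_cast; ring]
    exact Complex.ofReal_re _
  rw [Complex.add_re, this]
  linarith

theorem Phi_hasDerivAt {l : ℕ} {mu : ℂ} (h : -1 - (l : ℝ) / 2 < mu.re) {r : ℝ} (hr : 0 < r) :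
    HasDerivAt (Phi l mu) (Phi1 l mu r) r := by
  have hr' : (r : ℂ) ≠ 0 := by exact_mod_cast hr.ne'
  have h1 : HasDerivAt (fun r : ℝ => (r : ℂ) ^ l) ((l : ℂ) * (r : ℂ) ^ (l - 1)) r := by
    have := (hasDerivAt_pow l (r : ℂ)).comp_ofReal
    exact this
  have h2 := HasDerivAt.comp (𝕜 := ℝ) (𝕜' := ℂ) r
    (W_hasDerivAt (a := mu + l / 2) (b := l + 6) (re_cond h) (zr_re_pos hr)) (zr_hasDerivAt r)
  have h3 := h1.mul h2
  refine h3.congr_deriv ?_
  unfold Phi1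
  simp only [Function.comp_apply]
  rcases l with _ | l
  · simp
    ring
  · simp only [Nat.add_sub_cancel]
    push_cast
    field_simp
    ring

theorem Phi1_hasDerivAt {l : ℕ} {mu : ℂ} (h : -1 - (l : ℝ) / 2 < mu.re) {r : ℝ} (hr : 0 < r) :
    HasDerivAt (Phi1 l mu)
      (-(11 / (r : ℂ) + I * r / 2) * Phi1 l mu r
        - (I * mu - (l : ℂ) * (l + 10) / (r : ℂ) ^ 2) * Phi l mu r) r := by
  have hr' : (r : ℂ) ≠ 0 := by exact_mod_cast hr.ne'
  have hc := re_cond h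
  have h1 : HasDerivAt (fun r : ℝ => (r : ℂ) ^ l) ((r : ℂ) ^ l * ((l : ℂ) / r)) r := by
    have := (hasDerivAt_pow l (r : ℂ)).comp_ofReal
    refine this.congr_deriv ?_
    rcases l with _ | l
    · simp
    · simp only [Nat.add_sub_cancel]
      push_cast
      field_simp
      rw [pow_succ]
  have hW := HasDerivAt.comp (𝕜 := ℝ) (𝕜' := ℂ) r
    (W_hasDerivAt (a := mu + l / 2) (b := l + 6) hc (zr_re_pos hr)) (zr_hasDerivAt r)
  have hW1 := HasDerivAt.comp (𝕜 := ℝ) (𝕜' := ℂ) r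
    (W1_hasDerivAt (a := mu + l / 2) (b := l + 6) hc (zr_re_pos hr)) (zr_hasDerivAt r)
  have hinv : HasDerivAt (fun r : ℝ => (l : ℂ) / (r : ℂ)) (-(l : ℂ) / (r : ℂ) ^ 2) r := by
    have := ((hasDerivAt_inv hr').const_mul (l : ℂ)).comp_ofReal
    refine (this.congr_deriv ?_)
    field_simp
  have hhalf : HasDerivAt (fun r : ℝ => (r : ℂ) / 2) (1 / 2) r := by
    have := ((hasDerivAt_id (r : ℂ)).div_const 2).comp_ofReal
    exact this
  have h3 := h1.mul ((hinv.mul hW).add (hhalf.mul hW1))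
  have ode := W_ode (a := mu + l / 2) (b := l + 6) hc (zr_re_pos hr)
  refine h3.congr_deriv ?_
  unfold Phi1 Phi
  simp only [Function.comp_apply, Pi.mul_apply, Pi.add_apply]
  have hz : zr r = (r : ℂ) ^ 2 / 4 := zr_eq r
  set w := W (mu + l / 2) (l + 6) (zr r)
  set w1 := W1 (mu + l / 2) (l + 6) (zr r)
  set w2 := W2 (mu + l / 2) (l + 6) (zr r)
  rw [hz] at ode
  field_simp
  linear_combination (4 * (r : ℂ) ^ 2) * ode

/-! ### Smoothness and bounds of all derivatives -/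

/-- building block -/
noncomputable def T (a c : ℂ) (p k : ℕ) (r : ℝ) : ℂ := (r : ℂ) ^ p * J (a + k) c (zr r)

theorem J_contDiffAt {a c z : ℂ} (ha : 0 < a.re) (hz : 0 < z.re) (n : WithTop ℕ∞) :
    ContDiffAt ℂ n (fun z => J a c z) z := by
  have hS : IsOpen {z : ℂ | 0 < z.re} := isOpen_lt (by fun_prop) (by fun_prop)
  have hd : DifferentiableOn ℂ (fun z => J a c z) {z : ℂ | 0 < z.re} := fun w hw =>
    (J_hasDerivAt ha hw).differentiableAt.differentiableWithinAt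
  exact (hd.contDiffOn hS).contDiffAt (hS.mem_nhds hz)

theorem zr_contDiff (n : WithTop ℕ∞) : ContDiff ℝ n zr := by
  have h : ContDiff ℝ n (fun r : ℝ => (r ^ 2 / 4 : ℝ)) := (contDiff_id.pow 2).div_const 4
  exact Complex.ofRealCLM.contDiff.comp h

theorem T_contDiffAt {a c : ℂ} (ha : 0 < a.re) (p k : ℕ) {r : ℝ} (hr : 0 < r)
    (n : WithTop ℕ∞) : ContDiffAt ℝ n (T a c p k) r := by
  have hk : 0 < (a + k).re := by simp; positivity
  have h1 : ContDiffAt ℝ n (fun r : ℝ => J (a + k) c (zr r)) r :=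
    ContDiffAt.comp (f := zr) r ((J_contDiffAt hk (zr_re_pos hr) n).restrict_scalars ℝ)
      (zr_contDiff n).contDiffAt
  have h2 : ContDiffAt ℝ n (fun r : ℝ => (r : ℂ) ^ p) r :=
    ((Complex.ofRealCLM.contDiff.pow p)).contDiffAt
  exact h2.mul h1

theorem T_hasDerivAt {a c : ℂ} (ha : 0 < a.re) (p k : ℕ) {r : ℝ} (hr : 0 < r) :
    HasDerivAt (T a c p k) ((p : ℂ) * T a c (p - 1) k r + (-(1 / 2)) * T a c (p + 1) (k + 1) r) r := by
  have hk : 0 < (a + k).re := by simp; positivity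
  have h1 : HasDerivAt (fun r : ℝ => (r : ℂ) ^ p) ((p : ℂ) * (r : ℂ) ^ (p - 1)) r :=
    (hasDerivAt_pow p (r : ℂ)).comp_ofReal
  have h2 := HasDerivAt.comp (𝕜 := ℝ) (𝕜' := ℂ) r
    (J_hasDerivAt (a := a + k) (c := c) hk (zr_re_pos hr)) (zr_hasDerivAt r)
  refine (h1.mul h2).congr_deriv ?_
  unfold T
  simp only [Function.comp_apply]
  rw [show a + (k : ℂ) + 1 = a + ((k + 1 : ℕ) : ℂ) by push_cast; ring]
  ring

theorem T_iteratedDeriv_succ {a c : ℂ} (ha : 0 < a.re) (m p k : ℕ) {r : ℝ} (hr : 0 < r) :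
    iteratedDeriv (m + 1) (T a c p k) r =
      (p : ℂ) * iteratedDeriv m (T a c (p - 1) k) r
        + (-(1 / 2)) * iteratedDeriv m (T a c (p + 1) (k + 1)) r := by
  rw [iteratedDeriv_succ']
  have he : deriv (T a c p k) =ᶠ[𝓝 r]
      fun r => (p : ℂ) * T a c (p - 1) k r + (-(1 / 2)) * T a c (p + 1) (k + 1) r := by
    filter_upwards [Ioi_mem_nhds hr] with s hs
    exact (T_hasDerivAt ha p k hs).deriv
  rw [he.iteratedDeriv_eq]
  have c1 : ContDiffAt ℝ m (fun r => (p : ℂ) * T a c (p - 1) k r) r :=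
    contDiffAt_const.mul (T_contDiffAt ha (p - 1) k hr _)
  have c2 : ContDiffAt ℝ m (fun r => (-(1 / 2) : ℂ) * T a c (p + 1) (k + 1) r) r :=
    contDiffAt_const.mul (T_contDiffAt ha (p + 1) (k + 1) hr _)
  have := iteratedDeriv_add c1 c2
  rw [show (fun r => (p : ℂ) * T a c (p - 1) k r + (-(1 / 2)) * T a c (p + 1) (k + 1) r) =
    (fun r => (p : ℂ) * T a c (p - 1) k r) + (fun r => (-(1 / 2) : ℂ) * T a c (p + 1) (k + 1) r)
    from rfl, this, iteratedDeriv_const_mul_field, iteratedDeriv_const_mul_field]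

/-- uniform bounds on all derivatives of the building blocks -/
theorem T_bound {x0 x1 r0 y : ℝ} (M : ℕ) (hx0 : 0 < x0) (hr0 : 0 < r0) (m : ℕ) :
    ∀ p k : ℕ, ∃ C : ℝ, 0 ≤ C ∧ ∀ a c : ℂ, x0 ≤ a.re → a.re ≤ x1 → c.re ≤ M → |c.im| ≤ y →
      ∀ r : ℝ, r0 ≤ r → ‖iteratedDeriv m (T a c p k) r‖ ≤ C * r ^ ((p : ℝ) - 2 * a.re - 2 * k - m) := by
  induction m with
  | zero =>
    intro p k
    obtain ⟨K, hK, hb⟩ := J_bound (x0 := x0 + k) (x1 := x1 + k) (r0 := r0 ^ 2 / 4) (y := y)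
      (cth := 1) M (by positivity) (by positivity) one_pos le_rfl
    refine ⟨K * 4 ^ (|x1| + k), by positivity, ?_⟩
    intro a c h0 h1 hc hy r hr
    have hr' : 0 < r := by linarith
    have e := hb (a + k) c (zr r) (by simp; linarith) (by simp; linarith) hc hy
      (by rw [norm_zr]; gcongr) (by rw [norm_zr, zr_re]; linarith)
    rw [norm_zr] at e
    have hre : (a + (k : ℂ)).re = a.re + k := by simp
    rw [hre] at e
    have e2 : (r ^ 2 / 4) ^ (-(a.re + k)) = 4 ^ (a.re + k) * r ^ (-2 * (a.re + k)) := by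
      rw [Real.div_rpow (by positivity) (by norm_num), Real.rpow_neg (by norm_num : (0:ℝ) ≤ 4),
        ← Real.rpow_natCast r 2, ← Real.rpow_mul hr'.le]
      push_cast
      field_simp
    have e3 : (4 : ℝ) ^ (a.re + k) ≤ 4 ^ (|x1| + k) :=
      Real.rpow_le_rpow_of_exponent_le (by norm_num) (by
        have := le_abs_self x1
        linarith)
    have hp : 0 ≤ r ^ (-2 * (a.re + k)) := Real.rpow_nonneg hr'.le _
    rw [iteratedDeriv_zero]
    unfold T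
    rw [norm_mul, norm_pow, Complex.norm_real, Real.norm_of_nonneg hr'.le]
    calc r ^ p * ‖J (a + k) c (zr r)‖
        ≤ r ^ p * (K * (4 ^ (|x1| + k) * r ^ (-2 * (a.re + k)))) := by
          gcongr
          refine e.trans ?_
          rw [e2]
          gcongr
      _ = K * 4 ^ (|x1| + k) * (r ^ p * r ^ (-2 * (a.re + k))) := by ring
      _ = _ := by
          rw [← Real.rpow_natCast r p, ← Real.rpow_add hr']
          congr 2
          push_cast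
          ring
  | succ m ih =>
    intro p k
    obtain ⟨C1, hC1, h1⟩ := ih (p - 1) k
    obtain ⟨C2, hC2, h2⟩ := ih (p + 1) (k + 1)
    refine ⟨p * C1 + 1 / 2 * C2, by positivity, ?_⟩
    intro a c h0 hx1 hc hy r hr
    have hr' : 0 < r := by linarith
    have ha : 0 < a.re := by linarith
    rw [T_iteratedDeriv_succ ha m p k hr']
    have b1 := h1 a c h0 hx1 hc hy r hr
    have b2 := h2 a c h0 hx1 hc hy r hr
    have e2 : (((p + 1 : ℕ) : ℝ) - 2 * a.re - 2 * ((k + 1 : ℕ) : ℝ) - m)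
        = ((p : ℝ) - 2 * a.re - 2 * k - ((m + 1 : ℕ) : ℝ)) := by
      push_cast; ring
    rw [e2] at b2
    have b1' : ‖(p : ℂ) * iteratedDeriv m (T a c (p - 1) k) r‖ ≤
        p * C1 * r ^ ((p : ℝ) - 2 * a.re - 2 * k - ((m + 1 : ℕ) : ℝ)) := by
      rcases p with _ | p
      · simp
      · rw [norm_mul, Complex.norm_natCast]
        have e1 : (((p + 1 - 1 : ℕ) : ℝ) - 2 * a.re - 2 * (k : ℝ) - m)
            = (((p + 1 : ℕ) : ℝ) - 2 * a.re - 2 * k - ((m + 1 : ℕ) : ℝ)) := by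
          simp only [Nat.add_sub_cancel]
          push_cast; ring
        rw [e1] at b1
        calc _ ≤ ((p + 1 : ℕ) : ℝ) * (C1 * r ^ (((p + 1 : ℕ) : ℝ) - 2 * a.re - 2 * k - ((m + 1 : ℕ) : ℝ))) := by
              gcongr
          _ = _ := by ring
    calc ‖(p : ℂ) * iteratedDeriv m (T a c (p - 1) k) r
          + (-(1 / 2)) * iteratedDeriv m (T a c (p + 1) (k + 1)) r‖
        ≤ ‖(p : ℂ) * iteratedDeriv m (T a c (p - 1) k) r‖
          + ‖(-(1 / 2) : ℂ) * iteratedDeriv m (T a c (p + 1) (k + 1)) r‖ := norm_add_le _ _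
      _ ≤ p * C1 * r ^ ((p : ℝ) - 2 * a.re - 2 * k - ((m + 1 : ℕ) : ℝ))
          + 1 / 2 * (C2 * r ^ ((p : ℝ) - 2 * a.re - 2 * k - ((m + 1 : ℕ) : ℝ))) := by
          refine add_le_add b1' ?_
          rw [norm_mul]
          have : ‖(-(1 / 2) : ℂ)‖ = 1 / 2 := by
            rw [norm_neg]; norm_num
          rw [this]
          gcongr
      _ = _ := by ring

theorem Phi_eq_T (l : ℕ) (mu : ℂ) : Phi l mu = fun r =>
    (mu + l / 2 + 1 - (l + 6)) * T (mu + l / 2 + 1) (l + 6 - (mu + l / 2) - 2) l 0 r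
    + (-(I / 4)) * T (mu + l / 2 + 1) (l + 6 - (mu + l / 2) - 2) (l + 2) 0 r
    + (1 / 4) * T (mu + l / 2 + 1) (l + 6 - (mu + l / 2) - 2) (l + 2) 1 r := by
  funext r
  unfold Phi T W
  rw [show mu + (l : ℂ) / 2 + 1 + ((1 : ℕ) : ℂ) = mu + l / 2 + 2 by push_cast; ring,
    show mu + (l : ℂ) / 2 + 1 + ((0 : ℕ) : ℂ) = mu + l / 2 + 1 by push_cast; ring]
  have hz : zr r = (r : ℂ) ^ 2 / 4 := zr_eq r
  set j1 := J (mu + l / 2 + 1) (l + 6 - (mu + l / 2) - 2) (zr r)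
  set j2 := J (mu + l / 2 + 2) (l + 6 - (mu + l / 2) - 2) (zr r)
  rw [hz]
  ring

theorem Phi_contDiffAt {l : ℕ} {mu : ℂ} (h : -1 - (l : ℝ) / 2 < mu.re) {r : ℝ} (hr : 0 < r)
    (n : WithTop ℕ∞) : ContDiffAt ℝ n (Phi l mu) r := by
  have ha : 0 < (mu + l / 2 + 1).re := by
    have := re_cond h
    simp only [Complex.add_re, Complex.one_re] at this ⊢
    linarith
  rw [Phi_eq_T]
  exact ((contDiffAt_const.mul (T_contDiffAt ha _ _ hr n)).add
    (contDiffAt_const.mul (T_contDiffAt ha _ _ hr n))).add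
    (contDiffAt_const.mul (T_contDiffAt ha _ _ hr n))


/-- All derivatives of `Phi`, uniformly for `mu` in compact sets. -/
theorem Phi_bound (l : ℕ) {x0 x1 r0 y : ℝ} (hx0 : -1 - (l : ℝ) / 2 < x0) (hr0 : 0 < r0) (m : ℕ) :
    ∃ C : ℝ, 0 ≤ C ∧ ∀ mu : ℂ, x0 ≤ mu.re → mu.re ≤ x1 → |mu.im| ≤ y →
      ∀ r : ℝ, r0 ≤ r → ‖iteratedDeriv m (Phi l mu) r‖ ≤ C * r ^ (-2 * mu.re - m) := by
  obtain ⟨M, hM⟩ := exists_nat_ge ((l : ℝ) / 2 + 4 - x0)
  have q0 : 0 < x0 + (l : ℝ) / 2 + 1 := by linarith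
  obtain ⟨C1, hC1, h1⟩ := T_bound (x0 := x0 + (l : ℝ) / 2 + 1) (x1 := x1 + (l : ℝ) / 2 + 1)
    (r0 := r0) (y := y) M q0 hr0 m l 0
  obtain ⟨C2, hC2, h2⟩ := T_bound (x0 := x0 + (l : ℝ) / 2 + 1) (x1 := x1 + (l : ℝ) / 2 + 1)
    (r0 := r0) (y := y) M q0 hr0 m (l + 2) 0
  obtain ⟨C3, hC3, h3⟩ := T_bound (x0 := x0 + (l : ℝ) / 2 + 1) (x1 := x1 + (l : ℝ) / 2 + 1)
    (r0 := r0) (y := y) M q0 hr0 m (l + 2) 1
  set A : ℝ := |x0| + |x1| + |y| + (l : ℝ) + 6 with hA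
  refine ⟨A * C1 * r0 ^ (-2 : ℝ) + 1 / 4 * C2 + 1 / 4 * C3 * r0 ^ (-2 : ℝ), by positivity, ?_⟩
  intro mu g0 g1 gy r hr
  have hr' : 0 < r := by linarith
  have hl2 : ((l : ℂ) / 2).re = (l : ℝ) / 2 := by
    rw [show ((l : ℂ) / 2) = (((l : ℝ) / 2 : ℝ) : ℂ) by push_cast; ring]
    exact Complex.ofReal_re _
  have hl2i : ((l : ℂ) / 2).im = 0 := by
    rw [show ((l : ℂ) / 2) = (((l : ℝ) / 2 : ℝ) : ℂ) by push_cast; ring]
    exact Complex.ofReal_im _
  have hre : (mu + l / 2 + 1).re = mu.re + (l : ℝ) / 2 + 1 := by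
    simp only [Complex.add_re, Complex.one_re, hl2]
  have ha : 0 < (mu + l / 2 + 1).re := by rw [hre]; linarith
  have hcre : ((l : ℂ) + 6 - (mu + l / 2) - 2).re = (l : ℝ) / 2 + 4 - mu.re := by
    simp only [Complex.add_re, Complex.sub_re, Complex.natCast_re, hl2]
    norm_num
    ring
  have hcim : ((l : ℂ) + 6 - (mu + l / 2) - 2).im = -mu.im := by
    simp only [Complex.add_im, Complex.sub_im, Complex.natCast_im, hl2i]
    norm_num
  have hc1 : ((l : ℂ) + 6 - (mu + l / 2) - 2).re ≤ M := by rw [hcre]; linarith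
  have hc2 : |((l : ℂ) + 6 - (mu + l / 2) - 2).im| ≤ y := by rw [hcim, abs_neg]; exact gy
  have b1 := h1 (mu + l / 2 + 1) (l + 6 - (mu + l / 2) - 2) (by rw [hre]; linarith)
    (by rw [hre]; linarith) hc1 hc2 r hr
  have b2 := h2 (mu + l / 2 + 1) (l + 6 - (mu + l / 2) - 2) (by rw [hre]; linarith)
    (by rw [hre]; linarith) hc1 hc2 r hr
  have b3 := h3 (mu + l / 2 + 1) (l + 6 - (mu + l / 2) - 2) (by rw [hre]; linarith)
    (by rw [hre]; linarith) hc1 hc2 r hr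
  rw [hre] at b1 b2 b3
  have s1 : (l : ℝ) - 2 * (mu.re + (l : ℝ) / 2 + 1) - 2 * ((0 : ℕ) : ℝ) - m
      = (-2 * mu.re - m) + (-2) := by push_cast; ring
  have s2 : ((l + 2 : ℕ) : ℝ) - 2 * (mu.re + (l : ℝ) / 2 + 1) - 2 * ((0 : ℕ) : ℝ) - m
      = (-2 * mu.re - m) := by push_cast; ring
  have s3 : ((l + 2 : ℕ) : ℝ) - 2 * (mu.re + (l : ℝ) / 2 + 1) - 2 * ((1 : ℕ) : ℝ) - m
      = (-2 * mu.re - m) + (-2) := by push_cast; ring
  rw [s1, Real.rpow_add hr'] at b1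
  rw [s2] at b2
  rw [s3, Real.rpow_add hr'] at b3
  have hrr : r ^ (-2 : ℝ) ≤ r0 ^ (-2 : ℝ) := Real.rpow_le_rpow_of_nonpos hr0 hr (by norm_num)
  set P : ℝ := r ^ (-2 * mu.re - (m : ℝ)) with hP
  have hP0 : 0 ≤ P := Real.rpow_nonneg hr'.le _
  have t1 := T_contDiffAt (a := mu + l / 2 + 1) (c := l + 6 - (mu + l / 2) - 2) ha l 0 hr' (m : WithTop ℕ∞)
  have t2 := T_contDiffAt (a := mu + l / 2 + 1) (c := l + 6 - (mu + l / 2) - 2) ha (l + 2) 0 hr' (m : WithTop ℕ∞)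
  have t3 := T_contDiffAt (a := mu + l / 2 + 1) (c := l + 6 - (mu + l / 2) - 2) ha (l + 2) 1 hr' (m : WithTop ℕ∞)
  have key : iteratedDeriv m (Phi l mu) r =
      (mu + l / 2 + 1 - (l + 6)) * iteratedDeriv m (T (mu + l / 2 + 1) (l + 6 - (mu + l / 2) - 2) l 0) r
      + (-(I / 4)) * iteratedDeriv m (T (mu + l / 2 + 1) (l + 6 - (mu + l / 2) - 2) (l + 2) 0) r
      + (1 / 4) * iteratedDeriv m (T (mu + l / 2 + 1) (l + 6 - (mu + l / 2) - 2) (l + 2) 1) r := by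
    rw [Phi_eq_T]
    have u1 : ContDiffAt ℝ m (fun r => (mu + l / 2 + 1 - (l + 6)) *
      T (mu + l / 2 + 1) (l + 6 - (mu + l / 2) - 2) l 0 r) r := contDiffAt_const.mul t1
    have u2 : ContDiffAt ℝ m (fun r => (-(I / 4)) *
      T (mu + l / 2 + 1) (l + 6 - (mu + l / 2) - 2) (l + 2) 0 r) r := contDiffAt_const.mul t2
    have u3 : ContDiffAt ℝ m (fun r => (1 / 4 : ℂ) *
      T (mu + l / 2 + 1) (l + 6 - (mu + l / 2) - 2) (l + 2) 1 r) r := contDiffAt_const.mul t3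
    have v2 := iteratedDeriv_add u1 u2
    rw [iteratedDeriv_const_mul_field, iteratedDeriv_const_mul_field] at v2
    have v3 := iteratedDeriv_const_mul_field (n := m) (1 / 4 : ℂ)
      (T (mu + l / 2 + 1) (l + 6 - (mu + l / 2) - 2) (l + 2) 1) (x := r)
    rw [← v2, ← v3]
    exact iteratedDeriv_add (u1.add u2) u3
  have hA1 : ‖mu + l / 2 + 1 - (l + 6)‖ ≤ A := by
    have e : mu + (l : ℂ) / 2 + 1 - (l + 6) = mu - (((l : ℝ) / 2 + 5 : ℝ) : ℂ) := by
      push_cast; ring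
    rw [e]
    have n1 : ‖mu‖ ≤ |mu.re| + |mu.im| := Complex.norm_le_abs_re_add_abs_im mu
    have n2 : ‖((((l : ℝ) / 2 + 5 : ℝ)) : ℂ)‖ = (l : ℝ) / 2 + 5 := by
      rw [Complex.norm_real, Real.norm_of_nonneg (by positivity)]
    have n3 : |mu.re| ≤ |x0| + |x1| := by
      rw [abs_le]
      constructor
      · have := neg_abs_le x0; have := abs_nonneg x1; linarith
      · have := le_abs_self x1; have := abs_nonneg x0; linarith
    have n4 : |mu.im| ≤ |y| := gy.trans (le_abs_self y)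
    have := norm_sub_le mu ((((l : ℝ) / 2 + 5 : ℝ)) : ℂ)
    have : (0 : ℝ) ≤ l := Nat.cast_nonneg l
    linarith
  rw [key]
  calc _ ≤ ‖(mu + l / 2 + 1 - (l + 6)) * iteratedDeriv m (T (mu + l / 2 + 1) (l + 6 - (mu + l / 2) - 2) l 0) r‖
      + ‖(-(I / 4)) * iteratedDeriv m (T (mu + l / 2 + 1) (l + 6 - (mu + l / 2) - 2) (l + 2) 0) r‖
      + ‖(1 / 4 : ℂ) * iteratedDeriv m (T (mu + l / 2 + 1) (l + 6 - (mu + l / 2) - 2) (l + 2) 1) r‖ :=
        norm_add₃_le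
    _ ≤ A * (C1 * (P * r ^ (-2 : ℝ))) + 1 / 4 * (C2 * P) + 1 / 4 * (C3 * (P * r ^ (-2 : ℝ))) := by
        rw [norm_mul, norm_mul, norm_mul]
        have i1 : ‖(-(I / 4) : ℂ)‖ = 1 / 4 := by
          rw [norm_neg, norm_div, Complex.norm_I]; norm_num
        have i2 : ‖(1 / 4 : ℂ)‖ = 1 / 4 := by norm_num
        rw [i1, i2]
        gcongr
    _ ≤ A * (C1 * (P * r0 ^ (-2 : ℝ))) + 1 / 4 * (C2 * P) + 1 / 4 * (C3 * (P * r0 ^ (-2 : ℝ))) := by
        gcongr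
    _ = _ := by ring

/-! ### Dependence on `mu`, asymptotics, non-vanishing at infinity -/

theorem Phi_differentiableAt_mu {l : ℕ} {mu : ℂ} (h : -1 - (l : ℝ) / 2 < mu.re) {r : ℝ}
    (hr : 0 < r) : DifferentiableAt ℂ (fun mu => Phi l mu r) mu := by
  unfold Phi
  have := W_differentiableAt (f := fun mu => mu + l / 2) (g := fun _ => (l : ℂ) + 6)
    (h := fun _ => zr r) (w := mu) (by fun_prop) (by fun_prop) (by fun_prop) (re_cond h)
    (zr_re_pos hr)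
  fun_prop

theorem Phi1_differentiableAt_mu {l : ℕ} {mu : ℂ} (h : -1 - (l : ℝ) / 2 < mu.re) {r : ℝ}
    (hr : 0 < r) : DifferentiableAt ℂ (fun mu => Phi1 l mu r) mu := by
  unfold Phi1
  have h1 := W_differentiableAt (f := fun mu => mu + l / 2) (g := fun _ => (l : ℂ) + 6)
    (h := fun _ => zr r) (w := mu) (by fun_prop) (by fun_prop) (by fun_prop) (re_cond h)
    (zr_re_pos hr)
  have h2 := W1_differentiableAt (f := fun mu => mu + l / 2) (g := fun _ => (l : ℂ) + 6)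
    (h := fun _ => zr r) (w := mu) (by fun_prop) (by fun_prop) (by fun_prop) (re_cond h)
    (zr_re_pos hr)
  fun_prop

/-- joint continuity in `(mu, r)` -/
theorem Phi_continuousAt {l : ℕ} {p : ℂ × ℝ} (h : -1 - (l : ℝ) / 2 < p.1.re) (hr : 0 < p.2) :
    ContinuousAt (fun p : ℂ × ℝ => Phi l p.1 p.2) p := by
  unfold Phi
  have hz : Continuous zr := (zr_contDiff 0).continuous
  have hk : ContinuousAt (fun p : ℂ × ℝ => ((p.1 + l / 2, (l : ℂ) + 6, zr p.2) : ℂ × ℂ × ℂ)) p := by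
    fun_prop
  have hW : ContinuousAt (fun p : ℂ × ℝ => W (p.1 + l / 2) (l + 6) (zr p.2)) p :=
    ContinuousAt.comp (f := fun p : ℂ × ℝ => ((p.1 + l / 2, (l : ℂ) + 6, zr p.2) : ℂ × ℂ × ℂ))
      (W_continuousAt (p := (p.1 + l / 2, (l : ℂ) + 6, zr p.2)) (re_cond h) (zr_re_pos hr)) hk
  fun_prop

theorem Phi1_continuousAt {l : ℕ} {p : ℂ × ℝ} (h : -1 - (l : ℝ) / 2 < p.1.re) (hr : 0 < p.2) :
    ContinuousAt (fun p : ℂ × ℝ => Phi1 l p.1 p.2) p := by
  unfold Phi1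
  have hz : Continuous zr := (zr_contDiff 0).continuous
  have hk : ContinuousAt (fun p : ℂ × ℝ => ((p.1 + l / 2, (l : ℂ) + 6, zr p.2) : ℂ × ℂ × ℂ)) p := by
    fun_prop
  have hW : ContinuousAt (fun p : ℂ × ℝ => W (p.1 + l / 2) (l + 6) (zr p.2)) p :=
    ContinuousAt.comp (f := fun p : ℂ × ℝ => ((p.1 + l / 2, (l : ℂ) + 6, zr p.2) : ℂ × ℂ × ℂ))
      (W_continuousAt (p := (p.1 + l / 2, (l : ℂ) + 6, zr p.2)) (re_cond h) (zr_re_pos hr)) hk
  have hW1 : ContinuousAt (fun p : ℂ × ℝ => W1 (p.1 + l / 2) (l + 6) (zr p.2)) p :=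
    ContinuousAt.comp (f := fun p : ℂ × ℝ => ((p.1 + l / 2, (l : ℂ) + 6, zr p.2) : ℂ × ℂ × ℂ))
      (W1_continuousAt (p := (p.1 + l / 2, (l : ℂ) + 6, zr p.2)) (re_cond h) (zr_re_pos hr)) hk
  have hr' : (p.2 : ℂ) ≠ 0 := by exact_mod_cast hr.ne'
  have hd : ContinuousAt (fun p : ℂ × ℝ => (l : ℂ) / (p.2 : ℂ)) p :=
    ContinuousAt.div (by fun_prop) (by fun_prop) hr'
  fun_prop

/-- `(r²/4)^a W → -i Γ(a+1) ≠ 0`, hence `Phi ≠ 0` near infinity. -/
theorem Phi_eventually_ne_zero {l : ℕ} {mu : ℂ} (h : -1 - (l : ℝ) / 2 < mu.re) :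
    ∀ᶠ r in atTop, Phi l mu r ≠ 0 := by
  have hc := re_cond h
  obtain ⟨K, hK, hb⟩ := W_asymp (x0 := (mu + (l : ℂ) / 2).re) (x1 := (mu + (l : ℂ) / 2).re)
    (r0 := 1) (y := |(mu + (l : ℂ) / 2).im| + ((l : ℝ) + 6)) (cth := 1) hc one_pos one_pos le_rfl
  have hG : Gamma (mu + (l : ℂ) / 2 + 1) ≠ 0 := by
    apply Complex.Gamma_ne_zero_of_re_pos
    simp only [Complex.add_re, Complex.one_re] at hc ⊢
    linarith
  have hpos : 0 < ‖Gamma (mu + (l : ℂ) / 2 + 1)‖ := norm_pos_iff.mpr hG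
  have hlim : Tendsto (fun r : ℝ => K / (r ^ 2 / 4)) atTop (𝓝 0) := by
    apply Filter.Tendsto.const_div_atTop
    exact (tendsto_pow_atTop (by norm_num)).atTop_div_const (by norm_num)
  filter_upwards [hlim.eventually (gt_mem_nhds hpos), eventually_ge_atTop (2 : ℝ)] with r h1 h2 h0
  have hr : 0 < r := by linarith
  have hWz : W (mu + l / 2) (l + 6) (zr r) = 0 := by
    unfold Phi at h0
    have : (r : ℂ) ^ l ≠ 0 := pow_ne_zero _ (by exact_mod_cast hr.ne')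
    exact (mul_eq_zero.mp h0).resolve_left this
  have := hb (mu + l / 2) (l + 6) (zr r) le_rfl le_rfl (by
      have : (0 : ℝ) ≤ (l : ℝ) + 6 := by positivity
      linarith)
    (by
      have e : ‖((l : ℂ) + 6)‖ = (l : ℝ) + 6 := by
        rw [show ((l : ℂ) + 6) = (((l : ℝ) + 6 : ℝ) : ℂ) by push_cast; ring, Complex.norm_real,
          Real.norm_of_nonneg (by positivity)]
      rw [e]
      have := abs_nonneg (mu + (l : ℂ) / 2).im
      linarith)
    (by rw [norm_zr]; nlinarith) (by rw [norm_zr, zr_re]; linarith)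
  rw [hWz, mul_zero, zero_add, norm_mul, Complex.norm_I, one_mul, norm_zr] at this
  linarith

end Crest.Agent.R086.JCx
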