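import Mathlib
import Crest.Agent.R086.Phi
import Crest.Agent.R086.BExtDefs

/-!
Row 86 (helper444): the linear outgoing family of Part A in the form wanted by Part B (`B.OutFam`).
-/

set_option autoImplicit false

open MeasureTheory Complex Set Filter Topology

namespace Crest.Agent.R086.JCx

/-- `Uo om r = Phi 0 (-i om) r` -/
noncomputable def Uo (om r : ℝ) : ℂ := Phi 0 (-(I * om)) r
noncomputable def Uo1 (om r : ℝ) : ℂ := Phi1 0 (-(I * om)) r

theorem re_om (om : ℝ) : -1 - (((0 : ℕ) : ℝ)) / 2 < (-(I * (om : ℂ))).re := by simp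

theorem isLin_Uo (om : ℝ) : B.IsLin om (Uo om) (Uo1 om) (Ioi 0) := by
  intro r hr
  refine ⟨Phi_hasDerivAt (re_om om) hr, ?_⟩
  refine (Phi1_hasDerivAt (re_om om) hr).congr_deriv ?_
  unfold Uo Uo1
  have hI : I * I = -1 := Complex.I_mul_I
  push_cast
  linear_combination (om * Phi 0 (-(I * om)) r) * hI

theorem Uo_continuousOn (s : Set ℝ) :
    ContinuousOn (fun p : ℝ × ℝ => Uo p.1 p.2) (s ×ˢ Ioi 0) := by
  intro p hp
  apply ContinuousAt.continuousWithinAt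
  have hk : ContinuousAt (fun p : ℝ × ℝ => ((-(I * (p.1 : ℂ)), p.2) : ℂ × ℝ)) p := by fun_prop
  exact ContinuousAt.comp (f := fun p : ℝ × ℝ => ((-(I * (p.1 : ℂ)), p.2) : ℂ × ℝ))
    (Phi_continuousAt (l := 0) (p := (-(I * (p.1 : ℂ)), p.2)) (re_om p.1) hp.2) hk

theorem Uo1_continuousOn (s : Set ℝ) :
    ContinuousOn (fun p : ℝ × ℝ => Uo1 p.1 p.2) (s ×ˢ Ioi 0) := by
  intro p hp
  apply ContinuousAt.continuousWithinAt
  have hk : ContinuousAt (fun p : ℝ × ℝ => ((-(I * (p.1 : ℂ)), p.2) : ℂ × ℝ)) p := by fun_prop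
  exact ContinuousAt.comp (f := fun p : ℝ × ℝ => ((-(I * (p.1 : ℂ)), p.2) : ℂ × ℝ))
    (Phi1_continuousAt (l := 0) (p := (-(I * (p.1 : ℂ)), p.2)) (re_om p.1) hp.2) hk

theorem outFam : B.OutFam Uo Uo1 where
  lin := fun om _ => isLin_Uo om
  cont := Uo_continuousOn _
  cont1 := Uo1_continuousOn _

/-- `Uo om r = W(-i om, 6, r²/4)` -/
theorem Uo_eq (om r : ℝ) : Uo om r = W (-(I * om)) 6 (zr r) := by
  unfold Uo Phi
  simp


end Crest.Agent.R086.JCx
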