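import Crest.Agent.R086.BExtDefs
import Crest.Agent.R086.OutFam

-- ▼ part R086/BExtA
section

set_option autoImplicit false

open Complex Set Filter Topology
open scoped ContDiff

namespace Crest.Agent.R086.BExt
open Crest.Agent.R086.B

/-! ### from `x` to `r` -/

theorem hasDerivAt_sq (r : ℝ) : HasDerivAt (fun r : ℝ => r ^ 2 / 4) (r / 2) r := by
  have := (hasDerivAt_pow 2 r).div_const 4
  refine this.congr_deriv ?_
  rw [show (2 : ℕ) - 1 = 1 by norm_num, pow_one]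
  push_cast
  ring

/-- `v r = V (r^2/4)` -/
noncomputable def up (V : ℝ → ℂ) (r : ℝ) : ℂ := V (r ^ 2 / 4)
/-- `v1 r = (r/2) V1 (r^2/4)` -/
noncomputable def up1 (V1 : ℝ → ℂ) (r : ℝ) : ℂ := ((r / 2 : ℝ) : ℂ) * V1 (r ^ 2 / 4)

theorem up_hasDerivAt {V V1 : ℝ → ℂ} {r : ℝ} (h : HasDerivAt V (V1 (r ^ 2 / 4)) (r ^ 2 / 4)) :
    HasDerivAt (up V) (up1 V1 r) r := by
  have := HasDerivAt.scomp r h (hasDerivAt_sq r)
  rw [Complex.real_smul] at this
  exact this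

theorem isSol_up {n : ℕ} {om eps : ℝ} {V V1 : ℝ → ℂ} {s : ℝ} (hs : 0 ≤ s)
    (h : IsSolX n om eps V V1 (Ioi s)) :
    IsSol n om eps (up V) (up1 V1) (Ioi (2 * Real.sqrt s)) := by
  intro r hr
  have hr' : 2 * Real.sqrt s < r := hr
  have hr0 : 0 < r := lt_of_le_of_lt (by positivity) hr'
  have hx : s < r ^ 2 / 4 := by
    have h1 := Real.sq_sqrt hs
    have h2 : (2 * Real.sqrt s) ^ 2 < r ^ 2 := by
      apply pow_lt_pow_left₀ hr' (by positivity) (by norm_num)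
    nlinarith
  obtain ⟨h1, h2⟩ := h _ hx
  refine ⟨up_hasDerivAt h1, ?_⟩
  have h3 : HasDerivAt (fun r : ℝ => ((r / 2 : ℝ) : ℂ)) ((1 / 2 : ℝ) : ℂ) r := by
    have : HasDerivAt (fun r : ℝ => r / 2) (1 / 2) r := (hasDerivAt_id r).div_const 2
    exact this.ofReal_comp
  have h4 := HasDerivAt.scomp r h2 (hasDerivAt_sq r)
  have h5 := h3.mul h4
  unfold up up1
  refine h5.congr_deriv ?_
  rw [Complex.real_smul]
  have hrc : (r : ℂ) ≠ 0 := by exact_mod_cast hr0.ne'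
  simp only [Function.comp_apply]
  push_cast
  field_simp
  ring

theorem toX_up (V : ℝ → ℂ) {x : ℝ} (hx : 0 ≤ x) : toX (up V) x = V x := by
  unfold toX up
  rw [mul_pow, Real.sq_sqrt hx]
  norm_num

/-! ### monotonicity and congruence of `FarGood` -/

theorem SymX.mono {C C' : ℕ → ℝ} {del X X' : ℝ} {w : ℝ → ℂ} (h : SymX C del X w) (hX : X ≤ X')
    (hX0 : 0 ≤ X') (hC : ∀ j, C j ≤ C' j) : SymX C' del X' w := by
  refine ⟨h.1.mono (Ioi_subset_Ioi hX), fun j x hx => (h.2 j x (lt_of_le_of_lt hX hx)).trans ?_⟩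
  exact mul_le_mul_of_nonneg_right (hC j) (Real.rpow_nonneg (hX0.trans hx.le) _)

theorem SymX.congr {C : ℕ → ℝ} {del X : ℝ} {w w' : ℝ → ℂ} (h : SymX C del X w)
    (he : ∀ x, X < x → w' x = w x) : SymX C del X w' := by
  refine ⟨h.1.congr fun x hx => he x hx, fun j x hx => ?_⟩
  have : w' =ᶠ[𝓝 x] w := by
    filter_upwards [Ioi_mem_nhds hx] with y hy using he y hy
  rw [this.iteratedDeriv_eq]
  exact h.2 j x hx

theorem SymX.nonneg {C : ℕ → ℝ} {del X : ℝ} {w : ℝ → ℂ} (h : SymX C del X w) (hX0 : 0 ≤ X) (j : ℕ) :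
    0 ≤ C j := by
  have h1 := h.2 j (X + 1) (by linarith)
  have h2 : 0 < (X + 1) ^ (-del - j : ℝ) := Real.rpow_pos_of_pos (by linarith) _
  have h3 : 0 ≤ C j * (X + 1) ^ (-del - j : ℝ) := (norm_nonneg _).trans h1
  by_contra hneg
  push Not at hneg
  nlinarith [mul_neg_of_neg_of_pos hneg h2]

theorem FarGood.congr {n : ℕ} {q c X : ℝ} {C : ℕ → ℝ} {V V' : ℝ → ℂ} (h : FarGood n q c X C V)
    (he : ∀ x, X < x → V' x = V x) : FarGood n q c X C V' := by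
  refine ⟨SymX.congr h.sym he, fun x hx => ?_, fun x hx => ?_, SymX.congr h.symA fun x hx => ?_,
    SymX.congr h.symB fun x hx => ?_, SymX.congr h.symC fun x hx => ?_⟩
  · rw [he x hx]; exact h.lower x hx
  · rw [he x hx]; exact h.upper x hx
  · unfold wA; rw [he x hx]
  · unfold wB; rw [he x hx]
  · unfold wC; rw [he x hx]

theorem FarGood.mono {n : ℕ} {q q' c X X' : ℝ} {C : ℕ → ℝ} {V : ℝ → ℂ} (h : FarGood n q c X C V)
    (hq0 : 0 < q) (hq : q ≤ q') (hX0 : 0 ≤ X) (hX : X ≤ X') : FarGood n q' c X' C V := by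
  have hX' : 0 ≤ X' := hX0.trans hX
  have hC : ∀ j, 0 ≤ C j := SymX.nonneg h.sym hX0
  have hm : ∀ j, C j * q ^ n ≤ C j * q' ^ n := fun j =>
    mul_le_mul_of_nonneg_left (pow_le_pow_left₀ hq0.le hq n) (hC j)
  exact ⟨SymX.mono h.sym hX hX' fun _ => le_rfl, fun x hx => h.lower x (lt_of_le_of_lt hX hx),
    fun x hx => (h.upper x (lt_of_le_of_lt hX hx)).trans hq, SymX.mono h.symA hX hX' hm,
    SymX.mono h.symB hX hX' hm, SymX.mono h.symC hX hX' hm⟩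

/-! ### gluing at `r0` -/

theorem glue_hasDerivAt {f g : ℝ → ℂ} {r0 : ℝ} {d : ℂ} (hf : HasDerivAt f d r0)
    (hg : HasDerivAt g d r0) (h0 : f r0 = g r0) :
    HasDerivAt (fun r => if r ≤ r0 then f r else g r) d r0 := by
  have h1 : HasDerivWithinAt (fun r => if r ≤ r0 then f r else g r) d (Iic r0) r0 :=
    hf.hasDerivWithinAt.congr (fun x hx => if_pos hx) (if_pos le_rfl)
  have h2 : HasDerivWithinAt (fun r => if r ≤ r0 then f r else g r) d (Ici r0) r0 := by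
    refine hg.hasDerivWithinAt.congr (fun x hx => ?_) ?_
    · have hx' : r0 ≤ x := hx
      rcases eq_or_lt_of_le hx' with h | h
      · subst h; simp [h0]
      · exact if_neg (not_le.2 h)
    · simp [h0]
  have h3 := h1.union h2
  rw [Iic_union_Ici] at h3
  exact hasDerivWithinAt_univ.1 h3

theorem glue_isSol {n : ℕ} {om eps r0 rho : ℝ} {v v1 w w1 : ℝ → ℂ}
    (hv : IsSol n om eps v v1 (Icc rho r0)) (hw : IsSol n om eps w w1 (Ici r0))
    (h0 : v r0 = w r0) (h1 : v1 r0 = w1 r0) (hr : rho ≤ r0) :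
    IsSol n om eps (fun r => if r ≤ r0 then v r else w r)
      (fun r => if r ≤ r0 then v1 r else w1 r) (Ici rho) := by
  intro r hr'
  rcases lt_trichotomy r r0 with h | h | h
  · obtain ⟨a1, a2⟩ := hv r ⟨hr', h.le⟩
    have e1 : (fun r => if r ≤ r0 then v r else w r) =ᶠ[𝓝 r] v := by
      filter_upwards [Iio_mem_nhds h] with y hy using if_pos (le_of_lt hy)
    have e2 : (fun r => if r ≤ r0 then v1 r else w1 r) =ᶠ[𝓝 r] v1 := by
      filter_upwards [Iio_mem_nhds h] with y hy using if_pos (le_of_lt hy)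
    refine ⟨?_, ?_⟩
    · simp only [if_pos h.le]; exact a1.congr_of_eventuallyEq e1
    · simp only [if_pos h.le]; exact a2.congr_of_eventuallyEq e2
  · subst h
    obtain ⟨a1, a2⟩ := hv r ⟨hr', le_rfl⟩
    obtain ⟨b1, b2⟩ := hw r self_mem_Ici
    refine ⟨?_, ?_⟩
    · simp only [if_pos le_rfl]
      exact glue_hasDerivAt a1 (by rw [h1]; exact b1) h0
    · simp only [if_pos le_rfl]
      exact glue_hasDerivAt a2 (by rw [h1, h0]; exact b2) h1
  · obtain ⟨a1, a2⟩ := hw r h.le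
    have e1 : (fun r => if r ≤ r0 then v r else w r) =ᶠ[𝓝 r] w := by
      filter_upwards [Ioi_mem_nhds h] with y hy using if_neg (not_le.2 hy)
    have e2 : (fun r => if r ≤ r0 then v1 r else w1 r) =ᶠ[𝓝 r] w1 := by
      filter_upwards [Ioi_mem_nhds h] with y hy using if_neg (not_le.2 hy)
    refine ⟨?_, ?_⟩
    · simp only [if_neg (not_le.2 h)]; exact a1.congr_of_eventuallyEq e1
    · simp only [if_neg (not_le.2 h)]; exact a2.congr_of_eventuallyEq e2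

end Crest.Agent.R086.BExt
end

-- ▼ part R086/BExtW
section

set_option autoImplicit false

open Complex Set Filter Topology
open scoped ContDiff

namespace Crest.Agent.R086.BExt
open Crest.Agent.R086.B
open Crest.Agent.R086.JCx

theorem W_growth (om : ℝ) : ∃ K : ℝ, ∀ z : ℂ, 1 ≤ z.re →
    ‖W (-(I * om)) 6 z‖ ≤ K * (1 + ‖z‖) ^ 1 ∧ ‖W1 (-(I * om)) 6 z‖ ≤ K * (1 + ‖z‖) ^ 1 := by
  obtain ⟨B, hB0, hB⟩ : ∃ B : ℝ, 0 ≤ B ∧ ∀ (a c z : ℂ), (a.re = 1 ∨ a.re = 2) →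
      c.re ≤ 5 → |c.im| ≤ |om| → 1 ≤ z.re → ‖J a c z‖ ≤ B := by
    refine ⟨Real.exp (Real.pi * |om|) * KM 1 2 5 1, ?_, ?_⟩
    · exact mul_nonneg (Real.exp_pos _).le (KM_nonneg _ _ _ one_pos)
    · intro a c z ha hc hci hz
      have h1 : (1 : ℝ) ≤ a.re := by rcases ha with h | h <;> rw [h] <;> norm_num
      have h2 : a.re ≤ (2 : ℝ) := by rcases ha with h | h <;> rw [h] <;> norm_num
      have := J_bound_re (a := a) (c := c) (z := z) 5 one_pos h1 h2 one_pos hz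
        (by exact_mod_cast hc) hci
      refine this.trans ?_
      have h3 : z.re ^ (-a.re) ≤ 1 := Real.rpow_le_one_of_one_le_of_nonpos hz (by linarith)
      have h4 : 0 ≤ Real.exp (Real.pi * |om|) * KM 1 2 5 1 :=
        mul_nonneg (Real.exp_pos _).le (KM_nonneg _ _ _ one_pos)
      exact mul_le_of_le_one_right h4 h3
  refine ⟨(7 + |om|) * B, fun z hz => ?_⟩
  have hz1 : 1 ≤ 1 + ‖z‖ := by linarith [norm_nonneg z]
  have h1 := hB (-(I * om) + 1) (6 - -(I * om) - 2) z (Or.inl (by simp)) (by simp; norm_num)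
    (by simp) hz
  have h2 := hB (-(I * om) + 2) (6 - -(I * om) - 2) z (Or.inr (by simp)) (by simp; norm_num)
    (by simp) hz
  have h3 := hB (-(I * om) + 1) (6 - -(I * om) - 1) z (Or.inl (by simp)) (by simp; norm_num)
    (by simp) hz
  have hom0 := abs_nonneg om
  rw [pow_one]
  constructor
  · unfold W
    have hA : ‖-(I * (om : ℂ)) + 1 - 6 - I * z‖ ≤ 5 + |om| + ‖z‖ := by
      have : -(I * (om : ℂ)) + 1 - 6 - I * z = -(I * (om : ℂ)) - 5 - I * z := by ring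
      rw [this]
      calc ‖-(I * (om : ℂ)) - 5 - I * z‖ ≤ ‖-(I * (om : ℂ))‖ + ‖(5 : ℂ)‖ + ‖I * z‖ :=
            (norm_sub_le _ _).trans (add_le_add (norm_sub_le _ _) le_rfl)
        _ = 5 + |om| + ‖z‖ := by
            rw [norm_neg, norm_mul, norm_mul, Complex.norm_I, Complex.norm_real, Real.norm_eq_abs]
            simp
            ring
    calc _ ≤ ‖-(I * (om : ℂ)) + 1 - 6 - I * z‖ * ‖J (-(I * om) + 1) (6 - -(I * om) - 2) z‖
          + ‖z‖ * ‖J (-(I * om) + 2) (6 - -(I * om) - 2) z‖ := by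
          refine (norm_add_le _ _).trans ?_
          rw [norm_mul, norm_mul]
      _ ≤ (5 + |om| + ‖z‖) * B + ‖z‖ * B := by gcongr
      _ ≤ (7 + |om|) * B * (1 + ‖z‖) := by
          have q1 := norm_nonneg z
          have q2 := mul_nonneg hB0 q1
          have q3 := mul_nonneg hom0 hB0
          have q4 := mul_nonneg q3 q1
          nlinarith
  · unfold W1
    calc _ ≤ |om| * B := by
          rw [norm_mul]
          have : ‖I * -(I * (om : ℂ))‖ = |om| := by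
            rw [norm_mul, norm_neg, norm_mul, Complex.norm_I, Complex.norm_real, Real.norm_eq_abs]
            ring
          rw [this]
          gcongr
      _ ≤ (7 + |om|) * B * (1 + ‖z‖) := by
          have q1 := norm_nonneg z
          have q2 := mul_nonneg hB0 q1
          have q3 := mul_nonneg hom0 hB0
          have q4 := mul_nonneg q3 q1
          nlinarith

theorem W_hol (om : ℝ) {z : ℂ} (hz : 0 < z.re) :
    HasDerivAt (W (-(I * om)) 6) (W1 (-(I * om)) 6 z) z ∧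
    HasDerivAt (W1 (-(I * om)) 6)
      ((-(6 + I * z) * W1 (-(I * om)) 6 z - (om : ℂ) * W (-(I * om)) 6 z) / z) z := by
  have ha : -1 < (-(I * (om : ℂ))).re := by simp
  refine ⟨W_hasDerivAt ha hz, (W1_hasDerivAt ha hz).congr_deriv ?_⟩
  have hz0 : z ≠ 0 := by
    intro h; rw [h] at hz; simp at hz
  have h := W_ode (a := -(I * (om : ℂ))) (b := 6) ha hz
  rw [eq_div_iff hz0]
  have hI : I * I = -1 := Complex.I_mul_I
  linear_combination h + ((om : ℂ) * W (-(I * om)) 6 z) * hI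

end Crest.Agent.R086.BExt
end

-- ▼ part R086/BExtM

set_option autoImplicit false

open Complex Set Filter Topology
open scoped NNReal ContDiff



namespace Crest.Agent.R086.BExt
open Crest.Agent.R086.B
open Crest.Agent.R086.JCx

theorem isLin_smul {om : ℝ} {V V1 : ℝ → ℂ} {s : Set ℝ} (h : IsLin om V V1 s) (c : ℂ) :
    IsLin om (fun r => c * V r) (fun r => c * V1 r) s := by
  intro r hr
  obtain ⟨h1, h2⟩ := h r hr
  refine ⟨h1.const_mul c, (h2.const_mul c).congr_deriv ?_⟩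
  ring

/-- identification of `Uo` with the far linear family -/
theorem ident {om s : ℝ} (hs : 1 ≤ s) {FL FL1 : ℝ → ℝ → ℂ}
    (hlin : IsLinX om (FL om) (FL1 om) (Ioi s))
    (huniq : ∀ G G1 : ℂ → ℂ,
      (∀ z : ℂ, s < z.re → HasDerivAt G (G1 z) z ∧
        HasDerivAt G1 ((-(6 + I * z) * G1 z - (om : ℂ) * G z) / z) z) →
      (∃ (K : ℝ) (m : ℕ), ∀ z : ℂ, s < z.re → ‖G z‖ ≤ K * (1 + ‖z‖) ^ m ∧ ‖G1 z‖ ≤ K * (1 + ‖z‖) ^ m) →
      ∃ k : ℂ, ∀ x : ℝ, s < x → G x = k * FL om x) :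
    ∃ k : ℂ, (∀ x, s < x → Uo om (2 * Real.sqrt x) = k * FL om x) ∧
      (∀ x, s < x → Uo1 om (2 * Real.sqrt x) = k * (((2 * Real.sqrt x / 2 : ℝ) : ℂ) * FL1 om x)) ∧
      (∀ r, 0 < r → s < r ^ 2 / 4 → Uo om r = k * FL om (r ^ 2 / 4) ∧
        Uo1 om r = k * (((r / 2 : ℝ) : ℂ) * FL1 om (r ^ 2 / 4))) := by
  obtain ⟨k, hk⟩ := huniq (W (-(I * om)) 6) (W1 (-(I * om)) 6)
    (fun z hz => W_hol om (by linarith))
    (by
      obtain ⟨K, hK⟩ := W_growth om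
      exact ⟨K, 1, fun z hz => hK z (by linarith)⟩)
  have hmain : ∀ r, 0 < r → s < r ^ 2 / 4 → Uo om r = k * FL om (r ^ 2 / 4) ∧
        Uo1 om r = k * (((r / 2 : ℝ) : ℂ) * FL1 om (r ^ 2 / 4)) := by
    have hU : ∀ r, s < r ^ 2 / 4 → Uo om r = k * FL om (r ^ 2 / 4) := by
      intro r hr
      rw [Uo_eq]
      exact hk (r ^ 2 / 4) hr
    intro r hr0 hr
    refine ⟨hU r hr, ?_⟩
    have h1 : HasDerivAt (Uo om) (Uo1 om r) r := (isLin_Uo om r hr0).1
    have h2 : HasDerivAt (fun r => k * up (FL om) r) (k * up1 (FL1 om) r) r :=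
      (up_hasDerivAt (hlin _ hr).1).const_mul k
    have hopen : ∀ᶠ y in 𝓝 r, s < y ^ 2 / 4 := by
      have : ContinuousAt (fun y : ℝ => y ^ 2 / 4) r := by fun_prop
      exact this.eventually (lt_mem_nhds hr)
    have he : Uo om =ᶠ[𝓝 r] (fun r => k * up (FL om) r) := by
      filter_upwards [hopen] with y hy using hU y hy
    exact h1.unique (h2.congr_of_eventuallyEq he)
  refine ⟨k, fun x hx => ?_, fun x hx => ?_, hmain⟩
  · have hx0 : 0 < x := by linarith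
    have e : (2 * Real.sqrt x) ^ 2 / 4 = x := by rw [mul_pow, Real.sq_sqrt hx0.le]; ring
    have := (hmain (2 * Real.sqrt x) (by positivity) (by rw [e]; exact hx)).1
    rwa [e] at this
  · have hx0 : 0 < x := by linarith
    have e : (2 * Real.sqrt x) ^ 2 / 4 = x := by rw [mul_pow, Real.sq_sqrt hx0.le]; ring
    have := (hmain (2 * Real.sqrt x) (by positivity) (by rw [e]; exact hx)).2
    rwa [e] at this


/-- choice of the parameter neighbourhood -/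
theorem exists_del {om0 rho r0 M0 kmin kmax : ℝ} {c0 : ℂ} (hom0 : om0 ∈ Ioo (1/5 : ℝ) (1/2))
    (hrho : 0 < rho) {F : ℝ → ℂ} (hF : ContinuousOn F (Icc (1/5 : ℝ) (1/2))) (hr0 : 0 < r0)
    (hF0 : F om0 ≠ 0)
    (hk1 : kmin < ‖c0 * (Uo om0 r0 / F om0)‖) (hk2 : ‖c0 * (Uo om0 r0 / F om0)‖ < kmax)
    (hM : ∀ r ∈ Icc rho r0, ‖c0 * Uo om0 r‖ < M0) :
    ∃ del : ℝ, 0 < del ∧ ∀ om : ℝ, |om - om0| ≤ del → ∀ c : ℂ, ‖c - c0‖ ≤ del →
      om ∈ Icc (1/5 : ℝ) (1/2) ∧ F om ≠ 0 ∧ kmin ≤ ‖c * (Uo om r0 / F om)‖ ∧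
      ‖c * (Uo om r0 / F om)‖ ≤ kmax ∧ ∀ r ∈ Icc rho r0, ‖c * Uo om r‖ ≤ M0 := by
  have hUc : ∀ (om r : ℝ), 0 < r → ContinuousAt (fun p : ℝ × ℝ => Uo p.1 p.2) (om, r) := by
    intro om r hr
    exact (Uo_continuousOn univ).continuousAt (prod_mem_nhds univ_mem (Ioi_mem_nhds hr))
  have hFc : ContinuousAt F om0 := hF.continuousAt (Icc_mem_nhds hom0.1 hom0.2)
  have e1 : ∀ᶠ p : ℝ × ℂ in 𝓝 (om0, c0), p.1 ∈ Icc (1/5 : ℝ) (1/2) := by
    have : ContinuousAt (fun p : ℝ × ℂ => p.1) (om0, c0) := continuousAt_fst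
    exact this.eventually (Icc_mem_nhds hom0.1 hom0.2)
  have hFp : ContinuousAt (fun p : ℝ × ℂ => F p.1) (om0, c0) :=
    ContinuousAt.comp (f := fun p : ℝ × ℂ => p.1) (g := F) hFc continuousAt_fst
  have hUp : ContinuousAt (fun p : ℝ × ℂ => Uo p.1 r0) (om0, c0) :=
    ContinuousAt.comp (f := fun p : ℝ × ℂ => (p.1, r0)) (g := fun p : ℝ × ℝ => Uo p.1 p.2)
      (hUc om0 r0 hr0) (by fun_prop)
  have e2 : ∀ᶠ p : ℝ × ℂ in 𝓝 (om0, c0), F p.1 ≠ 0 := hFp.eventually_ne hF0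
  have hkc : ContinuousAt (fun p : ℝ × ℂ => ‖p.2 * (Uo p.1 r0 / F p.1)‖) (om0, c0) :=
    (continuousAt_snd.mul (hUp.div hFp hF0)).norm
  have e3 : ∀ᶠ p : ℝ × ℂ in 𝓝 (om0, c0), kmin < ‖p.2 * (Uo p.1 r0 / F p.1)‖ :=
    hkc.eventually (lt_mem_nhds hk1)
  have e4 : ∀ᶠ p : ℝ × ℂ in 𝓝 (om0, c0), ‖p.2 * (Uo p.1 r0 / F p.1)‖ < kmax :=
    hkc.eventually (gt_mem_nhds hk2)
  have e5 : ∀ᶠ p : ℝ × ℂ in 𝓝 (om0, c0), ∀ r ∈ Icc rho r0, ‖p.2 * Uo p.1 r‖ < M0 := by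
    refine isCompact_Icc.eventually_forall_of_forall_eventually fun r hr => ?_
    have hr' : 0 < r := lt_of_lt_of_le hrho hr.1
    have hc : ContinuousAt (fun z : (ℝ × ℂ) × ℝ => ‖z.1.2 * Uo z.1.1 z.2‖) ((om0, c0), r) := by
      have h1 : ContinuousAt (fun z : (ℝ × ℂ) × ℝ => Uo z.1.1 z.2) ((om0, c0), r) :=
        ContinuousAt.comp (f := fun z : (ℝ × ℂ) × ℝ => (z.1.1, z.2))
          (g := fun p : ℝ × ℝ => Uo p.1 p.2) (hUc om0 r hr') (by fun_prop)
      exact (ContinuousAt.mul (by fun_prop) h1).norm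
    exact hc.eventually (gt_mem_nhds (hM r hr))
  have hall := ((((e1.and e2).and e3).and e4).and e5)
  obtain ⟨δ, hδ, hδ'⟩ := Metric.eventually_nhds_iff.1 hall
  refine ⟨δ / 2, by positivity, fun om hom c hc => ?_⟩
  have hd : dist ((om, c) : ℝ × ℂ) (om0, c0) < δ := by
    rw [Prod.dist_eq]
    refine max_lt ?_ ?_
    · rw [Real.dist_eq]; exact lt_of_le_of_lt hom (by linarith)
    · rw [dist_eq_norm]; exact lt_of_le_of_lt hc (by linarith)
  obtain ⟨⟨⟨⟨a1, a2⟩, a3⟩, a4⟩, a5⟩ := hδ' hd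
  exact ⟨a1, a2, a3.le, a4.le, fun r hr => (a5 r hr).le⟩

/-- the far amplitude at `om0` -/
theorem amp_bounds {om0 R rho s : ℝ} {c0 k0 : ℂ} (hR : 0 < R) (hRr : R ≤ rho)
    {F : ℝ → ℂ} (hF1 : Tendsto (fun x => ‖F x‖) atTop (𝓝 1))
    (hid : ∀ x, s < x → c0 * Uo om0 (2 * Real.sqrt x) = k0 * F x)
    (hanti : StrictAntiOn (fun r => ‖c0 * Uo om0 r‖) (Ici R))
    (hlow : ∀ r, R ≤ r → 3 / 5 ≤ ‖c0 * Uo om0 r‖) :
    3 / 5 ≤ ‖k0‖ ∧ ‖k0‖ ≤ ‖c0 * Uo om0 rho‖ := by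
  have hlim : Tendsto (fun x => ‖k0‖ * ‖F x‖) atTop (𝓝 ‖k0‖) := by
    simpa using hF1.const_mul ‖k0‖
  have hrho0 : 0 < rho := lt_of_lt_of_le hR hRr
  have hev : ∀ᶠ x : ℝ in atTop, rho ≤ 2 * Real.sqrt x ∧ s < x := by
    filter_upwards [eventually_ge_atTop (rho ^ 2), eventually_gt_atTop s] with x hx hx'
    refine ⟨?_, hx'⟩
    have : rho ≤ Real.sqrt x := Real.le_sqrt_of_sq_le hx
    have h0 := Real.sqrt_nonneg x
    linarith
  have heq : ∀ x, s < x → ‖k0‖ * ‖F x‖ = ‖c0 * Uo om0 (2 * Real.sqrt x)‖ := by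
    intro x hx
    rw [hid x hx, norm_mul]
  constructor
  · refine ge_of_tendsto hlim ?_
    filter_upwards [hev] with x hx
    rw [heq x hx.2]
    exact hlow _ (hRr.trans hx.1)
  · refine le_of_tendsto hlim ?_
    filter_upwards [hev] with x hx
    rw [heq x hx.2]
    exact hanti.antitoneOn hRr (hRr.trans hx.1) hx.1

end Crest.Agent.R086.BExt
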