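import Mathlib
import Crest.Agent.R086.BMatchY
import Crest.Agent.R086.BExtDefs
import Crest.Agent.R086.BMatchY2

-- ▼ part R086/BMatchU
section

/-! # Row 86, Part B, matching: uniqueness for the linear equation (helper651) -/

set_option autoImplicit false

open Set Filter Topology Complex

namespace Crest.Agent.R086.BMatch

/-- uniqueness of the Cauchy problem for the linear radial equation, to the right -/
theorem lin_unique {om a b : ℝ} {y y1 f f1 : ℝ → ℂ} (ha : 0 < a)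
    (hy : LinSol om y y1 (Icc a b)) (hf : LinSol om f f1 (Icc a b))
    (h0 : y a = f a) (h1 : y1 a = f1 a) :
    ∀ r ∈ Icc a b, y r = f r ∧ y1 r = f1 r := by
  set F : ℝ → ℂ × ℂ → ℂ × ℂ := fun r x => (x.2, -((11 : ℂ) / r + I * r / 2) * x.2 - om * x.1) with hF
  have hK0 : (0:ℝ) ≤ 1 + 11 / a + |b| / 2 + |om| := by positivity
  set K : NNReal := ⟨1 + 11 / a + |b| / 2 + |om|, hK0⟩ with hK
  have hlip : ∀ t ∈ Ico a b, LipschitzOnWith K (F t) univ := by
    intro t ht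
    have ht0 : 0 < t := ha.trans_le ht.1
    refine LipschitzOnWith.of_dist_le_mul fun x _ z _ => ?_
    rw [Prod.dist_eq]
    have e1 : dist x.2 z.2 ≤ dist x z := by rw [Prod.dist_eq]; exact le_max_right _ _
    have e2 : dist x.1 z.1 ≤ dist x z := by rw [Prod.dist_eq]; exact le_max_left _ _
    have hd : 0 ≤ dist x z := dist_nonneg
    have hKv : (K : ℝ) = 1 + 11 / a + |b| / 2 + |om| := rfl
    refine max_le ?_ ?_
    · refine e1.trans ?_
      rw [hKv]
      have : 0 ≤ 11 / a + |b| / 2 + |om| := by positivity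
      nlinarith
    · rw [dist_eq_norm]
      simp only [hF]
      have e3 : -((11 : ℂ) / t + I * t / 2) * x.2 - om * x.1 - (-((11 : ℂ) / t + I * t / 2) * z.2 - om * z.1)
          = -((11 : ℂ) / t + I * t / 2) * (x.2 - z.2) - om * (x.1 - z.1) := by ring
      rw [e3]
      have e4 : ‖(11 : ℂ) / t + I * t / 2‖ ≤ 11 / a + |b| / 2 := by
        refine (norm_add_le _ _).trans ?_
        have e5 : ‖(11 : ℂ) / t‖ = 11 / t := by
          rw [norm_div, Complex.norm_real, Real.norm_of_nonneg ht0.le]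
          norm_num
        have e6 : ‖I * (t : ℂ) / 2‖ = t / 2 := by
          rw [norm_div, norm_mul, Complex.norm_I, Complex.norm_real, Real.norm_of_nonneg ht0.le]
          norm_num
        rw [e5, e6]
        have e7 : 11 / t ≤ 11 / a := by
          apply div_le_div_of_nonneg_left (by norm_num) ha ht.1
        have e8 : t ≤ |b| := ht.2.le.trans (le_abs_self b)
        linarith
      refine (norm_sub_le _ _).trans ?_
      rw [norm_mul, norm_mul, norm_neg, ← dist_eq_norm, ← dist_eq_norm, Complex.norm_real,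
        Real.norm_eq_abs, hKv]
      have e9 : ‖(11 : ℂ) / t + I * t / 2‖ * dist x.2 z.2 ≤ (11 / a + |b| / 2) * dist x z := by
        gcongr
      have e10 : |om| * dist x.1 z.1 ≤ |om| * dist x z := by gcongr
      nlinarith
  have hyc : ContinuousOn (fun r => (y r, y1 r)) (Icc a b) := fun r hr =>
    ((hy r hr).1.continuousAt.prodMk (hy r hr).2.continuousAt).continuousWithinAt
  have hfc : ContinuousOn (fun r => (f r, f1 r)) (Icc a b) := fun r hr =>
    ((hf r hr).1.continuousAt.prodMk (hf r hr).2.continuousAt).continuousWithinAt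
  have hu := ODE_solution_unique_of_mem_Icc_right (v := F) (s := fun _ => univ) (K := K)
    (f := fun r => (y r, y1 r)) (g := fun r => (f r, f1 r)) (a := a) (b := b) hlip hyc
    (fun t ht => ((hy t (Ico_subset_Icc_self ht)).1.prodMk
      (hy t (Ico_subset_Icc_self ht)).2).hasDerivWithinAt) (fun _ _ => mem_univ _) hfc
    (fun t ht => ((hf t (Ico_subset_Icc_self ht)).1.prodMk
      (hf t (Ico_subset_Icc_self ht)).2).hasDerivWithinAt) (fun _ _ => mem_univ _)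
    (by simp only [h0, h1])
  intro r hr
  have := hu hr
  simp only [Prod.mk.injEq] at this
  exact this

end Crest.Agent.R086.BMatch
end

-- ▼ part R086/BMatchD

/-! # Row 86, Part B, matching: definitions (helper651) -/

set_option autoImplicit false

open Set Filter Topology Complex

namespace Crest.Agent.R086.BMatch

open Crest.Agent.R086.B

/-- a regular solution of the interior problem on `[0, rho]`, boundary value in the unit disc -/
def IntSol (n : ℕ) (om rho : ℝ) (v v1 : ℝ → ℂ) : Prop :=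
  ContinuousOn v (Icc 0 rho) ∧ ContinuousOn v1 (Icc 0 rho) ∧ v1 0 = 0 ∧
    IsSol n om (1 / n) v v1 (Ioo 0 rho) ∧ ‖v rho‖ ≤ 1

/-- the obstacle limit (I3) -/
def LimStmt (rho : ℝ) : Prop := ∀ η : ℝ, 0 < η → ∀ M : ℝ, ∃ (n0 : ℕ) (η1 : ℝ), 0 < η1 ∧
  ∀ n : ℕ, n0 ≤ n → Even n → ∀ om ∈ Icc (1/5 : ℝ) (1/2), ∀ R1 ∈ Icc (3 : ℝ) rho, ∀ V V1 : ℝ → ℂ,
    ContinuousOn V (Icc 0 rho) → ContinuousOn V1 (Icc 0 rho) →
    (∀ r ∈ Icc 0 R1, V r = 1 ∧ V1 r = 0) → IsLin om V V1 (Ioo R1 rho) →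
    (∀ r ∈ Icc 0 rho, ‖V r‖ ≤ 1) → (∀ r ∈ Icc 0 rho, ‖V1 r‖ ≤ M) →
    ∀ v v1 : ℝ → ℂ, IntSol n om rho v v1 → ‖v rho - V rho‖ ≤ η1 →
    ∀ r ∈ Icc 0 rho, ‖v r - V r‖ ≤ η ∧ ‖v1 r - V1 r‖ ≤ η

/-- continuity of the interior Dirichlet-to-Neumann map (I2) -/
def ContStmt (rho : ℝ) : Prop := ∀ n : ℕ, 2 ≤ n → Even n → ∀ om ∈ Icc (1/5 : ℝ) (1/2),
  ∀ v v1 : ℝ → ℂ, IntSol n om rho v v1 → ∀ η : ℝ, 0 < η → ∃ del : ℝ, 0 < del ∧
    ∀ om2 ∈ Icc (1/5 : ℝ) (1/2), |om2 - om| ≤ del → ∀ w w1 : ℝ → ℂ, IntSol n om2 rho w w1 →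
      ‖w rho - v rho‖ ≤ del → ‖w1 rho - v1 rho‖ ≤ η

/-- the limit solution with core radius `R1` -/
def VV (Y : ℝ → ℝ → ℝ → ℂ) (om R1 r : ℝ) : ℂ := Y om R1 (max r R1)

theorem continuous_VV {Y : ℝ → ℝ → ℝ → ℂ}
    (hYc : Continuous fun q : ℝ × ℝ × ℝ => Y q.1 q.2.1 q.2.2) :
    Continuous fun q : (ℝ × ℝ) × ℝ => VV Y q.1.1 q.1.2 q.2 := by
  have : Continuous fun q : (ℝ × ℝ) × ℝ => ((q.1.1, q.1.2, max q.2 q.1.2) : ℝ × ℝ × ℝ) := by
    fun_prop
  exact hYc.comp this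

theorem VV_le {Y : ℝ → ℝ → ℝ → ℂ} {om R1 r : ℝ} (h : r ≤ R1) : VV Y om R1 r = Y om R1 R1 := by
  unfold VV
  rw [max_eq_right h]

theorem VV_ge {Y : ℝ → ℝ → ℝ → ℂ} {om R1 r : ℝ} (h : R1 ≤ r) : VV Y om R1 r = Y om R1 r := by
  unfold VV
  rw [max_eq_left h]

theorem isLin_VV {Y Y1 : ℝ → ℝ → ℝ → ℂ} {om R1 : ℝ} (hR1 : 3 ≤ R1)
    (h : LinSol om (Y om R1) (Y1 om R1) (Ici 1)) (rho : ℝ) :
    IsLin om (VV Y om R1) (VV Y1 om R1) (Ioo R1 rho) := by
  intro r hr
  have e0 : VV Y om R1 =ᶠ[𝓝 r] Y om R1 := by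
    filter_upwards [Ioi_mem_nhds hr.1] with x hx using VV_ge (le_of_lt hx)
  have e1 : VV Y1 om R1 =ᶠ[𝓝 r] Y1 om R1 := by
    filter_upwards [Ioi_mem_nhds hr.1] with x hx using VV_ge (le_of_lt hx)
  have := h r (show (1:ℝ) ≤ r by linarith [hr.1])
  rw [e0.eq_of_nhds, e1.eq_of_nhds]
  exact ⟨this.1.congr_of_eventuallyEq e0, this.2.congr_of_eventuallyEq e1⟩

/-- a diagonal argument -/
theorem exists_diag {α : Type*} (P : ℕ → ℕ → α → Prop)
    (hmono : ∀ k n a, P (k + 1) n a → P k n a) (h0 : ∀ n, ∃ a, P 0 n a)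
    (h : ∀ k, ∃ N, ∀ n, N ≤ n → ∃ a, P k n a) :
    ∃ s : ℕ → α, ∀ k, ∃ N, ∀ n, N ≤ n → P k n (s n) := by
  classical
  have hmono' : ∀ n a k m, k ≤ m → P m n a → P k n a := by
    intro n a k m hkm
    induction m, hkm using Nat.le_induction with
    | base => exact id
    | succ m _ ih => exact fun hp => ih (hmono m n a hp)
  have hex : ∀ n, ∃ a, P (Nat.findGreatest (fun k => ∃ a, P k n a) n) n a := fun n =>
    Nat.findGreatest_spec (P := fun k => ∃ a, P k n a) (Nat.zero_le n) (h0 n)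
  choose s hs using hex
  refine ⟨s, fun k => ?_⟩
  obtain ⟨N, hN⟩ := h k
  refine ⟨max N k, fun n hn => ?_⟩
  have hk : k ≤ Nat.findGreatest (fun k => ∃ a, P k n a) n :=
    Nat.le_findGreatest ((le_max_right _ _).trans hn) (hN n ((le_max_left _ _).trans hn))
  exact hmono' n (s n) k _ hk (hs n)

end Crest.Agent.R086.BMatch
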