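import Mathlib
import Crest.Agent.R202.Miranda
import Crest.Agent.R086.BDefs
import Crest.Agent.R086.BMatchY2

-- ▼ part R086/Match2
section

/-!
Row 86 (S0114), Part B matching (helper702): a nondegenerate zero of a map of `ι → ℝ` persists for
all continuous maps uniformly close to it on a small box.
-/

set_option autoImplicit false

open Set Metric

namespace Crest.Agent.R086.Match

/-- Persistence of a nondegenerate zero under small continuous perturbations. -/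
theorem exists_zero_of_close {ι : Type*} [Fintype ι]
    (F : (ι → ℝ) → (ι → ℝ)) (x0 : ι → ℝ) (L : (ι → ℝ) ≃L[ℝ] (ι → ℝ))
    (hF : HasFDerivAt F (L : (ι → ℝ) →L[ℝ] (ι → ℝ)) x0) (h0 : F x0 = 0)
    (δ₀ : ℝ) (hδ₀ : 0 < δ₀) :
    ∃ δ : ℝ, 0 < δ ∧ δ ≤ δ₀ ∧ ∃ η : ℝ, 0 < η ∧
      ∀ G : (ι → ℝ) → (ι → ℝ), ContinuousOn G (closedBall x0 δ) →
        (∀ x ∈ closedBall x0 δ, ‖G x - F x‖ ≤ η) → ∃ x ∈ closedBall x0 δ, G x = 0 := by
  classical
  set K : ℝ := ‖(L.symm : (ι → ℝ) →L[ℝ] (ι → ℝ))‖ + 1 with hK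
  have hKpos : 0 < K := by positivity
  have hKle : ∀ v, ‖L.symm v‖ ≤ K * ‖v‖ := by
    intro v
    have h1 := (L.symm : (ι → ℝ) →L[ℝ] (ι → ℝ)).le_opNorm v
    have h2 : ‖(L.symm : (ι → ℝ) →L[ℝ] (ι → ℝ))‖ * ‖v‖ ≤ K * ‖v‖ := by
      apply mul_le_mul_of_nonneg_right _ (norm_nonneg _)
      rw [hK]; linarith
    exact le_trans h1 h2
  -- little-o bound
  have hlo : ∀ᶠ x in nhds x0, ‖F x - F x0 - L (x - x0)‖ ≤ (1 / (2 * K)) * ‖x - x0‖ := by
    have := hF.isLittleO.bound (show (0 : ℝ) < 1 / (2 * K) by positivity)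
    simpa using this
  obtain ⟨r, hr, hball⟩ := Metric.eventually_nhds_iff_ball.mp hlo
  set δ : ℝ := min δ₀ (r / 2) with hδ
  have hδpos : 0 < δ := by rw [hδ]; positivity
  have hδr : δ < r := lt_of_le_of_lt (min_le_right _ _) (by linarith)
  refine ⟨δ, hδpos, min_le_left _ _, δ / (2 * K), by positivity, ?_⟩
  intro G hG hclose
  -- the rescaled map
  set H : (ι → ℝ) → ι → ℝ := fun t => L.symm (G (x0 + δ • t)) with hH
  have hmem : ∀ t ∈ Set.pi (Set.univ : Set ι) (fun _ => Set.Icc (-1 : ℝ) 1),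
      x0 + δ • t ∈ closedBall x0 δ := by
    intro t ht
    rw [mem_closedBall, dist_eq_norm, add_sub_cancel_left, norm_smul, Real.norm_of_nonneg hδpos.le]
    have : ‖t‖ ≤ 1 := by
      rw [pi_norm_le_iff_of_nonneg zero_le_one]
      intro i
      rw [Real.norm_eq_abs, abs_le]
      exact ht i (mem_univ i)
    nlinarith
  have hest : ∀ t ∈ Set.pi (Set.univ : Set ι) (fun _ => Set.Icc (-1 : ℝ) 1), ∀ i,
      |H t i - δ * t i| ≤ δ := by
    intro t ht i
    have hx := hmem t ht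
    have hnorm : ‖(x0 + δ • t) - x0‖ ≤ δ := by
      rw [← dist_eq_norm]; exact mem_closedBall.mp hx
    have h1 : ‖F (x0 + δ • t) - F x0 - L ((x0 + δ • t) - x0)‖ ≤ (1 / (2 * K)) * δ := by
      refine le_trans (hball _ ?_) ?_
      · rw [mem_ball]; exact lt_of_le_of_lt (mem_closedBall.mp hx) hδr
      · exact mul_le_mul_of_nonneg_left hnorm (by positivity)
    have h2 := hclose _ hx
    have h3 : H t - δ • t = L.symm (G (x0 + δ • t) - L (δ • t)) := by
      simp only [hH, map_sub]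
      rw [L.symm_apply_apply]
    have h4 : ‖G (x0 + δ • t) - L (δ • t)‖ ≤ δ / (2 * K) + (1 / (2 * K)) * δ := by
      have : G (x0 + δ • t) - L (δ • t) = (G (x0 + δ • t) - F (x0 + δ • t)) +
          (F (x0 + δ • t) - F x0 - L ((x0 + δ • t) - x0)) := by
        rw [h0, add_sub_cancel_left]; abel
      rw [this]
      exact le_trans (norm_add_le _ _) (add_le_add h2 h1)
    have h5 : ‖H t - δ • t‖ ≤ δ := by
      rw [h3]
      refine le_trans (hKle _) ?_
      refine le_trans (mul_le_mul_of_nonneg_left h4 hKpos.le) ?_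
      have : K * (δ / (2 * K) + 1 / (2 * K) * δ) = δ := by field_simp; ring
      exact this.le
    have h6 : |(H t - δ • t) i| ≤ ‖H t - δ • t‖ := by
      rw [← Real.norm_eq_abs]; exact norm_le_pi_norm _ i
    have h7 : (H t - δ • t) i = H t i - δ * t i := by simp
    rw [h7] at h6
    exact le_trans h6 h5
  have hHc : ContinuousOn H (Set.pi Set.univ fun _ => Set.Icc (-1 : ℝ) 1) := by
    refine L.symm.continuous.comp_continuousOn ?_
    refine hG.comp (by fun_prop) ?_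
    intro t ht
    exact hmem t ht
  obtain ⟨t, ht, hz⟩ := Crest.Agent.R202.poincare_miranda H hHc
    (by
      intro x hx i hi
      have := abs_le.mp (hest x hx i)
      rw [hi] at this
      linarith [this.1])
    (by
      intro x hx i hi
      have := abs_le.mp (hest x hx i)
      rw [hi] at this
      linarith [this.2])
  refine ⟨x0 + δ • t, hmem t ht, ?_⟩
  have hz' : L.symm (G (x0 + δ • t)) = 0 := by
    funext i; exact hz i
  have := congrArg L hz'
  rwa [L.apply_symm_apply, map_zero] at this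

end Crest.Agent.R086.Match
end

-- ▼ part R086/BMatchF

/-! # Row 86, Part B, matching: the limit matching function and the zero (helper651) -/

set_option autoImplicit false

open Set Filter Topology Complex

namespace Crest.Agent.R086.BMatch

/-- `ℂ`-valued functions of two real variables: persistence of a nondegenerate zero. -/
theorem zero_of_close_complex (F : ℝ × ℝ → ℂ) (x0 : ℝ × ℝ) (L : (ℝ × ℝ) ≃L[ℝ] ℂ)
    (hF : HasFDerivAt F (L : (ℝ × ℝ) →L[ℝ] ℂ) x0) (h0 : F x0 = 0)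
    (δ₀ : ℝ) (hδ₀ : 0 < δ₀) :
    ∃ δ : ℝ, 0 < δ ∧ δ ≤ δ₀ ∧ ∃ η : ℝ, 0 < η ∧
      ∀ G : ℝ × ℝ → ℂ, ContinuousOn G (Metric.closedBall x0 δ) →
        (∀ x ∈ Metric.closedBall x0 δ, ‖G x - F x‖ ≤ η) → ∃ x ∈ Metric.closedBall x0 δ, G x = 0 := by
  -- identify `ℝ × ℝ` with `Fin 2 → ℝ` and `ℂ` with `Fin 2 → ℝ`
  set e : (Fin 2 → ℝ) ≃L[ℝ] (ℝ × ℝ) := (ContinuousLinearEquiv.finTwoArrow ℝ ℝ) with he
  set c : ℂ ≃L[ℝ] (Fin 2 → ℝ) := Complex.equivRealProdCLM.trans e.symm with hc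
  have hisom : ∀ x y : Fin 2 → ℝ, dist (e x) (e y) = dist x y := by
    intro x y
    rw [dist_pi_def, Prod.dist_eq]
    simp [he, Fin.univ_succ]
  set F' : (Fin 2 → ℝ) → (Fin 2 → ℝ) := fun x => c (F (e x)) with hF'
  set L' : (Fin 2 → ℝ) ≃L[ℝ] (Fin 2 → ℝ) := (e.trans L).trans c with hL'
  have hx0 : e (e.symm x0) = x0 := e.apply_symm_apply x0
  have hd : HasFDerivAt F' (L' : (Fin 2 → ℝ) →L[ℝ] (Fin 2 → ℝ)) (e.symm x0) := by
    have h1 : HasFDerivAt (fun x => F (e x))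
        ((L : (ℝ × ℝ) →L[ℝ] ℂ).comp (e : (Fin 2 → ℝ) →L[ℝ] (ℝ × ℝ))) (e.symm x0) := by
      have hF'' : HasFDerivAt F (L : (ℝ × ℝ) →L[ℝ] ℂ) (e (e.symm x0)) := by rw [hx0]; exact hF
      exact hF''.comp (e.symm x0) e.hasFDerivAt
    have h2 := (c : ℂ →L[ℝ] (Fin 2 → ℝ)).hasFDerivAt.comp (e.symm x0) h1
    exact h2
  have hz : F' (e.symm x0) = 0 := by
    simp only [hF', hx0, h0, map_zero]
  obtain ⟨δ, hδ, hδ', η, hη, hmain⟩ :=
    Crest.Agent.R086.Match.exists_zero_of_close F' (e.symm x0) L' hd hz δ₀ hδ₀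
  set M : ℝ := ‖(c : ℂ →L[ℝ] (Fin 2 → ℝ))‖ + 1 with hM
  have hMpos : 0 < M := by positivity
  refine ⟨δ, hδ, hδ', η / M, by positivity, ?_⟩
  intro G hG hclose
  have hball : ∀ x ∈ Metric.closedBall (e.symm x0) δ, e x ∈ Metric.closedBall x0 δ := by
    intro x hx
    rw [Metric.mem_closedBall] at hx ⊢
    rw [← hx0, hisom]
    exact hx
  have hA : ContinuousOn (fun x => c (G (e x))) (Metric.closedBall (e.symm x0) δ) :=
    c.continuous.comp_continuousOn (hG.comp e.continuous.continuousOn hball)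
  have hB : ∀ x ∈ Metric.closedBall (e.symm x0) δ, ‖c (G (e x)) - F' x‖ ≤ η := by
    intro x hx
    have h1 := hclose _ (hball x hx)
    simp only [hF', ← map_sub]
    refine ((c : ℂ →L[ℝ] (Fin 2 → ℝ)).le_opNorm _).trans ?_
    calc ‖(c : ℂ →L[ℝ] (Fin 2 → ℝ))‖ * ‖G (e x) - F (e x)‖
        ≤ M * (η / M) := by
          refine mul_le_mul ?_ h1 (norm_nonneg _) hMpos.le
          rw [hM]; linarith
      _ = η := by field_simp
  obtain ⟨x, hx, hx0'⟩ := hmain (fun x => c (G (e x))) hA hB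
  exact ⟨e x, hball x hx, (map_eq_zero_iff c c.injective).1 hx0'⟩

/-- product with a continuous nonvanishing factor at a zero -/
theorem hasFDerivAt_mul_of_zero {u g : ℝ × ℝ → ℂ} {x0 : ℝ × ℝ} {L : (ℝ × ℝ) →L[ℝ] ℂ}
    (hu : ContinuousAt u x0) (hg : HasFDerivAt g L x0) (h0 : g x0 = 0) :
    HasFDerivAt (fun x => u x * g x) (u x0 • L) x0 := by
  rw [hasFDerivAt_iff_isLittleO] at hg ⊢
  have h1 : (fun x => u x * g x - u x0 * g x0 - (u x0 • L) (x - x0))
      = fun x => u x * (g x - g x0 - L (x - x0)) + (u x - u x0) * L (x - x0) := by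
    funext x
    simp [h0]
    ring
  rw [h1]
  have hb : u =O[𝓝 x0] (fun _ => (1 : ℝ)) := hu.norm.isBoundedUnder_le.isBigO_one ℝ
  have h2 : (fun x => u x * (g x - g x0 - L (x - x0))) =o[𝓝 x0] fun x => x - x0 := by
    have := hb.mul_isLittleO hg.norm_right
    refine Asymptotics.IsLittleO.of_norm_right ?_
    simpa using this
  have h3 : (fun x => (u x - u x0) * L (x - x0)) =o[𝓝 x0] fun x => x - x0 := by
    have hs : (fun x => u x - u x0) =o[𝓝 x0] (fun _ => (1 : ℝ)) := by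
      rw [Asymptotics.isLittleO_one_iff]
      have := hu.sub_const (u x0)
      simpa [ContinuousAt] using this
    have hL : (fun x => L (x - x0)) =O[𝓝 x0] fun x => ‖x - x0‖ := by
      refine Asymptotics.IsBigO.norm_right ?_
      exact (L.isBigO_comp (fun x => x - x0) (𝓝 x0))
    have := hs.mul_isBigO hL
    refine Asymptotics.IsLittleO.of_norm_right ?_
    simpa using this
  exact h2.add h3

/-- scaling a continuous linear equivalence to `ℂ` by a nonzero complex number -/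
noncomputable def smulEquiv (L : (ℝ × ℝ) ≃L[ℝ] ℂ) (z : ℂ) (hz : z ≠ 0) : (ℝ × ℝ) ≃L[ℝ] ℂ :=
  L.trans (ContinuousLinearEquiv.smulLeft (Units.mk0 z hz))

theorem smulEquiv_coe (L : (ℝ × ℝ) ≃L[ℝ] ℂ) (z : ℂ) (hz : z ≠ 0) :
    ((smulEquiv L z hz : (ℝ × ℝ) ≃L[ℝ] ℂ) : (ℝ × ℝ) →L[ℝ] ℂ) = z • (L : (ℝ × ℝ) →L[ℝ] ℂ) := by
  ext <;> simp [smulEquiv]

end Crest.Agent.R086.BMatch
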