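import Mathlib
import Crest.Agent.R086.Defs
import Crest.Agent.R213.ParamInt
import Crest.Agent.R086.BRad
import Crest.Agent.R086.BDefs

-- ▼ part R086/RLiftA
section

/-!
Row 86, Part B5(i), part A: the radial solution as a smooth function of `s = r²`, up to `s = 0`.
-/

set_option autoImplicit false

open Complex Set Filter Topology MeasureTheory
open scoped ContDiff

namespace Crest.Agent.R086.RLift

/-- Radial solution of the profile equation on `(0,∞)`, bounded near `0`, with symbol decay. -/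
structure RadData (n : ℕ) (om : ℝ) (v v1 : ℝ → ℂ) : Prop where
  neven : Even n
  two_le : 2 ≤ n
  d1 : ∀ r : ℝ, 0 < r → HasDerivAt v (v1 r) r
  d2 : ∀ r : ℝ, 0 < r → HasDerivAt v1
    (-((11 : ℂ) / (r : ℂ) + I * (r : ℂ) / 2) * v1 r - ((om : ℂ) + I / (n : ℂ)) * v r
      + ((‖v r‖ ^ n : ℝ) : ℂ) * v r) r
  cont : ContinuousWithinAt v (Ici 0) 0
  v1bd : ∃ C r0 : ℝ, 0 < r0 ∧ ∀ r, 0 < r → r ≤ r0 → ‖v1 r‖ ≤ C
  decay : ∀ j : ℕ, ∃ C : ℝ, ∀ᶠ r : ℝ in atTop, ‖iteratedDeriv j v r‖ ≤ C * r ^ (-(2 : ℝ) / n - j)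
  v0 : v 0 ≠ 0

section core
variable {n : ℕ} {c : ℂ} {v v1 : ℝ → ℂ}

/-- the right-hand side `(|v|^n - c) v` -/
noncomputable def Hf (n : ℕ) (c : ℂ) (w : ℝ → ℂ) (r : ℝ) : ℂ := ((‖w r‖ ^ n : ℝ) : ℂ) * w r - c * w r

/-- integral formula for `v1`. -/
theorem v1_formula
    (d2 : ∀ r : ℝ, 0 < r → HasDerivAt v1
      (-((11 : ℂ) / (r : ℂ) + I * (r : ℂ) / 2) * v1 r - c * v r + ((‖v r‖ ^ n : ℝ) : ℂ) * v r) r)
    (hv : ContinuousOn v (Ici 0))
    (v1bd : ∃ C r0 : ℝ, 0 < r0 ∧ ∀ r, 0 < r → r ≤ r0 → ‖v1 r‖ ≤ C) {r : ℝ} (hr : 0 < r) :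
    (r : ℂ) ^ 11 * cexp (I * (r : ℂ) ^ 2 / 4) * v1 r =
      ∫ x in (0 : ℝ)..r, (x : ℂ) ^ 11 * cexp (I * (x : ℂ) ^ 2 / 4) * Hf n c v x := by
  set W : ℝ → ℂ := fun x => (x : ℂ) ^ 11 * cexp (I * (x : ℂ) ^ 2 / 4) * v1 x with hW
  have hHc : ContinuousOn (Hf n c v) (Ici 0) := by
    unfold Hf
    have h1 : ContinuousOn (fun x => ((‖v x‖ ^ n : ℝ) : ℂ)) (Ici 0) :=
      continuous_ofReal.comp_continuousOn (hv.norm.pow n)
    exact (h1.mul hv).sub (continuousOn_const.mul hv)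
  have hint : IntervalIntegrable
      (fun x : ℝ => (x : ℂ) ^ 11 * cexp (I * (x : ℂ) ^ 2 / 4) * Hf n c v x) volume 0 r := by
    apply ContinuousOn.intervalIntegrable
    rw [uIcc_of_le hr.le]
    have : ContinuousOn (Hf n c v) (Icc 0 r) := hHc.mono Icc_subset_Ici_self
    have h2 : Continuous (fun x : ℝ => (x : ℂ) ^ 11 * cexp (I * (x : ℂ) ^ 2 / 4)) := by fun_prop
    exact h2.continuousOn.mul this
  have hderiv : ∀ x ∈ Ioo (0 : ℝ) r, HasDerivAt W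
      ((x : ℂ) ^ 11 * cexp (I * (x : ℂ) ^ 2 / 4) * Hf n c v x) x := by
    intro x hx
    have hx0 : (x : ℂ) ≠ 0 := by exact_mod_cast hx.1.ne'
    have e1 : HasDerivAt (fun x : ℝ => (x : ℂ)) 1 x := Complex.ofRealCLM.hasDerivAt
    have e2 : HasDerivAt (fun x : ℝ => (x : ℂ) ^ 11) (11 * (x : ℂ) ^ 10) x := by
      simpa using e1.fun_pow 11
    have e3 : HasDerivAt (fun x : ℝ => I * (x : ℂ) ^ 2 / 4) (I * (x : ℂ) / 2) x := by
      have := ((e1.fun_pow 2).const_mul I).div_const 4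
      refine this.congr_deriv ?_
      push_cast; ring
    have e4 := (e2.fun_mul e3.cexp).fun_mul (d2 x hx.1)
    refine e4.congr_deriv ?_
    simp only [Hf]
    field_simp
    ring
  have hcont : ContinuousOn W (Icc 0 r) := by
    intro x hx
    rcases eq_or_lt_of_le hx.1 with h0 | h0
    · -- at zero
      obtain ⟨C, r0, hr0, hC⟩ := v1bd
      subst h0
      have hC0 : 0 ≤ C := le_trans (norm_nonneg _) (hC r0 hr0 le_rfl)
      have hW0 : W 0 = 0 := by simp [hW]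
      rw [ContinuousWithinAt, hW0]
      have hlim : Tendsto (fun x : ℝ => |x| ^ 11 * C) (𝓝[Icc 0 r] 0) (𝓝 0) := by
        have : Continuous (fun x : ℝ => |x| ^ 11 * C) := by fun_prop
        have h := this.tendsto 0
        simp at h
        exact h.mono_left nhdsWithin_le_nhds
      refine squeeze_zero_norm' ?_ hlim
      have hev : ∀ᶠ x : ℝ in 𝓝[Icc 0 r] 0, x ≤ r0 :=
        nhdsWithin_le_nhds (eventually_le_nhds hr0)
      filter_upwards [hev, self_mem_nhdsWithin] with x hx1 hx2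
      rcases eq_or_lt_of_le hx2.1 with h3 | h3
      · subst h3; simp [hW]
      · simp only [hW, norm_mul, norm_pow, Complex.norm_real]
        have hexp : ‖cexp (I * (x : ℂ) ^ 2 / 4)‖ = 1 := by
          have : I * (x : ℂ) ^ 2 / 4 = ((x ^ 2 / 4 : ℝ) : ℂ) * I := by push_cast; ring
          rw [this, Complex.norm_exp_ofReal_mul_I]
        rw [hexp, mul_one, Real.norm_eq_abs]
        exact mul_le_mul_of_nonneg_left (hC x h3 hx1) (by positivity)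
    · exact ((by fun_prop : Continuous (fun x : ℝ => (x : ℂ) ^ 11 * cexp (I * (x : ℂ) ^ 2 / 4)))
        |>.continuousAt.mul (d2 x h0).continuousAt).continuousWithinAt
  have := intervalIntegral.integral_eq_sub_of_hasDerivAt_of_le hr.le hcont hderiv hint
  rw [this]
  simp [hW]

/-- `v1(r) = r ∫₀¹ t^11 exp(-i r²(1-t²)/4) H(r t) dt` -/
theorem v1_formula'
    (d2 : ∀ r : ℝ, 0 < r → HasDerivAt v1
      (-((11 : ℂ) / (r : ℂ) + I * (r : ℂ) / 2) * v1 r - c * v r + ((‖v r‖ ^ n : ℝ) : ℂ) * v r) r)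
    (hv : ContinuousOn v (Ici 0))
    (v1bd : ∃ C r0 : ℝ, 0 < r0 ∧ ∀ r, 0 < r → r ≤ r0 → ‖v1 r‖ ≤ C) {r : ℝ} (hr : 0 < r) :
    v1 r = (r : ℂ) * ∫ t in (0 : ℝ)..1,
      (t : ℂ) ^ 11 * cexp (-(I * (r : ℂ) ^ 2 * (1 - (t : ℂ) ^ 2) / 4)) * Hf n c v (r * t) := by
  have h1 := v1_formula d2 hv v1bd hr
  have hr' : (r : ℂ) ≠ 0 := by exact_mod_cast hr.ne'
  have h2 : (∫ x in (0 : ℝ)..r, (x : ℂ) ^ 11 * cexp (I * (x : ℂ) ^ 2 / 4) * Hf n c v x)
      = r • ∫ t in (0 : ℝ)..1, ((r * t : ℝ) : ℂ) ^ 11 * cexp (I * ((r * t : ℝ) : ℂ) ^ 2 / 4)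
          * Hf n c v (r * t) := by
    rw [intervalIntegral.smul_integral_comp_mul_left
      (fun x : ℝ => (x : ℂ) ^ 11 * cexp (I * (x : ℂ) ^ 2 / 4) * Hf n c v x) r]
    simp
  rw [h2] at h1
  have h3 : (∫ t in (0 : ℝ)..1, ((r * t : ℝ) : ℂ) ^ 11 * cexp (I * ((r * t : ℝ) : ℂ) ^ 2 / 4)
          * Hf n c v (r * t)) = ((r : ℂ) ^ 11 * cexp (I * (r : ℂ) ^ 2 / 4)) *
        ∫ t in (0 : ℝ)..1,
      (t : ℂ) ^ 11 * cexp (-(I * (r : ℂ) ^ 2 * (1 - (t : ℂ) ^ 2) / 4)) * Hf n c v (r * t) := by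
    rw [← intervalIntegral.integral_const_mul]
    apply intervalIntegral.integral_congr
    intro t _
    simp only
    have : cexp (I * ((r * t : ℝ) : ℂ) ^ 2 / 4) = cexp (I * (r : ℂ) ^ 2 / 4) *
        cexp (-(I * (r : ℂ) ^ 2 * (1 - (t : ℂ) ^ 2) / 4)) := by
      rw [← Complex.exp_add]; congr 1; push_cast; ring
    rw [this]; push_cast; ring
  rw [h3, Complex.real_smul] at h1
  have hne : (r : ℂ) ^ 11 * cexp (I * (r : ℂ) ^ 2 / 4) ≠ 0 :=
    mul_ne_zero (pow_ne_zero _ hr') (Complex.exp_ne_zero _)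
  apply mul_left_cancel₀ hne
  rw [h1]; ring

end core

end Crest.Agent.R086.RLift
end

-- ▼ part R086/RLiftB
section

/-!
Row 86, Part B5(i), part B: smoothness of `G s = v (sqrt s)` on `[0,∞)`.
-/

set_option autoImplicit false

open Complex Set Filter Topology MeasureTheory
open scoped ContDiff

namespace Crest.Agent.R086.RLift

theorem norm_pow_even {m : ℕ} (z : ℂ) :
    ((‖z‖ ^ (m + m) : ℝ) : ℂ) = (z * (starRingEnd ℂ) z) ^ m := by
  rw [Complex.mul_conj, Complex.normSq_eq_norm_sq, ← Complex.ofReal_pow, ← pow_mul, two_mul]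

theorem contDiffOn_Hf {n : ℕ} (hn : Even n) {c : ℂ} {w : ℝ → ℂ} {S : Set ℝ} {k : ℕ∞}
    (hw : ContDiffOn ℝ k w S) : ContDiffOn ℝ k (Hf n c w) S := by
  obtain ⟨m, rfl⟩ := hn
  have hconj : ContDiff ℝ k (fun z : ℂ => (starRingEnd ℂ) z) := Complex.conjCLE.contDiff
  have h1 : ContDiffOn ℝ k (fun s => (w s * (starRingEnd ℂ) (w s)) ^ m) S :=
    (hw.mul (hconj.comp_contDiffOn hw)).pow m
  have h2 : Hf (m + m) c w = fun s => (w s * (starRingEnd ℂ) (w s)) ^ m * w s - c * w s := by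
    funext s
    simp only [Hf, norm_pow_even]
  rw [h2]
  exact (h1.mul hw).sub (contDiffOn_const.mul hw)

section core
variable {n : ℕ} {c : ℂ} {v v1 : ℝ → ℂ}

/-- `G s = v (sqrt s)` -/
noncomputable def Gf (v : ℝ → ℂ) (s : ℝ) : ℂ := v (Real.sqrt s)

/-- the derivative of `G` -/
noncomputable def Kf (n : ℕ) (c : ℂ) (v : ℝ → ℂ) (s : ℝ) : ℂ :=
  (1 / 2 : ℂ) * ∫ t in (0 : ℝ)..1, (t : ℂ) ^ 11 * cexp (-(I * (s : ℂ) * (1 - (t : ℂ) ^ 2) / 4)) *
    Hf n c (Gf v) (s * t ^ 2)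

theorem Kf_eq
    (d2 : ∀ r : ℝ, 0 < r → HasDerivAt v1
      (-((11 : ℂ) / (r : ℂ) + I * (r : ℂ) / 2) * v1 r - c * v r + ((‖v r‖ ^ n : ℝ) : ℂ) * v r) r)
    (hv : ContinuousOn v (Ici 0))
    (v1bd : ∃ C r0 : ℝ, 0 < r0 ∧ ∀ r, 0 < r → r ≤ r0 → ‖v1 r‖ ≤ C) {s : ℝ} (hs : 0 < s) :
    v1 (Real.sqrt s) = 2 * (Real.sqrt s : ℂ) * Kf n c v s := by
  rw [v1_formula' d2 hv v1bd (Real.sqrt_pos.2 hs), Kf]
  have h : (∫ t in (0 : ℝ)..1, (t : ℂ) ^ 11 *
      cexp (-(I * ((Real.sqrt s : ℝ) : ℂ) ^ 2 * (1 - (t : ℂ) ^ 2) / 4)) *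
        Hf n c v (Real.sqrt s * t)) = ∫ t in (0 : ℝ)..1, (t : ℂ) ^ 11 *
      cexp (-(I * (s : ℂ) * (1 - (t : ℂ) ^ 2) / 4)) * Hf n c (Gf v) (s * t ^ 2) := by
    apply intervalIntegral.integral_congr
    intro t ht
    rw [uIcc_of_le zero_le_one] at ht
    have h1 : ((Real.sqrt s : ℝ) : ℂ) ^ 2 = (s : ℂ) := by
      rw [← Complex.ofReal_pow, Real.sq_sqrt hs.le]
    have h2 : Real.sqrt (s * t ^ 2) = Real.sqrt s * t := by
      rw [Real.sqrt_mul hs.le, Real.sqrt_sq ht.1]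
    simp only [h1, Hf, Gf, h2]
  rw [h]
  ring

theorem Gf_cont (hv : ContinuousOn v (Ici 0)) : ContinuousOn (Gf v) (Ici 0) :=
  hv.comp Real.continuous_sqrt.continuousOn (fun s _ => Real.sqrt_nonneg s)

theorem Gf_hasDerivAt (d1 : ∀ r : ℝ, 0 < r → HasDerivAt v (v1 r) r)
    (d2 : ∀ r : ℝ, 0 < r → HasDerivAt v1
      (-((11 : ℂ) / (r : ℂ) + I * (r : ℂ) / 2) * v1 r - c * v r + ((‖v r‖ ^ n : ℝ) : ℂ) * v r) r)
    (hv : ContinuousOn v (Ici 0))
    (v1bd : ∃ C r0 : ℝ, 0 < r0 ∧ ∀ r, 0 < r → r ≤ r0 → ‖v1 r‖ ≤ C) {s : ℝ} (hs : 0 < s) :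
    HasDerivAt (Gf v) (Kf n c v s) s := by
  have hsq : 0 < Real.sqrt s := Real.sqrt_pos.2 hs
  have h1 := (d1 _ hsq).scomp s (Real.hasDerivAt_sqrt hs.ne')
  refine h1.congr_deriv ?_
  rw [Kf_eq d2 hv v1bd hs, Complex.real_smul]
  have : (Real.sqrt s : ℂ) ≠ 0 := by exact_mod_cast hsq.ne'
  push_cast
  field_simp

/-- the integrand -/
noncomputable def gf (n : ℕ) (c : ℂ) (v : ℝ → ℂ) (p : ℝ × ℝ) : ℂ :=
  (p.2 : ℂ) ^ 11 * cexp (-(I * (p.1 : ℂ) * (1 - (p.2 : ℂ) ^ 2) / 4)) * Hf n c (Gf v) (p.1 * p.2 ^ 2)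

theorem gf_contDiffOn (hn : Even n) {k : ℕ} (hG : ContDiffOn ℝ k (Gf v) (Ici 0)) :
    ContDiffOn ℝ k (gf n c v) (Ici 0 ×ˢ Icc 0 1) := by
  have hof : ContDiff ℝ k (fun x : ℝ => (x : ℂ)) := Complex.ofRealCLM.contDiff
  have h1 : ContDiff ℝ k (fun p : ℝ × ℝ => (p.1 : ℂ)) := hof.comp contDiff_fst
  have h2 : ContDiff ℝ k (fun p : ℝ × ℝ => (p.2 : ℂ)) := hof.comp contDiff_snd
  have h3 : ContDiff ℝ k (fun p : ℝ × ℝ =>
      (p.2 : ℂ) ^ 11 * cexp (-(I * (p.1 : ℂ) * (1 - (p.2 : ℂ) ^ 2) / 4))) := by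
    refine (h2.pow 11).mul (ContDiff.cexp ?_)
    exact (((contDiff_const.mul h1).mul (contDiff_const.sub (h2.pow 2))).div_const 4).neg
  have h4 : ContDiffOn ℝ k (Hf n c (Gf v)) (Ici 0) := by
    have := contDiffOn_Hf (k := (k : ℕ∞)) (c := c) hn (by exact_mod_cast hG)
    exact_mod_cast this
  have h5 : ContDiffOn ℝ k (fun p : ℝ × ℝ => Hf n c (Gf v) (p.1 * p.2 ^ 2)) (Ici 0 ×ˢ Icc 0 1) := by
    refine h4.comp (t := Ici 0) (f := fun p : ℝ × ℝ => p.1 * p.2 ^ 2) ?_ ?_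
    · exact (contDiff_fst.mul (contDiff_snd.pow 2)).contDiffOn
    · intro p hp
      exact mul_nonneg (mem_Ici.1 hp.1) (sq_nonneg _)
  exact h3.contDiffOn.mul h5

theorem Kf_contDiffOn (hn : Even n) {k : ℕ} (hG : ContDiffOn ℝ k (Gf v) (Ici 0)) :
    ContDiffOn ℝ k (Kf n c v) (Ici 0) := by
  have h := R213.ParamInt.contDiffOn_param_nat (convex_Ici (0 : ℝ)) (uniqueDiffOn_Ici 0)
    (zero_lt_one : (0 : ℝ) < 1) k (gf_contDiffOn (c := c) hn hG)
  exact contDiffOn_const.mul h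

theorem Gf_hasDerivWithinAt (hn : Even n) (d1 : ∀ r : ℝ, 0 < r → HasDerivAt v (v1 r) r)
    (d2 : ∀ r : ℝ, 0 < r → HasDerivAt v1
      (-((11 : ℂ) / (r : ℂ) + I * (r : ℂ) / 2) * v1 r - c * v r + ((‖v r‖ ^ n : ℝ) : ℂ) * v r) r)
    (hv : ContinuousOn v (Ici 0))
    (v1bd : ∃ C r0 : ℝ, 0 < r0 ∧ ∀ r, 0 < r → r ≤ r0 → ‖v1 r‖ ≤ C) {s : ℝ} (hs : 0 ≤ s) :
    HasDerivWithinAt (Gf v) (Kf n c v s) (Ici 0) s := by
  rcases eq_or_lt_of_le hs with h0 | h0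
  · subst h0
    have hK : ContinuousOn (Kf n c v) (Ici 0) := by
      have := Kf_contDiffOn (c := c) (k := 0) hn (v := v) (by
        have := Gf_cont hv
        rw [Nat.cast_zero]; exact contDiffOn_zero.2 this)
      rw [Nat.cast_zero] at this
      exact contDiffOn_zero.1 this
    apply hasDerivWithinAt_Ici_of_tendsto_deriv (s := Ioi 0)
    · intro x hx
      exact (Gf_hasDerivAt d1 d2 hv v1bd hx).differentiableAt.differentiableWithinAt
    · exact ((Gf_cont hv) 0 self_mem_Ici).mono Ioi_subset_Ici_self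
    · exact self_mem_nhdsWithin
    · have h1 : Tendsto (Kf n c v) (𝓝[>] 0) (𝓝 (Kf n c v 0)) :=
        ((hK 0 self_mem_Ici).mono Ioi_subset_Ici_self)
      refine h1.congr' ?_
      filter_upwards [self_mem_nhdsWithin] with x hx
      exact ((Gf_hasDerivAt d1 d2 hv v1bd hx).deriv).symm
  · exact (Gf_hasDerivAt d1 d2 hv v1bd h0).hasDerivWithinAt

theorem Gf_contDiffOn_nat (hn : Even n) (d1 : ∀ r : ℝ, 0 < r → HasDerivAt v (v1 r) r)
    (d2 : ∀ r : ℝ, 0 < r → HasDerivAt v1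
      (-((11 : ℂ) / (r : ℂ) + I * (r : ℂ) / 2) * v1 r - c * v r + ((‖v r‖ ^ n : ℝ) : ℂ) * v r) r)
    (hv : ContinuousOn v (Ici 0))
    (v1bd : ∃ C r0 : ℝ, 0 < r0 ∧ ∀ r, 0 < r → r ≤ r0 → ‖v1 r‖ ≤ C) (k : ℕ) :
    ContDiffOn ℝ k (Gf v) (Ici 0) := by
  induction k with
  | zero => rw [Nat.cast_zero]; exact contDiffOn_zero.2 (Gf_cont hv)
  | succ k ih =>
    rw [Nat.cast_add, Nat.cast_one, contDiffOn_succ_iff_derivWithin (uniqueDiffOn_Ici 0)]
    refine ⟨fun s hs => (Gf_hasDerivWithinAt hn d1 d2 hv v1bd hs).differentiableWithinAt,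
      by simp, ?_⟩
    refine (Kf_contDiffOn (c := c) hn ih).congr ?_
    intro s hs
    exact (Gf_hasDerivWithinAt hn d1 d2 hv v1bd hs).derivWithin (uniqueDiffOn_Ici 0 s hs)

theorem Gf_contDiffOn (hn : Even n) (d1 : ∀ r : ℝ, 0 < r → HasDerivAt v (v1 r) r)
    (d2 : ∀ r : ℝ, 0 < r → HasDerivAt v1
      (-((11 : ℂ) / (r : ℂ) + I * (r : ℂ) / 2) * v1 r - c * v r + ((‖v r‖ ^ n : ℝ) : ℂ) * v r) r)
    (hv : ContinuousOn v (Ici 0))
    (v1bd : ∃ C r0 : ℝ, 0 < r0 ∧ ∀ r, 0 < r → r ≤ r0 → ‖v1 r‖ ≤ C) :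
    ContDiffOn ℝ ∞ (Gf v) (Ici 0) := by
  rw [contDiffOn_infty]
  exact fun k => Gf_contDiffOn_nat hn d1 d2 hv v1bd k

end core

end Crest.Agent.R086.RLift
end

-- ▼ part R086/BRad2
section

/-!
Row 86 (S0114), Part B (helper97): Laplacian and Euler field of radial functions `V(|y|²/4)`,
and the structure `Profile n` from a radial solution.
-/

set_option autoImplicit false

open MeasureTheory Set Filter Topology Complex
open scoped ContDiff Nat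

namespace Crest.Agent.R086.BRad

theorem sq_pos {y : R12} (hy : y ≠ 0) : 0 < sq y := by
  have : 0 < ‖y‖ := norm_pos_iff.2 hy
  unfold sq; positivity

theorem hasFDerivAt_sq (y : R12) : HasFDerivAt sq ((2 : ℝ)⁻¹ • innerSL ℝ y) y := by
  have h := (hasStrictFDerivAt_norm_sq y).hasFDerivAt.mul_const (4 : ℝ)⁻¹
  have h2 : ((4 : ℝ)⁻¹ • (2 • innerSL ℝ y) : R12 →L[ℝ] ℝ) = (2 : ℝ)⁻¹ • innerSL ℝ y := by
    ext v
    simp
    ring
  rw [← h2]
  exact h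

/-- first derivative of a radial function off the origin -/
theorem hasFDerivAt_rad {V : ℝ → ℂ} {y : R12} {v1 : ℂ} (hV : HasDerivAt V v1 (sq y)) :
    HasFDerivAt (rad V) (((2 : ℝ)⁻¹ • innerSL ℝ y).smulRight v1) y := by
  have h := hV.hasFDerivAt.comp y (hasFDerivAt_sq y)
  refine h.congr_fderiv ?_
  ext v
  simp
  ring

theorem two_le_infty : (2 : ℕ∞ω) ≤ ∞ := WithTop.coe_le_coe.2 le_top

theorem fderiv_rad_apply {V : ℝ → ℂ} {y : R12} {v1 : ℂ} (hV : HasDerivAt V v1 (sq y)) (v : R12) :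
    fderiv ℝ (rad V) y v = (((2 : ℝ)⁻¹ * inner ℝ y v : ℝ) : ℂ) * v1 := by
  rw [(hasFDerivAt_rad hV).fderiv]
  simp

theorem eul_rad {V : ℝ → ℂ} {y : R12} {v1 : ℂ} (hV : HasDerivAt V v1 (sq y)) :
    eul (rad V) y = ((2 * sq y : ℝ) : ℂ) * v1 := by
  rw [eul, fderiv_rad_apply hV]
  congr 2
  rw [real_inner_self_eq_norm_sq, sq]; ring

/-- second derivative of a radial function in a fixed direction -/
theorem iteratedFDeriv_two_rad {V V1 : ℝ → ℂ} {v2 : ℂ} {y : R12}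
    (hV : ∀ᶠ x in 𝓝 (sq y), HasDerivAt V (V1 x) x) (hV1 : HasDerivAt V1 v2 (sq y))
    (hQ : DifferentiableAt ℝ (fderiv ℝ (rad V)) y) (v : R12) :
    iteratedFDeriv ℝ 2 (rad V) y ![v, v]
      = (((2 : ℝ)⁻¹ * inner ℝ v v : ℝ) : ℂ) * V1 (sq y)
        + ((((2 : ℝ)⁻¹ * inner ℝ y v) ^ 2 : ℝ) : ℂ) * v2 := by
  rw [iteratedFDeriv_two_apply]
  simp only [Matrix.cons_val_zero, Matrix.cons_val_one]
  have h1 : HasFDerivAt (fun w : R12 => fderiv ℝ (rad V) w v)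
      ((fderiv ℝ (fderiv ℝ (rad V)) y).flip v) y := by
    have := hQ.hasFDerivAt.clm_apply (hasFDerivAt_const v y)
    refine this.congr_fderiv ?_
    ext w
    simp
  have hev : (fun w : R12 => fderiv ℝ (rad V) w v)
      =ᶠ[𝓝 y] fun w => (((2 : ℝ)⁻¹ * inner ℝ w v : ℝ) : ℂ) * V1 (sq w) := by
    have := (continuous_sq.tendsto y).eventually hV
    filter_upwards [this] with w hw
    exact fderiv_rad_apply hw v
  have h2 : HasFDerivAt (fun w : R12 => (((2 : ℝ)⁻¹ * inner ℝ w v : ℝ) : ℂ) * V1 (sq w))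
      ((((((2 : ℝ)⁻¹ * inner ℝ y v : ℝ) : ℂ)) • (((2 : ℝ)⁻¹ • innerSL ℝ y).smulRight v2))
        + (((2 : ℝ)⁻¹ • innerSL ℝ v).smulRight (V1 (sq y)))) y := by
    have ha : HasFDerivAt (fun w : R12 => (((2 : ℝ)⁻¹ * inner ℝ w v : ℝ) : ℂ))
        (((2 : ℝ)⁻¹ • innerSL ℝ v).smulRight (1 : ℂ)) y := by
      have h3 : HasFDerivAt (fun w : R12 => (2 : ℝ)⁻¹ * inner ℝ w v) ((2 : ℝ)⁻¹ • innerSL ℝ v) y := by
        have h4 : HasFDerivAt (fun w : R12 => ((2 : ℝ)⁻¹ • innerSL ℝ v : R12 →L[ℝ] ℝ) w)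
            ((2 : ℝ)⁻¹ • innerSL ℝ v) y := ContinuousLinearMap.hasFDerivAt _
        refine h4.congr_of_eventuallyEq ?_
        refine Eventually.of_forall fun w => ?_
        simp [real_inner_comm]
      have h5 := Complex.ofRealCLM.hasFDerivAt.comp y h3
      refine h5.congr_fderiv ?_
      ext w
      simp
    have hb := hasFDerivAt_rad (V := V1) (y := y) hV1
    have hc := ha.mul hb
    refine hc.congr_fderiv ?_
    ext w
    simp [rad]
    ring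
  have h3 := h1.unique (h2.congr_of_eventuallyEq hev)
  have h4 := congrArg (fun L : R12 →L[ℝ] ℂ => L v) h3
  simp only [ContinuousLinearMap.flip_apply] at h4
  rw [h4]
  simp
  ring

theorem lap_rad {V V1 : ℝ → ℂ} {v2 : ℂ} {y : R12}
    (hV : ∀ᶠ x in 𝓝 (sq y), HasDerivAt V (V1 x) x) (hV1 : HasDerivAt V1 v2 (sq y))
    (hQ : DifferentiableAt ℝ (fderiv ℝ (rad V)) y) :
    lap (rad V) y = ((sq y : ℝ) : ℂ) * v2 + 6 * V1 (sq y) := by
  unfold lap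
  simp_rw [iteratedFDeriv_two_rad hV hV1 hQ]
  rw [Finset.sum_add_distrib, ← Finset.sum_mul, ← Finset.sum_mul]
  have h1 : ∀ i : Fin 12, inner ℝ (ei i) (ei i) = (1 : ℝ) := by
    intro i
    simp [ei]
  have h2 : ∀ i : Fin 12, inner ℝ y (ei i) = y i := by
    intro i
    simp [ei, EuclideanSpace.inner_single_right]
  simp_rw [h1, h2]
  have h3 : ∑ i : Fin 12, ((((2 : ℝ)⁻¹ * y i) ^ 2 : ℝ) : ℂ) = ((sq y : ℝ) : ℂ) := by
    rw [← Complex.ofReal_sum]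
    congr 1
    rw [sq, EuclideanSpace.norm_sq_eq, Finset.sum_div]
    refine Finset.sum_congr rfl fun i _ => ?_
    rw [Real.norm_eq_abs, sq_abs]; ring
  rw [h3]
  simp
  ring

/-- **From a radial solution to the structure `Profile n`.** Here `V : [0,∞) → ℂ` is the profile in
the variable `x = |y|²/4`. -/
theorem profile_of_V (n : ℕ) (hn : Even n) (h2n : 2 ≤ n) (om : ℝ) (V V1 V2 : ℝ → ℂ)
    (hV : ContDiffOn ℝ ∞ V (Ici 0))
    (hdec : ∀ j : ℕ, ∃ C X : ℝ, ∀ x : ℝ, X ≤ x →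
      ‖iteratedDerivWithin j V (Ici 0) x‖ ≤ C * x ^ (-(1 / (n : ℝ)) - j))
    (h1 : ∀ x : ℝ, 0 < x → HasDerivAt V (V1 x) x)
    (h2 : ∀ x : ℝ, 0 < x → HasDerivAt V1 (V2 x) x)
    (hode : ∀ x : ℝ, 0 < x → (x : ℂ) * V2 x + (6 + I * x) * V1 x + ((om : ℂ) + I / n) * V x
      = ((‖V x‖ ^ n : ℝ) : ℂ) * V x)
    (h0 : V 0 ≠ 0) :
    ∃ P : Profile n, P.om = om ∧ P.Q = fun y : R12 => V (‖y‖ ^ 2 / 4) := by
  have hQ : ContDiff ℝ ∞ (rad V) := contDiff_rad hV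
  have hQ1 : ∀ y, DifferentiableAt ℝ (fderiv ℝ (rad V)) y := by
    intro y
    have : ContDiff ℝ 1 (fderiv ℝ (rad V)) := by
      refine ((hQ.of_le two_le_infty).fderiv_right (m := 1) ?_)
      norm_num
    exact (this.differentiable one_ne_zero) y
  have heq0 : ∀ y : R12, y ≠ 0 → lap (rad V) y + (I / 2) * eul (rad V) y
      + ((om : ℂ) + I / n) * rad V y = ((‖rad V y‖ ^ n : ℝ) : ℂ) * rad V y := by
    intro y hy
    have hs := sq_pos hy
    have hev : ∀ᶠ x in 𝓝 (sq y), HasDerivAt V (V1 x) x := by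
      filter_upwards [lt_mem_nhds hs] with x hx using h1 x hx
    rw [lap_rad hev (h2 _ hs) (hQ1 y), eul_rad (h1 _ hs)]
    rw [rad, ← hode (sq y) hs]
    push_cast
    ring
  have hlapc : Continuous (lap (rad V)) := by
    unfold lap
    refine continuous_finsetSum _ fun i _ => ?_
    have hc : Continuous fun y : R12 => iteratedFDeriv ℝ 2 (rad V) y :=
      hQ.continuous_iteratedFDeriv two_le_infty
    exact (ContinuousMultilinearMap.apply ℝ (fun _ : Fin 2 => R12) ℂ ![ei i, ei i]).continuous.comp hc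
  have heulc : Continuous (eul (rad V)) := by
    unfold eul
    have hc : Continuous (fderiv ℝ (rad V)) := hQ.continuous_fderiv (by simp)
    exact hc.clm_apply continuous_id
  have heq : ∀ y : R12, lap (rad V) y + (I / 2) * eul (rad V) y
      + ((om : ℂ) + I / n) * rad V y = ((‖rad V y‖ ^ n : ℝ) : ℂ) * rad V y := by
    have hL : Continuous fun y : R12 => lap (rad V) y + (I / 2) * eul (rad V) y
      + ((om : ℂ) + I / n) * rad V y := by
      have := hQ.continuous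
      fun_prop
    have hR : Continuous fun y : R12 => ((‖rad V y‖ ^ n : ℝ) : ℂ) * rad V y := by
      have := hQ.continuous
      fun_prop
    have hdense : Dense ({0}ᶜ : Set R12) := dense_compl_singleton 0
    have := hL.ext_on hdense hR (fun y hy => heq0 y hy)
    intro y
    exact congrFun this y
  refine ⟨{ om := om, Q := rad V, neven := hn, two_le := h2n, smooth := hQ,
            radial := ⟨fun r => V (r ^ 2 / 4), fun y => rfl⟩, decay := ?_, eqn := heq,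
            Q_zero := ?_ }, rfl, rfl⟩
  · intro j
    obtain ⟨C, hC⟩ := sym_of_radial (δ := 1 / (n : ℝ)) (by positivity) hV hdec j
    refine ⟨C, fun y => ?_⟩
    have h := hC y
    have e : -(2 * (1 / (n : ℝ))) - (j : ℝ) = -(2 : ℝ) / n - j := by ring
    rwa [e] at h
  · simpa [rad, sq] using h0

end Crest.Agent.R086.BRad
end

-- ▼ part R086/BSm0

/-!
Row 86 (S0114), Part B, item (5) of the frozen plan (helper367): regularity of the radial solution at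
the origin, in the variable `x = r²/4`, and the structure `Profile n` from the pair `(v, v1)`.
-/

set_option autoImplicit false

open Complex Set Filter Topology
open scoped ContDiff

namespace Crest.Agent.R086.BSm0

variable {n : ℕ} {om eps : ℝ} {v v1 : ℝ → ℂ}

/-- the profile in the variable `x = r²/4` -/
noncomputable def Vx (v : ℝ → ℂ) (x : ℝ) : ℂ := v (2 * Real.sqrt x)

/-- its first derivative -/
noncomputable def Vx1 (v1 : ℝ → ℂ) (x : ℝ) : ℂ := ((Real.sqrt x : ℝ) : ℂ)⁻¹ * v1 (2 * Real.sqrt x)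

/-- its second derivative (from the equation) -/
noncomputable def Vx2 (n : ℕ) (om eps : ℝ) (v v1 : ℝ → ℂ) (x : ℝ) : ℂ :=
  (x : ℂ)⁻¹ * (((‖Vx v x‖ ^ n : ℝ) : ℂ) * Vx v x - (6 + I * x) * Vx1 v1 x
    - ((om : ℂ) + I * eps) * Vx v x)

theorem sqrt_pos' {x : ℝ} (hx : 0 < x) : 0 < 2 * Real.sqrt x := by
  have := Real.sqrt_pos.2 hx
  positivity

theorem hasDerivAt_two_sqrt {x : ℝ} (hx : 0 < x) :
    HasDerivAt (fun x : ℝ => 2 * Real.sqrt x) ((Real.sqrt x)⁻¹) x := by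
  have h := (Real.hasDerivAt_sqrt hx.ne').const_mul 2
  refine h.congr_deriv ?_
  have := (Real.sqrt_pos.2 hx).ne'
  field_simp

theorem Vx_zero : Vx v 0 = v 0 := by simp [Vx]

theorem Vx_sq {r : ℝ} (hr : 0 ≤ r) : Vx v (r ^ 2 / 4) = v r := by
  have : r ^ 2 / 4 = (r / 2) ^ 2 := by ring
  rw [Vx, this, Real.sqrt_sq (by positivity)]
  congr 1; ring

theorem Vx_hasDerivAt (hs : B.IsSol n om eps v v1 (Ioi 0)) {x : ℝ} (hx : 0 < x) :
    HasDerivAt (Vx v) (Vx1 v1 x) x := by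
  have h1 := ((hs _ (mem_Ioi.2 (sqrt_pos' hx))).1).scomp x (hasDerivAt_two_sqrt hx)
  refine h1.congr_deriv ?_
  rw [Complex.real_smul, Vx1]
  push_cast
  rfl

theorem Vx1_hasDerivAt (hs : B.IsSol n om eps v v1 (Ioi 0)) {x : ℝ} (hx : 0 < x) :
    HasDerivAt (Vx1 v1) (Vx2 n om eps v v1 x) x := by
  have hq : 0 < Real.sqrt x := Real.sqrt_pos.2 hx
  have hq' : ((Real.sqrt x : ℝ) : ℂ) ≠ 0 := by exact_mod_cast hq.ne'
  have hx' : (x : ℂ) ≠ 0 := by exact_mod_cast hx.ne'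
  have hxx : ((Real.sqrt x : ℝ) : ℂ) * ((Real.sqrt x : ℝ) : ℂ) = (x : ℂ) := by
    rw [← Complex.ofReal_mul, Real.mul_self_sqrt hx.le]
  have h1 := ((hs _ (mem_Ioi.2 (sqrt_pos' hx))).2).scomp x (hasDerivAt_two_sqrt hx)
  have h2 : HasDerivAt (fun x : ℝ => ((Real.sqrt x : ℝ) : ℂ)⁻¹)
      (-((1 / (2 * Real.sqrt x) : ℝ) : ℂ) / ((Real.sqrt x : ℝ) : ℂ) ^ 2) x :=
    ((Real.hasDerivAt_sqrt hx.ne').ofReal_comp).fun_inv hq'
  have h3 := h2.mul h1
  refine h3.congr_deriv ?_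
  simp only [Function.comp_def, Complex.real_smul, Vx2, Vx1, Vx]
  push_cast
  set w := v (2 * Real.sqrt x)
  set w1 := v1 (2 * Real.sqrt x)
  set q : ℂ := ((Real.sqrt x : ℝ) : ℂ) with hqdef
  rw [← hxx]
  field_simp
  ring

theorem Vx_ode {x : ℝ} (hx : 0 < x) :
    (x : ℂ) * Vx2 n om eps v v1 x + (6 + I * x) * Vx1 v1 x + ((om : ℂ) + I * eps) * Vx v x
      = ((‖Vx v x‖ ^ n : ℝ) : ℂ) * Vx v x := by
  have hx' : (x : ℂ) ≠ 0 := by exact_mod_cast hx.ne'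
  rw [Vx2]
  field_simp
  ring

/-- the profile is smooth up to `x = 0` -/
theorem Vx_contDiffOn (hn : Even n) (hc : ContinuousOn v (Ici 0))
    (hb : ∃ C r0 : ℝ, 0 < r0 ∧ ∀ r, 0 < r → r ≤ r0 → ‖v1 r‖ ≤ C)
    (hs : B.IsSol n om eps v v1 (Ioi 0)) : ContDiffOn ℝ ∞ (Vx v) (Ici 0) := by
  have hG : ContDiffOn ℝ ∞ (RLift.Gf v) (Ici 0) := by
    refine RLift.Gf_contDiffOn (n := n) (c := (om : ℂ) + I * eps) (v1 := v1) hn
      (fun r hr => (hs r hr).1) (fun r hr => ?_) hc hb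
    refine (hs r hr).2
  have h4 : ContDiffOn ℝ ∞ (fun x : ℝ => RLift.Gf v (4 * x)) (Ici 0) := by
    refine hG.comp (t := Ici 0) (f := fun x : ℝ => 4 * x) ?_ ?_
    · exact (contDiff_const.mul contDiff_id).contDiffOn
    · intro x hx
      have := mem_Ici.1 hx
      exact mem_Ici.2 (by positivity)
  refine h4.congr fun x hx => ?_
  rw [Vx, RLift.Gf, Real.sqrt_mul (by norm_num : (0 : ℝ) ≤ 4)]
  have : Real.sqrt 4 = 2 := by
    rw [show (4 : ℝ) = 2 ^ 2 by norm_num, Real.sqrt_sq (by norm_num)]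
  rw [this]

theorem bdd_near_zero (hc1 : ContinuousOn v1 (Ici 0)) :
    ∃ C r0 : ℝ, 0 < r0 ∧ ∀ r, 0 < r → r ≤ r0 → ‖v1 r‖ ≤ C := by
  have h : ContinuousOn v1 (Icc 0 1) := hc1.mono Icc_subset_Ici_self
  obtain ⟨C, hC⟩ := isCompact_Icc.exists_bound_of_continuousOn h
  exact ⟨C, 1, one_pos, fun r h0 h1 => hC r ⟨h0.le, h1⟩⟩

/-- smooth up to `x = 0`, from continuity of `v`, `v1` on `[0,∞)` -/
theorem Vx_contDiffOn' (hn : Even n) (hc : ContinuousOn v (Ici 0)) (hc1 : ContinuousOn v1 (Ici 0))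
    (hs : B.IsSol n om eps v v1 (Ioi 0)) : ContDiffOn ℝ ∞ (Vx v) (Ici 0) :=
  Vx_contDiffOn hn hc (bdd_near_zero hc1) hs


/-- **item (5)**: the structure `Profile n` from the radial pair `(v, v1)`. -/
theorem profile_of_sol (n : ℕ) (hn : Even n) (h2n : 2 ≤ n) (om : ℝ) (v v1 : ℝ → ℂ)
    (hc : ContinuousOn v (Ici 0)) (hc1 : ContinuousOn v1 (Ici 0))
    (hs : B.IsSol n om (1 / n) v v1 (Ioi 0))
    (hdec : ∀ j : ℕ, ∃ C : ℝ, ∀ᶠ x : ℝ in atTop,
      ‖iteratedDeriv j (Vx v) x‖ ≤ C * x ^ (-(1 / (n : ℝ)) - j))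
    (h0 : v 0 ≠ 0) :
    ∃ P : Profile n, P.om = om ∧ P.Q = fun y : R12 => v ‖y‖ := by
  have hV := Vx_contDiffOn' hn hc hc1 hs
  obtain ⟨P, hP1, hP2⟩ := BRad.profile_of_V n hn h2n om (Vx v) (Vx1 v1) (Vx2 n om (1 / n) v v1) hV
    (fun j => by
      obtain ⟨C, hC⟩ := hdec j
      obtain ⟨X, hX⟩ := eventually_atTop.1 hC
      refine ⟨C, max X 1, fun x hx => ?_⟩
      have hx0 : 0 < x := lt_of_lt_of_le one_pos (le_trans (le_max_right _ _) hx)
      have hCD : ContDiffAt ℝ ∞ (Vx v) x := hV.contDiffAt (Ici_mem_nhds hx0)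
      rw [iteratedDerivWithin_eq_iteratedDeriv (uniqueDiffOn_Ici 0)
        (hCD.of_le (by exact_mod_cast le_top)) (mem_Ici.2 hx0.le)]
      exact hX x (le_trans (le_max_left _ _) hx))
    (fun x hx => Vx_hasDerivAt hs hx) (fun x hx => Vx1_hasDerivAt hs hx)
    (fun x hx => by
      have := Vx_ode (n := n) (om := om) (eps := 1 / n) (v := v) (v1 := v1) hx
      rw [← this]
      push_cast
      ring)
    (by rw [Vx_zero]; exact h0)
  refine ⟨P, hP1, ?_⟩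
  rw [hP2]
  funext y
  exact Vx_sq (norm_nonneg y)

end Crest.Agent.R086.BSm0
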