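import Crest.Agent.R086.SymDefs

/-!
Row 86, Part D, node SYM (helper732): symbols of negative order are Fourier transforms of weighted
integrable functions.
-/

set_option autoImplicit false
set_option linter.style.longLine false

open MeasureTheory Complex Filter Topology
open scoped ContDiff FourierTransform

namespace Crest.Agent.R086

/-- Quantitative version of `Rep`. -/
def RepD (a : R12 → ℂ) (N : ℕ) (B : ℝ) (f : R12 → ℂ) : Prop :=
  Rep N a f ∧ ∫ ξ : R12, (1 + ‖ξ‖) ^ N * ‖a ξ‖ ≤ B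

/-- Quantitative version of `InX`. -/
def RepB (N : ℕ) (B : ℝ) (f : R12 → ℂ) : Prop :=
  ∃ a : R12 → ℂ, Rep N a f ∧ ∫ ξ : R12, (1 + ‖ξ‖) ^ N * ‖a ξ‖ ≤ B

/-- Quantitative version of `InX`: one density for all `N`, bound `B N` of the `N`-norm. -/
def RepA (B : ℕ → ℝ) (f : R12 → ℂ) : Prop :=
  ∃ a : R12 → ℂ, ∀ N, RepD a N (B N) f

namespace SymX

theorem finrank12 : Module.finrank ℝ R12 = 12 := by simp


theorem norm_wt (N : ℕ) (ξ : R12) : ‖((((1 + ‖ξ‖) ^ N : ℝ)) : ℂ)‖ = (1 + ‖ξ‖) ^ N := by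
  rw [Complex.norm_real, Real.norm_of_nonneg (by positivity)]

theorem _root_.Crest.Agent.R086.RepB.inX {N : ℕ} {B : ℝ} {f : R12 → ℂ} (h : RepB N B f) : InX N f := by
  obtain ⟨a, ha, -⟩ := h
  exact ⟨a, ha⟩

theorem aesm_of_wt {N : ℕ} {a : R12 → ℂ}
    (h : Integrable (fun ξ : R12 => (((1 + ‖ξ‖) ^ N : ℝ) : ℂ) * a ξ)) :
    AEStronglyMeasurable a volume := by
  have h1 : AEStronglyMeasurable (fun ξ : R12 => (((1 + ‖ξ‖) ^ N : ℝ) : ℂ)⁻¹ *
      ((((1 + ‖ξ‖) ^ N : ℝ) : ℂ) * a ξ)) volume := by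
    refine AEStronglyMeasurable.mul ?_ h.1
    refine Measurable.aestronglyMeasurable ?_
    fun_prop
  refine h1.congr (Eventually.of_forall fun ξ => ?_)
  have hne : ((((1 + ‖ξ‖) ^ N : ℝ)) : ℂ) ≠ 0 := by
    rw [Ne, Complex.ofReal_eq_zero]
    positivity
  simp only
  rw [← mul_assoc, inv_mul_cancel₀ hne, one_mul]

theorem integrable_of_wt {N : ℕ} {a : R12 → ℂ}
    (h : Integrable (fun ξ : R12 => (((1 + ‖ξ‖) ^ N : ℝ) : ℂ) * a ξ)) :
    Integrable a volume := by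
  refine h.mono (aesm_of_wt h) (Eventually.of_forall fun ξ => ?_)
  rw [norm_mul, norm_wt]
  have : 1 ≤ (1 + ‖ξ‖) ^ N := one_le_pow₀ (by linarith [norm_nonneg ξ])
  nlinarith [norm_nonneg (a ξ)]

theorem integrable_wt_norm {N : ℕ} {a : R12 → ℂ}
    (h : Integrable (fun ξ : R12 => (((1 + ‖ξ‖) ^ N : ℝ) : ℂ) * a ξ)) :
    Integrable (fun ξ : R12 => (1 + ‖ξ‖) ^ N * ‖a ξ‖) volume := by
  refine h.norm.congr (Eventually.of_forall fun ξ => ?_)
  simp only
  rw [norm_mul, norm_wt]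

theorem integrable_wt_iff {N : ℕ} {a : R12 → ℂ} (ha : AEStronglyMeasurable a volume) :
    Integrable (fun ξ : R12 => (((1 + ‖ξ‖) ^ N : ℝ) : ℂ) * a ξ) ↔
    Integrable (fun ξ : R12 => (1 + ‖ξ‖) ^ N * ‖a ξ‖) volume := by
  refine ⟨integrable_wt_norm, fun h => ?_⟩
  refine h.mono ?_ (Eventually.of_forall fun ξ => ?_)
  · refine AEStronglyMeasurable.mul ?_ ha
    refine Measurable.aestronglyMeasurable ?_
    fun_prop
  · rw [norm_mul, norm_wt, Real.norm_of_nonneg (by positivity)]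

theorem norm_expI (r : ℝ) : ‖exp (I * (r : ℂ))‖ = 1 := by
  rw [mul_comm]
  exact Complex.norm_exp_ofReal_mul_I r

/-! ### countable sums -/

theorem _root_.Crest.Agent.R086.RepD.tsum {N : ℕ} {B : ℕ → ℝ} {F : ℕ → R12 → ℂ} {f : R12 → ℂ}
    {a : ℕ → R12 → ℂ}
    (hF : ∀ j, RepD (a j) N (B j) (F j)) (hB : Summable B)
    (hf : ∀ y, HasSum (fun j => F j y) (f y)) :
    RepD (fun ξ => ∑' j, a j ξ) N (∑' j, B j) f := by
  have ha := fun j => (hF j).1
  have hab := fun j => (hF j).2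
  set G : ℕ → R12 → ℂ := fun j ξ => (((1 + ‖ξ‖) ^ N : ℝ) : ℂ) * a j ξ with hG
  have hGi : ∀ j, Integrable (G j) := fun j => (ha j).1
  have hGn : ∀ j, ∫ ξ, ‖G j ξ‖ = ∫ ξ : R12, (1 + ‖ξ‖) ^ N * ‖a j ξ‖ := by
    intro j
    refine integral_congr_ae (Eventually.of_forall fun ξ => ?_)
    simp only [hG]
    rw [norm_mul, norm_wt]
  have hGs : Summable fun j => ∫ ξ, ‖G j ξ‖ := by
    refine Summable.of_nonneg_of_le (fun j => integral_nonneg fun _ => norm_nonneg _)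
      (fun j => ?_) hB
    rw [hGn]; exact hab j
  have hlin : ∫⁻ ξ, ∑' j, ‖G j ξ‖ₑ = ENNReal.ofReal (∑' j, ∫ ξ, ‖G j ξ‖) := by
    rw [lintegral_tsum (fun j => (hGi j).1.enorm)]
    rw [ENNReal.ofReal_tsum_of_nonneg (fun j => integral_nonneg fun _ => norm_nonneg _) hGs]
    congr 1
    ext j
    rw [ofReal_integral_norm_eq_lintegral_enorm (hGi j)]
  have hfin : ∀ᵐ ξ : R12, Summable fun j => G j ξ := by
    have h1 : ∀ᵐ ξ : R12, ∑' j, ‖G j ξ‖ₑ < ⊤ := by
      refine ae_lt_top' ?_ ?_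
      · exact AEMeasurable.tsum fun j => (hGi j).1.enorm
      · rw [hlin]; exact ENNReal.ofReal_ne_top
    filter_upwards [h1] with ξ hξ
    refine Summable.of_norm ?_
    have := ENNReal.summable_toReal hξ.ne
    simpa using this
  set A : R12 → ℂ := fun ξ => ∑' j, a j ξ with hA
  have hGA : ∀ ξ : R12, (((1 + ‖ξ‖) ^ N : ℝ) : ℂ) * A ξ = ∑' j, G j ξ := by
    intro ξ
    simp only [hA, hG]
    rw [tsum_mul_left]
  have hmeas : AEStronglyMeasurable (fun ξ => ∑' j, G j ξ) volume := by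
    refine aestronglyMeasurable_of_tendsto_ae (u := atTop)
      (f := fun (n : ℕ) ξ => ∑ j ∈ Finset.range n, G j ξ) (fun n => ?_) ?_
    · exact Finset.aestronglyMeasurable_fun_sum _ fun j _ => (hGi j).1
    · filter_upwards [hfin] with ξ hξ
      exact hξ.hasSum.tendsto_sum_nat
  have hlt : ∫⁻ ξ, ‖∑' j, G j ξ‖ₑ ≤ ENNReal.ofReal (∑' j, ∫ ξ, ‖G j ξ‖) := by
    rw [← hlin]
    exact lintegral_mono fun ξ => enorm_tsum_le_tsum_enorm
  have hint : Integrable (fun ξ => ∑' j, G j ξ) volume :=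
    ⟨hmeas, lt_of_le_of_lt hlt ENNReal.ofReal_lt_top⟩
  have hint' : Integrable (fun ξ : R12 => (((1 + ‖ξ‖) ^ N : ℝ) : ℂ) * A ξ) := by
    rw [show (fun ξ : R12 => (((1 + ‖ξ‖) ^ N : ℝ) : ℂ) * A ξ) = fun ξ => ∑' j, G j ξ from
      funext hGA]
    exact hint
  show RepD A N (∑' j, B j) f
  refine ⟨⟨hint', fun y => ?_⟩, ?_⟩
  · have hai : ∀ j, Integrable (fun ξ : R12 => exp (I * ((inner ℝ ξ y : ℝ) : ℂ)) * a j ξ) := by
      intro j
      refine (integrable_of_wt (ha j).1).mono ?_ (Eventually.of_forall fun ξ => ?_)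
      · refine AEStronglyMeasurable.mul ?_ (aesm_of_wt (ha j).1)
        refine Measurable.aestronglyMeasurable ?_
        fun_prop
      · rw [norm_mul, norm_expI, one_mul]
    have hsum : Summable fun j => ∫ ξ : R12, ‖exp (I * ((inner ℝ ξ y : ℝ) : ℂ)) * a j ξ‖ := by
      refine Summable.of_nonneg_of_le (fun j => integral_nonneg fun _ => norm_nonneg _)
        (fun j => ?_) hGs
      refine integral_mono (hai j).norm (hGi j).norm fun ξ => ?_
      simp only [hG]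
      rw [norm_mul, norm_expI, one_mul, norm_mul, norm_wt]
      have : 1 ≤ (1 + ‖ξ‖) ^ N := one_le_pow₀ (by linarith [norm_nonneg ξ])
      nlinarith [norm_nonneg (a j ξ)]
    have h1 := hasSum_integral_of_summable_integral_norm hai hsum
    have h2 : HasSum (fun j => F j y)
        (∫ ξ : R12, ∑' j, exp (I * ((inner ℝ ξ y : ℝ) : ℂ)) * a j ξ) := by
      have h3 : (fun j => F j y) =
          fun j => ∫ ξ : R12, exp (I * ((inner ℝ ξ y : ℝ) : ℂ)) * a j ξ := by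
        funext j
        exact (ha j).2 y
      rw [h3]
      exact h1
    rw [(hf y).unique h2]
    refine integral_congr_ae (Eventually.of_forall fun ξ => ?_)
    simp only [hA]
    rw [tsum_mul_left]
  · have e1 : ∫ ξ : R12, (1 + ‖ξ‖) ^ N * ‖A ξ‖ = ∫ ξ : R12, ‖∑' j, G j ξ‖ := by
      refine integral_congr_ae (Eventually.of_forall fun ξ => ?_)
      simp only
      rw [← hGA ξ, norm_mul, norm_wt]
    have e2 : ∫ ξ : R12, ‖∑' j, G j ξ‖ ≤ ∑' j, ∫ ξ, ‖G j ξ‖ := by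
      rw [integral_norm_eq_lintegral_enorm hmeas]
      refine ENNReal.toReal_le_of_le_ofReal ?_ hlt
      exact tsum_nonneg fun j => integral_nonneg fun _ => norm_nonneg _
    rw [e1]
    refine e2.trans ?_
    refine Summable.tsum_le_tsum (fun j => ?_) hGs hB
    rw [hGn]; exact hab j

theorem _root_.Crest.Agent.R086.RepB.tsum {N : ℕ} {B : ℕ → ℝ} {F : ℕ → R12 → ℂ} {f : R12 → ℂ}
    (hF : ∀ j, RepB N (B j) (F j)) (hB : Summable B) (hf : ∀ y, HasSum (fun j => F j y) (f y)) :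
    RepB N (∑' j, B j) f := by
  choose a ha using hF
  exact ⟨_, RepD.tsum ha hB hf⟩

theorem _root_.Crest.Agent.R086.RepA.tsum {B : ℕ → ℕ → ℝ} {F : ℕ → R12 → ℂ} {f : R12 → ℂ}
    (hF : ∀ j, RepA (B j) (F j)) (hB : ∀ N, Summable fun j => B j N)
    (hf : ∀ y, HasSum (fun j => F j y) (f y)) :
    RepA (fun N => ∑' j, B j N) f := by
  choose a ha using hF
  exact ⟨_, fun N => RepD.tsum (fun j => ha j N) (hB N) hf⟩

theorem _root_.Crest.Agent.R086.RepD.mono {a : R12 → ℂ} {N : ℕ} {B B' : ℝ} {f : R12 → ℂ}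
    (h : RepD a N B f) (hB : B ≤ B') : RepD a N B' f := ⟨h.1, h.2.trans hB⟩

theorem _root_.Crest.Agent.R086.RepB.mono {N : ℕ} {B B' : ℝ} {f : R12 → ℂ} (h : RepB N B f)
    (hB : B ≤ B') : RepB N B' f := by
  obtain ⟨a, ha, hb⟩ := h
  exact ⟨a, ha, hb.trans hB⟩

theorem _root_.Crest.Agent.R086.RepA.mono {B B' : ℕ → ℝ} {f : R12 → ℂ} (h : RepA B f)
    (hB : ∀ N, B N ≤ B' N) : RepA B' f := by
  obtain ⟨a, ha⟩ := h
  exact ⟨a, fun N => (ha N).mono (hB N)⟩

theorem _root_.Crest.Agent.R086.RepA.repB {B : ℕ → ℝ} {f : R12 → ℂ} (h : RepA B f) (N : ℕ) :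
    RepB N (B N) f := by
  obtain ⟨a, ha⟩ := h
  exact ⟨a, ha N⟩

/-! ### dilations -/

/-- the density of a dilated function -/
noncomputable def dilD (R : ℝ) (a : R12 → ℂ) (ξ : R12) : ℂ := ((R ^ 12 : ℝ) : ℂ) * a (R • ξ)

theorem _root_.Crest.Agent.R086.RepD.dil {a : R12 → ℂ} {N : ℕ} {B : ℝ} {f : R12 → ℂ}
    (h : RepD a N B f) {R : ℝ} (hR : 1 ≤ R) :
    RepD (dilD R a) N B (fun y => f (R⁻¹ • y)) := by
  obtain ⟨ha, hb⟩ := h
  have hR0 : 0 < R := lt_of_lt_of_le one_pos hR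
  have hRne : R ≠ 0 := hR0.ne'
  set G : R12 → ℂ := fun ξ => (((1 + ‖R⁻¹ • ξ‖) ^ N : ℝ) : ℂ) * a ξ with hG
  have hGi : Integrable G := by
    refine ha.1.mono ?_ (Eventually.of_forall fun ξ => ?_)
    · refine AEStronglyMeasurable.mul ?_ (aesm_of_wt ha.1)
      refine Measurable.aestronglyMeasurable ?_
      fun_prop
    · simp only [hG]
      rw [norm_mul, norm_mul, norm_wt, norm_wt]
      gcongr
      rw [norm_smul, norm_inv, Real.norm_of_nonneg hR0.le]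
      have : R⁻¹ ≤ 1 := inv_le_one_of_one_le₀ hR
      nlinarith [norm_nonneg ξ]
  show RepD (fun ξ => ((R ^ 12 : ℝ) : ℂ) * a (R • ξ)) N B (fun y => f (R⁻¹ • y))
  refine ⟨⟨?_, fun y => ?_⟩, ?_⟩
  · have h1 : Integrable (fun ξ => G (R • ξ)) := hGi.comp_smul hRne
    refine (h1.const_mul ((R ^ 12 : ℝ) : ℂ)).congr (Eventually.of_forall fun ξ => ?_)
    simp only [hG]
    rw [smul_smul, inv_mul_cancel₀ hRne, one_smul]
    ring
  · show f (R⁻¹ • y) = _
    rw [ha.2 (R⁻¹ • y)]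
    have h1 := Measure.integral_comp_smul (volume : Measure R12)
      (fun ξ => exp (I * ((inner ℝ ξ (R⁻¹ • y) : ℝ) : ℂ)) * a ξ) R
    have h2 : ∫ ξ : R12, exp (I * ((inner ℝ ξ y : ℝ) : ℂ)) * (((R ^ 12 : ℝ) : ℂ) * a (R • ξ)) =
        ((R ^ 12 : ℝ) : ℂ) * ∫ ξ : R12, exp (I * ((inner ℝ (R • ξ) (R⁻¹ • y) : ℝ) : ℂ)) * a (R • ξ) := by
      rw [← integral_const_mul]
      refine integral_congr_ae (Eventually.of_forall fun ξ => ?_)
      simp only
      have : inner ℝ (R • ξ) (R⁻¹ • y) = inner ℝ ξ y := by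
        rw [real_inner_smul_left, real_inner_smul_right, ← mul_assoc, mul_inv_cancel₀ hRne, one_mul]
      rw [this]
      ring
    rw [h2, h1, finrank12, abs_of_pos (by positivity), Complex.real_smul, ← mul_assoc,
      ← Complex.ofReal_mul, mul_inv_cancel₀ (by positivity), Complex.ofReal_one, one_mul]
  · refine le_trans (le_of_eq ?_) (le_trans (?_ : ∫ ξ : R12, ‖G ξ‖ ≤ _) hb)
    · have h1 := Measure.integral_comp_smul (volume : Measure R12) (fun ξ => ‖G ξ‖) R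
      have h2 : ∫ ξ : R12, (1 + ‖ξ‖) ^ N * ‖((R ^ 12 : ℝ) : ℂ) * a (R • ξ)‖ =
          R ^ 12 * ∫ ξ : R12, ‖G (R • ξ)‖ := by
        rw [← integral_const_mul]
        refine integral_congr_ae (Eventually.of_forall fun ξ => ?_)
        simp only [hG]
        rw [smul_smul, inv_mul_cancel₀ hRne, one_smul, norm_mul, norm_mul, norm_wt,
          Complex.norm_real, Real.norm_of_nonneg (by positivity : (0:ℝ) ≤ R ^ 12)]
        ring
      rw [h2, h1, finrank12, abs_of_pos (by positivity), smul_eq_mul, ← mul_assoc,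
        mul_inv_cancel₀ (by positivity), one_mul]
    · refine integral_mono hGi.norm (integrable_wt_norm ha.1) fun ξ => ?_
      simp only [hG]
      rw [norm_mul, norm_wt]
      gcongr
      rw [norm_smul, norm_inv, Real.norm_of_nonneg hR0.le]
      have : R⁻¹ ≤ 1 := inv_le_one_of_one_le₀ hR
      nlinarith [norm_nonneg ξ]

theorem _root_.Crest.Agent.R086.RepB.dil {N : ℕ} {B : ℝ} {f : R12 → ℂ} (h : RepB N B f)
    {R : ℝ} (hR : 1 ≤ R) : RepB N B (fun y => f (R⁻¹ • y)) := by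
  obtain ⟨a, ha⟩ := h
  exact ⟨_, RepD.dil ha hR⟩

theorem _root_.Crest.Agent.R086.RepA.dil {B : ℕ → ℝ} {f : R12 → ℂ} (h : RepA B f)
    {R : ℝ} (hR : 1 ≤ R) : RepA B (fun y => f (R⁻¹ • y)) := by
  obtain ⟨a, ha⟩ := h
  exact ⟨_, fun N => RepD.dil (ha N) hR⟩

/-! ### compactly supported functions -/

theorem one_add_pow_le (M : ℕ) {r : ℝ} (hr : 0 ≤ r) : (1 + r) ^ M ≤ 2 ^ M * (1 + r ^ M) := by
  rcases le_total r 1 with h | h
  · calc (1 + r) ^ M ≤ 2 ^ M := by gcongr; linarith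
      _ ≤ 2 ^ M * (1 + r ^ M) := by
        have : 0 ≤ r ^ M := by positivity
        have h2 : (0:ℝ) < 2 ^ M := by positivity
        nlinarith
  · calc (1 + r) ^ M ≤ (2 * r) ^ M := by gcongr; linarith
      _ = 2 ^ M * r ^ M := by rw [mul_pow]
      _ ≤ 2 ^ M * (1 + r ^ M) := by gcongr; linarith

theorem fourier_bound (M : ℕ) : ∃ C : ℝ, 0 ≤ C ∧ ∀ (g : R12 → ℂ) (B : ℝ), ContDiff ℝ ∞ g →
    (∀ y : R12, 4 < ‖y‖ → g y = 0) → (∀ m ≤ M, ∀ y, ‖iteratedFDeriv ℝ m g y‖ ≤ B) →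
    ∀ w : R12, (1 + ‖w‖) ^ M * ‖𝓕 g w‖ ≤ C * B := by
  set V : ℝ := volume.real (Metric.closedBall (0 : R12) 4) with hV
  have hV0 : 0 ≤ V := measureReal_nonneg
  refine ⟨2 ^ M * (V + 2 ^ M * ((M + 1) * V)), by positivity, ?_⟩
  intro g B hg hsupp hB w
  have hcs : HasCompactSupport g := by
    refine HasCompactSupport.intro (isCompact_closedBall (0 : R12) 4) fun y hy => hsupp y ?_
    simpa using hy
  have hz : ∀ m : ℕ, ∀ y : R12, 4 < ‖y‖ → iteratedFDeriv ℝ m g y = 0 := by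
    intro m y hy
    have h1 : g =ᶠ[𝓝 y] fun _ => (0 : ℂ) := by
      have : {z : R12 | 4 < ‖z‖} ∈ 𝓝 y := (isOpen_lt continuous_const continuous_norm).mem_nhds hy
      filter_upwards [this] with z hz
      exact hsupp z hz
    rw [(h1.iteratedFDeriv ℝ m).eq_of_nhds]
    simp
  have hint : ∀ (k m : ℕ), Integrable (fun v : R12 => ‖v‖ ^ k * ‖iteratedFDeriv ℝ m g v‖) := by
    intro k m
    refine Continuous.integrable_of_hasCompactSupport ?_ ?_
    · exact (continuous_norm.pow k).mul (hg.continuous_iteratedFDeriv (by exact_mod_cast le_top)).norm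
    · refine HasCompactSupport.intro (isCompact_closedBall (0 : R12) 4) fun y hy => ?_
      rw [hz m y (by simpa using hy)]
      simp
  have hI : ∀ m ≤ M, ∫ v : R12, ‖v‖ ^ 0 * ‖iteratedFDeriv ℝ m g v‖ ≤ V * B := by
    intro m hm
    have e1 : ∫ v : R12, ‖v‖ ^ 0 * ‖iteratedFDeriv ℝ m g v‖ =
        ∫ v in Metric.closedBall (0 : R12) 4, ‖iteratedFDeriv ℝ m g v‖ := by
      simp only [pow_zero, one_mul]
      rw [← integral_indicator Metric.isClosed_closedBall.measurableSet]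
      refine integral_congr_ae (Eventually.of_forall fun y => ?_)
      simp only
      by_cases hy : y ∈ Metric.closedBall (0 : R12) 4
      · rw [Set.indicator_of_mem hy]
      · rw [Set.indicator_of_notMem hy, hz m y (by simpa using hy), norm_zero]
    rw [e1]
    have e2 : ∫ v in Metric.closedBall (0 : R12) 4, ‖iteratedFDeriv ℝ m g v‖ ≤
        ∫ _ in Metric.closedBall (0 : R12) 4, B := by
      refine integral_mono_of_nonneg (Eventually.of_forall fun _ => norm_nonneg _) ?_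
        (Eventually.of_forall fun y => hB m hm y)
      refine integrableOn_const ?_
      exact measure_closedBall_lt_top.ne
    refine e2.trans (le_of_eq ?_)
    rw [setIntegral_const, smul_eq_mul]
  have hB0 : 0 ≤ B := (norm_nonneg _).trans (hB 0 (Nat.zero_le _) 0)
  have hk : ∀ n ≤ M, ‖w‖ ^ n * ‖𝓕 g w‖ ≤ 2 ^ n * ((n + 1) * (V * B)) := by
    intro n hn
    have h1 := Real.pow_mul_norm_iteratedFDeriv_fourier_le (K := ⊤) (N := ⊤) (f := g)
      (by exact_mod_cast hg) (fun k m _ _ => hint k m) (k := 0) (n := n) (by simp) (by simp) w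
    simp only [norm_iteratedFDeriv_zero, pow_zero, one_mul, CharP.cast_eq_zero, mul_zero,
      zero_add] at h1
    refine h1.trans ?_
    gcongr
    rw [Finset.range_one, Finset.sum_product]
    simp only [Finset.sum_singleton]
    calc ∑ m ∈ Finset.range (n + 1), ∫ v : R12, ‖v‖ ^ 0 * ‖iteratedFDeriv ℝ m g v‖
        ≤ ∑ m ∈ Finset.range (n + 1), V * B := by
          refine Finset.sum_le_sum fun m hm => hI m ?_
          have := Finset.mem_range.1 hm
          omega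
      _ = (n + 1) * (V * B) := by simp
  have h0 := hk 0 (Nat.zero_le _)
  have hM := hk M le_rfl
  simp only [pow_zero, one_mul, CharP.cast_eq_zero, zero_add] at h0
  calc (1 + ‖w‖) ^ M * ‖𝓕 g w‖ ≤ 2 ^ M * (1 + ‖w‖ ^ M) * ‖𝓕 g w‖ := by
        gcongr
        exact one_add_pow_le M (norm_nonneg w)
    _ = 2 ^ M * (‖𝓕 g w‖ + ‖w‖ ^ M * ‖𝓕 g w‖) := by ring
    _ ≤ 2 ^ M * (V * B + 2 ^ M * ((M + 1) * (V * B))) := by gcongr
    _ = 2 ^ M * (V + 2 ^ M * ((M + 1) * V)) * B := by ring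

/-- the density of a test function -/
noncomputable def denC (g : R12 → ℂ) (ξ : R12) : ℂ :=
  ((((2 * Real.pi) ^ 12)⁻¹ : ℝ) : ℂ) * 𝓕 g ((2 * Real.pi)⁻¹ • ξ)

theorem repD_compact (N : ℕ) : ∃ C : ℝ, 0 ≤ C ∧ ∀ (g : R12 → ℂ) (B : ℝ), ContDiff ℝ ∞ g →
    (∀ y : R12, 4 < ‖y‖ → g y = 0) → (∀ m ≤ N + 13, ∀ y, ‖iteratedFDeriv ℝ m g y‖ ≤ B) →
    RepD (denC g) N (C * B) g := by
  obtain ⟨C, hC, h⟩ := fourier_bound (N + 13)
  have hint13 : Integrable (fun ξ : R12 => (1 + ‖ξ‖) ^ (-(13 : ℝ))) := by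
    apply integrable_one_add_norm
    rw [finrank12]; norm_num
  set J : ℝ := ∫ ξ : R12, (1 + ‖ξ‖) ^ (-(13 : ℝ)) with hJ
  have hJ0 : 0 ≤ J := integral_nonneg fun ξ => by positivity
  refine ⟨(2 * Real.pi) ^ (N + 1) * C * J, by positivity, ?_⟩
  intro g B hg hsupp hB
  have hb := h g B hg hsupp hB
  have hB0 : 0 ≤ B := (norm_nonneg _).trans (hB 0 (Nat.zero_le _) 0)
  have hcs : HasCompactSupport g := by
    refine HasCompactSupport.intro (isCompact_closedBall (0 : R12) 4) fun y hy => hsupp y ?_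
    simpa using hy
  have hgi : Integrable g := hg.continuous.integrable_of_hasCompactSupport hcs
  have hcF : Continuous (𝓕 g) := by
    exact VectorFourier.fourierIntegral_continuous Real.continuous_fourierChar
      (by exact continuous_inner) hgi
  have hFi : Integrable (𝓕 g) := by
    refine (hint13.const_mul (C * B)).mono' hcF.aestronglyMeasurable
      (Eventually.of_forall fun w => ?_)
    have h1 := hb w
    have h2 : (1 + ‖w‖) ^ (-(13:ℝ)) = ((1 + ‖w‖) ^ 13)⁻¹ := by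
      rw [Real.rpow_neg (by positivity)]
      norm_cast
    rw [h2, ← div_eq_mul_inv, le_div_iff₀ (by positivity)]
    calc ‖𝓕 g w‖ * (1 + ‖w‖) ^ 13 ≤ (1 + ‖w‖) ^ (N + 13) * ‖𝓕 g w‖ := by
          rw [mul_comm, pow_add]
          have : 1 ≤ (1 + ‖w‖) ^ N := one_le_pow₀ (by linarith [norm_nonneg w])
          gcongr
          have h3 : 0 ≤ (1 + ‖w‖) ^ 13 := by positivity
          nlinarith
      _ ≤ C * B := h1
  have hinv : 𝓕⁻ (𝓕 g) = g := hg.continuous.fourierInv_fourier_eq hgi hFi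
  have hpi : (0 : ℝ) < 2 * Real.pi := by positivity
  have hpi1 : (1 : ℝ) ≤ 2 * Real.pi := by linarith [Real.pi_gt_three]
  set a : R12 → ℂ := fun ξ => ((((2 * Real.pi) ^ 12)⁻¹ : ℝ) : ℂ) * 𝓕 g ((2 * Real.pi)⁻¹ • ξ) with ha
  have hac : Continuous a := by
    simp only [ha]
    fun_prop
  have hpt : ∀ ξ : R12, (1 + ‖ξ‖) ^ N * ‖a ξ‖ ≤ (2 * Real.pi) ^ (N + 1) * C * B * (1 + ‖ξ‖) ^ (-(13:ℝ)) := by
    intro ξ
    have h1 := hb ((2 * Real.pi)⁻¹ • ξ)
    have h2 : (1 + ‖ξ‖) ^ (-(13:ℝ)) = ((1 + ‖ξ‖) ^ 13)⁻¹ := by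
      rw [Real.rpow_neg (by positivity)]
      norm_cast
    rw [h2, ← div_eq_mul_inv, le_div_iff₀ (by positivity)]
    simp only [ha]
    rw [norm_mul, Complex.norm_real, Real.norm_of_nonneg (by positivity)]
    have h3 : 1 + ‖ξ‖ ≤ (2 * Real.pi) * (1 + ‖(2 * Real.pi)⁻¹ • ξ‖) := by
      rw [norm_smul, norm_inv, Real.norm_of_nonneg hpi.le, mul_add, ← mul_assoc,
        mul_inv_cancel₀ hpi.ne', one_mul]
      linarith
    have hX : 0 ≤ 1 + ‖ξ‖ := by positivity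
    have hZ : 0 ≤ ‖𝓕 g ((2 * Real.pi)⁻¹ • ξ)‖ := norm_nonneg _
    generalize 1 + ‖(2 * Real.pi)⁻¹ • ξ‖ = Y at h1 h3 ⊢
    generalize ‖𝓕 g ((2 * Real.pi)⁻¹ • ξ)‖ = Z at h1 hZ ⊢
    generalize 1 + ‖ξ‖ = X at h3 hX ⊢
    generalize 2 * Real.pi = p at hpi hpi1 h3 ⊢
    calc X ^ N * ((p ^ 12)⁻¹ * Z) * X ^ 13
        = (p ^ 12)⁻¹ * (X ^ (N + 13) * Z) := by rw [pow_add]; ring
      _ ≤ (p ^ 12)⁻¹ * ((p * Y) ^ (N + 13) * Z) := by gcongr
      _ = (p ^ 12)⁻¹ * p ^ (N + 13) * (Y ^ (N + 13) * Z) := by rw [mul_pow]; ring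
      _ ≤ (p ^ 12)⁻¹ * p ^ (N + 13) * (C * B) := by gcongr
      _ = p ^ (N + 1) * C * B := by
          rw [show N + 13 = 12 + (N + 1) by ring, pow_add, ← mul_assoc, ← mul_assoc,
            inv_mul_cancel₀ (by positivity), one_mul]
  have hint : Integrable (fun ξ : R12 => (1 + ‖ξ‖) ^ N * ‖a ξ‖) := by
    refine (hint13.const_mul ((2 * Real.pi) ^ (N + 1) * C * B)).mono'
      ((by fun_prop : Continuous fun ξ : R12 => (1 + ‖ξ‖) ^ N * ‖a ξ‖)).aestronglyMeasurable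
      (Eventually.of_forall fun ξ => ?_)
    rw [Real.norm_of_nonneg (by positivity)]
    exact hpt ξ
  show RepD a N ((2 * Real.pi) ^ (N + 1) * C * J * B) g
  refine ⟨⟨(integrable_wt_iff hac.aestronglyMeasurable).2 hint, fun y => ?_⟩, ?_⟩
  · have h1 : g y = 𝓕⁻ (𝓕 g) y := by rw [hinv]
    rw [h1, Real.fourierInv_eq']
    have h2 := Measure.integral_comp_smul (volume : Measure R12)
      (fun w => exp (((2 * Real.pi * inner ℝ w y : ℝ) : ℂ) * I) • 𝓕 g w) (2 * Real.pi)⁻¹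
    rw [finrank12] at h2
    have h3 : ∫ ξ : R12, exp (I * ((inner ℝ ξ y : ℝ) : ℂ)) * a ξ =
        ((((2 * Real.pi) ^ 12)⁻¹ : ℝ) : ℂ) * ∫ ξ : R12,
          exp (((2 * Real.pi * inner ℝ ((2 * Real.pi)⁻¹ • ξ) y : ℝ) : ℂ) * I) •
            𝓕 g ((2 * Real.pi)⁻¹ • ξ) := by
      rw [← integral_const_mul]
      refine integral_congr_ae (Eventually.of_forall fun ξ => ?_)
      simp only [ha]
      have : 2 * Real.pi * inner ℝ ((2 * Real.pi)⁻¹ • ξ) y = inner ℝ ξ y := by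
        rw [real_inner_smul_left, ← mul_assoc, mul_inv_cancel₀ hpi.ne', one_mul]
      rw [this, smul_eq_mul, mul_comm I]
      ring
    rw [h3, h2, abs_of_pos (by positivity), Complex.real_smul, ← mul_assoc, ← Complex.ofReal_mul]
    have h4 : ((2 * Real.pi) ^ 12)⁻¹ * ((2 * Real.pi)⁻¹ ^ 12)⁻¹ = 1 := by
      rw [inv_pow, inv_inv, inv_mul_cancel₀ (by positivity)]
    rw [h4, Complex.ofReal_one, one_mul]
  · calc ∫ ξ : R12, (1 + ‖ξ‖) ^ N * ‖a ξ‖
        ≤ ∫ ξ : R12, (2 * Real.pi) ^ (N + 1) * C * B * (1 + ‖ξ‖) ^ (-(13:ℝ)) :=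
          integral_mono hint (hint13.const_mul _) hpt
      _ = (2 * Real.pi) ^ (N + 1) * C * J * B := by
          rw [integral_const_mul]; ring


/-! ### algebra of `RepB` -/

theorem _root_.Crest.Agent.R086.RepD.add {a b : R12 → ℂ} {N : ℕ} {B B' : ℝ} {f g : R12 → ℂ}
    (hf : RepD a N B f) (hg : RepD b N B' g) :
    RepD (fun ξ => a ξ + b ξ) N (B + B') (fun y => f y + g y) := by
  obtain ⟨ha, hab⟩ := hf
  obtain ⟨hb, hbb⟩ := hg
  have hi : Integrable (fun ξ : R12 => (((1 + ‖ξ‖) ^ N : ℝ) : ℂ) * (a ξ + b ξ)) := by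
    refine (ha.1.add hb.1).congr (Eventually.of_forall fun ξ => ?_)
    simp only [Pi.add_apply]
    ring
  refine ⟨⟨hi, fun y => ?_⟩, ?_⟩
  · have h1 : ∀ {c : R12 → ℂ}, Integrable c →
        Integrable (fun ξ : R12 => exp (I * ((inner ℝ ξ y : ℝ) : ℂ)) * c ξ) := by
      intro c hc
      refine hc.mono ?_ (Eventually.of_forall fun ξ => ?_)
      · refine AEStronglyMeasurable.mul ?_ hc.1
        refine Measurable.aestronglyMeasurable ?_
        fun_prop
      · rw [norm_mul, norm_expI, one_mul]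
    show f y + g y = _
    rw [ha.2 y, hb.2 y, ← integral_add (h1 (integrable_of_wt ha.1)) (h1 (integrable_of_wt hb.1))]
    refine integral_congr_ae (Eventually.of_forall fun ξ => ?_)
    simp only
    ring
  · calc ∫ ξ : R12, (1 + ‖ξ‖) ^ N * ‖a ξ + b ξ‖
        ≤ ∫ ξ : R12, ((1 + ‖ξ‖) ^ N * ‖a ξ‖ + (1 + ‖ξ‖) ^ N * ‖b ξ‖) := by
          refine integral_mono (integrable_wt_norm hi)
            ((integrable_wt_norm ha.1).add (integrable_wt_norm hb.1)) fun ξ => ?_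
          simp only
          rw [← mul_add]
          gcongr
          exact norm_add_le _ _
      _ = (∫ ξ : R12, (1 + ‖ξ‖) ^ N * ‖a ξ‖) + ∫ ξ : R12, (1 + ‖ξ‖) ^ N * ‖b ξ‖ :=
          integral_add (integrable_wt_norm ha.1) (integrable_wt_norm hb.1)
      _ ≤ B + B' := add_le_add hab hbb

theorem _root_.Crest.Agent.R086.RepB.add {N : ℕ} {B B' : ℝ} {f g : R12 → ℂ} (hf : RepB N B f)
    (hg : RepB N B' g) : RepB N (B + B') (fun y => f y + g y) := by
  obtain ⟨a, ha⟩ := hf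
  obtain ⟨b, hb⟩ := hg
  exact ⟨_, RepD.add ha hb⟩

theorem _root_.Crest.Agent.R086.RepA.add {B B' : ℕ → ℝ} {f g : R12 → ℂ} (hf : RepA B f)
    (hg : RepA B' g) : RepA (fun N => B N + B' N) (fun y => f y + g y) := by
  obtain ⟨a, ha⟩ := hf
  obtain ⟨b, hb⟩ := hg
  exact ⟨_, fun N => RepD.add (ha N) (hb N)⟩

theorem _root_.Crest.Agent.R086.RepD.const_mul {a : R12 → ℂ} {N : ℕ} {B : ℝ} {f : R12 → ℂ}
    (hf : RepD a N B f) (c : ℂ) : RepD (fun ξ => c * a ξ) N (‖c‖ * B) (fun y => c * f y) := by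
  obtain ⟨ha, hab⟩ := hf
  refine ⟨⟨?_, fun y => ?_⟩, ?_⟩
  · refine (ha.1.const_mul c).congr (Eventually.of_forall fun ξ => ?_)
    simp only
    ring
  · show c * f y = _
    rw [ha.2 y, ← integral_const_mul]
    refine integral_congr_ae (Eventually.of_forall fun ξ => ?_)
    simp only
    ring
  · have : ∫ ξ : R12, (1 + ‖ξ‖) ^ N * ‖c * a ξ‖ = ‖c‖ * ∫ ξ : R12, (1 + ‖ξ‖) ^ N * ‖a ξ‖ := by
      rw [← integral_const_mul]
      refine integral_congr_ae (Eventually.of_forall fun ξ => ?_)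
      simp only [norm_mul]
      ring
    simp only
    rw [this]
    gcongr

theorem _root_.Crest.Agent.R086.RepB.const_mul {N : ℕ} {B : ℝ} {f : R12 → ℂ} (hf : RepB N B f)
    (c : ℂ) : RepB N (‖c‖ * B) (fun y => c * f y) := by
  obtain ⟨a, ha⟩ := hf
  exact ⟨_, RepD.const_mul ha c⟩

theorem _root_.Crest.Agent.R086.RepA.const_mul {B : ℕ → ℝ} {f : R12 → ℂ} (hf : RepA B f)
    (c : ℂ) : RepA (fun N => ‖c‖ * B N) (fun y => c * f y) := by
  obtain ⟨a, ha⟩ := hf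
  exact ⟨_, fun N => RepD.const_mul (ha N) c⟩

/-! ### cut-off functions -/

/-- standard bump on `R12`: `1` on the unit ball, supported in the ball of radius `2` -/
noncomputable def bump : ContDiffBump (0 : R12) := ⟨1, 2, one_pos, one_lt_two⟩

/-- the cut-off function, complex valued -/
noncomputable def cut (y : R12) : ℂ := ((bump y : ℝ) : ℂ)

theorem cut_smooth : ContDiff ℝ ∞ cut :=
  (Complex.ofRealCLM.contDiff).comp (bump.contDiff)

theorem cut_one {y : R12} (hy : ‖y‖ ≤ 1) : cut y = 1 := by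
  have : bump y = 1 := bump.one_of_mem_closedBall (by simpa [bump] using hy)
  rw [cut, this, Complex.ofReal_one]

theorem cut_zero {y : R12} (hy : 2 ≤ ‖y‖) : cut y = 0 := by
  have : bump y = 0 := bump.zero_of_le_dist (by simpa [bump] using hy)
  rw [cut, this, Complex.ofReal_zero]

/-- dyadic annulus function -/
noncomputable def psi (y : R12) : ℂ := cut ((2⁻¹ : ℝ) • y) - cut y

theorem psi_smooth : ContDiff ℝ ∞ psi :=
  (cut_smooth.comp (contDiff_const_smul (2⁻¹ : ℝ))).sub cut_smooth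

theorem psi_inner {y : R12} (hy : ‖y‖ ≤ 1) : psi y = 0 := by
  rw [psi, cut_one hy, cut_one, sub_self]
  rw [norm_smul, norm_inv, Real.norm_ofNat]
  linarith

theorem psi_outer {y : R12} (hy : 4 ≤ ‖y‖) : psi y = 0 := by
  rw [psi, cut_zero (y := y) (by linarith), cut_zero, sub_self]
  rw [norm_smul, norm_inv, Real.norm_ofNat]
  linarith

/-- a smooth compactly supported function has all derivatives bounded -/
theorem deriv_bdd {g : R12 → ℂ} (hg : ContDiff ℝ ∞ g) (hs : ∀ y : R12, 4 < ‖y‖ → g y = 0)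
    (m : ℕ) : ∃ C : ℝ, 0 ≤ C ∧ ∀ y, ‖iteratedFDeriv ℝ m g y‖ ≤ C := by
  have hz : ∀ y : R12, 4 < ‖y‖ → iteratedFDeriv ℝ m g y = 0 := by
    intro y hy
    have h1 : g =ᶠ[𝓝 y] fun _ => (0 : ℂ) := by
      have : {z : R12 | 4 < ‖z‖} ∈ 𝓝 y := (isOpen_lt continuous_const continuous_norm).mem_nhds hy
      filter_upwards [this] with z hz
      exact hs z hz
    rw [(h1.iteratedFDeriv ℝ m).eq_of_nhds]
    simp
  have hcs : HasCompactSupport (iteratedFDeriv ℝ m g) := by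
    refine HasCompactSupport.intro (isCompact_closedBall (0 : R12) 4) fun y hy => hz y ?_
    simpa using hy
  obtain ⟨C, hC⟩ := hcs.exists_bound_of_continuous
    (hg.continuous_iteratedFDeriv (by exact_mod_cast le_top))
  exact ⟨C, (norm_nonneg _).trans (hC 0), hC⟩

/-- one dyadic piece of a symbol (any real order) -/
theorem pieceD {δ : ℝ} {f : R12 → ℂ} (hf : Sym δ f) (N : ℕ) :
    ∃ C : ℝ, 0 ≤ C ∧ ∀ R : ℝ, 1 ≤ R →
      RepD (dilD R (denC fun z => psi z * f (R • z))) N (C * R ^ (-δ))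
        (fun y => psi (R⁻¹ • y) * f y) := by
  obtain ⟨C₀, hC₀, hcomp⟩ := repD_compact N
  choose! A hA0 hA using fun m => deriv_bdd psi_smooth (fun y hy => psi_outer hy.le) m
  choose! D hD using hf.2
  -- a bound for `f` at scale `R`
  set E : ℕ → ℝ := fun k => max (D k) 0 * 5 ^ |(-δ - k)| with hE
  have hE0 : ∀ k, 0 ≤ E k := fun k => by simp only [hE]; positivity
  have hsc : ∀ (R : ℝ), 1 ≤ R → ∀ (k : ℕ) (z : R12), 1 ≤ ‖z‖ → ‖z‖ ≤ 4 →
      ‖iteratedFDeriv ℝ k (fun x => f (R • x)) z‖ ≤ E k * R ^ (-δ) := by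
    intro R hR k z hz1 hz4
    have hR0 : 0 < R := lt_of_lt_of_le one_pos hR
    have h1 := iteratedFDeriv_comp_const_smul (𝕜 := ℝ) (i := k) R (hf.1.of_le (by exact_mod_cast le_top))
    rw [h1, norm_smul, norm_pow, Real.norm_of_nonneg hR0.le]
    have h2 := hD k (R • z)
    rw [norm_smul, Real.norm_of_nonneg hR0.le] at h2
    have h3 : (1 + R * ‖z‖) ^ (-δ - k) ≤ 5 ^ |(-δ - k)| * R ^ (-δ - k) := by
      rcases le_total 0 (-δ - k) with hs | hs
      · rw [abs_of_nonneg hs, ← Real.mul_rpow (by norm_num) hR0.le]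
        refine Real.rpow_le_rpow (by positivity) ?_ hs
        nlinarith
      · have e1 : (1 + R * ‖z‖) ^ (-δ - k) ≤ R ^ (-δ - k) :=
          Real.rpow_le_rpow_of_nonpos hR0 (by nlinarith) hs
        have e2 : (1:ℝ) ≤ 5 ^ |(-δ - k)| := Real.one_le_rpow (by norm_num) (abs_nonneg _)
        have e3 : 0 ≤ R ^ (-δ - k) := by positivity
        nlinarith
    have h4 : R ^ k * R ^ (-δ - k) = R ^ (-δ) := by
      rw [← Real.rpow_natCast R k, ← Real.rpow_add hR0]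
      congr 1
      ring
    calc R ^ k * ‖iteratedFDeriv ℝ k f (R • z)‖
        ≤ R ^ k * (D k * (1 + R * ‖z‖) ^ (-δ - k)) := by gcongr
      _ ≤ R ^ k * (max (D k) 0 * (5 ^ |(-δ - k)| * R ^ (-δ - k))) := by
          have : 0 ≤ (1 + R * ‖z‖) ^ (-δ - k) := by positivity
          have h5 : D k * (1 + R * ‖z‖) ^ (-δ - k) ≤ max (D k) 0 * (1 + R * ‖z‖) ^ (-δ - k) :=
            mul_le_mul_of_nonneg_right (le_max_left _ _) this
          have h6 : max (D k) 0 * (1 + R * ‖z‖) ^ (-δ - k) ≤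
              max (D k) 0 * (5 ^ |(-δ - k)| * R ^ (-δ - k)) :=
            mul_le_mul_of_nonneg_left h3 (le_max_right _ _)
          exact mul_le_mul_of_nonneg_left (h5.trans h6) (by positivity)
      _ = E k * (R ^ k * R ^ (-δ - k)) := by simp only [hE]; ring
      _ = E k * R ^ (-δ) := by rw [h4]
  set Bm : ℕ → ℝ := fun m => ∑ i ∈ Finset.range (m + 1), (m.choose i : ℝ) * A i * E (m - i) with hBm
  have hBm0 : ∀ m, 0 ≤ Bm m := fun m => Finset.sum_nonneg fun i _ => by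
    have := hA0 i; have := hE0 (m - i); positivity
  set Bt : ℝ := ∑ m ∈ Finset.range (N + 13 + 1), Bm m with hBt
  have hBt0 : 0 ≤ Bt := Finset.sum_nonneg fun m _ => hBm0 m
  refine ⟨C₀ * Bt, by positivity, fun R hR => ?_⟩
  have hR0 : 0 < R := lt_of_lt_of_le one_pos hR
  have hRp : 0 ≤ R ^ (-δ) := by positivity
  have hgs : ContDiff ℝ ∞ (fun z : R12 => psi z * f (R • z)) :=
    psi_smooth.mul (hf.1.comp (contDiff_const_smul R))
  have hgz : ∀ y : R12, 4 < ‖y‖ → psi y * f (R • y) = 0 := by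
    intro y hy
    rw [psi_outer hy.le, zero_mul]
  have hgb : ∀ m ≤ N + 13, ∀ y : R12,
      ‖iteratedFDeriv ℝ m (fun z : R12 => psi z * f (R • z)) y‖ ≤ Bt * R ^ (-δ) := by
    intro m hm y
    rcases lt_or_ge ‖y‖ 1 with hy | hy
    · have h1 : (fun z : R12 => psi z * f (R • z)) =ᶠ[𝓝 y] fun _ => (0 : ℂ) := by
        have : {z : R12 | ‖z‖ < 1} ∈ 𝓝 y := (isOpen_lt continuous_norm continuous_const).mem_nhds hy
        filter_upwards [this] with z hz
        rw [psi_inner (le_of_lt hz), zero_mul]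
      rw [(h1.iteratedFDeriv ℝ m).eq_of_nhds]
      simp only [iteratedFDeriv_fun_zero, Pi.zero_apply, norm_zero]
      positivity
    rcases lt_or_ge 4 ‖y‖ with hy4 | hy4
    · have h1 : (fun z : R12 => psi z * f (R • z)) =ᶠ[𝓝 y] fun _ => (0 : ℂ) := by
        have : {z : R12 | 4 < ‖z‖} ∈ 𝓝 y := (isOpen_lt continuous_const continuous_norm).mem_nhds hy4
        filter_upwards [this] with z hz
        rw [psi_outer (le_of_lt hz), zero_mul]
      rw [(h1.iteratedFDeriv ℝ m).eq_of_nhds]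
      simp only [iteratedFDeriv_fun_zero, Pi.zero_apply, norm_zero]
      positivity
    have hl := norm_iteratedFDeriv_mul_le (𝕜 := ℝ) (N := ∞) psi_smooth
      (hf.1.comp (contDiff_const_smul R)) y (n := m) (by exact_mod_cast le_top)
    refine hl.trans ?_
    calc ∑ i ∈ Finset.range (m + 1), (m.choose i : ℝ) * ‖iteratedFDeriv ℝ i psi y‖ *
          ‖iteratedFDeriv ℝ (m - i) (f ∘ fun x => R • x) y‖
        ≤ ∑ i ∈ Finset.range (m + 1), (m.choose i : ℝ) * A i * (E (m - i) * R ^ (-δ)) := by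
          refine Finset.sum_le_sum fun i _ => ?_
          have h7 := hA i y
          have h8 := hsc R hR (m - i) y hy hy4
          have h9 := hA0 i
          gcongr
          exact h8
      _ = Bm m * R ^ (-δ) := by
          simp only [hBm]
          rw [Finset.sum_mul]
          refine Finset.sum_congr rfl fun i _ => ?_
          ring
      _ ≤ Bt * R ^ (-δ) := by
          refine mul_le_mul_of_nonneg_right ?_ hRp
          exact Finset.single_le_sum (f := Bm) (fun i _ => hBm0 i)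
            (Finset.mem_range.2 (by omega))
  have h10 := (hcomp _ _ hgs hgz hgb).dil hR
  have h11 : (fun y : R12 => psi (R⁻¹ • y) * f (R • (R⁻¹ • y))) = fun y => psi (R⁻¹ • y) * f y := by
    funext y
    rw [smul_smul, mul_inv_cancel₀ hR0.ne', one_smul]
  rw [h11] at h10
  refine h10.mono (le_of_eq ?_)
  ring

theorem pieceA {δ : ℝ} {f : R12 → ℂ} (hf : Sym δ f) :
    ∃ C : ℕ → ℝ, (∀ N, 0 ≤ C N) ∧ ∀ R : ℝ, 1 ≤ R →
      RepA (fun N => C N * R ^ (-δ)) (fun y => psi (R⁻¹ • y) * f y) := by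
  choose C hC h using pieceD hf
  exact ⟨C, hC, fun R hR => ⟨_, fun N => h N R hR⟩⟩


/-- the inner piece -/
theorem inner_pieceD {f : R12 → ℂ} (hf : ContDiff ℝ ∞ f) (N : ℕ) :
    ∃ C : ℝ, 0 ≤ C ∧ RepD (denC fun y => cut y * f y) N C (fun y => cut y * f y) := by
  obtain ⟨C₀, hC₀, hcomp⟩ := repD_compact N
  have hs : ContDiff ℝ ∞ (fun y => cut y * f y) := cut_smooth.mul hf
  have hz : ∀ y : R12, 4 < ‖y‖ → cut y * f y = 0 := by
    intro y hy
    rw [cut_zero (by linarith), zero_mul]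
  choose A hA0 hA using fun m => deriv_bdd hs hz m
  refine ⟨C₀ * ∑ m ∈ Finset.range (N + 13 + 1), A m, ?_, hcomp _ _ hs hz fun m hm y => ?_⟩
  · exact mul_nonneg hC₀ (Finset.sum_nonneg fun i _ => hA0 i)
  · exact (hA m y).trans (Finset.single_le_sum (f := A) (fun i _ => hA0 i)
      (Finset.mem_range.2 (by omega)))

theorem inner_pieceA {f : R12 → ℂ} (hf : ContDiff ℝ ∞ f) :
    ∃ C : ℕ → ℝ, (∀ N, 0 ≤ C N) ∧ RepA C (fun y => cut y * f y) := by
  choose C hC h using inner_pieceD hf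
  exact ⟨C, hC, _, h⟩


/-- telescoping of the dyadic functions -/
theorem psi_sum (y : R12) (J : ℕ) :
    ∑ j ∈ Finset.range J, psi (((2:ℝ) ^ j)⁻¹ • y) = cut (((2:ℝ) ^ J)⁻¹ • y) - cut y := by
  induction J with
  | zero => simp
  | succ J ih =>
    rw [Finset.sum_range_succ, ih, psi, smul_smul]
    have : (2⁻¹ : ℝ) * ((2:ℝ) ^ J)⁻¹ = ((2:ℝ) ^ (J + 1))⁻¹ := by
      rw [pow_succ, mul_inv, mul_comm]
    rw [this]
    ring

theorem psi_hasSum (y : R12) : HasSum (fun j : ℕ => psi (((2:ℝ) ^ j)⁻¹ • y)) (1 - cut y) := by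
  obtain ⟨J, hJ⟩ := pow_unbounded_of_one_lt ‖y‖ (one_lt_two)
  have hsm : ∀ j : ℕ, J ≤ j → ‖((2:ℝ) ^ j)⁻¹ • y‖ ≤ 1 := by
    intro j hj
    rw [norm_smul, norm_inv, norm_pow, Real.norm_ofNat, inv_mul_le_iff₀ (by positivity), mul_one]
    exact hJ.le.trans (pow_le_pow_right₀ one_le_two hj)
  have h1 : HasSum (fun j : ℕ => psi (((2:ℝ) ^ j)⁻¹ • y))
      (∑ j ∈ Finset.range J, psi (((2:ℝ) ^ j)⁻¹ • y)) := by
    refine hasSum_sum_of_ne_finset_zero fun j hj => psi_inner (hsm j ?_)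
    simpa using hj
  rw [psi_sum, cut_one (hsm J le_rfl)] at h1
  exact h1

/-- the tail of a symbol of negative order is small in the Wiener algebra (one density for all
`N`) -/
theorem tailA {δ : ℝ} (hδ : 0 < δ) {f : R12 → ℂ} (hf : Sym δ f) :
    ∃ C : ℕ → ℝ, (∀ N, 0 ≤ C N) ∧ ∀ Y : ℝ, 1 ≤ Y →
      RepA (fun N => C N * Y ^ (-δ)) (fun y => (1 - cut (Y⁻¹ • y)) * f y) := by
  obtain ⟨C, hC, hp⟩ := pieceA hf
  have hr : (0:ℝ) < 2 ^ (-δ) := by positivity
  have hr1 : (2:ℝ) ^ (-δ) < 1 := Real.rpow_lt_one_of_one_lt_of_neg one_lt_two (by linarith)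
  have hgeo := hasSum_geometric_of_lt_one hr.le hr1
  refine ⟨fun N => C N * (1 - 2 ^ (-δ))⁻¹, fun N => mul_nonneg (hC N) (inv_nonneg.2 (by linarith)),
    fun Y hY => ?_⟩
  have hY0 : 0 < Y := lt_of_lt_of_le one_pos hY
  have hpj : ∀ j : ℕ, RepA (fun N => C N * Y ^ (-δ) * ((2:ℝ) ^ (-δ)) ^ j)
      (fun y => psi (((2:ℝ) ^ j)⁻¹ • (Y⁻¹ • y)) * f y) := by
    intro j
    have h1 := hp (2 ^ j * Y) (by
      have : (1:ℝ) ≤ 2 ^ j := one_le_pow₀ one_le_two
      nlinarith)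
    have h2 : ((2:ℝ) ^ j * Y) ^ (-δ) = Y ^ (-δ) * ((2:ℝ) ^ (-δ)) ^ j := by
      rw [Real.mul_rpow (by positivity) hY0.le, ← Real.rpow_natCast, ← Real.rpow_mul (by norm_num),
        ← Real.rpow_natCast, ← Real.rpow_mul (by norm_num), mul_comm (j:ℝ), mul_comm]
    rw [h2] at h1
    have h3 : (fun y : R12 => psi (((2:ℝ) ^ j * Y)⁻¹ • y) * f y) =
        fun y => psi (((2:ℝ) ^ j)⁻¹ • (Y⁻¹ • y)) * f y := by
      funext y
      rw [smul_smul, mul_inv]
    rw [h3] at h1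
    refine h1.mono (fun N => le_of_eq ?_)
    ring
  have hs : ∀ N, Summable fun j : ℕ => C N * Y ^ (-δ) * ((2:ℝ) ^ (-δ)) ^ j :=
    fun N => hgeo.summable.mul_left _
  have h4 := RepA.tsum hpj hs (f := fun y => (1 - cut (Y⁻¹ • y)) * f y) (fun y =>
    (psi_hasSum (Y⁻¹ • y)).mul_right (f y))
  refine h4.mono (fun N => le_of_eq ?_)
  rw [tsum_mul_left, hgeo.tsum_eq]
  ring

/-- the tail of a symbol of negative order is small in the Wiener algebra -/
theorem tail {δ : ℝ} (hδ : 0 < δ) {f : R12 → ℂ} (hf : Sym δ f) (N : ℕ) :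
    ∃ C : ℝ, 0 ≤ C ∧ ∀ Y : ℝ, 1 ≤ Y → RepB N (C * Y ^ (-δ)) (fun y => (1 - cut (Y⁻¹ • y)) * f y) := by
  obtain ⟨C, hC, h⟩ := tailA hδ hf
  exact ⟨C N, hC N, fun Y hY => (h Y hY).repB N⟩

/-- **Symbol lemma**, one density for all `N`. -/
theorem repA {δ : ℝ} (hδ : 0 < δ) {f : R12 → ℂ} (hf : Sym δ f) :
    ∃ B : ℕ → ℝ, (∀ N, 0 ≤ B N) ∧ RepA B f := by
  obtain ⟨C, hC, h1⟩ := tailA hδ hf
  obtain ⟨C', hC', h2⟩ := inner_pieceA hf.1
  have h3 := (h1 1 le_rfl).add h2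
  have h4 : (fun y : R12 => (1 - cut ((1:ℝ)⁻¹ • y)) * f y + cut y * f y) = f := by
    funext y
    rw [inv_one, one_smul]
    ring
  rw [h4] at h3
  refine ⟨_, fun N => ?_, h3⟩
  have := hC N
  have := hC' N
  positivity

end SymX

/-- **Symbol lemma**: symbols of negative order have ONE density for all `N`. -/
theorem Sym.rep {δ : ℝ} {f : R12 → ℂ} (hf : Sym δ f) (hδ : 0 < δ) :
    ∃ a : R12 → ℂ, ∀ N, Rep N a f := by
  obtain ⟨B, -, a, ha⟩ := SymX.repA hδ hf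
  exact ⟨a, fun N => (ha N).1⟩

/-- **Symbol lemma**: symbols of negative order lie in every `X_N`. -/
theorem Sym.inX {δ : ℝ} {f : R12 → ℂ} (hf : Sym δ f) (hδ : 0 < δ) (N : ℕ) : InX N f := by
  obtain ⟨a, ha⟩ := hf.rep hδ
  exact ⟨a, ha N⟩

end Crest.Agent.R086
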