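import Mathlib
import Crest.Agent.R086.BRad
import Crest.Agent.R086.Sym
import Crest.Agent.R086.BFin1
import Crest.Agent.R086.BSm0

-- ▼ part R086/BQuant
section

/-!
Row 86 (S0114), Part B (helper97): quantitative versions.

* `sym_of_radialQ`: symbol bounds of `V` on `[0,∞)` (variable `x=|y|²/4`) give symbol bounds of
  `y ↦ V(|y|²/4)`, with a constant depending only on `δ, j`;
* `symQ`: symbol bounds up to order `N+13` give a bound of the weighted `L¹` norm of the density,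
  with a constant depending only on `δ, N`;
* `symQ_radial`, `symQ_coord`: the combination, also with an extra factor `y_i`.
-/

set_option autoImplicit false

open MeasureTheory Set Filter Topology Complex
open scoped ContDiff Nat

namespace Crest.Agent.R086.BRad

/-- derivatives of `|y|²/4` on the closed ball of radius `r` -/
theorem exists_ball_bound (j : ℕ) (r : ℝ) : ∃ D : ℝ, 1 ≤ D ∧ ∀ z : R12, ‖z‖ ≤ r → ∀ i : ℕ, 1 ≤ i →
    i ≤ j → ‖iteratedFDeriv ℝ i sq z‖ ≤ D ^ i := by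
  have hb : ∀ i : ℕ, ∃ B : ℝ, ∀ z : R12, z ∈ Metric.closedBall (0 : R12) r →
      ‖iteratedFDeriv ℝ i sq z‖ ≤ B := by
    intro i
    have hc : Continuous (fun z : R12 => iteratedFDeriv ℝ i sq z) :=
      contDiff_sq.continuous_iteratedFDeriv (by exact_mod_cast le_top)
    obtain ⟨B, hB⟩ := (isCompact_closedBall (0 : R12) r).exists_bound_of_continuousOn hc.continuousOn
    exact ⟨B, hB⟩
  choose B hB using hb
  refine ⟨1 + ∑ i ∈ Finset.range (j + 1), |B i|, ?_, ?_⟩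
  · have : 0 ≤ ∑ i ∈ Finset.range (j + 1), |B i| := Finset.sum_nonneg fun i _ => abs_nonneg _
    linarith
  · intro z hz i hi hij
    have h1 : ‖iteratedFDeriv ℝ i sq z‖ ≤ |B i| :=
      (hB i z (by simpa using hz)).trans (le_abs_self _)
    have h2 : |B i| ≤ ∑ i ∈ Finset.range (j + 1), |B i| :=
      Finset.single_le_sum (f := fun i => |B i|) (fun i _ => abs_nonneg _)
        (Finset.mem_range.2 (by omega))
    have h3 : (1 : ℝ) ≤ 1 + ∑ i ∈ Finset.range (j + 1), |B i| := by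
      have : 0 ≤ ∑ i ∈ Finset.range (j + 1), |B i| := Finset.sum_nonneg fun i _ => abs_nonneg _
      linarith
    calc ‖iteratedFDeriv ℝ i sq z‖ ≤ 1 + ∑ i ∈ Finset.range (j + 1), |B i| := by linarith
      _ = (1 + ∑ i ∈ Finset.range (j + 1), |B i|) ^ 1 := (pow_one _).symm
      _ ≤ _ := pow_le_pow_right₀ h3 hi

/-- **Symbol bounds of a radial function, uniform constant.** -/
theorem sym_of_radialQ {δ : ℝ} (hδ : 0 ≤ δ) (j : ℕ) : ∃ K : ℝ, 0 ≤ K ∧ ∀ (V : ℝ → ℂ) (B : ℝ),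
    ContDiffOn ℝ ∞ V (Ici 0) → 0 ≤ B →
    (∀ i ≤ j, ∀ x : ℝ, 0 ≤ x → ‖iteratedDerivWithin i V (Ici 0) x‖ ≤ B * (1 + x) ^ (-δ - i)) →
    ∀ y : R12, ‖iteratedFDeriv ℝ j (rad V) y‖ ≤ K * B * (1 + ‖y‖) ^ (-(2 * δ) - j) := by
  obtain ⟨D, hD1, hD⟩ := exists_ball_bound j 1
  set s : ℝ := 2 * δ + j with hs
  have hs0 : 0 ≤ s := by positivity
  have hexp : -(2 * δ) - (j : ℝ) = -s := by rw [hs]; ring
  set K1 : ℝ := (j ! : ℝ) * 4 ^ (δ + j) * D ^ j with hK1
  have hK10 : 0 ≤ K1 := by positivity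
  refine ⟨K1 * 2 ^ s, by positivity, ?_⟩
  intro V B hV hB0 hdec y
  rw [hexp]
  have hQ : ContDiff ℝ ∞ (rad V) := contDiff_rad hV
  have h4 : (1 : ℝ) ≤ 4 ^ (δ + (j : ℝ)) := Real.one_le_rpow (by norm_num) (by positivity)
  rcases le_or_gt ‖y‖ 1 with hy | hy
  · -- small y
    have hgb : ∀ i, i ≤ j → ‖iteratedFDerivWithin ℝ i V (Ici 0) (sq y)‖ ≤ B := by
      intro i hi
      rw [norm_iteratedFDerivWithin_eq_norm_iteratedDerivWithin]
      refine (hdec i hi (sq y) (sq_nonneg y)).trans ?_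
      have : (1 + sq y) ^ (-δ - (i : ℝ)) ≤ 1 := by
        apply Real.rpow_le_one_of_one_le_of_nonpos
        · have := sq_nonneg y; linarith
        · have : (0 : ℝ) ≤ i := Nat.cast_nonneg i
          linarith
      nlinarith
    have hmain := norm_iteratedFDeriv_comp_le' (n := j) (N := ∞) (t := Ici (0:ℝ))
      (g := V) (f := sq)
      (by rintro _ ⟨w, rfl⟩; exact sq_nonneg w) (uniqueDiffOn_Ici 0) hV contDiff_sq
      (by exact_mod_cast le_top) y hgb (fun i hi hij => hD y hy i hi hij)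
    have h1 : ‖iteratedFDeriv ℝ j (rad V) y‖ ≤ (j ! : ℝ) * B * D ^ j := hmain
    have h2 : (1 : ℝ) ≤ 2 ^ s * (1 + ‖y‖) ^ (-s) := by
      rw [Real.rpow_neg (by positivity), ← div_eq_mul_inv, one_le_div (by positivity)]
      exact Real.rpow_le_rpow (by positivity) (by linarith) hs0
    have h3 : (j ! : ℝ) * B * D ^ j ≤ K1 * B := by
      rw [hK1]
      have : 0 ≤ (j ! : ℝ) * B * D ^ j := by positivity
      nlinarith
    calc ‖iteratedFDeriv ℝ j (rad V) y‖ ≤ K1 * B * 1 := by rw [mul_one]; exact h1.trans h3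
      _ ≤ K1 * B * (2 ^ s * (1 + ‖y‖) ^ (-s)) :=
          mul_le_mul_of_nonneg_left h2 (by positivity)
      _ = K1 * 2 ^ s * B * (1 + ‖y‖) ^ (-s) := by ring
  · -- large y
    have hypos : 0 < ‖y‖ := by linarith
    have hsq : 0 < sq y := by unfold sq; positivity
    set l : ℝ := ‖y‖ with hl
    set z : R12 := l⁻¹ • y with hz
    have hz1 : ‖z‖ = 1 := by
      rw [hz, norm_smul, norm_inv, Real.norm_of_nonneg hypos.le, inv_mul_cancel₀ hypos.ne']
    have hlz : l • z = y := by rw [hz, smul_smul, mul_inv_cancel₀ hypos.ne', one_smul]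
    have hcomp : (fun w : R12 => rad V (l • w)) = (fun t : ℝ => V (l ^ 2 * t)) ∘ sq := by
      funext w
      simp only [rad, sq, Function.comp]
      congr 1
      rw [norm_smul, Real.norm_of_nonneg hypos.le]; ring
    have hsqz : sq z = 1 / 4 := by rw [sq, hz1]; norm_num
    have hg : ContDiffOn ℝ ∞ (fun t : ℝ => V (l ^ 2 * t)) (Ici 0) := by
      refine hV.comp (by fun_prop) ?_
      intro t ht
      have ht' : (0 : ℝ) ≤ t := ht
      show (0 : ℝ) ≤ l ^ 2 * t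
      positivity
    have hgb : ∀ i, i ≤ j → ‖iteratedFDerivWithin ℝ i (fun t : ℝ => V (l ^ 2 * t)) (Ici 0) (sq z)‖
        ≤ B * 4 ^ (δ + j) * l ^ (-(2 * δ)) := by
      intro i hi
      rw [norm_iteratedFDerivWithin_eq_norm_iteratedDerivWithin, hsqz]
      have h1 := iteratedDerivWithin_comp_const_smul (n := i) (f := V) (s := Ici (0:ℝ)) (x := (1/4 : ℝ))
        (by norm_num : (1/4 : ℝ) ∈ Ici (0:ℝ)) (uniqueDiffOn_Ici 0)
        (hV.of_le (by exact_mod_cast le_top)) (l ^ 2) (by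
          intro t ht
          have ht' : (0 : ℝ) ≤ t := ht
          show (0 : ℝ) ≤ l ^ 2 * t
          positivity)
      rw [h1, norm_smul]
      have h2 : l ^ 2 * (1 / 4) = sq y := by rw [sq]; ring
      rw [h2]
      have h4 : ‖iteratedDerivWithin i V (Ici 0) (sq y)‖ ≤ B * (sq y) ^ (-δ - i) := by
        refine (hdec i hi (sq y) hsq.le).trans ?_
        refine mul_le_mul_of_nonneg_left ?_ hB0
        apply Real.rpow_le_rpow_of_nonpos hsq (by linarith)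
        have : (0 : ℝ) ≤ i := Nat.cast_nonneg i
        linarith
      have h5 : ‖(l ^ 2 : ℝ) ^ i‖ = l ^ ((2 * i : ℕ) : ℝ) := by
        rw [Real.norm_of_nonneg (by positivity), Real.rpow_natCast, pow_mul]
      have h6 : (sq y) ^ (-δ - (i : ℝ)) = 4 ^ (δ + (i : ℝ)) * l ^ (-(2 * δ) - (2 * i : ℕ)) := by
        have e1 : sq y = l ^ (2 : ℝ) * 4⁻¹ := by rw [sq, Real.rpow_two]; ring
        rw [e1, Real.mul_rpow (by positivity) (by norm_num), ← Real.rpow_mul hypos.le,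
          Real.inv_rpow (by norm_num), ← Real.rpow_neg (by norm_num)]
        rw [mul_comm]
        congr 1
        · congr 1; ring
        · congr 1; push_cast; ring
      calc ‖(l ^ 2 : ℝ) ^ i‖ * ‖iteratedDerivWithin i V (Ici 0) (sq y)‖
          ≤ ‖(l ^ 2 : ℝ) ^ i‖ * (B * (sq y) ^ (-δ - i)) :=
            mul_le_mul_of_nonneg_left h4 (norm_nonneg _)
        _ = B * 4 ^ (δ + (i : ℝ)) * (l ^ ((2 * i : ℕ) : ℝ) * l ^ (-(2 * δ) - (2 * i : ℕ))) := by
            rw [h5, h6]; ring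
        _ = B * 4 ^ (δ + (i : ℝ)) * l ^ (-(2 * δ)) := by
            rw [← Real.rpow_add hypos]; congr 2; ring
        _ ≤ B * 4 ^ (δ + j) * l ^ (-(2 * δ)) := by
            have : (4 : ℝ) ^ (δ + (i : ℝ)) ≤ 4 ^ (δ + (j : ℝ)) := by
              apply Real.rpow_le_rpow_of_exponent_le (by norm_num)
              have : (i : ℝ) ≤ j := by exact_mod_cast hi
              linarith
            have h7 : 0 ≤ l ^ (-(2 * δ)) := by positivity
            exact mul_le_mul_of_nonneg_right (mul_le_mul_of_nonneg_left this hB0) h7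
    have hmain := norm_iteratedFDeriv_comp_le' (n := j) (N := ∞) (t := Ici (0:ℝ))
      (g := fun t : ℝ => V (l ^ 2 * t)) (f := sq)
      (by rintro _ ⟨w, rfl⟩; exact sq_nonneg w) (uniqueDiffOn_Ici 0) hg contDiff_sq
      (by exact_mod_cast le_top) z hgb (fun i hi hij => hD z hz1.le i hi hij)
    rw [← hcomp] at hmain
    have hsc := congrFun (iteratedFDeriv_comp_const_smul (i := j) l
      (hQ.of_le (by exact_mod_cast le_top) : ContDiff ℝ j (rad V))) z
    rw [hsc, norm_smul, hlz] at hmain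
    have h8 : ‖l ^ j‖ = l ^ (j : ℝ) := by
      rw [Real.norm_of_nonneg (by positivity), Real.rpow_natCast]
    rw [h8] at hmain
    have h9 : ‖iteratedFDeriv ℝ j (rad V) y‖
        = l ^ (-(j : ℝ)) * (l ^ (j : ℝ) * ‖iteratedFDeriv ℝ j (rad V) y‖) := by
      rw [← mul_assoc, ← Real.rpow_add hypos]; simp
    have h10 : ‖iteratedFDeriv ℝ j (rad V) y‖ ≤ K1 * B * l ^ (-s) := by
      rw [h9]
      calc l ^ (-(j : ℝ)) * (l ^ (j : ℝ) * ‖iteratedFDeriv ℝ j (rad V) y‖)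
          ≤ l ^ (-(j : ℝ)) * ((j ! : ℝ) * (B * 4 ^ (δ + j) * l ^ (-(2 * δ))) * D ^ j) :=
            mul_le_mul_of_nonneg_left hmain (by positivity)
        _ = K1 * B * (l ^ (-(j : ℝ)) * l ^ (-(2 * δ))) := by rw [hK1]; ring
        _ = K1 * B * l ^ (-s) := by
            rw [← Real.rpow_add hypos]; congr 2; rw [hs]; ring
    have h2 : l ^ (-s) ≤ 2 ^ s * (1 + l) ^ (-s) := by
      rw [Real.rpow_neg hypos.le, Real.rpow_neg (by positivity), ← div_eq_mul_inv,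
        le_div_iff₀ (by positivity), ← Real.inv_rpow hypos.le, ← Real.mul_rpow (by positivity) (by positivity)]
      apply Real.rpow_le_rpow (by positivity) _ hs0
      rw [inv_mul_le_iff₀ hypos]
      linarith
    calc ‖iteratedFDeriv ℝ j (rad V) y‖ ≤ K1 * B * l ^ (-s) := h10
      _ ≤ K1 * B * (2 ^ s * (1 + l) ^ (-s)) := mul_le_mul_of_nonneg_left h2 (by positivity)
      _ = K1 * 2 ^ s * B * (1 + l) ^ (-s) := by ring

/-! ### quantitative symbol lemma -/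

open SymX

/-- one dyadic piece, uniform constant -/
theorem pieceQ (δ : ℝ) (N : ℕ) : ∃ C : ℝ, 0 ≤ C ∧ ∀ (f : R12 → ℂ) (B : ℝ), ContDiff ℝ ∞ f → 0 ≤ B →
    (∀ k ≤ N + 13, ∀ y, ‖iteratedFDeriv ℝ k f y‖ ≤ B * (1 + ‖y‖) ^ (-δ - k)) →
    ∀ R : ℝ, 1 ≤ R → RepB N (C * B * R ^ (-δ)) (fun y => psi (R⁻¹ • y) * f y) := by
  obtain ⟨C₀, hC₀, hcomp⟩ := repD_compact N
  choose! A hA0 hA using fun m => deriv_bdd psi_smooth (fun y hy => psi_outer hy.le) m
  set E : ℕ → ℝ := fun k => 5 ^ |(-δ - k)| with hE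
  have hE0 : ∀ k, 0 ≤ E k := fun k => by simp only [hE]; positivity
  set Bm : ℕ → ℝ := fun m => ∑ i ∈ Finset.range (m + 1), (m.choose i : ℝ) * A i * E (m - i) with hBm
  have hBm0 : ∀ m, 0 ≤ Bm m := fun m => Finset.sum_nonneg fun i _ => by
    have := hA0 i; have := hE0 (m - i); positivity
  set Bt : ℝ := ∑ m ∈ Finset.range (N + 13 + 1), Bm m with hBt
  have hBt0 : 0 ≤ Bt := Finset.sum_nonneg fun m _ => hBm0 m
  refine ⟨C₀ * Bt, by positivity, ?_⟩
  intro f B hf hB0 hfb R hR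
  have hR0 : 0 < R := lt_of_lt_of_le one_pos hR
  have hRp : 0 ≤ R ^ (-δ) := by positivity
  have hsc : ∀ (k : ℕ), k ≤ N + 13 → ∀ (z : R12), 1 ≤ ‖z‖ → ‖z‖ ≤ 4 →
      ‖iteratedFDeriv ℝ k (fun x => f (R • x)) z‖ ≤ E k * B * R ^ (-δ) := by
    intro k hk z hz1 hz4
    have h1 := iteratedFDeriv_comp_const_smul (𝕜 := ℝ) (i := k) R (hf.of_le (by exact_mod_cast le_top))
    rw [h1, norm_smul, norm_pow, Real.norm_of_nonneg hR0.le]
    have h2 := hfb k hk (R • z)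
    rw [norm_smul, Real.norm_of_nonneg hR0.le] at h2
    have h3 : (1 + R * ‖z‖) ^ (-δ - k) ≤ 5 ^ |(-δ - k)| * R ^ (-δ - k) := by
      rcases le_total 0 (-δ - k) with hs | hs
      · rw [abs_of_nonneg hs, ← Real.mul_rpow (by norm_num) hR0.le]
        refine Real.rpow_le_rpow (by positivity) ?_ hs
        nlinarith
      · have e1 : (1 + R * ‖z‖) ^ (-δ - k) ≤ R ^ (-δ - k) :=
          Real.rpow_le_rpow_of_nonpos hR0 (by nlinarith) hs
        have e2 : (1:ℝ) ≤ 5 ^ |(-δ - k)| := Real.one_le_rpow (by norm_num) (abs_nonneg _)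
        have e3 : 0 ≤ R ^ (-δ - k) := by positivity
        nlinarith
    have h4 : R ^ k * R ^ (-δ - k) = R ^ (-δ) := by
      rw [← Real.rpow_natCast R k, ← Real.rpow_add hR0]
      congr 1
      ring
    calc R ^ k * ‖iteratedFDeriv ℝ k f (R • z)‖
        ≤ R ^ k * (B * (1 + R * ‖z‖) ^ (-δ - k)) := by gcongr
      _ ≤ R ^ k * (B * (5 ^ |(-δ - k)| * R ^ (-δ - k))) := by
          exact mul_le_mul_of_nonneg_left (mul_le_mul_of_nonneg_left h3 hB0) (by positivity)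
      _ = E k * B * (R ^ k * R ^ (-δ - k)) := by simp only [hE]; ring
      _ = E k * B * R ^ (-δ) := by rw [h4]
  have hgs : ContDiff ℝ ∞ (fun z : R12 => psi z * f (R • z)) :=
    psi_smooth.mul (hf.comp (contDiff_const_smul R))
  have hgz : ∀ y : R12, 4 < ‖y‖ → psi y * f (R • y) = 0 := by
    intro y hy
    rw [psi_outer hy.le, zero_mul]
  have hgb : ∀ m ≤ N + 13, ∀ y : R12,
      ‖iteratedFDeriv ℝ m (fun z : R12 => psi z * f (R • z)) y‖ ≤ Bt * B * R ^ (-δ) := by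
    intro m hm y
    rcases lt_or_ge ‖y‖ 1 with hy | hy
    · have h1 : (fun z : R12 => psi z * f (R • z)) =ᶠ[𝓝 y] fun _ => (0 : ℂ) := by
        have : {z : R12 | ‖z‖ < 1} ∈ 𝓝 y := (isOpen_lt continuous_norm continuous_const).mem_nhds hy
        filter_upwards [this] with z hz
        rw [psi_inner (le_of_lt hz), zero_mul]
      rw [(h1.iteratedFDeriv ℝ m).eq_of_nhds]
      simp only [iteratedFDeriv_fun_zero, Pi.zero_apply, norm_zero]
      positivity
    rcases lt_or_ge 4 ‖y‖ with hy4 | hy4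
    · have h1 : (fun z : R12 => psi z * f (R • z)) =ᶠ[𝓝 y] fun _ => (0 : ℂ) := by
        have : {z : R12 | 4 < ‖z‖} ∈ 𝓝 y := (isOpen_lt continuous_const continuous_norm).mem_nhds hy4
        filter_upwards [this] with z hz
        rw [psi_outer (le_of_lt hz), zero_mul]
      rw [(h1.iteratedFDeriv ℝ m).eq_of_nhds]
      simp only [iteratedFDeriv_fun_zero, Pi.zero_apply, norm_zero]
      positivity
    have hl := norm_iteratedFDeriv_mul_le (𝕜 := ℝ) (N := ∞) psi_smooth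
      (hf.comp (contDiff_const_smul R)) y (n := m) (by exact_mod_cast le_top)
    refine hl.trans ?_
    calc ∑ i ∈ Finset.range (m + 1), (m.choose i : ℝ) * ‖iteratedFDeriv ℝ i psi y‖ *
          ‖iteratedFDeriv ℝ (m - i) (f ∘ fun x => R • x) y‖
        ≤ ∑ i ∈ Finset.range (m + 1), (m.choose i : ℝ) * A i * (E (m - i) * B * R ^ (-δ)) := by
          refine Finset.sum_le_sum fun i _ => ?_
          have h7 := hA i y
          have h8 := hsc (m - i) (by omega) y hy hy4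
          have h9 := hA0 i
          gcongr
          exact h8
      _ = Bm m * B * R ^ (-δ) := by
          simp only [hBm]
          rw [Finset.sum_mul, Finset.sum_mul]
          refine Finset.sum_congr rfl fun i _ => ?_
          ring
      _ ≤ Bt * B * R ^ (-δ) := by
          refine mul_le_mul_of_nonneg_right (mul_le_mul_of_nonneg_right ?_ hB0) hRp
          exact Finset.single_le_sum (f := Bm) (fun i _ => hBm0 i)
            (Finset.mem_range.2 (by omega))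
  have h10 := (hcomp _ _ hgs hgz hgb).dil hR
  have h11 : (fun y : R12 => psi (R⁻¹ • y) * f (R • (R⁻¹ • y))) = fun y => psi (R⁻¹ • y) * f y := by
    funext y
    rw [smul_smul, mul_inv_cancel₀ hR0.ne', one_smul]
  rw [h11] at h10
  refine ⟨_, (h10.mono (le_of_eq ?_))⟩
  ring

/-- inner piece, uniform constant -/
theorem innerQ (δ : ℝ) (N : ℕ) : ∃ C : ℝ, 0 ≤ C ∧ ∀ (f : R12 → ℂ) (B : ℝ), ContDiff ℝ ∞ f → 0 ≤ B →
    (∀ k ≤ N + 13, ∀ y, ‖iteratedFDeriv ℝ k f y‖ ≤ B * (1 + ‖y‖) ^ (-δ - k)) →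
    RepB N (C * B) (fun y => cut y * f y) := by
  obtain ⟨C₀, hC₀, hcomp⟩ := repD_compact N
  choose! A hA0 hA using fun m => deriv_bdd cut_smooth
    (fun y (hy : (4:ℝ) < ‖y‖) => cut_zero (by linarith : (2:ℝ) ≤ ‖y‖)) m
  set E : ℕ → ℝ := fun k => 5 ^ |(-δ - k)| with hE
  have hE0 : ∀ k, 0 ≤ E k := fun k => by simp only [hE]; positivity
  set Bm : ℕ → ℝ := fun m => ∑ i ∈ Finset.range (m + 1), (m.choose i : ℝ) * A i * E (m - i) with hBm
  have hBm0 : ∀ m, 0 ≤ Bm m := fun m => Finset.sum_nonneg fun i _ => by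
    have := hA0 i; have := hE0 (m - i); positivity
  set Bt : ℝ := ∑ m ∈ Finset.range (N + 13 + 1), Bm m with hBt
  have hBt0 : 0 ≤ Bt := Finset.sum_nonneg fun m _ => hBm0 m
  refine ⟨C₀ * Bt, by positivity, ?_⟩
  intro f B hf hB0 hfb
  have hgs : ContDiff ℝ ∞ (fun y => cut y * f y) := cut_smooth.mul hf
  have hgz : ∀ y : R12, 4 < ‖y‖ → cut y * f y = 0 := by
    intro y hy
    rw [cut_zero (by linarith), zero_mul]
  have hgb : ∀ m ≤ N + 13, ∀ y : R12,
      ‖iteratedFDeriv ℝ m (fun z : R12 => cut z * f z) y‖ ≤ Bt * B := by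
    intro m hm y
    rcases lt_or_ge 4 ‖y‖ with hy4 | hy4
    · have h1 : (fun z : R12 => cut z * f z) =ᶠ[𝓝 y] fun _ => (0 : ℂ) := by
        have : {z : R12 | 4 < ‖z‖} ∈ 𝓝 y := (isOpen_lt continuous_const continuous_norm).mem_nhds hy4
        filter_upwards [this] with z hz
        exact hgz z hz
      rw [(h1.iteratedFDeriv ℝ m).eq_of_nhds]
      simp only [iteratedFDeriv_fun_zero, Pi.zero_apply, norm_zero]
      positivity
    have hl := norm_iteratedFDeriv_mul_le (𝕜 := ℝ) (N := ∞) cut_smooth hf y (n := m)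
      (by exact_mod_cast le_top)
    refine hl.trans ?_
    calc ∑ i ∈ Finset.range (m + 1), (m.choose i : ℝ) * ‖iteratedFDeriv ℝ i cut y‖ *
          ‖iteratedFDeriv ℝ (m - i) f y‖
        ≤ ∑ i ∈ Finset.range (m + 1), (m.choose i : ℝ) * A i * (E (m - i) * B) := by
          refine Finset.sum_le_sum fun i _ => ?_
          have h7 := hA i y
          have h8 : ‖iteratedFDeriv ℝ (m - i) f y‖ ≤ E (m - i) * B := by
            refine (hfb (m - i) (by omega) y).trans ?_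
            rw [mul_comm]
            refine mul_le_mul_of_nonneg_right ?_ hB0
            have hy0 := norm_nonneg y
            simp only [hE]
            calc (1 + ‖y‖) ^ (-δ - ((m - i : ℕ) : ℝ)) ≤ (1 + ‖y‖) ^ |(-δ - ((m - i : ℕ) : ℝ))| :=
                  Real.rpow_le_rpow_of_exponent_le (by linarith) (le_abs_self _)
              _ ≤ 5 ^ |(-δ - ((m - i : ℕ) : ℝ))| :=
                  Real.rpow_le_rpow (by positivity) (by linarith) (abs_nonneg _)
          have h9 := hA0 i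
          gcongr
      _ = Bm m * B := by
          simp only [hBm]
          rw [Finset.sum_mul]
          refine Finset.sum_congr rfl fun i _ => ?_
          ring
      _ ≤ Bt * B := by
          refine mul_le_mul_of_nonneg_right ?_ hB0
          exact Finset.single_le_sum (f := Bm) (fun i _ => hBm0 i)
            (Finset.mem_range.2 (by omega))
  have h10 := hcomp _ _ hgs hgz hgb
  refine ⟨_, (h10.mono (le_of_eq ?_))⟩
  ring

/-- **Quantitative symbol lemma.** -/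
theorem symQ {δ : ℝ} (hδ : 0 < δ) (N : ℕ) : ∃ C : ℝ, 0 ≤ C ∧ ∀ (f : R12 → ℂ) (B : ℝ),
    ContDiff ℝ ∞ f → 0 ≤ B →
    (∀ k ≤ N + 13, ∀ y, ‖iteratedFDeriv ℝ k f y‖ ≤ B * (1 + ‖y‖) ^ (-δ - k)) →
    RepB N (C * B) f := by
  obtain ⟨C, hC, hp⟩ := pieceQ δ N
  obtain ⟨C', hC', hi⟩ := innerQ δ N
  have hr : (0:ℝ) < 2 ^ (-δ) := by positivity
  have hr1 : (2:ℝ) ^ (-δ) < 1 := Real.rpow_lt_one_of_one_lt_of_neg one_lt_two (by linarith)
  have hgeo := hasSum_geometric_of_lt_one hr.le hr1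
  have hinv : 0 ≤ (1 - (2:ℝ) ^ (-δ))⁻¹ := inv_nonneg.2 (by linarith)
  refine ⟨C * (1 - 2 ^ (-δ))⁻¹ + C', by positivity, ?_⟩
  intro f B hf hB0 hfb
  have hpj : ∀ j : ℕ, RepB N (C * B * ((2:ℝ) ^ (-δ)) ^ j)
      (fun y => psi (((2:ℝ) ^ j)⁻¹ • y) * f y) := by
    intro j
    have h1 := hp f B hf hB0 hfb (2 ^ j) (one_le_pow₀ one_le_two)
    have h2 : ((2:ℝ) ^ j) ^ (-δ) = ((2:ℝ) ^ (-δ)) ^ j := by
      rw [← Real.rpow_natCast, ← Real.rpow_mul (by norm_num),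
        ← Real.rpow_natCast, ← Real.rpow_mul (by norm_num), mul_comm (j:ℝ)]
    rwa [h2] at h1
  have hs : Summable fun j : ℕ => C * B * ((2:ℝ) ^ (-δ)) ^ j := hgeo.summable.mul_left _
  have h4 := RepB.tsum hpj hs (f := fun y => (1 - cut y) * f y) (fun y =>
    (psi_hasSum y).mul_right (f y))
  have h5 := h4.add (hi f B hf hB0 hfb)
  have h6 : (fun y : R12 => (1 - cut y) * f y + cut y * f y) = f := by
    funext y; ring
  rw [h6] at h5
  refine h5.mono (le_of_eq ?_)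
  rw [tsum_mul_left, hgeo.tsum_eq]
  ring

end Crest.Agent.R086.BRad
end

-- ▼ part R086/BQuant2
section

/-!
Row 86 (S0114), Part B (helper97): radial symbols are in the weighted Wiener algebra with uniform
constants (`symQ_radial`), also with an extra factor `y_i` (`symQ_coord`).
-/

set_option autoImplicit false

open MeasureTheory Set Filter Topology Complex
open scoped ContDiff Nat

namespace Crest.Agent.R086.BRad

open SymX

/-- uniform constant for all orders `≤ J` -/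
theorem sym_of_radialQ' {δ : ℝ} (hδ : 0 ≤ δ) (J : ℕ) : ∃ K : ℝ, 0 ≤ K ∧ ∀ (V : ℝ → ℂ) (B : ℝ),
    ContDiffOn ℝ ∞ V (Ici 0) → 0 ≤ B →
    (∀ i ≤ J, ∀ x : ℝ, 0 ≤ x → ‖iteratedDerivWithin i V (Ici 0) x‖ ≤ B * (1 + x) ^ (-δ - i)) →
    ∀ j ≤ J, ∀ y : R12, ‖iteratedFDeriv ℝ j (rad V) y‖ ≤ K * B * (1 + ‖y‖) ^ (-(2 * δ) - j) := by
  choose K hK0 hK using fun j : ℕ => sym_of_radialQ hδ j
  refine ⟨∑ j ∈ Finset.range (J + 1), K j, Finset.sum_nonneg fun i _ => hK0 i, ?_⟩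
  intro V B hV hB hdec j hj y
  refine (hK j V B hV hB (fun i hi => hdec i (hi.trans hj)) y).trans ?_
  have h1 : K j ≤ ∑ j ∈ Finset.range (J + 1), K j :=
    Finset.single_le_sum (f := K) (fun i _ => hK0 i) (Finset.mem_range.2 (by omega))
  have h2 : 0 ≤ (1 + ‖y‖) ^ (-(2 * δ) - (j : ℝ)) := by positivity
  exact mul_le_mul_of_nonneg_right (mul_le_mul_of_nonneg_right h1 hB) h2

/-- **Radial symbols are in `X_N`, uniform constant.** -/
theorem symQ_radial {δ : ℝ} (hδ : 0 < δ) (N : ℕ) : ∃ C : ℝ, 0 ≤ C ∧ ∀ (V : ℝ → ℂ) (B : ℝ),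
    ContDiffOn ℝ ∞ V (Ici 0) → 0 ≤ B →
    (∀ i ≤ N + 13, ∀ x : ℝ, 0 ≤ x →
      ‖iteratedDerivWithin i V (Ici 0) x‖ ≤ B * (1 + x) ^ (-δ - i)) →
    RepB N (C * B) (rad V) := by
  obtain ⟨K, hK0, hK⟩ := sym_of_radialQ' hδ.le (N + 13)
  obtain ⟨C, hC0, hC⟩ := symQ (δ := 2 * δ) (by positivity) N
  refine ⟨C * K, by positivity, ?_⟩
  intro V B hV hB hdec
  have h := hC (rad V) (K * B) (contDiff_rad hV) (by positivity)
    (fun k hk y => hK V B hV hB hdec k hk y)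
  refine h.mono (le_of_eq ?_)
  ring

/-- the coordinate function as a continuous linear map to `ℂ` -/
noncomputable def coordC (i : Fin 12) : R12 →L[ℝ] ℂ :=
  Complex.ofRealCLM.comp (EuclideanSpace.proj i : R12 →L[ℝ] ℝ)

theorem coordC_apply (i : Fin 12) (y : R12) : coordC i y = ((y i : ℝ) : ℂ) := by
  simp [coordC]

theorem norm_coordC_apply_le (i : Fin 12) (y : R12) : ‖coordC i y‖ ≤ ‖y‖ := by
  rw [coordC_apply, Complex.norm_real]
  exact PiLp.norm_apply_le y i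

theorem norm_coordC_le (i : Fin 12) : ‖coordC i‖ ≤ 1 :=
  ContinuousLinearMap.opNorm_le_bound _ zero_le_one fun y => by
    rw [one_mul]; exact norm_coordC_apply_le i y

theorem norm_iteratedFDeriv_coordC (i : Fin 12) (m : ℕ) (y : R12) :
    ‖iteratedFDeriv ℝ m (fun y => coordC i y) y‖ ≤ if m = 0 then ‖y‖ else if m = 1 then 1 else 0 := by
  rcases m with _ | m
  · simp only [if_true, norm_iteratedFDeriv_zero]
    exact norm_coordC_apply_le i y
  rw [if_neg (Nat.succ_ne_zero m)]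
  have hf : fderiv ℝ (fun y : R12 => coordC i y) = fun _ => coordC i := by
    funext y
    exact (coordC i).fderiv
  rw [← norm_iteratedFDeriv_fderiv, hf]
  rcases m with _ | m
  · simp only [norm_iteratedFDeriv_zero]
    simpa using norm_coordC_le i
  · rw [if_neg (by omega), iteratedFDeriv_const_of_ne (Nat.succ_ne_zero m)]
    simp

/-- **Radial symbols times a coordinate.** -/
theorem symQ_coord {δ : ℝ} (hδ : 1 / 2 < δ) (N : ℕ) : ∃ C : ℝ, 0 ≤ C ∧ ∀ (V : ℝ → ℂ) (B : ℝ),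
    ContDiffOn ℝ ∞ V (Ici 0) → 0 ≤ B →
    (∀ i ≤ N + 13, ∀ x : ℝ, 0 ≤ x →
      ‖iteratedDerivWithin i V (Ici 0) x‖ ≤ B * (1 + x) ^ (-δ - i)) →
    ∀ i : Fin 12, RepB N (C * B) (fun y => ((y i : ℝ) : ℂ) * rad V y) := by
  obtain ⟨K, hK0, hK⟩ := sym_of_radialQ' (δ := δ) (by linarith) (N + 13)
  obtain ⟨C, hC0, hC⟩ := symQ (δ := 2 * δ - 1) (by linarith) N
  refine ⟨C * ((N + 14 : ℕ) * K), by positivity, ?_⟩
  intro V B hV hB hdec i
  have hfun : (fun y : R12 => ((y i : ℝ) : ℂ) * rad V y) = fun y => coordC i y * rad V y := by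
    funext y; rw [coordC_apply]
  have hcd : ContDiff ℝ ∞ (fun y : R12 => coordC i y) := (coordC i).contDiff
  rw [hfun]
  have h := hC (fun y => coordC i y * rad V y) ((N + 14 : ℕ) * K * B)
    (hcd.mul (contDiff_rad hV)) (by positivity) ?_
  · refine h.mono (le_of_eq ?_)
    ring
  intro k hk y
  have hl := norm_iteratedFDeriv_mul_le (𝕜 := ℝ) (N := ∞) hcd (contDiff_rad hV) y (n := k)
    (by exact_mod_cast le_top)
  refine hl.trans ?_
  have hy0 : 0 < 1 + ‖y‖ := by positivity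
  set T : ℝ := (1 + ‖y‖) ^ (-(2 * δ - 1) - (k : ℝ)) with hT
  have hT0 : 0 ≤ T := by positivity
  have hterm : ∀ m ∈ Finset.range (k + 1),
      (k.choose m : ℝ) * ‖iteratedFDeriv ℝ m (fun y => coordC i y) y‖ *
        ‖iteratedFDeriv ℝ (k - m) (rad V) y‖ ≤ if m = 0 then K * B * T else if m = 1 then k * (K * B * T) else 0 := by
    intro m hm
    have hmk : m ≤ k := by simpa [Nat.lt_succ_iff] using hm
    have h1 := norm_iteratedFDeriv_coordC i m y
    have h2 := hK V B hV hB hdec (k - m) (by omega) y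
    rcases Nat.eq_zero_or_pos m with h0 | hpos
    · subst h0
      simp only [if_true] at h1 ⊢
      simp only [Nat.choose_zero_right, Nat.cast_one, one_mul, Nat.sub_zero] at h2 ⊢
      have e : (1 + ‖y‖) * (1 + ‖y‖) ^ (-(2 * δ) - (k : ℝ)) = T := by
        rw [hT]
        nth_rewrite 1 [← Real.rpow_one (1 + ‖y‖)]
        rw [← Real.rpow_add hy0]
        congr 1; ring
      calc ‖iteratedFDeriv ℝ 0 (fun y => coordC i y) y‖ * ‖iteratedFDeriv ℝ k (rad V) y‖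
          ≤ (1 + ‖y‖) * (K * B * (1 + ‖y‖) ^ (-(2 * δ) - (k : ℝ))) := by
            refine mul_le_mul (h1.trans (by linarith)) h2 (norm_nonneg _) hy0.le
        _ = K * B * ((1 + ‖y‖) * (1 + ‖y‖) ^ (-(2 * δ) - (k : ℝ))) := by ring
        _ = K * B * T := by rw [e]
    · rw [if_neg hpos.ne'] at h1 ⊢
      rcases eq_or_ne m 1 with h1' | h1'
      · subst h1'
        rw [if_pos rfl] at h1 ⊢
        have e : (1 + ‖y‖) ^ (-(2 * δ) - ((k - 1 : ℕ) : ℝ)) = T := by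
          rw [hT]
          congr 1
          rw [Nat.cast_sub hmk]
          push_cast; ring
        rw [e] at h2
        rw [Nat.choose_one_right]
        calc (k : ℝ) * ‖iteratedFDeriv ℝ 1 (fun y => coordC i y) y‖ * ‖iteratedFDeriv ℝ (k - 1) (rad V) y‖
            ≤ (k : ℝ) * 1 * (K * B * T) := by gcongr
          _ = k * (K * B * T) := by ring
      · rw [if_neg h1'] at h1 ⊢
        have h3 : ‖iteratedFDeriv ℝ m (fun y => coordC i y) y‖ = 0 := le_antisymm h1 (norm_nonneg _)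
        rw [h3]; simp
  refine (Finset.sum_le_sum hterm).trans ?_
  have hKBT : 0 ≤ K * B * T := by positivity
  have hbound : ∀ m ∈ Finset.range (k + 1),
      (if m = 0 then K * B * T else if m = 1 then k * (K * B * T) else 0)
        ≤ (if m = 0 then K * B * T else 0) + (if m = 1 then k * (K * B * T) else 0) := by
    intro m _
    split_ifs <;> simp_all
  refine (Finset.sum_le_sum hbound).trans ?_
  rw [Finset.sum_add_distrib, Finset.sum_ite_eq', Finset.sum_ite_eq']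
  have h5 : (if (0:ℕ) ∈ Finset.range (k + 1) then K * B * T else 0) ≤ K * B * T := by
    split_ifs <;> simp [hKBT]
  have h6 : (if (1:ℕ) ∈ Finset.range (k + 1) then (k : ℝ) * (K * B * T) else 0) ≤ k * (K * B * T) := by
    have : 0 ≤ (k : ℝ) * (K * B * T) := by positivity
    split_ifs <;> simp [this]
  have h7 : (k : ℝ) + 1 ≤ ((N + 14 : ℕ) : ℝ) := by exact_mod_cast (by omega : k + 1 ≤ N + 14)
  calc _ ≤ K * B * T + k * (K * B * T) := add_le_add h5 h6
    _ = ((k : ℝ) + 1) * (K * B * T) := by ring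
    _ ≤ ((N + 14 : ℕ) : ℝ) * (K * B * T) := mul_le_mul_of_nonneg_right h7 hKBT
    _ = ((N + 14 : ℕ) : ℝ) * K * B * (1 + ‖y‖) ^ (-(2 * δ - 1) - (k : ℝ)) := by rw [hT]; ring

end Crest.Agent.R086.BRad
end

-- ▼ part R086/BPolyFin

/-!
Row 86 (S0114), Part B (helper97): the field `poly` of `BData` from `BSeq` and the polynomial bounds
on a compact interval (`T3Out`).
-/

set_option autoImplicit false

open MeasureTheory Set Filter Topology Complex
open scoped ContDiff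

namespace Crest.Agent.R086.B

variable {om0 R : ℝ} {U U1 : ℝ → ℂ}

/-- Output of T3 (helper2), in the form used here: polynomial bounds in `n` of all derivatives of
the three potentials on `[0,b)`, `b > X`. -/
def T3Out (S : BSeq om0 R U U1) : Prop :=
  ∃ b : ℝ, S.X < b ∧ ∀ j : ℕ, ∃ K N : ℕ, ∀ n : ℕ, N ≤ n → Even n → ∀ x ∈ Ico (0:ℝ) b,
    ‖iteratedDerivWithin j (wA n (toX (S.v n))) (Ici 0) x‖ ≤ (n:ℝ) ^ K ∧
    ‖iteratedDerivWithin j (wB n (toX (S.v n))) (Ici 0) x‖ ≤ (n:ℝ) ^ K ∧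
    ‖iteratedDerivWithin j (wC n (toX (S.v n))) (Ici 0) x‖ ≤ (n:ℝ) ^ K

namespace BFin

theorem contDiffOn_toX (S : BSeq om0 R U U1) {n : ℕ} (hn : S.n1 ≤ n) (he : Even n) :
    ContDiffOn ℝ ∞ (toX (S.v n)) (Ici 0) := by
  obtain ⟨h1, h2, -, h4⟩ := S.sol n hn he
  exact BSm0.Vx_contDiffOn' he h1 h2 h4

theorem norm_pow_even {n : ℕ} (he : Even n) (z : ℂ) :
    ((‖z‖ ^ n : ℝ) : ℂ) = (z * (starRingEnd ℂ) z) ^ (n / 2) := by
  obtain ⟨m, hm⟩ := he
  have hm2 : n / 2 = m := by omega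
  rw [hm2, Complex.mul_conj, Complex.normSq_eq_norm_sq, ← Complex.ofReal_pow]
  congr 1
  rw [hm, ← two_mul, pow_mul]

theorem contDiffOn_conj {V : ℝ → ℂ} {s : Set ℝ} (hV : ContDiffOn ℝ ∞ V s) :
    ContDiffOn ℝ ∞ (fun x => (starRingEnd ℂ) (V x)) s :=
  Complex.conjCLE.contDiff.comp_contDiffOn hV

theorem contDiffOn_wA {V : ℝ → ℂ} {s : Set ℝ} (hV : ContDiffOn ℝ ∞ V s) {n : ℕ} (he : Even n) :
    ContDiffOn ℝ ∞ (wA n V) s := by
  have : wA n V = fun x => (V x * (starRingEnd ℂ) (V x)) ^ (n / 2) := by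
    funext x
    exact norm_pow_even he (V x)
  rw [this]
  exact (hV.mul (contDiffOn_conj hV)).pow _

theorem contDiffOn_wB {V : ℝ → ℂ} {s : Set ℝ} (hV : ContDiffOn ℝ ∞ V s) {n : ℕ} (he : Even n) :
    ContDiffOn ℝ ∞ (wB n V) s := by
  have he2 : Even (n - 2) := by
    obtain ⟨m, hm⟩ := he
    exact ⟨m - 1, by omega⟩
  exact (contDiffOn_wA hV he2).mul (hV.pow 2)

theorem contDiffOn_wC {V : ℝ → ℂ} {s : Set ℝ} (hV : ContDiffOn ℝ ∞ V s) {n : ℕ} (he : Even n) :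
    ContDiffOn ℝ ∞ (wC n V) s := by
  have he2 : Even (n - 2) := by
    obtain ⟨m, hm⟩ := he
    exact ⟨m - 1, by omega⟩
  exact (contDiffOn_wA hV he2).mul ((contDiffOn_conj hV).pow 2)

theorem iteratedDerivWithin_eq_of_pos {w : ℝ → ℂ} (j : ℕ) {x : ℝ} (hx : 0 < x) :
    iteratedDerivWithin j w (Ici 0) x = iteratedDeriv j w x := by
  rw [← iteratedDerivWithin_univ, iteratedDerivWithin, iteratedDerivWithin]
  congr 1
  rw [iteratedFDerivWithin_congr_set]
  filter_upwards [lt_mem_nhds hx] with t ht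
  simp only [eq_iff_iff]
  constructor
  · intro _; trivial
  · intro _; exact ht.le

/-- polynomial bounds on `[0,b)` and symbol bounds on `(X,∞)` give polynomial symbol bounds -/
theorem glue_poly {w : ℕ → ℝ → ℂ} {X b q : ℝ} {C : ℕ → ℝ} {n1 : ℕ} (hX : 1 ≤ X) (hb : X < b)
    (hq0 : 0 < q) (hq1 : q < 1)
    (h1 : ∀ j : ℕ, ∃ K N : ℕ, ∀ n : ℕ, N ≤ n → Even n → ∀ x ∈ Ico (0:ℝ) b,
      ‖iteratedDerivWithin j (w n) (Ici 0) x‖ ≤ (n:ℝ) ^ K)
    (h2 : ∀ n : ℕ, n1 ≤ n → Even n → SymX (fun j => C j * q ^ n) 1 X (w n)) (J : ℕ) :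
    ∃ K N : ℕ, n1 ≤ N ∧ ∀ n : ℕ, N ≤ n → Even n → ∀ j ≤ J, ∀ x : ℝ, 0 ≤ x →
      ‖iteratedDerivWithin j (w n) (Ici 0) x‖ ≤ (n:ℝ) ^ K * (1 + x) ^ (-(1:ℝ) - j) := by
  choose K N hKN using h1
  set D : ℝ := ∑ j ∈ Finset.range (J + 1), (|C j| * 2 ^ ((1:ℝ) + j) + (1 + b) ^ ((1:ℝ) + j)) with hD
  have hb0 : 0 < 1 + b := by linarith
  have hterm0 : ∀ j : ℕ, 0 ≤ |C j| * 2 ^ ((1:ℝ) + j) + (1 + b) ^ ((1:ℝ) + j) := fun j => by positivity
  have hDj : ∀ j ≤ J, |C j| * 2 ^ ((1:ℝ) + j) + (1 + b) ^ ((1:ℝ) + j) ≤ D := fun j hj =>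
    Finset.single_le_sum (f := fun j : ℕ => |C j| * 2 ^ ((1:ℝ) + j) + (1 + b) ^ ((1:ℝ) + j))
      (fun i _ => hterm0 i) (Finset.mem_range.2 (by omega))
  set Km : ℕ := ∑ j ∈ Finset.range (J + 1), K j with hKm
  have hKj : ∀ j ≤ J, K j ≤ Km := fun j hj =>
    Finset.single_le_sum (f := K) (fun i _ => Nat.zero_le _) (Finset.mem_range.2 (by omega))
  set Nm : ℕ := ∑ j ∈ Finset.range (J + 1), N j with hNm
  have hNj : ∀ j ≤ J, N j ≤ Nm := fun j hj =>
    Finset.single_le_sum (f := N) (fun i _ => Nat.zero_le _) (Finset.mem_range.2 (by omega))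
  obtain ⟨N2, hN2⟩ := exists_nat_ge D
  refine ⟨Km + 1, Nm + n1 + N2 + 1, by omega, ?_⟩
  intro n hn he j hj x hx
  have hnN : N j ≤ n := (hNj j hj).trans (by omega)
  have hn1 : n1 ≤ n := by omega
  have hnr : (1:ℝ) ≤ n := by exact_mod_cast (by omega : 1 ≤ n)
  have hnD : D ≤ n := hN2.trans (by exact_mod_cast (by omega : N2 ≤ n))
  have hj0 : (0:ℝ) ≤ j := Nat.cast_nonneg j
  have hx1 : 0 < 1 + x := by linarith
  have hDjn : |C j| * 2 ^ ((1:ℝ) + j) + (1 + b) ^ ((1:ℝ) + j) ≤ n := (hDj j hj).trans hnD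
  have hA0 : 0 ≤ |C j| * 2 ^ ((1:ℝ) + j) := by positivity
  have hB0 : 0 ≤ (1 + b) ^ ((1:ℝ) + j) := by positivity
  rcases lt_or_ge x b with hxb | hxb
  · have h3 := hKN j n hnN he x ⟨hx, hxb⟩
    have h4 : (1:ℝ) ≤ (1 + b) ^ ((1:ℝ) + j) * (1 + x) ^ (-(1:ℝ) - j) := by
      have e : (1 + x) ^ (-(1:ℝ) - j) = ((1 + x) ^ ((1:ℝ) + j))⁻¹ := by
        rw [← Real.rpow_neg hx1.le]; congr 1; ring
      rw [e, ← div_eq_mul_inv, one_le_div (by positivity)]
      exact Real.rpow_le_rpow hx1.le (by linarith) (by positivity)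
    calc ‖iteratedDerivWithin j (w n) (Ici 0) x‖ ≤ (n:ℝ) ^ K j := h3
      _ ≤ (n:ℝ) ^ Km := pow_le_pow_right₀ hnr (hKj j hj)
      _ = (n:ℝ) ^ Km * 1 := (mul_one _).symm
      _ ≤ (n:ℝ) ^ Km * ((1 + b) ^ ((1:ℝ) + j) * (1 + x) ^ (-(1:ℝ) - j)) :=
          mul_le_mul_of_nonneg_left h4 (by positivity)
      _ = (n:ℝ) ^ Km * (1 + b) ^ ((1:ℝ) + j) * (1 + x) ^ (-(1:ℝ) - j) := by ring
      _ ≤ (n:ℝ) ^ Km * n * (1 + x) ^ (-(1:ℝ) - j) := by
          refine mul_le_mul_of_nonneg_right ?_ (by positivity)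
          exact mul_le_mul_of_nonneg_left (by linarith) (by positivity)
      _ = (n:ℝ) ^ (Km + 1) * (1 + x) ^ (-(1:ℝ) - j) := by rw [pow_succ]
  · have hxX : X < x := lt_of_lt_of_le hb hxb
    have hx0 : 0 < x := by linarith
    rw [iteratedDerivWithin_eq_of_pos j hx0]
    have h3 := (h2 n hn1 he).2 j x hxX
    have hqn : q ^ n ≤ 1 := pow_le_one₀ hq0.le hq1.le
    have hqn0 : 0 ≤ q ^ n := by positivity
    have h4 : x ^ (-(1:ℝ) - j) ≤ 2 ^ ((1:ℝ) + j) * (1 + x) ^ (-(1:ℝ) - j) := by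
      have e : (1 + x) ^ (-(1:ℝ) - j) = ((1 + x) ^ ((1:ℝ) + j))⁻¹ := by
        rw [← Real.rpow_neg hx1.le]; congr 1; ring
      have e' : x ^ (-(1:ℝ) - j) = (x ^ ((1:ℝ) + j))⁻¹ := by
        rw [← Real.rpow_neg hx0.le]; congr 1; ring
      rw [e, e', ← div_eq_mul_inv, inv_eq_one_div, div_le_div_iff₀ (by positivity) (by positivity),
        one_mul, ← Real.mul_rpow (by norm_num) hx0.le]
      exact Real.rpow_le_rpow hx1.le (by linarith) (by positivity)
    calc ‖iteratedDeriv j (w n) x‖ ≤ C j * q ^ n * x ^ (-(1:ℝ) - j) := h3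
      _ ≤ |C j| * 1 * (2 ^ ((1:ℝ) + j) * (1 + x) ^ (-(1:ℝ) - j)) := by
          have := le_abs_self (C j)
          have := abs_nonneg (C j)
          have : C j * q ^ n ≤ |C j| * 1 := by nlinarith
          gcongr
      _ = |C j| * 2 ^ ((1:ℝ) + j) * (1 + x) ^ (-(1:ℝ) - j) := by ring
      _ ≤ n * (1 + x) ^ (-(1:ℝ) - j) := by
          refine mul_le_mul_of_nonneg_right (by linarith) (by positivity)
      _ ≤ (n:ℝ) ^ (Km + 1) * (1 + x) ^ (-(1:ℝ) - j) := by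
          refine mul_le_mul_of_nonneg_right ?_ (by positivity)
          calc (n:ℝ) = (n:ℝ) ^ 1 := (pow_one _).symm
            _ ≤ (n:ℝ) ^ (Km + 1) := pow_le_pow_right₀ hnr (by omega)

/-- the bound of one potential, `c n` = factor with `|c n| ≤ n` -/
theorem xbd_poly {w : ℕ → ℝ → ℂ} {X b q : ℝ} {C : ℕ → ℝ} {n1 : ℕ} (hX : 1 ≤ X) (hb : X < b)
    (hq0 : 0 < q) (hq1 : q < 1)
    (h0 : ∀ n : ℕ, n1 ≤ n → Even n → ContDiffOn ℝ ∞ (w n) (Ici 0))
    (h1 : ∀ j : ℕ, ∃ K N : ℕ, ∀ n : ℕ, N ≤ n → Even n → ∀ x ∈ Ico (0:ℝ) b,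
      ‖iteratedDerivWithin j (w n) (Ici 0) x‖ ≤ (n:ℝ) ^ K)
    (h2 : ∀ n : ℕ, n1 ≤ n → Even n → SymX (fun j => C j * q ^ n) 1 X (w n))
    (c : ℕ → ℂ) (hc : ∀ n : ℕ, 2 ≤ n → ‖c n‖ ≤ n) :
    ∃ K N : ℕ, n1 ≤ N ∧ ∀ n : ℕ, N ≤ n → Even n →
      XBd 30 (fun y => c n * BRad.rad (w n) y) ((n:ℝ) ^ K) ∧
      ∀ i : Fin 12, XBd 0 (fun y => ((y i : ℝ) : ℂ) * (c n * BRad.rad (w n) y)) ((n:ℝ) ^ K) := by
  obtain ⟨K, N, hN1, hKN⟩ := glue_poly hX hb hq0 hq1 h1 h2 43
  obtain ⟨C1, hC10, hC1⟩ := BRad.symQ_radial (δ := 1) one_pos 30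
  obtain ⟨C2, hC20, hC2⟩ := BRad.symQ_coord (δ := 1) (by norm_num) 0
  obtain ⟨N2, hN2⟩ := exists_nat_ge (C1 + C2)
  refine ⟨K + 2, N + N2 + 2, by omega, ?_⟩
  intro n hn he
  have hnN : N ≤ n := by omega
  have hn1 : n1 ≤ n := by omega
  have hnr : (1:ℝ) ≤ n := by exact_mod_cast (by omega : 1 ≤ n)
  have hnC : C1 + C2 ≤ n := hN2.trans (by exact_mod_cast (by omega : N2 ≤ n))
  have hcn := hc n (by omega)
  have hb1 := hKN n hnN he
  have hV := h0 n hn1 he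
  have hB : (0:ℝ) ≤ (n:ℝ) ^ K := by positivity
  have key : ∀ C' : ℝ, 0 ≤ C' → C' ≤ n → ‖c n‖ * (C' * (n:ℝ) ^ K) ≤ (n:ℝ) ^ (K + 2) := by
    intro C' h0' h'
    calc ‖c n‖ * (C' * (n:ℝ) ^ K) ≤ n * (n * (n:ℝ) ^ K) := by gcongr
      _ = (n:ℝ) ^ (K + 2) := by ring
  constructor
  · have h3 := hC1 (w n) ((n:ℝ) ^ K) hV hB (fun i hi x hx => hb1 i (by omega) x hx)
    have h4 := h3.const_mul (c n)
    exact h4.mono (key C1 hC10 (by linarith))
  · intro i
    have h3 := hC2 (w n) ((n:ℝ) ^ K) hV hB (fun i hi x hx => hb1 i (by omega) x hx) i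
    have h4 := h3.const_mul (c n)
    have h5 : (fun y : R12 => ((y i : ℝ) : ℂ) * (c n * BRad.rad (w n) y))
        = fun y => c n * (((y i : ℝ) : ℂ) * BRad.rad (w n) y) := by
      funext y; ring
    rw [h5]
    exact h4.mono (key C2 hC20 (by linarith))

theorem V1_eq {S : BSeq om0 R U U1} {n : ℕ} {P : Profile n} (hP : IsProf S P) :
    P.V1 = fun y => (1 + (n : ℂ) / 2) * BRad.rad (wA n (toX (S.v n))) y := by
  funext y
  unfold Profile.V1 BRad.rad wA BRad.sq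
  rw [toX_sq _ (norm_nonneg y), hP.2]

theorem V2_eq {S : BSeq om0 R U U1} {n : ℕ} {P : Profile n} (hP : IsProf S P) :
    P.V2 = fun y => ((n : ℂ) / 2) * BRad.rad (wB n (toX (S.v n))) y := by
  funext y
  unfold Profile.V2 BRad.rad wB BRad.sq
  rw [toX_sq _ (norm_nonneg y), hP.2]
  ring

theorem V2c_eq {S : BSeq om0 R U U1} {n : ℕ} {P : Profile n} (hP : IsProf S P) :
    P.V2c = fun y => ((n : ℂ) / 2) * BRad.rad (wC n (toX (S.v n))) y := by
  funext y
  unfold Profile.V2c BRad.rad wC BRad.sq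
  rw [toX_sq _ (norm_nonneg y), hP.2]
  ring

/-- **Field `poly` of `BData`.** -/
theorem poly (S : BSeq om0 R U U1) (T : T3Out S) :
    ∃ K : ℕ, ∃ N : ℕ, S.n1 ≤ N ∧ ∀ n, N ≤ n → Even n → ∀ P : Profile n, IsProf S P →
      XBd 30 P.V1 ((n : ℝ) ^ K) ∧ XBd 30 P.V2 ((n : ℝ) ^ K) ∧ XBd 30 P.V2c ((n : ℝ) ^ K) ∧
      ∀ i : Fin 12,
        XBd 0 (fun y => ((y i : ℝ) : ℂ) * P.V1 y) ((n : ℝ) ^ K) ∧
        XBd 0 (fun y => ((y i : ℝ) : ℂ) * P.V2 y) ((n : ℝ) ^ K) ∧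
        XBd 0 (fun y => ((y i : ℝ) : ℂ) * P.V2c y) ((n : ℝ) ^ K) := by
  obtain ⟨b, hb, hT⟩ := T
  have hX : 1 ≤ S.X := by have := S.X_ge; linarith
  have hq0 := S.q_pos
  have hq1 := S.q_lt
  have hcA : ∀ n : ℕ, 2 ≤ n → ‖(1 + (n : ℂ) / 2)‖ ≤ n := by
    intro n hn
    have h2 : (2:ℝ) ≤ n := by exact_mod_cast hn
    refine (norm_add_le _ _).trans ?_
    rw [norm_div]
    simp only [norm_one, Complex.norm_natCast, Complex.norm_ofNat]
    linarith
  have hcB : ∀ n : ℕ, 2 ≤ n → ‖((n : ℂ) / 2)‖ ≤ n := by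
    intro n hn
    have h2 : (2:ℝ) ≤ n := by exact_mod_cast hn
    rw [norm_div]
    simp only [Complex.norm_natCast, Complex.norm_ofNat]
    linarith
  obtain ⟨KA, NA, hNA1, hA⟩ := xbd_poly (w := fun n => wA n (toX (S.v n))) hX hb hq0 hq1
    (fun n hn he => contDiffOn_wA (contDiffOn_toX S hn he) he)
    (fun j => by
      obtain ⟨K, N, h⟩ := hT j
      exact ⟨K, N, fun n hn he x hx => (h n hn he x hx).1⟩)
    (fun n hn he => (S.far n hn he).symA) (fun n => (1 + (n : ℂ) / 2)) hcA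
  obtain ⟨KB, NB, hNB1, hB⟩ := xbd_poly (w := fun n => wB n (toX (S.v n))) hX hb hq0 hq1
    (fun n hn he => contDiffOn_wB (contDiffOn_toX S hn he) he)
    (fun j => by
      obtain ⟨K, N, h⟩ := hT j
      exact ⟨K, N, fun n hn he x hx => (h n hn he x hx).2.1⟩)
    (fun n hn he => (S.far n hn he).symB) (fun n => ((n : ℂ) / 2)) hcB
  obtain ⟨KC, NC, hNC1, hC⟩ := xbd_poly (w := fun n => wC n (toX (S.v n))) hX hb hq0 hq1
    (fun n hn he => contDiffOn_wC (contDiffOn_toX S hn he) he)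
    (fun j => by
      obtain ⟨K, N, h⟩ := hT j
      exact ⟨K, N, fun n hn he x hx => (h n hn he x hx).2.2⟩)
    (fun n hn he => (S.far n hn he).symC) (fun n => ((n : ℂ) / 2)) hcB
  refine ⟨KA + KB + KC, NA + NB + NC + 1, by omega, ?_⟩
  intro n hn he P hP
  have hnr : (1:ℝ) ≤ n := by exact_mod_cast (by omega : 1 ≤ n)
  obtain ⟨a1, a2⟩ := hA n (by omega) he
  obtain ⟨b1, b2⟩ := hB n (by omega) he
  obtain ⟨c1, c2⟩ := hC n (by omega) he
  rw [V1_eq hP, V2_eq hP, V2c_eq hP]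
  have eA : (n:ℝ) ^ KA ≤ (n:ℝ) ^ (KA + KB + KC) := pow_le_pow_right₀ hnr (by omega)
  have eB : (n:ℝ) ^ KB ≤ (n:ℝ) ^ (KA + KB + KC) := pow_le_pow_right₀ hnr (by omega)
  have eC : (n:ℝ) ^ KC ≤ (n:ℝ) ^ (KA + KB + KC) := pow_le_pow_right₀ hnr (by omega)
  have mono : ∀ {N : ℕ} {f : R12 → ℂ} {B B' : ℝ}, XBd N f B → B ≤ B' → XBd N f B' := by
    rintro N f B B' ⟨a, ha, hB⟩ h
    exact ⟨a, ha, hB.trans h⟩
  exact ⟨mono a1 eA, mono b1 eB, mono c1 eC, fun i =>
    ⟨mono (a2 i) eA, mono (b2 i) eB, mono (c2 i) eC⟩⟩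

end BFin

end Crest.Agent.R086.B
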