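import Crest.Agent.R086.WieX

/-!
# Row 86, node DA: the weighted Wiener algebra `X_N` on a euclidean space (helper384)

`X V N` = densities `a ∈ L¹(V, (1+‖ξ‖)^N dξ)`, an `abbrev` for `XG volume (wtV V N)`:
all of `WieG`/`WieX` applies (`XG.den`, `XG.mk`, `XG.norm_eq`, product, star, `lift`, `fmul`, ...).
`V` is any finite dimensional real inner product space (`R12` in the application).
-/

set_option autoImplicit false
set_option linter.unusedSectionVars false

open MeasureTheory Complex Filter
open scoped ContDiff ENNReal NNReal Topology Convolution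

noncomputable section

namespace Crest.Agent.R086.Wie

section wt

variable {V : Type*} [NormedAddCommGroup V]

/-- the weight `(1+‖ξ‖)^N` -/
def wt (N : ℕ) (ξ : V) : ℝ := (1 + ‖ξ‖) ^ N

theorem one_le_wt (N : ℕ) (ξ : V) : 1 ≤ wt N ξ :=
  one_le_pow₀ (by linarith [norm_nonneg ξ])

theorem wt_pos (N : ℕ) (ξ : V) : 0 < wt N ξ := lt_of_lt_of_le one_pos (one_le_wt N ξ)

theorem wt_nonneg (N : ℕ) (ξ : V) : 0 ≤ wt N ξ := (wt_pos N ξ).le

theorem continuous_wt (N : ℕ) : Continuous (wt N : V → ℝ) := by
  unfold wt; fun_prop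

theorem wt_add_le (N : ℕ) (ξ η : V) : wt N (ξ + η) ≤ wt N ξ * wt N η := by
  unfold wt
  rw [← mul_pow]
  refine pow_le_pow_left₀ (by positivity) ?_ N
  have h := norm_add_le ξ η
  nlinarith [norm_nonneg ξ, norm_nonneg η, mul_nonneg (norm_nonneg ξ) (norm_nonneg η)]

theorem wt_neg (N : ℕ) (ξ : V) : wt N (-ξ) = wt N ξ := by simp [wt]

theorem wt_mono {M N : ℕ} (h : M ≤ N) (ξ : V) : wt M ξ ≤ wt N ξ :=
  pow_le_pow_right₀ (by linarith [norm_nonneg ξ]) h

theorem measurable_wt [MeasurableSpace V] [BorelSpace V] (N : ℕ) :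
    Measurable (wt N : V → ℝ) := (continuous_wt N).measurable

variable (V)

/-- the bundled weight `(1+‖ξ‖)^N` -/
def wtV [MeasurableSpace V] [BorelSpace V] (N : ℕ) : Wt V where
  toFun := wt N
  meas := measurable_wt N
  one_le := one_le_wt N
  add_le := wt_add_le N
  neg := wt_neg N

variable {V}

@[simp] theorem wtV_apply [MeasurableSpace V] [BorelSpace V] (N : ℕ) (ξ : V) :
    wtV V N ξ = wt N ξ := rfl



end wt

variable {V : Type*} [NormedAddCommGroup V] [InnerProductSpace ℝ V] [FiniteDimensional ℝ V]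
  [MeasurableSpace V] [BorelSpace V]

variable (V) in
/-- the Banach algebra of densities `L¹((1+‖ξ‖)^N dξ)` on `V` -/
abbrev X (N : ℕ) : Type _ := XG (volume : Measure V) (wtV V N)

/-- the weighted class of densities (function level) -/
abbrev WInt (N : ℕ) (a : V → ℂ) : Prop := GInt volume (wtV V N) a


theorem WInt.of_le' {M N : ℕ} (hMN : M ≤ N) {a : V → ℂ} (h : WInt N a) : WInt M a :=
  GInt.of_le (C := 1) (fun ξ => by rw [one_mul]; exact wt_mono hMN ξ) h

/-- shortcut instances (the search for `R12` is otherwise too long) -/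
instance instRingX (N : ℕ) : NonUnitalNormedCommRing (XG (volume : Measure V) (wtV V N)) :=
  XG.instNonUnitalNormedCommRing
instance instSMulCommX (N : ℕ) : SMulCommClass ℂ (XG (volume : Measure V) (wtV V N))
    (XG (volume : Measure V) (wtV V N)) := XG.instSMulCommClassComplex
instance instTowerX (N : ℕ) : IsScalarTower ℂ (XG (volume : Measure V) (wtV V N))
    (XG (volume : Measure V) (wtV V N)) := XG.instIsScalarTowerComplex
instance instStarRingX (N : ℕ) : StarRing (XG (volume : Measure V) (wtV V N)) := XG.instStarRing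
instance instNormedStarX (N : ℕ) : NormedStarGroup (XG (volume : Measure V) (wtV V N)) :=
  XG.instNormedStarGroup
instance instStarModuleX (N : ℕ) : StarModule ℂ (XG (volume : Measure V) (wtV V N)) :=
  XG.instStarModuleComplex


/-- inclusion `X_N → X_M` for `M ≤ N` -/
def inclV {M N : ℕ} (h : M ≤ N) : X V N →L[ℂ] X V M := XG.incl (wt_mono h)

end Crest.Agent.R086.Wie
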