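import Crest.Agent.R086.Sym
import Crest.Agent.R086.BRad
import Mathlib
import Crest.Agent.R086.BExtDefs
import Crest.Agent.R086.BCIface
import Crest.Agent.R086.BSm0
import Crest.Agent.R086.Wie
import Crest.Agent.R086.SymX
import Crest.Agent.R086.BDefs
import Crest.Agent.R086.A3Ode

-- ▼ part R086/BTail2
section

/-!
Row 86 (S0114), Part B, node T2 (helper35): quantitative symbol lemma and the weighted Fourier norm
of the tail `zeta(|y|²/4) g(|y|²/4)`.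
-/

set_option autoImplicit false
set_option linter.style.longLine false

open MeasureTheory Complex Filter Topology
open scoped ContDiff

namespace Crest.Agent.R086.BTail2

open SymX

/-- `f` has symbol bounds of order `-δ` with one constant `B` for the first `M` derivatives. -/
def SymB (M : ℕ) (δ B : ℝ) (f : R12 → ℂ) : Prop :=
  ∀ k ≤ M, ∀ y : R12, ‖iteratedFDeriv ℝ k f y‖ ≤ B * (1 + ‖y‖) ^ (-δ - k)

/-- one dyadic piece, uniform version -/
theorem pieceQ (N : ℕ) (δ : ℝ) :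
    ∃ C : ℝ, 0 ≤ C ∧ ∀ (f : R12 → ℂ) (B : ℝ), ContDiff ℝ ∞ f → 0 ≤ B → SymB (N + 13) δ B f →
      ∀ R : ℝ, 1 ≤ R → RepB N (C * B * R ^ (-δ)) (fun y => psi (R⁻¹ • y) * f y) := by
  obtain ⟨C₀, hC₀, hcomp⟩ := repD_compact N
  choose! A hA0 hA using fun m => deriv_bdd psi_smooth (fun y hy => psi_outer hy.le) m
  set E : ℕ → ℝ := fun k => 5 ^ |(-δ - k)| with hE
  have hE0 : ∀ k, 0 ≤ E k := fun k => by simp only [hE]; positivity
  set Bm : ℕ → ℝ := fun m => ∑ i ∈ Finset.range (m + 1), (m.choose i : ℝ) * A i * E (m - i) with hBm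
  have hBm0 : ∀ m, 0 ≤ Bm m := fun m => Finset.sum_nonneg fun i _ => by
    have := hA0 i; have := hE0 (m - i); positivity
  set Bt : ℝ := ∑ m ∈ Finset.range (N + 13 + 1), Bm m with hBt
  have hBt0 : 0 ≤ Bt := Finset.sum_nonneg fun m _ => hBm0 m
  refine ⟨C₀ * Bt, by positivity, ?_⟩
  intro f B hf hB0 hD R hR
  have hsc : ∀ k : ℕ, k ≤ N + 13 → ∀ z : R12, 1 ≤ ‖z‖ → ‖z‖ ≤ 4 →
      ‖iteratedFDeriv ℝ k (fun x => f (R • x)) z‖ ≤ B * E k * R ^ (-δ) := by
    intro k hk z hz1 hz4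
    have hR0 : 0 < R := lt_of_lt_of_le one_pos hR
    have h1 := iteratedFDeriv_comp_const_smul (𝕜 := ℝ) (i := k) R (hf.of_le (by exact_mod_cast le_top))
    rw [h1, norm_smul, norm_pow, Real.norm_of_nonneg hR0.le]
    have h2 := hD k hk (R • z)
    rw [norm_smul, Real.norm_of_nonneg hR0.le] at h2
    have h3 : (1 + R * ‖z‖) ^ (-δ - k) ≤ 5 ^ |(-δ - k)| * R ^ (-δ - k) := by
      rcases le_total 0 (-δ - k) with hs | hs
      · rw [abs_of_nonneg hs, ← Real.mul_rpow (by norm_num) hR0.le]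
        refine Real.rpow_le_rpow (by positivity) ?_ hs
        nlinarith
      · have e1 : (1 + R * ‖z‖) ^ (-δ - k) ≤ R ^ (-δ - k) :=
          Real.rpow_le_rpow_of_nonpos hR0 (by nlinarith) hs
        have e2 : (1:ℝ) ≤ 5 ^ |(-δ - k)| := Real.one_le_rpow (by norm_num) (abs_nonneg _)
        have e3 : 0 ≤ R ^ (-δ - k) := by positivity
        nlinarith
    have h4 : R ^ k * R ^ (-δ - k) = R ^ (-δ) := by
      rw [← Real.rpow_natCast R k, ← Real.rpow_add hR0]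
      congr 1
      ring
    calc R ^ k * ‖iteratedFDeriv ℝ k f (R • z)‖
        ≤ R ^ k * (B * (1 + R * ‖z‖) ^ (-δ - k)) := by gcongr
      _ ≤ R ^ k * (B * (5 ^ |(-δ - k)| * R ^ (-δ - k))) := by
          exact mul_le_mul_of_nonneg_left (mul_le_mul_of_nonneg_left h3 hB0) (by positivity)
      _ = B * E k * (R ^ k * R ^ (-δ - k)) := by simp only [hE]; ring
      _ = B * E k * R ^ (-δ) := by rw [h4]
  have hR0 : 0 < R := lt_of_lt_of_le one_pos hR
  have hRp : 0 ≤ R ^ (-δ) := by positivity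
  have hgs : ContDiff ℝ ∞ (fun z : R12 => psi z * f (R • z)) :=
    psi_smooth.mul (hf.comp (contDiff_const_smul R))
  have hgz : ∀ y : R12, 4 < ‖y‖ → psi y * f (R • y) = 0 := by
    intro y hy
    rw [psi_outer hy.le, zero_mul]
  have hgb : ∀ m ≤ N + 13, ∀ y : R12,
      ‖iteratedFDeriv ℝ m (fun z : R12 => psi z * f (R • z)) y‖ ≤ B * Bt * R ^ (-δ) := by
    intro m hm y
    rcases lt_or_ge ‖y‖ 1 with hy | hy
    · have h1 : (fun z : R12 => psi z * f (R • z)) =ᶠ[𝓝 y] fun _ => (0 : ℂ) := by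
        have : {z : R12 | ‖z‖ < 1} ∈ 𝓝 y := (isOpen_lt continuous_norm continuous_const).mem_nhds hy
        filter_upwards [this] with z hz
        rw [psi_inner (le_of_lt hz), zero_mul]
      rw [(h1.iteratedFDeriv ℝ m).eq_of_nhds]
      simp only [iteratedFDeriv_fun_zero, Pi.zero_apply, norm_zero]
      positivity
    rcases lt_or_ge 4 ‖y‖ with hy4 | hy4
    · have h1 : (fun z : R12 => psi z * f (R • z)) =ᶠ[𝓝 y] fun _ => (0 : ℂ) := by
        have : {z : R12 | 4 < ‖z‖} ∈ 𝓝 y := (isOpen_lt continuous_const continuous_norm).mem_nhds hy4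
        filter_upwards [this] with z hz
        rw [psi_outer (le_of_lt hz), zero_mul]
      rw [(h1.iteratedFDeriv ℝ m).eq_of_nhds]
      simp only [iteratedFDeriv_fun_zero, Pi.zero_apply, norm_zero]
      positivity
    have hl := norm_iteratedFDeriv_mul_le (𝕜 := ℝ) (N := ∞) psi_smooth
      (hf.comp (contDiff_const_smul R)) y (n := m) (by exact_mod_cast le_top)
    refine hl.trans ?_
    calc ∑ i ∈ Finset.range (m + 1), (m.choose i : ℝ) * ‖iteratedFDeriv ℝ i psi y‖ *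
          ‖iteratedFDeriv ℝ (m - i) (f ∘ fun x => R • x) y‖
        ≤ ∑ i ∈ Finset.range (m + 1), (m.choose i : ℝ) * A i * (B * E (m - i) * R ^ (-δ)) := by
          refine Finset.sum_le_sum fun i _ => ?_
          have h7 := hA i y
          have h8 := hsc (m - i) (by omega) y hy hy4
          have h9 := hA0 i
          gcongr
          exact h8
      _ = B * Bm m * R ^ (-δ) := by
          simp only [hBm]
          rw [Finset.mul_sum, Finset.sum_mul]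
          refine Finset.sum_congr rfl fun i _ => ?_
          ring
      _ ≤ B * Bt * R ^ (-δ) := by
          refine mul_le_mul_of_nonneg_right (mul_le_mul_of_nonneg_left ?_ hB0) hRp
          exact Finset.single_le_sum (f := Bm) (fun i _ => hBm0 i)
            (Finset.mem_range.2 (by omega))
  have h10 := (hcomp _ _ hgs hgz hgb).dil hR
  have h11 : (fun y : R12 => psi (R⁻¹ • y) * f (R • (R⁻¹ • y))) = fun y => psi (R⁻¹ • y) * f y := by
    funext y
    rw [smul_smul, mul_inv_cancel₀ hR0.ne', one_smul]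
  rw [h11] at h10
  refine ⟨_, h10.mono (le_of_eq ?_)⟩
  ring

/-- the inner piece, uniform version -/
theorem innerQ (N : ℕ) (δ : ℝ) (hδ : 0 ≤ δ) :
    ∃ C : ℝ, 0 ≤ C ∧ ∀ (f : R12 → ℂ) (B : ℝ), ContDiff ℝ ∞ f → 0 ≤ B → SymB (N + 13) δ B f →
      RepB N (C * B) (fun y => cut y * f y) := by
  obtain ⟨C₀, hC₀, hcomp⟩ := repD_compact N
  choose! A hA0 hA using fun m => deriv_bdd cut_smooth
    (fun y hy => cut_zero (by linarith : (2:ℝ) ≤ ‖y‖)) m
  set Bm : ℕ → ℝ := fun m => ∑ i ∈ Finset.range (m + 1), (m.choose i : ℝ) * A i with hBm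
  have hBm0 : ∀ m, 0 ≤ Bm m := fun m => Finset.sum_nonneg fun i _ => by
    have := hA0 i; positivity
  set Bt : ℝ := ∑ m ∈ Finset.range (N + 13 + 1), Bm m with hBt
  have hBt0 : 0 ≤ Bt := Finset.sum_nonneg fun m _ => hBm0 m
  refine ⟨C₀ * Bt, by positivity, ?_⟩
  intro f B hf hB0 hD
  have hs : ContDiff ℝ ∞ (fun y => cut y * f y) := cut_smooth.mul hf
  have hz : ∀ y : R12, 4 < ‖y‖ → cut y * f y = 0 := by
    intro y hy
    rw [cut_zero (by linarith), zero_mul]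
  have hfb : ∀ k ≤ N + 13, ∀ y : R12, ‖iteratedFDeriv ℝ k f y‖ ≤ B := by
    intro k hk y
    refine (hD k hk y).trans ?_
    have h1 : (1 + ‖y‖) ^ (-δ - (k:ℝ)) ≤ 1 := by
      refine Real.rpow_le_one_of_one_le_of_nonpos (by linarith [norm_nonneg y]) ?_
      have : (0:ℝ) ≤ k := Nat.cast_nonneg k
      linarith
    nlinarith
  have hgb : ∀ m ≤ N + 13, ∀ y : R12,
      ‖iteratedFDeriv ℝ m (fun z : R12 => cut z * f z) y‖ ≤ B * Bt := by
    intro m hm y
    have hl := norm_iteratedFDeriv_mul_le (𝕜 := ℝ) (N := ∞) cut_smooth hf y (n := m)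
      (by exact_mod_cast le_top)
    refine hl.trans ?_
    calc ∑ i ∈ Finset.range (m + 1), (m.choose i : ℝ) * ‖iteratedFDeriv ℝ i cut y‖ *
          ‖iteratedFDeriv ℝ (m - i) f y‖
        ≤ ∑ i ∈ Finset.range (m + 1), (m.choose i : ℝ) * A i * B := by
          refine Finset.sum_le_sum fun i _ => ?_
          have h7 := hA i y
          have h8 := hfb (m - i) (by omega) y
          have h9 := hA0 i
          gcongr
      _ = B * Bm m := by
          simp only [hBm]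
          rw [Finset.mul_sum]
          refine Finset.sum_congr rfl fun i _ => ?_
          ring
      _ ≤ B * Bt := by
          refine mul_le_mul_of_nonneg_left ?_ hB0
          exact Finset.single_le_sum (f := Bm) (fun i _ => hBm0 i)
            (Finset.mem_range.2 (by omega))
  refine ⟨_, (hcomp _ _ hs hz hgb).mono (le_of_eq ?_)⟩
  ring

/-- the tail, uniform version -/
theorem tailQ (N : ℕ) (δ : ℝ) (hδ : 0 < δ) :
    ∃ C : ℝ, 0 ≤ C ∧ ∀ (f : R12 → ℂ) (B : ℝ), ContDiff ℝ ∞ f → 0 ≤ B → SymB (N + 13) δ B f →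
      ∀ Y : ℝ, 1 ≤ Y → RepB N (C * B * Y ^ (-δ)) (fun y => (1 - cut (Y⁻¹ • y)) * f y) := by
  obtain ⟨C, hC, hp⟩ := pieceQ N δ
  have hr : (0:ℝ) < 2 ^ (-δ) := by positivity
  have hr1 : (2:ℝ) ^ (-δ) < 1 := Real.rpow_lt_one_of_one_lt_of_neg one_lt_two (by linarith)
  have hgeo := hasSum_geometric_of_lt_one hr.le hr1
  refine ⟨C * (1 - 2 ^ (-δ))⁻¹, mul_nonneg hC (inv_nonneg.2 (by linarith)),
    fun f B hf hB0 hD Y hY => ?_⟩
  have hY0 : 0 < Y := lt_of_lt_of_le one_pos hY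
  have hpj : ∀ j : ℕ, RepB N (C * B * Y ^ (-δ) * ((2:ℝ) ^ (-δ)) ^ j)
      (fun y => psi (((2:ℝ) ^ j)⁻¹ • (Y⁻¹ • y)) * f y) := by
    intro j
    have h1 := hp f B hf hB0 hD (2 ^ j * Y) (by
      have : (1:ℝ) ≤ 2 ^ j := one_le_pow₀ one_le_two
      nlinarith)
    have h2 : ((2:ℝ) ^ j * Y) ^ (-δ) = Y ^ (-δ) * ((2:ℝ) ^ (-δ)) ^ j := by
      rw [Real.mul_rpow (by positivity) hY0.le, ← Real.rpow_natCast, ← Real.rpow_mul (by norm_num),
        ← Real.rpow_natCast, ← Real.rpow_mul (by norm_num), mul_comm (j:ℝ), mul_comm]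
    rw [h2] at h1
    have h3 : (fun y : R12 => psi (((2:ℝ) ^ j * Y)⁻¹ • y) * f y) =
        fun y => psi (((2:ℝ) ^ j)⁻¹ • (Y⁻¹ • y)) * f y := by
      funext y
      rw [smul_smul, mul_inv]
    rw [h3] at h1
    refine h1.mono (le_of_eq ?_)
    ring
  have hs : Summable fun j : ℕ => C * B * Y ^ (-δ) * ((2:ℝ) ^ (-δ)) ^ j :=
    hgeo.summable.mul_left _
  have h4 := RepB.tsum hpj hs (f := fun y => (1 - cut (Y⁻¹ • y)) * f y) (fun y =>
    (psi_hasSum (Y⁻¹ • y)).mul_right (f y))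
  refine h4.mono (le_of_eq ?_)
  rw [tsum_mul_left, hgeo.tsum_eq]
  ring

/-- **Quantitative symbol lemma** -/
theorem repQ (N : ℕ) (δ : ℝ) (hδ : 0 < δ) :
    ∃ C : ℝ, 0 ≤ C ∧ ∀ (f : R12 → ℂ) (B : ℝ), ContDiff ℝ ∞ f → 0 ≤ B → SymB (N + 13) δ B f →
      RepB N (C * B) f := by
  obtain ⟨C, hC, h1⟩ := tailQ N δ hδ
  obtain ⟨C', hC', h2⟩ := innerQ N δ hδ.le
  refine ⟨C + C', by positivity, fun f B hf hB0 hD => ?_⟩
  have h3 := (h1 f B hf hB0 hD 1 le_rfl).add (h2 f B hf hB0 hD)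
  have h4 : (fun y : R12 => (1 - cut ((1:ℝ)⁻¹ • y)) * f y + cut y * f y) = f := by
    funext y
    rw [inv_one, one_smul]
    ring
  rw [h4] at h3
  refine h3.mono (le_of_eq ?_)
  rw [Real.one_rpow]
  ring

/-! ### radial functions -/

open BRad in
/-- symbol bounds of `h(|y|²/4)`, uniform version -/
theorem radQ (M : ℕ) (δ : ℝ) (hδ : 0 ≤ δ) (x0 : ℝ) (hx0 : 0 < x0) :
    ∃ C : ℝ, 0 ≤ C ∧ ∀ (h : ℝ → ℂ) (B : ℝ), ContDiff ℝ ∞ h → 0 ≤ B → (∀ x < x0, h x = 0) →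
      (∀ j ≤ M, ∀ x, x0 ≤ x → ‖iteratedDeriv j h x‖ ≤ B * x ^ (-δ - j)) →
      SymB M (2 * δ) (C * B) (rad h) := by
  choose D hD1 hD using exists_sphere_bound
  set l0 : ℝ := 2 * Real.sqrt x0 with hl0
  have hl00 : 0 < l0 := by positivity
  set κ : ℝ := (1 + l0) / l0 with hκ
  have hκ0 : 0 < κ := by positivity
  set Kj : ℕ → ℝ := fun j => (j.factorial : ℝ) * 4 ^ (δ + j) * D j ^ j * κ ^ (2 * δ + j) with hKj
  have hKj0 : ∀ j, 0 ≤ Kj j := fun j => by
    have := hD1 j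
    simp only [hKj]; positivity
  refine ⟨∑ j ∈ Finset.range (M + 1), Kj j, Finset.sum_nonneg fun j _ => hKj0 j, ?_⟩
  intro h B hh hB0 hz hb j hj y
  have hQ : ContDiff ℝ ∞ (rad h) := hh.comp contDiff_sq
  have hKle : Kj j ≤ ∑ j ∈ Finset.range (M + 1), Kj j :=
    Finset.single_le_sum (f := Kj) (fun i _ => hKj0 i) (Finset.mem_range.2 (by omega))
  have hpow0 : 0 ≤ (1 + ‖y‖) ^ (-(2 * δ) - (j:ℝ)) := by positivity
  rcases lt_or_ge (sq y) x0 with hy | hy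
  · have h1 : rad h =ᶠ[𝓝 y] fun _ => (0 : ℂ) := by
      have : {w : R12 | sq w < x0} ∈ 𝓝 y := (isOpen_lt continuous_sq continuous_const).mem_nhds hy
      filter_upwards [this] with w hw
      exact hz _ hw
    rw [(h1.iteratedFDeriv ℝ j).eq_of_nhds]
    simp only [iteratedFDeriv_fun_zero, Pi.zero_apply, norm_zero]
    have : 0 ≤ ∑ j ∈ Finset.range (M + 1), Kj j := Finset.sum_nonneg fun j _ => hKj0 j
    positivity
  · have hl0y : l0 ≤ ‖y‖ := by
      have h2 : x0 ≤ (‖y‖ / 2) ^ 2 := by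
        have h3 : sq y = (‖y‖ / 2) ^ 2 := by rw [BRad.sq]; ring
        rw [← h3]; exact hy
      have h4 : Real.sqrt x0 ≤ ‖y‖ / 2 := Real.sqrt_le_iff.2 ⟨by positivity, h2⟩
      rw [hl0]; linarith
    have hypos : 0 < ‖y‖ := lt_of_lt_of_le hl00 hl0y
    set l : ℝ := ‖y‖ with hl
    set z : R12 := l⁻¹ • y with hzdef
    have hz1 : ‖z‖ = 1 := by
      rw [hzdef, norm_smul, norm_inv, Real.norm_of_nonneg hypos.le, inv_mul_cancel₀ hypos.ne']
    have hlz : l • z = y := by rw [hzdef, smul_smul, mul_inv_cancel₀ hypos.ne', one_smul]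
    have hcomp : (fun w : R12 => rad h (l • w)) = (fun t : ℝ => h (l ^ 2 * t)) ∘ sq := by
      funext w
      simp only [rad, BRad.sq, Function.comp]
      congr 1
      rw [norm_smul, Real.norm_of_nonneg hypos.le]; ring
    have hsqz : sq z = 1 / 4 := by rw [BRad.sq, hz1]; norm_num
    have hg : ContDiff ℝ ∞ (fun t : ℝ => h (l ^ 2 * t)) := hh.comp (by fun_prop)
    have hgb : ∀ i, i ≤ j → ‖iteratedFDeriv ℝ i (fun t : ℝ => h (l ^ 2 * t)) (sq z)‖
        ≤ B * 4 ^ (δ + j) * l ^ (-(2 * δ)) := by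
      intro i hi
      rw [norm_iteratedFDeriv_eq_norm_iteratedDeriv, hsqz]
      have h1 := congrFun (iteratedDeriv_comp_const_smul (n := i) (f := h)
        (hh.of_le (by exact_mod_cast le_top) : ContDiff ℝ i h) (l ^ 2)) (1/4 : ℝ)
      rw [h1, norm_smul]
      have h2 : l ^ 2 * (1 / 4) = sq y := by rw [BRad.sq]; ring
      rw [h2]
      have h4 : ‖iteratedDeriv i h (sq y)‖ ≤ B * (sq y) ^ (-δ - i) := hb i (by omega) _ hy
      have h5 : ‖(l ^ 2 : ℝ) ^ i‖ = l ^ ((2 * i : ℕ) : ℝ) := by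
        rw [Real.norm_of_nonneg (by positivity), Real.rpow_natCast, pow_mul]
      have h6 : (sq y) ^ (-δ - (i : ℝ)) = 4 ^ (δ + (i : ℝ)) * l ^ (-(2 * δ) - (2 * i : ℕ)) := by
        have e1 : sq y = l ^ (2 : ℝ) * 4⁻¹ := by rw [BRad.sq, Real.rpow_two]; ring
        rw [e1, Real.mul_rpow (by positivity) (by norm_num), ← Real.rpow_mul hypos.le,
          Real.inv_rpow (by norm_num), ← Real.rpow_neg (by norm_num)]
        rw [mul_comm]
        congr 1
        · congr 1; ring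
        · congr 1; push_cast; ring
      calc ‖(l ^ 2 : ℝ) ^ i‖ * ‖iteratedDeriv i h (sq y)‖
          ≤ ‖(l ^ 2 : ℝ) ^ i‖ * (B * (sq y) ^ (-δ - i)) :=
            mul_le_mul_of_nonneg_left h4 (norm_nonneg _)
        _ = B * 4 ^ (δ + (i : ℝ)) * (l ^ ((2 * i : ℕ) : ℝ) * l ^ (-(2 * δ) - (2 * i : ℕ))) := by
            rw [h5, h6]; ring
        _ = B * 4 ^ (δ + (i : ℝ)) * l ^ (-(2 * δ)) := by
            rw [← Real.rpow_add hypos]; congr 2; ring
        _ ≤ B * 4 ^ (δ + j) * l ^ (-(2 * δ)) := by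
            have : (4 : ℝ) ^ (δ + (i : ℝ)) ≤ 4 ^ (δ + (j : ℝ)) := by
              apply Real.rpow_le_rpow_of_exponent_le (by norm_num)
              have : (i : ℝ) ≤ j := by exact_mod_cast hi
              linarith
            have h7 : 0 ≤ l ^ (-(2 * δ)) := by positivity
            exact mul_le_mul_of_nonneg_right (mul_le_mul_of_nonneg_left this hB0) h7
    have hmain := norm_iteratedFDeriv_comp_le (n := j) (N := ∞)
      (g := fun t : ℝ => h (l ^ 2 * t)) (f := sq) hg contDiff_sq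
      (by exact_mod_cast le_top) z hgb (fun i hi hij => hD j z hz1 i hi hij)
    rw [← hcomp] at hmain
    have hsc := congrFun (iteratedFDeriv_comp_const_smul (i := j) l
      (hQ.of_le (by exact_mod_cast le_top) : ContDiff ℝ j (rad h))) z
    rw [hsc, norm_smul, hlz] at hmain
    have h8 : ‖l ^ j‖ = l ^ (j : ℝ) := by
      rw [Real.norm_of_nonneg (by positivity), Real.rpow_natCast]
    rw [h8] at hmain
    have h9 : ‖iteratedFDeriv ℝ j (rad h) y‖
        = l ^ (-(j : ℝ)) * (l ^ (j : ℝ) * ‖iteratedFDeriv ℝ j (rad h) y‖) := by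
      rw [← mul_assoc, ← Real.rpow_add hypos]; simp
    have h10 : l ^ (-(2 * δ) - (j:ℝ)) ≤ κ ^ (2 * δ + j) * (1 + l) ^ (-(2 * δ) - (j:ℝ)) := by
      have hs0 : 0 ≤ 2 * δ + (j:ℝ) := by positivity
      have e1 : -(2 * δ) - (j:ℝ) = -(2 * δ + j) := by ring
      rw [e1, Real.rpow_neg hypos.le, Real.rpow_neg (by positivity), ← div_eq_mul_inv,
        le_div_iff₀ (by positivity), ← Real.inv_rpow hypos.le, ← Real.mul_rpow (by positivity) (by positivity)]
      apply Real.rpow_le_rpow (by positivity) _ hs0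
      rw [inv_mul_le_iff₀ hypos, hκ, ← mul_div_assoc, le_div_iff₀ hl00]
      nlinarith
    have hDj := hD1 j
    rw [h9]
    calc l ^ (-(j : ℝ)) * (l ^ (j : ℝ) * ‖iteratedFDeriv ℝ j (rad h) y‖)
        ≤ l ^ (-(j : ℝ)) * ((j.factorial : ℝ) * (B * 4 ^ (δ + j) * l ^ (-(2 * δ))) * D j ^ j) :=
          mul_le_mul_of_nonneg_left hmain (by positivity)
      _ = (j.factorial : ℝ) * 4 ^ (δ + j) * D j ^ j * B * (l ^ (-(j : ℝ)) * l ^ (-(2 * δ))) := by ring
      _ = (j.factorial : ℝ) * 4 ^ (δ + j) * D j ^ j * B * l ^ (-(2 * δ) - (j:ℝ)) := by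
          rw [← Real.rpow_add hypos]; congr 2; ring
      _ ≤ (j.factorial : ℝ) * 4 ^ (δ + j) * D j ^ j * B * (κ ^ (2 * δ + j) * (1 + l) ^ (-(2 * δ) - (j:ℝ))) := by
          exact mul_le_mul_of_nonneg_left h10 (by positivity)
      _ = Kj j * B * (1 + l) ^ (-(2 * δ) - (j:ℝ)) := by simp only [hKj]; ring
      _ ≤ (∑ j ∈ Finset.range (M + 1), Kj j) * B * (1 + l) ^ (-(2 * δ) - (j:ℝ)) := by
          exact mul_le_mul_of_nonneg_right (mul_le_mul_of_nonneg_right hKle hB0) hpow0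

/-! ### the cut-off -/

/-- bounds of the derivatives of a cut-off on the half line -/
theorem zeta_bound {zc : ℝ → ℂ} {x2 : ℝ} (hx2 : 0 < x2) (hz : ContDiff ℝ ∞ zc)
    (hz1 : ∀ x, x2 ≤ x → zc x = 1) (i : ℕ) :
    ∃ A : ℝ, 0 ≤ A ∧ ∀ x : ℝ, 0 < x → ‖iteratedDeriv i zc x‖ ≤ A * x ^ (-(i:ℝ)) := by
  have hc : Continuous (iteratedDeriv i zc) := hz.continuous_iteratedDeriv i (by exact_mod_cast le_top)
  obtain ⟨A, hA⟩ := (isCompact_Icc (a := (0:ℝ)) (b := x2)).exists_bound_of_continuousOn hc.continuousOn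
  have hA0 : 0 ≤ A := (norm_nonneg _).trans (hA 0 ⟨le_rfl, hx2.le⟩)
  refine ⟨A * x2 ^ (i:ℝ) + 1, by positivity, fun x hx => ?_⟩
  have hxi : 0 < x ^ (-(i:ℝ)) := by positivity
  rcases le_or_gt x x2 with h | h
  · refine (hA x ⟨hx.le, h⟩).trans ?_
    have h1 : (1:ℝ) ≤ x2 ^ (i:ℝ) * x ^ (-(i:ℝ)) := by
      rw [Real.rpow_neg hx.le, ← div_eq_mul_inv, one_le_div (by positivity)]
      exact Real.rpow_le_rpow hx.le h (by positivity)
    calc A ≤ A * (x2 ^ (i:ℝ) * x ^ (-(i:ℝ))) := by nlinarith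
      _ ≤ (A * x2 ^ (i:ℝ) + 1) * x ^ (-(i:ℝ)) := by nlinarith
  · have h1 : zc =ᶠ[𝓝 x] fun _ => (1 : ℂ) := by
      filter_upwards [isOpen_Ioi.mem_nhds (show x ∈ Set.Ioi x2 from h)] with w hw
      exact hz1 w (le_of_lt hw)
    have h2 : iteratedDeriv i zc x = iteratedDeriv i (fun _ : ℝ => (1 : ℂ)) x :=
      h1.iteratedDeriv_eq i
    rw [h2, iteratedDeriv_const]
    split_ifs with h3
    · subst h3
      simp only [norm_one, Nat.cast_zero, neg_zero, Real.rpow_zero, mul_one]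
      linarith
    · rw [norm_zero]
      positivity

/-- product with a cut-off: bounds on the whole half line -/
theorem cutQ (M : ℕ) (δ : ℝ) {x1 x1' x2 : ℝ} (h0 : 0 < x1) (h1 : x1 < x1') (h2 : x1' < x2)
    {zc : ℝ → ℂ} (hz : ContDiff ℝ ∞ zc) (hz0 : ∀ x ≤ x1', zc x = 0) (hz1 : ∀ x, x2 ≤ x → zc x = 1) :
    ∃ C : ℝ, 0 ≤ C ∧ ∀ (g : ℝ → ℂ) (B : ℝ), 0 ≤ B → ContDiffOn ℝ ∞ g (Set.Ioi x1) →
      (∀ j ≤ M, ∀ x, x1 < x → ‖iteratedDeriv j g x‖ ≤ B * x ^ (-δ - j)) →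
      ContDiff ℝ ∞ (fun x => zc x * g x) ∧ (∀ x < x1', zc x * g x = 0) ∧
      ∀ j ≤ M, ∀ x, x1' ≤ x → ‖iteratedDeriv j (fun x => zc x * g x) x‖ ≤ C * B * x ^ (-δ - j) := by
  choose A hA0 hA using fun i => zeta_bound (by linarith : 0 < x2) hz hz1 i
  set Cm : ℕ → ℝ := fun m => ∑ i ∈ Finset.range (m + 1), (m.choose i : ℝ) * A i with hCm
  have hCm0 : ∀ m, 0 ≤ Cm m := fun m => Finset.sum_nonneg fun i _ => by
    have := hA0 i; positivity
  refine ⟨∑ m ∈ Finset.range (M + 1), Cm m, Finset.sum_nonneg fun m _ => hCm0 m, ?_⟩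
  intro g B hB0 hg hb
  have hzer : ∀ x < x1', zc x * g x = 0 := fun x hx => by rw [hz0 x hx.le, zero_mul]
  refine ⟨?_, hzer, ?_⟩
  · rw [contDiff_iff_contDiffAt]
    intro x
    rcases lt_or_ge x x1' with hx | hx
    · have : (fun x => zc x * g x) =ᶠ[𝓝 x] fun _ => (0:ℂ) := by
        filter_upwards [isOpen_Iio.mem_nhds (show x ∈ Set.Iio x1' from hx)] with w hw
        exact hzer w hw
      exact contDiffAt_const.congr_of_eventuallyEq this
    · exact hz.contDiffAt.mul (hg.contDiffAt (isOpen_Ioi.mem_nhds (show x ∈ Set.Ioi x1 by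
        simpa using lt_of_lt_of_le h1 hx)))
  · intro j hj x hx
    have hxm : x ∈ Set.Ioi x1 := lt_of_lt_of_le h1 hx
    have hx0 : 0 < x := by linarith
    have hl := norm_iteratedFDerivWithin_mul_le (𝕜 := ℝ) (N := ∞) (s := Set.Ioi x1) hz.contDiffOn hg
      (uniqueDiffOn_Ioi x1) hxm (n := j) (by exact_mod_cast le_top)
    have e : ∀ (k : ℕ) (f : ℝ → ℂ), ‖iteratedFDerivWithin ℝ k f (Set.Ioi x1) x‖ = ‖iteratedDeriv k f x‖ := by
      intro k f
      rw [iteratedFDerivWithin_of_isOpen k isOpen_Ioi hxm, norm_iteratedFDeriv_eq_norm_iteratedDeriv]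
    rw [e] at hl
    simp only [e] at hl
    refine hl.trans ?_
    have hCle : Cm j ≤ ∑ m ∈ Finset.range (M + 1), Cm m :=
      Finset.single_le_sum (f := Cm) (fun i _ => hCm0 i) (Finset.mem_range.2 (by omega))
    have hp0 : 0 ≤ x ^ (-δ - (j:ℝ)) := by positivity
    calc ∑ i ∈ Finset.range (j + 1), (j.choose i : ℝ) * ‖iteratedDeriv i zc x‖ *
          ‖iteratedDeriv (j - i) g x‖
        ≤ ∑ i ∈ Finset.range (j + 1), (j.choose i : ℝ) * (A i * x ^ (-(i:ℝ))) *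
          (B * x ^ (-δ - ((j - i : ℕ) : ℝ))) := by
          refine Finset.sum_le_sum fun i _ => ?_
          have h7 := hA i x hx0
          have h8 := hb (j - i) (by omega) x hxm
          have h9 := hA0 i
          gcongr
      _ = ∑ i ∈ Finset.range (j + 1), ((j.choose i : ℝ) * A i) * (B * x ^ (-δ - (j:ℝ))) := by
          refine Finset.sum_congr rfl fun i hi => ?_
          have hi' : i ≤ j := by have := Finset.mem_range.1 hi; omega
          have e2 : x ^ (-(i:ℝ)) * x ^ (-δ - ((j - i : ℕ) : ℝ)) = x ^ (-δ - (j:ℝ)) := by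
            rw [← Real.rpow_add hx0, Nat.cast_sub hi']
            congr 1
            ring
          rw [← e2]
          ring
      _ = Cm j * B * x ^ (-δ - (j:ℝ)) := by
          rw [← Finset.sum_mul]
          simp only [hCm]
          ring
      _ ≤ (∑ m ∈ Finset.range (M + 1), Cm m) * B * x ^ (-δ - (j:ℝ)) :=
          mul_le_mul_of_nonneg_right (mul_le_mul_of_nonneg_right hCle hB0) hp0

/-- **Node T2**: the weighted Fourier norm of a radial tail, with linear dependence on the symbol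
constant. -/
theorem tail2 (N : ℕ) {δ x1 x1' x2 : ℝ} (hδ : 0 < δ) (h0 : 0 < x1) (h1 : x1 < x1') (h2 : x1' < x2)
    {zeta : ℝ → ℝ} (hz : ContDiff ℝ ∞ zeta) (hz0 : ∀ x ≤ x1', zeta x = 0)
    (hz1 : ∀ x, x2 ≤ x → zeta x = 1) :
    ∃ C : ℝ, 0 ≤ C ∧ ∀ (g : ℝ → ℂ) (B : ℝ), 0 ≤ B → ContDiffOn ℝ ∞ g (Set.Ioi x1) →
      (∀ j ≤ N + 13, ∀ x, x1 < x → ‖iteratedDeriv j g x‖ ≤ B * x ^ (-δ - j)) →
      RepB N (C * B) (fun y : R12 => ((zeta (‖y‖ ^ 2 / 4) : ℝ) : ℂ) * g (‖y‖ ^ 2 / 4)) := by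
  have hzc : ContDiff ℝ ∞ (fun x => ((zeta x : ℝ) : ℂ)) := Complex.ofRealCLM.contDiff.comp hz
  obtain ⟨C1, hC1, H1⟩ := cutQ (N + 13) δ h0 h1 h2 hzc (fun x hx => by rw [hz0 x hx]; simp)
    (fun x hx => by rw [hz1 x hx]; simp)
  obtain ⟨C2, hC2, H2⟩ := radQ (N + 13) δ hδ.le x1' (by linarith)
  obtain ⟨C3, hC3, H3⟩ := repQ N (2 * δ) (by linarith)
  refine ⟨C3 * (C2 * C1), by positivity, fun g B hB hg hb => ?_⟩
  obtain ⟨ha, hb', hc⟩ := H1 g B hB hg hb
  have h5 := H2 _ (C1 * B) ha (by positivity) hb' hc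
  have h6 : ContDiff ℝ ∞ (BRad.rad (fun x => ((zeta x : ℝ) : ℂ) * g x)) := ha.comp BRad.contDiff_sq
  have h7 := H3 _ (C2 * (C1 * B)) h6 (by positivity) h5
  have h8 : C3 * (C2 * (C1 * B)) = C3 * (C2 * C1) * B := by ring
  rw [h8] at h7
  exact h7

end Crest.Agent.R086.BTail2
end

-- ▼ part R086/BTailFin
section

/-!
Row 86 (S0114), Part B (helper35): field `tail` of `BData` from the compact smallness (T1), the far
region (`FarGood`) and the tail lemma (T2).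
-/

set_option autoImplicit false

open MeasureTheory Complex Set Filter Topology
open scoped ContDiff

namespace Crest.Agent.R086.BTailFin

/-! ### products in the Wiener algebra -/

theorem gint_of_rep {N : ℕ} {a f : R12 → ℂ} (h : Rep N a f) :
    Wie.GInt volume (Wie.wtV R12 N) a := by
  refine h.1.congr (Eventually.of_forall fun ξ => ?_)
  simp only [Wie.wtV_apply, Wie.wt, Complex.real_smul]

theorem rep_of_gint {N : ℕ} {a : R12 → ℂ} (h : Wie.GInt volume (Wie.wtV R12 N) a) :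
    Integrable (fun ξ : R12 => (((1 + ‖ξ‖) ^ N : ℝ) : ℂ) * a ξ) := by
  refine Integrable.congr h (Eventually.of_forall fun ξ => ?_)
  simp only [Wie.wtV_apply, Wie.wt, Complex.real_smul]

/-- product of two functions with weighted densities -/
theorem repB_mul {N : ℕ} {B B' : ℝ} {f g : R12 → ℂ} (hf : RepB N B f) (hg : RepB N B' g) :
    RepB N (B * B') (fun y => f y * g y) := by
  obtain ⟨a, ha, hab⟩ := hf
  obtain ⟨b, hb, hbb⟩ := hg
  have hga := gint_of_rep ha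
  have hgb := gint_of_rep hb
  refine ⟨Wie.cv volume a b, ⟨rep_of_gint (hga.cv hgb), fun y => ?_⟩, ?_⟩
  · have hφ : Measurable (fun ξ : R12 => exp (I * ((inner ℝ ξ y : ℝ) : ℂ))) := by fun_prop
    have h1 : ∀ ξ : R12, ‖exp (I * ((inner ℝ ξ y : ℝ) : ℂ))‖ ≤ 1 := fun ξ => by
      rw [mul_comm I, Complex.norm_exp_ofReal_mul_I]
    rw [Wie.integral_mul_cv hga.integrable hgb.integrable hφ h1]
    show f y * g y = _
    rw [ha.2 y, hb.2 y, ← integral_mul_const]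
    refine integral_congr_ae (Eventually.of_forall fun ξ => ?_)
    simp only
    rw [← integral_const_mul]
    refine integral_congr_ae (Eventually.of_forall fun η => ?_)
    simp only
    rw [inner_add_left]
    push_cast
    rw [mul_add, Complex.exp_add]
    ring
  · have h1 := Wie.integral_norm_cv_le hga hgb
    simp only [Wie.wtV_apply, Wie.wt] at h1
    refine h1.trans ?_
    have h2 : 0 ≤ ∫ ξ : R12, (1 + ‖ξ‖) ^ N * ‖b ξ‖ := integral_nonneg fun ξ => by positivity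
    have h3 : 0 ≤ ∫ ξ : R12, (1 + ‖ξ‖) ^ N * ‖a ξ‖ := integral_nonneg fun ξ => by positivity
    exact mul_le_mul hab hbb h2 (h3.trans hab)

/-! ### smoothness of the potentials -/

theorem normpow_eq (m : ℕ) (z : ℂ) : ((‖z‖ ^ (2 * m) : ℝ) : ℂ) = (z * (starRingEnd ℂ) z) ^ m := by
  rw [Complex.mul_conj, ← Complex.ofReal_pow, Complex.normSq_eq_norm_sq, ← pow_mul]

theorem conj_smooth {V : ℝ → ℂ} {s : Set ℝ} (hV : ContDiffOn ℝ ∞ V s) :
    ContDiffOn ℝ ∞ (fun x => (starRingEnd ℂ) (V x)) s :=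
  Complex.conjCLE.contDiff.comp_contDiffOn hV

theorem normpow_smooth {n : ℕ} (hn : Even n) {V : ℝ → ℂ} {s : Set ℝ} (hV : ContDiffOn ℝ ∞ V s) :
    ContDiffOn ℝ ∞ (fun x => ((‖V x‖ ^ n : ℝ) : ℂ)) s := by
  obtain ⟨m, rfl⟩ := hn
  have h : (fun x => ((‖V x‖ ^ (m + m) : ℝ) : ℂ)) = fun x => (V x * (starRingEnd ℂ) (V x)) ^ m := by
    funext x
    rw [← two_mul, normpow_eq]
  rw [h]
  exact (hV.mul (conj_smooth hV)).pow m

theorem even_sub_two {n : ℕ} (hn : Even n) : Even (n - 2) := by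
  obtain ⟨m, rfl⟩ := hn
  exact ⟨m - 1, by omega⟩

theorem wA_smooth {n : ℕ} (hn : Even n) {V : ℝ → ℂ} {s : Set ℝ} (hV : ContDiffOn ℝ ∞ V s) :
    ContDiffOn ℝ ∞ (B.wA n V) s := normpow_smooth hn hV

theorem wB_smooth {n : ℕ} (hn : Even n) {V : ℝ → ℂ} {s : Set ℝ} (hV : ContDiffOn ℝ ∞ V s) :
    ContDiffOn ℝ ∞ (B.wB n V) s := (normpow_smooth (even_sub_two hn) hV).mul (hV.pow 2)

theorem wC_smooth {n : ℕ} (hn : Even n) {V : ℝ → ℂ} {s : Set ℝ} (hV : ContDiffOn ℝ ∞ V s) :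
    ContDiffOn ℝ ∞ (B.wC n V) s := (normpow_smooth (even_sub_two hn) hV).mul ((conj_smooth hV).pow 2)

/-! ### the assembly at the level of one function -/

/-- `(1-χ) w(|y|²/4)` has weighted norm at most `C * B`, if `w` is a symbol of order `-1` with
constant `B` on `(x1,∞)` -/
theorem one_sub_chi (N : ℕ) {r0 r1 r2 : ℝ} (h0 : 0 < r0) (h1 : r0 < r1) {χ : R12 → ℝ}
    (hχ : IsCut χ r1 r2) :
    ∃ C : ℝ, 0 ≤ C ∧ ∀ (w : ℝ → ℂ) (B : ℝ), 0 ≤ B → ContDiffOn ℝ ∞ w (Ioi (r0 ^ 2 / 4)) →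
      (∀ j ≤ N + 13, ∀ x, r0 ^ 2 / 4 < x → ‖iteratedDeriv j w x‖ ≤ B * x ^ (-(1:ℝ) - j)) →
      RepB N (C * B) (fun y : R12 => ((1 - χ y : ℝ) : ℂ) * w (‖y‖ ^ 2 / 4)) := by
  set rb : ℝ := (r0 + r1) / 2 with hrb
  have hb0 : r0 < rb := by rw [hrb]; linarith
  have hb1 : rb < r1 := by rw [hrb]; linarith
  set x1 : ℝ := r0 ^ 2 / 4
  set x1' : ℝ := rb ^ 2 / 4
  set x2 : ℝ := r1 ^ 2 / 4
  have hx0 : 0 < x1 := by positivity
  have hx1 : x1 < x1' := by
    show r0 ^ 2 / 4 < rb ^ 2 / 4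
    nlinarith
  have hx2 : x1' < x2 := by
    show rb ^ 2 / 4 < r1 ^ 2 / 4
    nlinarith
  have hd : 0 < x2 - x1' := by linarith
  set zeta : ℝ → ℝ := fun x => Real.smoothTransition ((x - x1') / (x2 - x1')) with hzeta
  have hz : ContDiff ℝ ∞ zeta := by
    have : ContDiff ℝ ∞ (fun x : ℝ => (x - x1') / (x2 - x1')) :=
      (contDiff_id.sub contDiff_const).div_const _
    exact (Real.smoothTransition.contDiff (n := (⊤ : ℕ∞))).comp this
  have hz0 : ∀ x ≤ x1', zeta x = 0 := fun x hx =>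
    Real.smoothTransition.zero_of_nonpos (div_nonpos_of_nonpos_of_nonneg (by linarith) hd.le)
  have hz1 : ∀ x, x2 ≤ x → zeta x = 1 := fun x hx =>
    Real.smoothTransition.one_of_one_le (by rw [le_div_iff₀ hd]; linarith)
  obtain ⟨C1, hC1, H1⟩ := BTail2.tail2 N (δ := 1) one_pos hx0 hx1 hx2 hz hz0 hz1
  -- the density of `χ`
  have hcs : HasCompactSupport (fun y : R12 => ((χ y : ℝ) : ℂ)) := by
    refine HasCompactSupport.intro (isCompact_closedBall (0 : R12) r2) fun y hy => ?_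
    have h : r2 ≤ ‖y‖ := by
      have := mt Metric.mem_closedBall.2 hy
      rw [dist_zero_right] at this
      exact (not_le.1 this).le
    rw [hχ.zero y h]; simp
  have hcd : ContDiff ℝ ∞ (fun y : R12 => ((χ y : ℝ) : ℂ)) := Complex.ofRealCLM.contDiff.comp hχ.smooth
  obtain ⟨a, ha⟩ := exists_rep_of_hasCompactSupport hcd hcs
  set Bχ : ℝ := ∫ ξ : R12, (1 + ‖ξ‖) ^ N * ‖a ξ‖ with hBχ
  have hBχ0 : 0 ≤ Bχ := integral_nonneg fun ξ => by positivity
  have hχr : RepB N Bχ (fun y : R12 => ((χ y : ℝ) : ℂ)) := ⟨a, ha N, le_rfl⟩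
  refine ⟨(1 + Bχ) * C1, by positivity, fun w B hB hw hb => ?_⟩
  have h5 := H1 w B hB hw hb
  have h6 := RepB.add h5 (RepB.const_mul (repB_mul hχr h5) (-1))
  have e1 : C1 * B + ‖(-1 : ℂ)‖ * (Bχ * (C1 * B)) = (1 + Bχ) * C1 * B := by
    rw [norm_neg, norm_one]; ring
  rw [e1] at h6
  have e2 : (fun y : R12 => ((1 - χ y : ℝ) : ℂ) * w (‖y‖ ^ 2 / 4)) = fun y : R12 =>
      ((zeta (‖y‖ ^ 2 / 4) : ℝ) : ℂ) * w (‖y‖ ^ 2 / 4) +
        -1 * (((χ y : ℝ) : ℂ) * (((zeta (‖y‖ ^ 2 / 4) : ℝ) : ℂ) * w (‖y‖ ^ 2 / 4))) := by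
    funext y
    rcases le_or_gt ‖y‖ r1 with hy | hy
    · rw [hχ.one y hy]; push_cast; ring
    · have : x2 ≤ ‖y‖ ^ 2 / 4 := by
        show r1 ^ 2 / 4 ≤ ‖y‖ ^ 2 / 4
        have := hχ.pos
        nlinarith
      rw [hz1 _ this]; push_cast; ring
  rw [e2]
  exact h6

/-! ### node T1 (helper292) as a hypothesis -/

/-- **T1**: on compact `x`-intervals where `|V| ≤ M < 1` the potentials are exponentially small with
all derivatives. -/
def T1Stmt : Prop := ∀ a b M B1 : ℝ, 0 < a → a < b → 0 ≤ M → M < 1 → 0 ≤ B1 →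
  ∃ C : ℕ → ℝ, ∀ n : ℕ, 2 ≤ n → Even n → ∀ om ∈ Icc (0 : ℝ) 1, ∀ eps ∈ Icc (0 : ℝ) 1,
    ∀ V V1 : ℝ → ℂ, B.IsSolX n om eps V V1 (Ioo a b) →
      (∀ x ∈ Ioo a b, ‖V x‖ ≤ M ∧ ‖V1 x‖ ≤ B1) → ∀ j : ℕ, ∀ x ∈ Ioo a b,
        ‖iteratedDeriv j (B.wA n V) x‖ ≤ C j * ((1 + M) / 2) ^ n ∧
        ‖iteratedDeriv j (B.wB n V) x‖ ≤ C j * ((1 + M) / 2) ^ n ∧
        ‖iteratedDeriv j (B.wC n V) x‖ ≤ C j * ((1 + M) / 2) ^ n

theorem toX_eq (v : ℝ → ℂ) : B.toX v = BSm0.Vx v := rfl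

theorem toX_sq (v : ℝ → ℂ) {r : ℝ} (hr : 0 ≤ r) : B.toX v (r ^ 2 / 4) = v r := BSm0.Vx_sq hr

/-- from `r` to `x` -/
theorem isSolX {n : ℕ} {om eps : ℝ} {v v1 : ℝ → ℂ} (h : B.IsSol n om eps v v1 (Ioi 0)) :
    B.IsSolX n om eps (B.toX v) (BSm0.Vx1 v1) (Ioi 0) := by
  intro x hx
  refine ⟨BSm0.Vx_hasDerivAt h hx, ?_⟩
  refine (BSm0.Vx1_hasDerivAt h hx).congr_deriv ?_
  have hx' : (x : ℂ) ≠ 0 := by exact_mod_cast (mem_Ioi.1 hx).ne'
  rw [BSm0.Vx2, toX_eq]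
  field_simp
  ring

variable {om0 R : ℝ} {U U1 : ℝ → ℂ}

theorem exists_bound_v1 (S : B.BSeq om0 R U U1) : ∃ K : ℝ, 0 ≤ K ∧ ∃ N : ℕ, ∀ n, N ≤ n → Even n →
    ∀ r ∈ Icc (0 : ℝ) (2 * Real.sqrt S.X + 1), ‖S.v1 n r‖ ≤ K := by
  obtain ⟨N, hN⟩ := S.conv 1 one_pos
  set n0 : ℕ := 2 * max N S.n1
  have hmm : max N S.n1 ≤ n0 := Nat.le_mul_of_pos_left _ two_pos
  have hn0 : N ≤ n0 := (le_max_left _ _).trans hmm
  have hn1 : S.n1 ≤ n0 := (le_max_right _ _).trans hmm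
  have he : Even n0 := even_two_mul _
  have hc : ContinuousOn (S.v1 n0) (Icc 0 (2 * Real.sqrt S.X + 1)) :=
    (S.sol n0 hn1 he).2.1.mono Icc_subset_Ici_self
  obtain ⟨K, hK⟩ := isCompact_Icc.exists_bound_of_continuousOn hc
  refine ⟨|K| + 2, by positivity, N, fun n hn hen r hr => ?_⟩
  have h1 := (hN n hn hen r hr).2
  have h2 := (hN n0 hn0 he r hr).2
  have h3 := hK r hr
  have h4 : S.v1 n r = (S.v1 n r - U1 r) + -(S.v1 n0 r - U1 r) + S.v1 n0 r := by ring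
  rw [h4]
  refine (norm_add₃_le).trans ?_
  rw [norm_neg]
  linarith [le_abs_self K]

/-- **symbol estimate with an exponentially small constant**, on `(r0²/4, ∞)`, `r0 > R` -/
theorem sym_tail (S : B.BSeq om0 R U U1) (L : LimitProfile om0 R U) (T1 : T1Stmt) {r0 : ℝ}
    (hr0 : R < r0) (h8 : r0 ≤ 8) (N : ℕ) : ∃ K Θ : ℝ, 0 ≤ K ∧ 0 < Θ ∧ Θ < 1 ∧ ∃ n0 : ℕ, ∀ n : ℕ,
      n0 ≤ n → Even n → 2 ≤ n ∧
      (ContDiffOn ℝ ∞ (B.wA n (B.toX (S.v n))) (Ioi (r0 ^ 2 / 4)) ∧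
        ContDiffOn ℝ ∞ (B.wB n (B.toX (S.v n))) (Ioi (r0 ^ 2 / 4)) ∧
        ContDiffOn ℝ ∞ (B.wC n (B.toX (S.v n))) (Ioi (r0 ^ 2 / 4))) ∧
      ∀ j ≤ N, ∀ x, r0 ^ 2 / 4 < x →
        ‖iteratedDeriv j (B.wA n (B.toX (S.v n))) x‖ ≤ K * Θ ^ n * x ^ (-(1:ℝ) - j) ∧
        ‖iteratedDeriv j (B.wB n (B.toX (S.v n))) x‖ ≤ K * Θ ^ n * x ^ (-(1:ℝ) - j) ∧
        ‖iteratedDeriv j (B.wC n (B.toX (S.v n))) x‖ ≤ K * Θ ^ n * x ^ (-(1:ℝ) - j) := by
  have hR := L.R_lo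
  have hr0p : 0 < r0 := by linarith
  have hX := S.X_ge
  have hXp : 0 < S.X := by linarith
  have hsX : 4 ≤ Real.sqrt S.X := by
    rw [show (4:ℝ) = Real.sqrt (4 ^ 2) by rw [Real.sqrt_sq (by norm_num)]]
    exact Real.sqrt_le_sqrt (by linarith)
  set rX : ℝ := 2 * Real.sqrt S.X + 1 with hrX
  set a : ℝ := r0 ^ 2 / 4 with ha
  set b : ℝ := rX ^ 2 / 4 with hb
  have hrX9 : 9 ≤ rX := by rw [hrX]; linarith
  have hap : 0 < a := by positivity
  have hab : a < b := by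
    rw [ha, hb]; nlinarith
  have hXb : S.X < b := by
    have := Real.sq_sqrt hXp.le
    rw [hb, hrX]; nlinarith [Real.sqrt_nonneg S.X]
  have hb1 : 1 ≤ b := by linarith
  have hbp : 0 < b := by linarith
  set m0 : ℝ := ‖U r0‖ with hm0
  have hm1 : m0 < 1 := L.lt_one r0 hr0
  have hm00 : 0 ≤ m0 := norm_nonneg _
  set M : ℝ := (1 + m0) / 2 with hM
  have hM0 : 0 ≤ M := by rw [hM]; linarith
  have hM1 : M < 1 := by rw [hM]; linarith
  obtain ⟨K1, hK10, N1, hN1⟩ := exists_bound_v1 S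
  set B1 : ℝ := K1 / Real.sqrt a with hB1
  have hsa : 0 < Real.sqrt a := Real.sqrt_pos.2 hap
  have hB10 : 0 ≤ B1 := by positivity
  obtain ⟨C1, hC1⟩ := T1 a b M B1 hap hab hM0 hM1 hB10
  obtain ⟨N2, hN2⟩ := S.conv ((1 - m0) / 2) (by linarith)
  set θ : ℝ := (1 + M) / 2 with hθ
  have hθ0 : 0 < θ := by rw [hθ]; linarith
  have hθ1 : θ < 1 := by rw [hθ]; linarith
  set Θ : ℝ := max θ S.q with hΘ
  have hΘ0 : 0 < Θ := lt_max_of_lt_left hθ0
  have hΘ1 : Θ < 1 := max_lt hθ1 S.q_lt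
  set KA : ℝ := ∑ j ∈ Finset.range (N + 1), |C1 j| * b ^ ((1:ℝ) + j) with hKA
  set KB : ℝ := ∑ j ∈ Finset.range (N + 1), |S.C j| with hKB
  have hKA0 : 0 ≤ KA := Finset.sum_nonneg fun j _ => by positivity
  have hKB0 : 0 ≤ KB := Finset.sum_nonneg fun j _ => by positivity
  refine ⟨KA + KB, Θ, by positivity, hΘ0, hΘ1, max (max N1 N2) S.n1, fun n hn hen => ?_⟩
  have hnN1 : N1 ≤ n := (le_max_left _ _).trans ((le_max_left _ _).trans hn)
  have hnN2 : N2 ≤ n := (le_max_right _ _).trans ((le_max_left _ _).trans hn)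
  have hnn1 : S.n1 ≤ n := (le_max_right _ _).trans hn
  have h2n : 2 ≤ n := S.two_le.trans hnn1
  obtain ⟨hc, hc1, -, hsol⟩ := S.sol n hnn1 hen
  have hsolX := isSolX hsol
  have hom := S.om_mem n hnn1 hen
  have hVs : ContDiffOn ℝ ∞ (B.toX (S.v n)) (Ioi a) :=
    (BSm0.Vx_contDiffOn' hen hc hc1 hsol).mono fun x hx => mem_Ici.2 (hap.le.trans (mem_Ioi.1 hx).le)
  refine ⟨h2n, ⟨wA_smooth hen hVs, wB_smooth hen hVs, wC_smooth hen hVs⟩, fun j hj x hx => ?_⟩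
  have hxp : 0 < x := hap.trans hx
  have hnpos : (0:ℝ) < n := by exact_mod_cast (by omega : 0 < n)
  rcases lt_or_ge x b with hxb | hxb
  · -- compact region
    have hmem : x ∈ Ioo a b := ⟨hx, hxb⟩
    have hbound : ∀ x ∈ Ioo a b, ‖B.toX (S.v n) x‖ ≤ M ∧ ‖BSm0.Vx1 (S.v1 n) x‖ ≤ B1 := by
      intro x hx
      have hx0 : 0 < x := hap.trans hx.1
      have hr1 : r0 < 2 * Real.sqrt x := by
        have h1 : r0 / 2 < Real.sqrt x := Real.lt_sqrt_of_sq_lt (by rw [div_pow]; have := hx.1; rw [ha] at this; linarith)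
        linarith
      have hr2 : 2 * Real.sqrt x ≤ rX := by
        have h1 : Real.sqrt x ≤ rX / 2 := Real.sqrt_le_iff.2 ⟨by positivity, by rw [div_pow]; have := hx.2; rw [hb] at this; linarith⟩
        linarith
      have hmr : 2 * Real.sqrt x ∈ Icc (0:ℝ) rX := ⟨by positivity, hr2⟩
      constructor
      · have h1 := (hN2 n hnN2 hen _ hmr).1
        have h2 : ‖U (2 * Real.sqrt x)‖ ≤ m0 :=
          (L.anti.antitoneOn (mem_Ici.2 hr0.le) (mem_Ici.2 (hr0.le.trans hr1.le)) hr1.le)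
        have h3 : B.toX (S.v n) x = (S.v n (2 * Real.sqrt x) - U (2 * Real.sqrt x)) + U (2 * Real.sqrt x) := by
          rw [B.toX]; ring
        rw [h3]
        refine (norm_add_le _ _).trans ?_
        rw [hM]; linarith
      · have h1 := hN1 n hnN1 hen _ hmr
        rw [BSm0.Vx1, norm_mul, norm_inv, Complex.norm_real, Real.norm_of_nonneg (Real.sqrt_nonneg x),
          inv_mul_eq_div, hB1]
        have h2 : Real.sqrt a ≤ Real.sqrt x := Real.sqrt_le_sqrt hx.1.le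
        exact div_le_div₀ hK10 h1 hsa h2
    have hS : B.IsSolX n (S.om n) (1 / n) (B.toX (S.v n)) (BSm0.Vx1 (S.v1 n)) (Ioo a b) :=
      fun x hx => hsolX x (mem_Ioi.2 (hap.trans hx.1))
    have h1n : (1 / (n:ℝ)) ∈ Icc (0:ℝ) 1 := by
      refine ⟨by positivity, ?_⟩
      rw [div_le_one hnpos]
      exact_mod_cast (by omega : 1 ≤ n)
    have h5 := hC1 n h2n hen (S.om n) ⟨by linarith [hom.1], by linarith [hom.2]⟩ (1 / n) h1n _ _ hS
      hbound j x hmem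
    have h6 : C1 j * θ ^ n ≤ (KA + KB) * Θ ^ n * x ^ (-(1:ℝ) - j) := by
      have h7 : C1 j ≤ KA * x ^ (-(1:ℝ) - j) := by
        have h8 : |C1 j| * b ^ ((1:ℝ) + j) ≤ KA :=
          Finset.single_le_sum (f := fun j : ℕ => |C1 j| * b ^ ((1:ℝ) + j))
            (fun j _ => by positivity) (Finset.mem_range.2 (by omega))
        have h9 : x ^ ((1:ℝ) + j) ≤ b ^ ((1:ℝ) + j) := Real.rpow_le_rpow hxp.le hxb.le (by positivity)
        have h10 : x ^ (-(1:ℝ) - j) = (x ^ ((1:ℝ) + j))⁻¹ := by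
          rw [← Real.rpow_neg hxp.le]; congr 1; ring
        rw [h10, ← div_eq_mul_inv, le_div_iff₀ (Real.rpow_pos_of_pos hxp _)]
        calc C1 j * x ^ ((1:ℝ) + j) ≤ |C1 j| * b ^ ((1:ℝ) + j) := by
              gcongr
              exact le_abs_self _
          _ ≤ KA := h8
      have h11 : θ ^ n ≤ Θ ^ n := pow_le_pow_left₀ hθ0.le (le_max_left _ _) n
      have h12 : 0 ≤ x ^ (-(1:ℝ) - j) := (Real.rpow_pos_of_pos hxp _).le
      calc C1 j * θ ^ n ≤ KA * x ^ (-(1:ℝ) - j) * θ ^ n := by gcongr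
        _ ≤ KA * x ^ (-(1:ℝ) - j) * Θ ^ n := by gcongr
        _ ≤ (KA + KB) * Θ ^ n * x ^ (-(1:ℝ) - j) := by
          have : 0 ≤ KB * Θ ^ n * x ^ (-(1:ℝ) - j) := by positivity
          nlinarith
    exact ⟨h5.1.trans h6, h5.2.1.trans h6, h5.2.2.trans h6⟩
  · -- far region
    have hF := S.far n hnn1 hen
    have hXx : S.X < x := hXb.trans_le hxb
    have h6 : S.C j * S.q ^ n * x ^ (-(1:ℝ) - j) ≤ (KA + KB) * Θ ^ n * x ^ (-(1:ℝ) - j) := by
      have h12 : 0 ≤ x ^ (-(1:ℝ) - j) := (Real.rpow_pos_of_pos hxp _).le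
      have h8 : |S.C j| ≤ KB :=
        Finset.single_le_sum (f := fun j : ℕ => |S.C j|)
          (fun j _ => by positivity) (Finset.mem_range.2 (by omega))
      have h11 : S.q ^ n ≤ Θ ^ n := pow_le_pow_left₀ S.q_pos.le (le_max_right _ _) n
      refine mul_le_mul_of_nonneg_right ?_ h12
      calc S.C j * S.q ^ n ≤ |S.C j| * S.q ^ n := by
            gcongr
            · exact pow_nonneg S.q_pos.le n
            · exact le_abs_self _
        _ ≤ (KA + KB) * Θ ^ n := by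
            refine mul_le_mul (by linarith) h11 (pow_nonneg S.q_pos.le n) (by positivity)
    exact ⟨(hF.symA.2 j x hXx).trans h6, (hF.symB.2 j x hXx).trans h6, (hF.symC.2 j x hXx).trans h6⟩

theorem eventually_small {K Θ : ℝ} (hΘ0 : 0 < Θ) (hΘ1 : Θ < 1) :
    ∃ c : ℝ, 0 < c ∧ ∀ᶠ n : ℕ in atTop, (n : ℝ) * (K * Θ ^ n) ≤ Real.exp (-c * n) := by
  set c : ℝ := -Real.log Θ / 2 with hc
  have hlog : Real.log Θ < 0 := Real.log_neg hΘ0 hΘ1
  have hc0 : 0 < c := by rw [hc]; linarith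
  refine ⟨c, hc0, ?_⟩
  have h1 : Tendsto (fun n : ℕ => (n : ℝ) * (Real.exp (-c)) ^ n) atTop (𝓝 0) := by
    have := tendsto_self_mul_const_pow_of_lt_one (r := Real.exp (-c)) (Real.exp_pos _).le
      (by rw [Real.exp_lt_one_iff]; linarith)
    exact this
  have h2 : Tendsto (fun n : ℕ => |K| * ((n : ℝ) * (Real.exp (-c)) ^ n)) atTop (𝓝 0) := by
    simpa using h1.const_mul |K|
  filter_upwards [h2.eventually (gt_mem_nhds one_pos)] with n hn
  have h3 : Θ ^ n = Real.exp (-c * n) * (Real.exp (-c)) ^ n := by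
    rw [← Real.exp_nat_mul, ← Real.exp_add, ← Real.rpow_natCast, Real.rpow_def_of_pos hΘ0]
    congr 1
    rw [hc]; ring
  rw [h3]
  have h4 : 0 ≤ (Real.exp (-c)) ^ n := by positivity
  calc (n : ℝ) * (K * (Real.exp (-c * n) * (Real.exp (-c)) ^ n))
      = K * ((n : ℝ) * (Real.exp (-c)) ^ n) * Real.exp (-c * n) := by ring
    _ ≤ |K| * ((n : ℝ) * (Real.exp (-c)) ^ n) * Real.exp (-c * n) := by
        gcongr
        exact le_abs_self _
    _ ≤ 1 * Real.exp (-c * n) := by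
        gcongr
    _ = Real.exp (-c * n) := one_mul _

/-- **field `tail`** for the functions of `BSeq` -/
theorem tail_of (S : B.BSeq om0 R U U1) (L : LimitProfile om0 R U) (T1 : T1Stmt) :
    ∀ r1 r2 : ℝ, R < r1 → r1 < r2 → ∀ χ : R12 → ℝ, IsCut χ r1 r2 → ∃ c : ℝ, 0 < c ∧
      ∀ᶠ n : ℕ in atTop, Even n → 2 ≤ n ∧ ∀ c0 : ℂ, ‖c0‖ ≤ n →
        XBd 20 (fun y : R12 => ((1 - χ y : ℝ) : ℂ) * (c0 * B.wA n (B.toX (S.v n)) (‖y‖ ^ 2 / 4)))
          (Real.exp (-c * n)) ∧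
        XBd 20 (fun y : R12 => ((1 - χ y : ℝ) : ℂ) * (c0 * B.wB n (B.toX (S.v n)) (‖y‖ ^ 2 / 4)))
          (Real.exp (-c * n)) ∧
        XBd 20 (fun y : R12 => ((1 - χ y : ℝ) : ℂ) * (c0 * B.wC n (B.toX (S.v n)) (‖y‖ ^ 2 / 4)))
          (Real.exp (-c * n)) := by
  intro r1 r2 h1 h2 χ hχ
  have hR := L.R_lo
  set r0 : ℝ := min ((R + r1) / 2) 8 with hr0
  have hRr0 : R < r0 := lt_min (by linarith) (by linarith [L.R_hi])
  have h08 : r0 ≤ 8 := min_le_right _ _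
  have h01 : r0 < r1 := (min_le_left _ _).trans_lt (by linarith)
  obtain ⟨C, hC, H⟩ := one_sub_chi 20 (by linarith) h01 hχ
  obtain ⟨K, Θ, hK, hΘ0, hΘ1, n0, hn0⟩ := sym_tail S L T1 hRr0 h08 (20 + 13)
  obtain ⟨c, hc, hev⟩ := eventually_small (K := C * K) hΘ0 hΘ1
  refine ⟨c, hc, ?_⟩
  filter_upwards [hev, eventually_ge_atTop n0] with n hn hnn0 hen
  obtain ⟨h2n, ⟨sA, sB, sC⟩, hj⟩ := hn0 n hnn0 hen
  refine ⟨h2n, fun c0 hc0 => ?_⟩
  have key : ∀ w : ℝ → ℂ, ContDiffOn ℝ ∞ w (Ioi (r0 ^ 2 / 4)) →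
      (∀ j ≤ 20 + 13, ∀ x, r0 ^ 2 / 4 < x → ‖iteratedDeriv j w x‖ ≤ K * Θ ^ n * x ^ (-(1:ℝ) - j)) →
      XBd 20 (fun y : R12 => ((1 - χ y : ℝ) : ℂ) * (c0 * w (‖y‖ ^ 2 / 4))) (Real.exp (-c * n)) := by
    intro w hw hb
    have h3 := RepB.const_mul (H w (K * Θ ^ n) (by positivity) hw hb) c0
    have h4 : ‖c0‖ * (C * (K * Θ ^ n)) ≤ Real.exp (-c * n) := by
      refine le_trans ?_ hn
      have : 0 ≤ C * (K * Θ ^ n) := by positivity
      calc ‖c0‖ * (C * (K * Θ ^ n)) ≤ n * (C * (K * Θ ^ n)) := by gcongr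
        _ = n * (C * K * Θ ^ n) := by ring
    obtain ⟨a, ha, hab⟩ := RepB.mono h3 h4
    refine ⟨a, ?_, hab⟩
    have e : (fun y : R12 => ((1 - χ y : ℝ) : ℂ) * (c0 * w (‖y‖ ^ 2 / 4))) =
        fun y : R12 => c0 * (((1 - χ y : ℝ) : ℂ) * w (‖y‖ ^ 2 / 4)) := by
      funext y; ring
    rw [e]
    exact ha
  exact ⟨key _ sA fun j hj' x hx => (hj j hj' x hx).1, key _ sB fun j hj' x hx => (hj j hj' x hx).2.1,
    key _ sC fun j hj' x hx => (hj j hj' x hx).2.2⟩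

/-- potentials of a profile whose function is `y ↦ v |y|` -/
theorem V1_eq {n : ℕ} (P : Profile n) {v : ℝ → ℂ} (hP : P.Q = fun y : R12 => v ‖y‖) (y : R12) :
    P.V1 y = (1 + (n : ℂ) / 2) * B.wA n (B.toX v) (‖y‖ ^ 2 / 4) := by
  rw [Profile.V1, B.wA, toX_sq v (norm_nonneg y), hP]

theorem V2_eq {n : ℕ} (P : Profile n) {v : ℝ → ℂ} (hP : P.Q = fun y : R12 => v ‖y‖) (y : R12) :
    P.V2 y = ((n : ℂ) / 2) * B.wB n (B.toX v) (‖y‖ ^ 2 / 4) := by
  rw [Profile.V2, B.wB, toX_sq v (norm_nonneg y), hP]; ring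

theorem V2c_eq {n : ℕ} (P : Profile n) {v : ℝ → ℂ} (hP : P.Q = fun y : R12 => v ‖y‖) (y : R12) :
    P.V2c y = ((n : ℂ) / 2) * B.wC n (B.toX v) (‖y‖ ^ 2 / 4) := by
  rw [Profile.V2c, B.wC, toX_sq v (norm_nonneg y), hP]; ring

/-- **field `tail` of `BData`**, for any choice of profiles on the functions of `BSeq`. -/
theorem tail_profile (S : B.BSeq om0 R U U1) (L : LimitProfile om0 R U) (T1 : T1Stmt) :
    ∀ r1 r2 : ℝ, R < r1 → r1 < r2 → ∀ χ : R12 → ℝ, IsCut χ r1 r2 → ∃ c : ℝ, 0 < c ∧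
      ∀ᶠ n : ℕ in atTop, Even n → ∀ P : Profile n, P.Q = (fun y : R12 => S.v n ‖y‖) →
        XBd 20 (fun y : R12 => ((1 - χ y : ℝ) : ℂ) * P.V1 y) (Real.exp (-c * n)) ∧
        XBd 20 (fun y : R12 => ((1 - χ y : ℝ) : ℂ) * P.V2 y) (Real.exp (-c * n)) ∧
        XBd 20 (fun y : R12 => ((1 - χ y : ℝ) : ℂ) * P.V2c y) (Real.exp (-c * n)) := by
  intro r1 r2 h1 h2 χ hχ
  obtain ⟨c, hc, hev⟩ := tail_of S L T1 r1 r2 h1 h2 χ hχ
  refine ⟨c, hc, ?_⟩
  filter_upwards [hev] with n hn hen P hP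
  obtain ⟨h2n, hn⟩ := hn hen
  have h2 : (2:ℝ) ≤ n := by exact_mod_cast h2n
  have e1 : ‖(1 + (n : ℂ) / 2)‖ ≤ n := by
    have : (1 + (n : ℂ) / 2) = ((1 + (n:ℝ) / 2 : ℝ) : ℂ) := by push_cast; ring
    rw [this, Complex.norm_real, Real.norm_of_nonneg (by positivity)]
    linarith
  have e2 : ‖((n : ℂ) / 2)‖ ≤ n := by
    have : ((n : ℂ) / 2) = (((n:ℝ) / 2 : ℝ) : ℂ) := by push_cast; ring
    rw [this, Complex.norm_real, Real.norm_of_nonneg (by positivity)]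
    linarith
  simp_rw [V1_eq P hP, V2_eq P hP, V2c_eq P hP]
  exact ⟨(hn _ e1).1, (hn _ e2).2.1, (hn _ e2).2.2⟩

end Crest.Agent.R086.BTailFin
end

-- ▼ part R086/BJ
section

/-!
Row 86, part B (helper292): weighted jet norms `J k lam f s x = ∑_{i ≤ k} lam^i/i! |f^(i)(x)|`, which are
submultiplicative; used for the derivative bounds of powers.
-/

set_option autoImplicit false

open Finset
open scoped ContDiff

namespace Crest.Agent.R086.BJ

/-- weighted jet norm of `f` at `x` (derivatives within `s`) -/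
noncomputable def J (k : ℕ) (lam : ℝ) (f : ℝ → ℂ) (s : Set ℝ) (x : ℝ) : ℝ :=
  ∑ i ∈ range (k + 1), lam ^ i / (i.factorial : ℝ) * ‖iteratedDerivWithin i f s x‖

variable {k : ℕ} {lam : ℝ} {f g : ℝ → ℂ} {s : Set ℝ} {x : ℝ}

theorem J_nonneg (hl : 0 ≤ lam) : 0 ≤ J k lam f s x :=
  sum_nonneg fun i _ => by positivity

theorem le_J (hl : 0 < lam) {j : ℕ} (hj : j ≤ k) :
    ‖iteratedDerivWithin j f s x‖ ≤ (j.factorial : ℝ) / lam ^ j * J k lam f s x := by
  have h1 : lam ^ j / (j.factorial : ℝ) * ‖iteratedDerivWithin j f s x‖ ≤ J k lam f s x :=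
    single_le_sum (f := fun i => lam ^ i / (i.factorial : ℝ) * ‖iteratedDerivWithin i f s x‖)
      (fun i _ => by positivity) (mem_range.2 (Nat.lt_succ_of_le hj))
  have hfac : (0 : ℝ) < (j.factorial : ℝ) := by exact_mod_cast j.factorial_pos
  have hlj : 0 < lam ^ j := by positivity
  have h2 : (j.factorial : ℝ) / lam ^ j * (lam ^ j / (j.factorial : ℝ) *
      ‖iteratedDerivWithin j f s x‖) = ‖iteratedDerivWithin j f s x‖ := by
    field_simp
  calc ‖iteratedDerivWithin j f s x‖ = (j.factorial : ℝ) / lam ^ j * (lam ^ j / (j.factorial : ℝ) *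
      ‖iteratedDerivWithin j f s x‖) := h2.symm
    _ ≤ _ := mul_le_mul_of_nonneg_left h1 (by positivity)


theorem J_add (hl : 0 ≤ lam) (hs : UniqueDiffOn ℝ s) (hx : x ∈ s) (hf : ContDiffOn ℝ ∞ f s)
    (hg : ContDiffOn ℝ ∞ g s) :
    J k lam (fun y => f y + g y) s x ≤ J k lam f s x + J k lam g s x := by
  unfold J
  rw [← sum_add_distrib]
  refine sum_le_sum fun i _ => ?_
  rw [← mul_add]
  refine mul_le_mul_of_nonneg_left ?_ (by positivity)
  rw [iteratedDerivWithin_fun_add hx hs ((hf x hx).of_le (by exact_mod_cast le_top))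
    ((hg x hx).of_le (by exact_mod_cast le_top))]
  exact norm_add_le _ _

theorem J_mul (hl : 0 ≤ lam) (hs : UniqueDiffOn ℝ s) (hx : x ∈ s) (hf : ContDiffOn ℝ ∞ f s)
    (hg : ContDiffOn ℝ ∞ g s) :
    J k lam (fun y => f y * g y) s x ≤ J k lam f s x * J k lam g s x := by
  set F : ℕ → ℝ := fun i => lam ^ i / (i.factorial : ℝ) * ‖iteratedDerivWithin i f s x‖ with hF
  set G : ℕ → ℝ := fun i => lam ^ i / (i.factorial : ℝ) * ‖iteratedDerivWithin i g s x‖ with hG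
  have hF0 : ∀ i, 0 ≤ F i := fun i => by simp only [hF]; positivity
  have hG0 : ∀ i, 0 ≤ G i := fun i => by simp only [hG]; positivity
  have h1 : J k lam (fun y => f y * g y) s x ≤
      ∑ m ∈ range (k + 1), ∑ i ∈ range (m + 1), F i * G (m - i) := by
    refine sum_le_sum fun m _ => ?_
    have e : iteratedDerivWithin m (fun y => f y * g y) s x = ∑ i ∈ range (m + 1),
      (m.choose i : ℂ) * iteratedDerivWithin i f s x * iteratedDerivWithin (m - i) g s x :=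
      iteratedDerivWithin_mul hx hs ((hf x hx).of_le (by exact_mod_cast le_top))
        ((hg x hx).of_le (by exact_mod_cast le_top))
    rw [e]
    calc lam ^ m / (m.factorial : ℝ) * ‖∑ i ∈ range (m + 1),
          (m.choose i : ℂ) * iteratedDerivWithin i f s x * iteratedDerivWithin (m - i) g s x‖
        ≤ lam ^ m / (m.factorial : ℝ) * ∑ i ∈ range (m + 1),
          ‖(m.choose i : ℂ) * iteratedDerivWithin i f s x * iteratedDerivWithin (m - i) g s x‖ :=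
          mul_le_mul_of_nonneg_left (norm_sum_le _ _) (by positivity)
      _ = ∑ i ∈ range (m + 1), F i * G (m - i) := by
          rw [mul_sum]
          refine sum_congr rfl fun i hi => ?_
          have him : i ≤ m := Nat.lt_succ_iff.1 (mem_range.1 hi)
          rw [norm_mul, norm_mul, Complex.norm_natCast, Nat.cast_choose ℝ him]
          simp only [hF, hG]
          have e1 : lam ^ m = lam ^ i * lam ^ (m - i) := by
            rw [← pow_add]; congr 1; omega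
          rw [e1]
          have f1 : (m.factorial : ℝ) ≠ 0 := by exact_mod_cast m.factorial_ne_zero
          have f2 : (i.factorial : ℝ) ≠ 0 := by exact_mod_cast i.factorial_ne_zero
          have f3 : ((m - i).factorial : ℝ) ≠ 0 := by exact_mod_cast (m - i).factorial_ne_zero
          field_simp
  refine h1.trans ?_
  rw [sum_range_diag_flip (k + 1) (fun i j => F i * G j)]
  have h2 : J k lam f s x * J k lam g s x = ∑ i ∈ range (k + 1), ∑ j ∈ range (k + 1), F i * G j := by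
    rw [← sum_mul_sum]; rfl
  rw [h2]
  refine sum_le_sum fun i _ => ?_
  refine sum_le_sum_of_subset_of_nonneg ?_ fun j _ _ => mul_nonneg (hF0 i) (hG0 j)
  exact range_mono (by omega)

theorem J_const (c : ℂ) : J k lam (fun _ => c) s x = ‖c‖ := by
  unfold J
  rw [sum_range_succ', sum_eq_zero]
  · simp
  · intro i _
    rw [iteratedDerivWithin_const]
    simp

theorem J_pow (hl : 0 ≤ lam) (hs : UniqueDiffOn ℝ s) (hx : x ∈ s) (hf : ContDiffOn ℝ ∞ f s)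
    (m : ℕ) : J k lam (fun y => f y ^ m) s x ≤ J k lam f s x ^ m := by
  induction m with
  | zero => simp only [pow_zero]; rw [J_const]; simp
  | succ m ih =>
    have h1 : J k lam (fun y => f y ^ (m + 1)) s x ≤ J k lam (fun y => f y ^ m) s x *
        J k lam f s x := by
      have := J_mul (k := k) hl hs hx (hf.pow m) hf
      simpa only [pow_succ] using this
    calc _ ≤ _ := h1
      _ ≤ J k lam f s x ^ m * J k lam f s x := mul_le_mul_of_nonneg_right ih (J_nonneg hl)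
      _ = _ := by rw [pow_succ]

theorem contDiffOn_conj (hf : ContDiffOn ℝ ∞ f s) :
    ContDiffOn ℝ ∞ (fun y => (starRingEnd ℂ) (f y)) s :=
  Complex.conjCLE.contDiff.comp_contDiffOn hf

theorem norm_iteratedDerivWithin_conj (i : ℕ) (hs : UniqueDiffOn ℝ s) (hx : x ∈ s) :
    ‖iteratedDerivWithin i (fun y => (starRingEnd ℂ) (f y)) s x‖ =
      ‖iteratedDerivWithin i f s x‖ := by
  rw [← norm_iteratedFDerivWithin_eq_norm_iteratedDerivWithin,
    ← norm_iteratedFDerivWithin_eq_norm_iteratedDerivWithin]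
  exact Complex.conjLIE.norm_iteratedFDerivWithin_comp_left f hs hx i

theorem J_conj (hs : UniqueDiffOn ℝ s) (hx : x ∈ s) :
    J k lam (fun y => (starRingEnd ℂ) (f y)) s x = J k lam f s x := by
  refine sum_congr rfl fun i _ => ?_
  rw [norm_iteratedDerivWithin_conj i hs hx]

/-- a jet with first entry at most `M` and the others at most `D` -/
theorem J_le (hl : 0 ≤ lam) (hl1 : lam ≤ 1) {M D : ℝ} (hM : ‖f x‖ ≤ M)
    (hD : ∀ i, 1 ≤ i → i ≤ k → ‖iteratedDerivWithin i f s x‖ ≤ D) :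
    J k lam f s x ≤ M + k * (lam * D) := by
  unfold J
  rw [sum_range_succ']
  have h1 : ∑ i ∈ range k, lam ^ (i + 1) / ((i + 1).factorial : ℝ) *
      ‖iteratedDerivWithin (i + 1) f s x‖ ≤ ∑ i ∈ range k, lam * D := by
    refine sum_le_sum fun i hi => ?_
    have h2 := hD (i + 1) (by omega) (by have := mem_range.1 hi; omega)
    have h3 : lam ^ (i + 1) / ((i + 1).factorial : ℝ) ≤ lam := by
      have hf1 : (1 : ℝ) ≤ ((i + 1).factorial : ℝ) := by
        exact_mod_cast Nat.succ_le_of_lt (Nat.factorial_pos _)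
      calc lam ^ (i + 1) / ((i + 1).factorial : ℝ) ≤ lam ^ (i + 1) :=
            div_le_self (by positivity) hf1
        _ = lam ^ i * lam := pow_succ _ _
        _ ≤ 1 * lam := mul_le_mul_of_nonneg_right (pow_le_one₀ hl hl1) hl
        _ = lam := one_mul _
    exact mul_le_mul h3 h2 (norm_nonneg _) hl
  rw [sum_const, card_range, nsmul_eq_mul] at h1
  simp only [pow_zero, Nat.factorial_zero, Nat.cast_one, div_one, one_mul,
    iteratedDerivWithin_zero] 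
  linarith

/-- all derivatives at most `D` -/
theorem J_le' (hl : 0 ≤ lam) (hl1 : lam ≤ 1) {D : ℝ}
    (hD : ∀ i ≤ k, ‖iteratedDerivWithin i f s x‖ ≤ D) : J k lam f s x ≤ (k + 1) * D := by
  have hD0 : 0 ≤ D := (norm_nonneg _).trans (hD 0 (Nat.zero_le _))
  have h1 := J_le (k := k) (lam := lam) (f := f) (s := s) (x := x) hl hl1 (M := D) (D := D)
    (by simpa using hD 0 (Nat.zero_le _)) (fun i _ hi => hD i hi)
  have h2 : (k : ℝ) * (lam * D) ≤ k * (1 * D) := by gcongr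
  linarith

/-- a function smooth near a compact interval has bounded derivatives on it -/
theorem bounded_jet {a b : ℝ} {U : Set ℝ} (hU : IsOpen U) (hab : Set.Icc a b ⊆ U) (hs : IsOpen s)
    (hsub : s ⊆ Set.Icc a b) (hg : ContDiffOn ℝ ∞ g U) (k : ℕ) :
    ∃ K : ℝ, 0 ≤ K ∧ ∀ i ≤ k, ∀ x ∈ s, ‖iteratedDerivWithin i g s x‖ ≤ K := by
  have h1 : ∀ i : ℕ, ∃ K : ℝ, ∀ x ∈ Set.Icc a b, ‖iteratedDerivWithin i g U x‖ ≤ K := fun i =>
    isCompact_Icc.exists_bound_of_continuousOn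
      ((hg.continuousOn_iteratedDerivWithin (by exact_mod_cast le_top) hU.uniqueDiffOn).mono hab)
  choose K hK using h1
  refine ⟨∑ i ∈ range (k + 1), |K i|, sum_nonneg fun i _ => abs_nonneg _, fun i hi x hx => ?_⟩
  have e : iteratedDerivWithin i g s x = iteratedDerivWithin i g U x := by
    rw [iteratedDerivWithin_of_isOpen hs hx, iteratedDerivWithin_of_isOpen hU (hab (hsub hx))]
  rw [e]
  calc _ ≤ K i := hK i x (hsub hx)
    _ ≤ |K i| := le_abs_self _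
    _ ≤ _ := single_le_sum (f := fun i => |K i|) (fun i _ => abs_nonneg _)
        (mem_range.2 (Nat.lt_succ_of_le hi))

end Crest.Agent.R086.BJ
end

-- ▼ part R086/BTail1
section

/-!
Row 86, part B, node T1 (helper292): exponential smallness of the three potentials on compact sets of
the variable `x`, where `|V| ≤ M < 1`, with all derivatives.
-/

set_option autoImplicit false

open Complex Set
open scoped ContDiff

namespace Crest.Agent.R086.B

open Crest.Agent.R086.BJ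

/-! ### the potentials as polynomials in `V`, `conj V` -/

theorem norm_pow_even (z : ℂ) (m : ℕ) :
    ((‖z‖ ^ (2 * m) : ℝ) : ℂ) = (z * (starRingEnd ℂ) z) ^ m := by
  rw [Complex.mul_conj, Complex.normSq_eq_norm_sq, pow_mul]
  push_cast
  rfl

theorem wA_eq (m : ℕ) (V : ℝ → ℂ) :
    wA (2 * m) V = fun x => (V x * (starRingEnd ℂ) (V x)) ^ m := by
  funext x; exact norm_pow_even _ _

theorem wB_eq (m : ℕ) (V : ℝ → ℂ) :
    wB (2 * (m + 1)) V = fun x => (V x * (starRingEnd ℂ) (V x)) ^ m * (V x) ^ 2 := by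
  funext x
  unfold wB
  rw [show 2 * (m + 1) - 2 = 2 * m by omega, norm_pow_even]

theorem wC_eq (m : ℕ) (V : ℝ → ℂ) :
    wC (2 * (m + 1)) V = fun x => (V x * (starRingEnd ℂ) (V x)) ^ m *
      ((starRingEnd ℂ) (V x)) ^ 2 := by
  funext x
  unfold wC
  rw [show 2 * (m + 1) - 2 = 2 * m by omega, norm_pow_even]

section smooth

variable {V : ℝ → ℂ} {s : Set ℝ} {N : ℕ∞}

theorem contDiffOn_wA {n : ℕ} (hn : Even n) (hV : ContDiffOn ℝ N V s) :
    ContDiffOn ℝ N (wA n V) s := by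
  obtain ⟨m, rfl⟩ := even_iff_exists_two_mul.1 hn
  rw [wA_eq]
  exact (hV.mul (Complex.conjCLE.contDiff.comp_contDiffOn hV)).pow m

theorem contDiffOn_wB {n : ℕ} (h2 : 2 ≤ n) (hn : Even n) (hV : ContDiffOn ℝ N V s) :
    ContDiffOn ℝ N (wB n V) s := by
  obtain ⟨m, rfl⟩ := even_iff_exists_two_mul.1 hn
  obtain ⟨m, rfl⟩ : ∃ m', m = m' + 1 := ⟨m - 1, by omega⟩
  rw [wB_eq]
  exact ((hV.mul (Complex.conjCLE.contDiff.comp_contDiffOn hV)).pow m).mul (hV.pow 2)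

theorem contDiffOn_wC {n : ℕ} (h2 : 2 ≤ n) (hn : Even n) (hV : ContDiffOn ℝ N V s) :
    ContDiffOn ℝ N (wC n V) s := by
  obtain ⟨m, rfl⟩ := even_iff_exists_two_mul.1 hn
  obtain ⟨m, rfl⟩ : ∃ m', m = m' + 1 := ⟨m - 1, by omega⟩
  rw [wC_eq]
  exact ((hV.mul (Complex.conjCLE.contDiff.comp_contDiffOn hV)).pow m).mul
    ((Complex.conjCLE.contDiff.comp_contDiffOn hV).pow 2)

end smooth

/-! ### jets of the potentials -/

section jets

variable {V : ℝ → ℂ} {s : Set ℝ} {x lam q : ℝ} {k n : ℕ}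

theorem J_VcV (hl : 0 ≤ lam) (hs : UniqueDiffOn ℝ s) (hx : x ∈ s) (hV : ContDiffOn ℝ ∞ V s)
    (hq : J k lam V s x ≤ q) :
    J k lam (fun y => V y * (starRingEnd ℂ) (V y)) s x ≤ q ^ 2 := by
  have h1 := J_mul (k := k) hl hs hx hV (contDiffOn_conj hV)
  rw [J_conj hs hx] at h1
  have h0 : 0 ≤ J k lam V s x := J_nonneg hl
  calc _ ≤ _ := h1
    _ ≤ q * q := mul_le_mul hq hq h0 (h0.trans hq)
    _ = q ^ 2 := (sq q).symm

theorem J_wA (hn : Even n) (hl : 0 ≤ lam) (hs : UniqueDiffOn ℝ s) (hx : x ∈ s)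
    (hV : ContDiffOn ℝ ∞ V s) (hq : J k lam V s x ≤ q) :
    J k lam (wA n V) s x ≤ q ^ n := by
  obtain ⟨m, rfl⟩ := even_iff_exists_two_mul.1 hn
  rw [wA_eq]
  calc _ ≤ _ := J_pow hl hs hx (hV.mul (contDiffOn_conj hV)) m
    _ ≤ (q ^ 2) ^ m := pow_le_pow_left₀ (J_nonneg hl) (J_VcV hl hs hx hV hq) m
    _ = _ := by rw [← pow_mul]

theorem J_wB (h2 : 2 ≤ n) (hn : Even n) (hl : 0 ≤ lam) (hs : UniqueDiffOn ℝ s) (hx : x ∈ s)
    (hV : ContDiffOn ℝ ∞ V s) (hq : J k lam V s x ≤ q) :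
    J k lam (wB n V) s x ≤ q ^ n := by
  have h0 : 0 ≤ q := (J_nonneg hl).trans hq
  obtain ⟨m, rfl⟩ := even_iff_exists_two_mul.1 hn
  obtain ⟨m, rfl⟩ : ∃ m', m = m' + 1 := ⟨m - 1, by omega⟩
  rw [wB_eq]
  calc _ ≤ _ := J_mul hl hs hx ((hV.mul (contDiffOn_conj hV)).pow m) (hV.pow 2)
    _ ≤ (q ^ 2) ^ m * q ^ 2 := by
        refine mul_le_mul ?_ ?_ (J_nonneg hl) (by positivity)
        · exact (J_pow hl hs hx (hV.mul (contDiffOn_conj hV)) m).trans
            (pow_le_pow_left₀ (J_nonneg hl) (J_VcV hl hs hx hV hq) m)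
        · exact (J_pow hl hs hx hV 2).trans (pow_le_pow_left₀ (J_nonneg hl) hq 2)
    _ = q ^ (2 * (m + 1)) := by rw [← pow_mul, ← pow_add]; congr 1

theorem J_wC (h2 : 2 ≤ n) (hn : Even n) (hl : 0 ≤ lam) (hs : UniqueDiffOn ℝ s) (hx : x ∈ s)
    (hV : ContDiffOn ℝ ∞ V s) (hq : J k lam V s x ≤ q) :
    J k lam (wC n V) s x ≤ q ^ n := by
  have h0 : 0 ≤ q := (J_nonneg hl).trans hq
  obtain ⟨m, rfl⟩ := even_iff_exists_two_mul.1 hn
  obtain ⟨m, rfl⟩ : ∃ m', m = m' + 1 := ⟨m - 1, by omega⟩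
  rw [wC_eq]
  calc _ ≤ _ := J_mul hl hs hx ((hV.mul (contDiffOn_conj hV)).pow m) ((contDiffOn_conj hV).pow 2)
    _ ≤ (q ^ 2) ^ m * q ^ 2 := by
        refine mul_le_mul ?_ ?_ (J_nonneg hl) (by positivity)
        · exact (J_pow hl hs hx (hV.mul (contDiffOn_conj hV)) m).trans
            (pow_le_pow_left₀ (J_nonneg hl) (J_VcV hl hs hx hV hq) m)
        · refine (J_pow hl hs hx (contDiffOn_conj hV) 2).trans
            (pow_le_pow_left₀ (J_nonneg hl) ?_ 2)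
          rw [J_conj hs hx]; exact hq
    _ = q ^ (2 * (m + 1)) := by rw [← pow_mul, ← pow_add]; congr 1

end jets

/-! ### smoothness of the solution -/

/-- the second derivative, from the equation -/
noncomputable def rhsX (n : ℕ) (om eps : ℝ) (V V1 : ℝ → ℂ) (x : ℝ) : ℂ :=
  (-(6 + I * (x : ℂ)) * V1 x - ((om : ℂ) + I * eps) * V x + ((‖V x‖ ^ n : ℝ) : ℂ) * V x) / x

theorem contDiffOn_rhsX {n : ℕ} (hn : Even n) {om eps : ℝ} {V V1 : ℝ → ℂ} {s : Set ℝ}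
    (h0 : ∀ x ∈ s, x ≠ 0) {N : ℕ∞} (hV : ContDiffOn ℝ N V s) (hV1 : ContDiffOn ℝ N V1 s) :
    ContDiffOn ℝ N (rhsX n om eps V V1) s := by
  have hx : ContDiffOn ℝ N (fun x : ℝ => (x : ℂ)) s := Complex.ofRealCLM.contDiff.contDiffOn
  have hinv : ContDiffOn ℝ N (fun x : ℝ => ((x : ℂ))⁻¹) s :=
    hx.inv (fun x hx => by exact_mod_cast h0 x hx)
  have e : rhsX n om eps V V1 = fun x : ℝ => (-(6 + I * (x : ℂ)) * V1 x -
      ((om : ℂ) + I * eps) * V x + ((‖V x‖ ^ n : ℝ) : ℂ) * V x) * ((x : ℂ))⁻¹ := by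
    funext x; rw [rhsX, div_eq_mul_inv]
  rw [e]
  refine ContDiffOn.mul ?_ hinv
  refine ((((contDiffOn_const.add (contDiffOn_const.mul hx)).neg).mul hV1).sub
    (contDiffOn_const.mul hV)).add ?_
  exact (contDiffOn_wA hn hV).mul hV

theorem smooth_of_solX {n : ℕ} (hn : Even n) {om eps : ℝ} {V V1 : ℝ → ℂ} {s : Set ℝ}
    (hs : IsOpen s) (h0 : ∀ x ∈ s, x ≠ 0) (h : IsSolX n om eps V V1 s) :
    ContDiffOn ℝ ∞ V s ∧ ContDiffOn ℝ ∞ V1 s := by
  have key : ∀ k : ℕ, ContDiffOn ℝ (k : ℕ∞) V s ∧ ContDiffOn ℝ (k : ℕ∞) V1 s := by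
    intro k
    induction k with
    | zero =>
      constructor
      · have : ContinuousOn V s := fun x hx => (h x hx).1.continuousAt.continuousWithinAt
        simpa using this
      · have : ContinuousOn V1 s := fun x hx => (h x hx).2.continuousAt.continuousWithinAt
        simpa using this
    | succ k ih =>
      have e1 : EqOn (deriv V) V1 s := fun x hx => (h x hx).1.deriv
      have e2 : EqOn (deriv V1) (rhsX n om eps V V1) s := fun x hx => (h x hx).2.deriv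
      constructor
      · have : ContDiffOn ℝ ((k : ℕ∞) + 1 : WithTop ℕ∞) V s := by
          rw [contDiffOn_succ_iff_deriv_of_isOpen hs]
          exact ⟨fun x hx => (h x hx).1.differentiableAt.differentiableWithinAt, by simp,
            ih.2.congr e1⟩
        exact_mod_cast this
      · have : ContDiffOn ℝ ((k : ℕ∞) + 1 : WithTop ℕ∞) V1 s := by
          rw [contDiffOn_succ_iff_deriv_of_isOpen hs]
          exact ⟨fun x hx => (h x hx).2.differentiableAt.differentiableWithinAt, by simp,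
            (contDiffOn_rhsX hn h0 ih.1 ih.2).congr e2⟩
        exact_mod_cast this
  exact ⟨contDiffOn_infty.2 fun k => by exact_mod_cast (key k).1,
    contDiffOn_infty.2 fun k => by exact_mod_cast (key k).2⟩

/-! ### uniform bounds for the derivatives -/

/-- the choice of the weight -/
theorem weight {M q D : ℝ} (k : ℕ) (hM0 : 0 ≤ M) (hMq : M < q) (hq : q ≤ 1) (hD : 0 ≤ D) :
    ∃ lam : ℝ, 0 < lam ∧ lam ≤ 1 ∧ M + k * (lam * D) ≤ q := by
  have hkD : (0 : ℝ) ≤ k * D := by positivity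
  refine ⟨(q - M) / (1 + k * D), div_pos (by linarith) (by linarith), ?_, ?_⟩
  · rw [div_le_one (by linarith)]; linarith
  · have e : (k : ℝ) * ((q - M) / (1 + k * D) * D) = (q - M) * (k * D / (1 + k * D)) := by ring
    rw [e]
    have h1 : (k : ℝ) * D / (1 + k * D) ≤ 1 := by
      rw [div_le_one (by linarith)]; linarith
    have h2 : (q - M) * (k * D / (1 + k * D)) ≤ (q - M) * 1 :=
      mul_le_mul_of_nonneg_left h1 (by linarith)
    linarith

theorem deriv_bounds (a b M B : ℝ) (ha : 0 < a) (hM0 : 0 ≤ M) (hM1 : M < 1) (k : ℕ) :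
    ∃ D : ℝ, 0 ≤ D ∧ ∀ n, 2 ≤ n → Even n → ∀ om ∈ Icc (0 : ℝ) 1, ∀ eps ∈ Icc (0 : ℝ) 1,
      ∀ V V1 : ℝ → ℂ, IsSolX n om eps V V1 (Ioo a b) →
      (∀ x ∈ Ioo a b, ‖V x‖ ≤ M ∧ ‖V1 x‖ ≤ B) →
      ∀ i ≤ k, ∀ x ∈ Ioo a b, ‖iteratedDerivWithin i V (Ioo a b) x‖ ≤ D ∧
        ‖iteratedDerivWithin i V1 (Ioo a b) x‖ ≤ D := by
  have hopen : IsOpen (Ioo a b) := isOpen_Ioo
  have hud : UniqueDiffOn ℝ (Ioo a b) := hopen.uniqueDiffOn
  have hne : ∀ x ∈ Ioo a b, x ≠ 0 := fun x hx => (ha.trans hx.1).ne'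
  have hneU : ∀ x ∈ Ioi (0 : ℝ), x ≠ 0 := fun x hx => (mem_Ioi.1 hx).ne'
  have hsub : Icc a b ⊆ Ioi (0 : ℝ) := fun x hx => mem_Ioi.2 (ha.trans_le hx.1)
  -- the coefficients
  have hxs : ContDiffOn ℝ ∞ (fun x : ℝ => (x : ℂ)) (Ioi (0 : ℝ)) :=
    Complex.ofRealCLM.contDiff.contDiffOn
  have hg0 : ContDiffOn ℝ ∞ (fun x : ℝ => ((x : ℂ))⁻¹) (Ioi (0 : ℝ)) :=
    hxs.inv (fun x hx => by exact_mod_cast hneU x hx)
  have hg1 : ContDiffOn ℝ ∞ (fun x : ℝ => -(6 + I * (x : ℂ)) * ((x : ℂ))⁻¹) (Ioi (0 : ℝ)) :=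
    ((contDiffOn_const.add (contDiffOn_const.mul hxs)).neg).mul hg0
  induction k with
  | zero =>
    refine ⟨max M (max B 0), le_max_of_le_right (le_max_right _ _),
      fun n h2 hn om hom eps heps V V1 h hb i hi x hx => ?_⟩
    obtain rfl : i = 0 := by omega
    simp only [iteratedDerivWithin_zero]
    exact ⟨(hb x hx).1.trans (le_max_left _ _),
      (hb x hx).2.trans ((le_max_left _ _).trans (le_max_right _ _))⟩
  | succ k ih =>
    obtain ⟨D, hD0, hD⟩ := ih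
    obtain ⟨lam, hl0, hl1, hlam⟩ := weight (M := M) (q := 1) (D := D) k hM0 hM1 le_rfl hD0
    obtain ⟨K0, hK00, hK0⟩ := bounded_jet (U := Ioi (0 : ℝ)) isOpen_Ioi hsub hopen
      Ioo_subset_Icc_self hg0 k
    obtain ⟨K1, hK10, hK1⟩ := bounded_jet (U := Ioi (0 : ℝ)) isOpen_Ioi hsub hopen
      Ioo_subset_Icc_self hg1 k
    set E : ℝ := ((k : ℝ) + 1) * K1 * (((k : ℝ) + 1) * D) + ((k : ℝ) + 1) * K0 *
      (2 * (((k : ℝ) + 1) * D)) + ((k : ℝ) + 1) * K0 * (1 * (((k : ℝ) + 1) * D)) with hE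
    have hE0 : 0 ≤ E := by positivity
    refine ⟨max D ((k.factorial : ℝ) / lam ^ k * E), le_max_of_le_left hD0,
      fun n h2 hn om hom eps heps V V1 h hb i hi x hx => ?_⟩
    obtain ⟨hV, hV1⟩ := smooth_of_solX hn hopen hne h
    have hDk := hD n h2 hn om hom eps heps V V1 h hb
    -- jets
    have jV : J k lam V (Ioo a b) x ≤ ((k : ℝ) + 1) * D :=
      J_le' hl0.le hl1 fun i hi => (hDk i hi x hx).1
    have jV1 : J k lam V1 (Ioo a b) x ≤ ((k : ℝ) + 1) * D :=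
      J_le' hl0.le hl1 fun i hi => (hDk i hi x hx).2
    have jq : J k lam V (Ioo a b) x ≤ 1 :=
      (J_le hl0.le hl1 (hb x hx).1 (fun i _ hi => (hDk i hi x hx).1)).trans hlam
    have jA : J k lam (wA n V) (Ioo a b) x ≤ 1 := by
      have := J_wA hn hl0.le hud hx hV jq
      simpa using this
    have jg0 : J k lam (fun x : ℝ => ((x : ℂ))⁻¹) (Ioo a b) x ≤ ((k : ℝ) + 1) * K0 :=
      J_le' hl0.le hl1 fun i hi => hK0 i hi x hx
    have jg1 : J k lam (fun x : ℝ => -(6 + I * (x : ℂ)) * ((x : ℂ))⁻¹) (Ioo a b) x ≤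
        ((k : ℝ) + 1) * K1 :=
      J_le' hl0.le hl1 fun i hi => hK1 i hi x hx
    have sub' : Ioo a b ⊆ Ioi (0 : ℝ) := Ioo_subset_Icc_self.trans hsub
    have sg0 := hg0.mono sub'
    have sg1 := hg1.mono sub'
    have sA : ContDiffOn ℝ ∞ (wA n V) (Ioo a b) := contDiffOn_wA hn hV
    -- the right side
    have ecc : ‖-((om : ℂ) + I * eps)‖ ≤ 2 := by
      rw [norm_neg]
      refine (norm_add_le _ _).trans ?_
      rw [norm_mul, Complex.norm_I, one_mul, Complex.norm_real, Complex.norm_real,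
        Real.norm_eq_abs, Real.norm_eq_abs, abs_of_nonneg hom.1, abs_of_nonneg heps.1]
      linarith [hom.2, heps.2]
    have jc : J k lam (fun x => (-((om : ℂ) + I * eps)) * V x) (Ioo a b) x ≤
        2 * (((k : ℝ) + 1) * D) := by
      have h1 := J_mul (k := k) (f := fun _ => -((om : ℂ) + I * eps)) hl0.le hud hx
        contDiffOn_const hV
      rw [J_const] at h1
      exact h1.trans (mul_le_mul ecc jV (J_nonneg hl0.le) (by norm_num))
    have jr : J k lam (rhsX n om eps V V1) (Ioo a b) x ≤ E := by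
      have e : rhsX n om eps V V1 = fun x : ℝ => ((-(6 + I * (x : ℂ)) * ((x : ℂ))⁻¹) * V1 x +
          ((x : ℂ))⁻¹ * ((-((om : ℂ) + I * eps)) * V x)) + ((x : ℂ))⁻¹ * (wA n V x * V x) := by
        funext x; rw [rhsX, wA, div_eq_mul_inv]; ring
      rw [e]
      have c1 := sg1.mul hV1
      have c2 := sg0.mul ((contDiffOn_const (c := -((om : ℂ) + I * eps)) (s := Ioo a b)
        (𝕜 := ℝ) (n := ∞)).mul hV)
      have c3 := sg0.mul (sA.mul hV)
      refine (J_add hl0.le hud hx (c1.add c2) c3).trans ?_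
      refine add_le_add ((J_add hl0.le hud hx c1 c2).trans (add_le_add ?_ ?_)) ?_
      · exact (J_mul hl0.le hud hx sg1 hV1).trans (mul_le_mul jg1 jV1 (J_nonneg hl0.le)
          (by positivity))
      · exact (J_mul hl0.le hud hx sg0 (contDiffOn_const.mul hV)).trans
          (mul_le_mul jg0 jc (J_nonneg hl0.le) (by positivity))
      · refine (J_mul hl0.le hud hx sg0 (sA.mul hV)).trans
          (mul_le_mul jg0 ?_ (J_nonneg hl0.le) (by positivity))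
        exact (J_mul hl0.le hud hx sA hV).trans
          (mul_le_mul jA jV (J_nonneg hl0.le) (by norm_num))
    -- conclusion
    rcases Nat.lt_or_ge k i with hik | hik
    · obtain rfl : i = k + 1 := by omega
      have e1 : EqOn (derivWithin V (Ioo a b)) V1 (Ioo a b) := fun y hy => by
        rw [derivWithin_of_isOpen hopen hy]; exact (h y hy).1.deriv
      have e2 : EqOn (derivWithin V1 (Ioo a b)) (rhsX n om eps V V1) (Ioo a b) := fun y hy => by
        rw [derivWithin_of_isOpen hopen hy]; exact (h y hy).2.deriv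
      constructor
      · rw [iteratedDerivWithin_succ', iteratedDerivWithin_congr e1 hx]
        exact ((hDk k le_rfl x hx).2).trans (le_max_left _ _)
      · rw [iteratedDerivWithin_succ', iteratedDerivWithin_congr e2 hx]
        refine (le_J (k := k) hl0 le_rfl).trans (le_max_of_le_right ?_)
        exact mul_le_mul_of_nonneg_left jr (by positivity)
    · exact ⟨((hDk i hik x hx).1).trans (le_max_left _ _),
        ((hDk i hik x hx).2).trans (le_max_left _ _)⟩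

/-- the potentials have exponentially small derivatives, rate `q > M` -/
theorem pot_bounds (a b M B q : ℝ) (ha : 0 < a) (hM0 : 0 ≤ M) (hM1 : M < 1) (hMq : M < q)
    (hq : q ≤ 1) (k : ℕ) :
    ∃ C : ℝ, 0 ≤ C ∧ ∀ n, 2 ≤ n → Even n → ∀ om ∈ Icc (0 : ℝ) 1, ∀ eps ∈ Icc (0 : ℝ) 1,
      ∀ V V1 : ℝ → ℂ, IsSolX n om eps V V1 (Ioo a b) →
      (∀ x ∈ Ioo a b, ‖V x‖ ≤ M ∧ ‖V1 x‖ ≤ B) → ∀ x ∈ Ioo a b,
        ‖iteratedDeriv k (wA n V) x‖ ≤ C * q ^ n ∧ ‖iteratedDeriv k (wB n V) x‖ ≤ C * q ^ n ∧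
        ‖iteratedDeriv k (wC n V) x‖ ≤ C * q ^ n := by
  have hopen : IsOpen (Ioo a b) := isOpen_Ioo
  have hud : UniqueDiffOn ℝ (Ioo a b) := hopen.uniqueDiffOn
  have hne : ∀ x ∈ Ioo a b, x ≠ 0 := fun x hx => (ha.trans hx.1).ne'
  obtain ⟨D, hD0, hD⟩ := deriv_bounds a b M B ha hM0 hM1 k
  obtain ⟨lam, hl0, hl1, hlam⟩ := weight k hM0 hMq hq hD0
  refine ⟨(k.factorial : ℝ) / lam ^ k, by positivity, fun n h2 hn om hom eps heps V V1 h hb x hx => ?_⟩
  obtain ⟨hV, hV1⟩ := smooth_of_solX hn hopen hne h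
  have hDk := hD n h2 hn om hom eps heps V V1 h hb
  have jq : J k lam V (Ioo a b) x ≤ q :=
    (J_le hl0.le hl1 (hb x hx).1 (fun i _ hi => (hDk i hi x hx).1)).trans hlam
  have hc : (0 : ℝ) ≤ (k.factorial : ℝ) / lam ^ k := by positivity
  refine ⟨?_, ?_, ?_⟩
  · rw [← iteratedDerivWithin_of_isOpen hopen hx]
    exact (le_J (k := k) hl0 le_rfl).trans
      (mul_le_mul_of_nonneg_left (J_wA hn hl0.le hud hx hV jq) hc)
  · rw [← iteratedDerivWithin_of_isOpen hopen hx]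
    exact (le_J (k := k) hl0 le_rfl).trans
      (mul_le_mul_of_nonneg_left (J_wB h2 hn hl0.le hud hx hV jq) hc)
  · rw [← iteratedDerivWithin_of_isOpen hopen hx]
    exact (le_J (k := k) hl0 le_rfl).trans
      (mul_le_mul_of_nonneg_left (J_wC h2 hn hl0.le hud hx hV jq) hc)

/-- absorbing the factor `n` -/
theorem nat_mul_pow_le {p q : ℝ} (hp : 0 < p) (hpq : p < q) :
    ∃ K : ℝ, 0 ≤ K ∧ ∀ n : ℕ, (n : ℝ) * p ^ n ≤ K * q ^ n := by
  have hd : 0 < q / p - 1 := by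
    have : 1 < q / p := (one_lt_div hp).2 hpq
    linarith
  refine ⟨(q / p - 1)⁻¹, by positivity, fun n => ?_⟩
  have h1 : 1 + (n : ℝ) * (q / p - 1) ≤ (q / p) ^ n := by
    have := one_add_mul_le_pow (a := q / p - 1) (by linarith) n
    simpa using this
  have h2 : (n : ℝ) * (q / p - 1) ≤ (q / p) ^ n := by linarith
  have hpn : 0 < p ^ n := by positivity
  have h3 : (n : ℝ) * (q / p - 1) * p ^ n ≤ (q / p) ^ n * p ^ n :=
    mul_le_mul_of_nonneg_right h2 hpn.le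
  have h4 : (q / p) ^ n * p ^ n = q ^ n := by
    rw [div_pow, div_mul_cancel₀ _ hpn.ne']
  rw [h4] at h3
  calc (n : ℝ) * p ^ n = ((q / p - 1)⁻¹ * (q / p - 1)) * ((n : ℝ) * p ^ n) := by
        rw [inv_mul_cancel₀ hd.ne', one_mul]
    _ = (q / p - 1)⁻¹ * ((n : ℝ) * (q / p - 1) * p ^ n) := by ring
    _ ≤ (q / p - 1)⁻¹ * q ^ n := mul_le_mul_of_nonneg_left h3 (by positivity)

/-- **T1**, in the form used by the tail estimate (helper35) -/
def T1Stmt : Prop := ∀ a b M B : ℝ, 0 < a → a < b → 0 ≤ M → M < 1 →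
  ∃ C : ℕ → ℝ, ∀ n : ℕ, 2 ≤ n → Even n → ∀ om ∈ Icc (0 : ℝ) 1, ∀ eps ∈ Icc (0 : ℝ) 1,
    ∀ V V1 : ℝ → ℂ, IsSolX n om eps V V1 (Ioo a b) →
    (∀ x ∈ Ioo a b, ‖V x‖ ≤ M ∧ ‖V1 x‖ ≤ B) →
    ∀ j : ℕ, ∀ x ∈ Ioo a b, ‖iteratedDeriv j (wA n V) x‖ ≤ C j * ((1 + M) / 2) ^ n ∧
      ‖iteratedDeriv j (wB n V) x‖ ≤ C j * ((1 + M) / 2) ^ n ∧
      ‖iteratedDeriv j (wC n V) x‖ ≤ C j * ((1 + M) / 2) ^ n

/-- **T1**, full form: with nonnegative constants, smoothness, the derivatives of `V`, `V1` and the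
versions with the factor `n` -/
theorem t1_full (a b M B : ℝ) (ha : 0 < a) (hM0 : 0 ≤ M) (hM1 : M < 1) :
    ∃ C : ℕ → ℝ, (∀ j, 0 ≤ C j) ∧ ∀ n : ℕ, 2 ≤ n → Even n → ∀ om ∈ Icc (0 : ℝ) 1,
      ∀ eps ∈ Icc (0 : ℝ) 1, ∀ V V1 : ℝ → ℂ, IsSolX n om eps V V1 (Ioo a b) →
      (∀ x ∈ Ioo a b, ‖V x‖ ≤ M ∧ ‖V1 x‖ ≤ B) →
      (ContDiffOn ℝ ∞ V (Ioo a b) ∧ ContDiffOn ℝ ∞ V1 (Ioo a b) ∧
        ContDiffOn ℝ ∞ (wA n V) (Ioo a b) ∧ ContDiffOn ℝ ∞ (wB n V) (Ioo a b) ∧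
        ContDiffOn ℝ ∞ (wC n V) (Ioo a b)) ∧
      ∀ j : ℕ, ∀ x ∈ Ioo a b,
        (‖iteratedDeriv j V x‖ ≤ C j ∧ ‖iteratedDeriv j V1 x‖ ≤ C j) ∧
        (‖iteratedDeriv j (wA n V) x‖ ≤ C j * ((1 + M) / 2) ^ n ∧
          ‖iteratedDeriv j (wB n V) x‖ ≤ C j * ((1 + M) / 2) ^ n ∧
          ‖iteratedDeriv j (wC n V) x‖ ≤ C j * ((1 + M) / 2) ^ n) ∧
        ((n : ℝ) * ‖iteratedDeriv j (wA n V) x‖ ≤ C j * ((1 + M) / 2) ^ n ∧
          (n : ℝ) * ‖iteratedDeriv j (wB n V) x‖ ≤ C j * ((1 + M) / 2) ^ n ∧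
          (n : ℝ) * ‖iteratedDeriv j (wC n V) x‖ ≤ C j * ((1 + M) / 2) ^ n) := by
  have hopen : IsOpen (Ioo a b) := isOpen_Ioo
  have hne : ∀ x ∈ Ioo a b, x ≠ 0 := fun x hx => (ha.trans hx.1).ne'
  have hp0 : 0 < (M + (1 + M) / 2) / 2 := by linarith
  have hpq : (M + (1 + M) / 2) / 2 < (1 + M) / 2 := by linarith
  obtain ⟨K, hK0, hK⟩ := nat_mul_pow_le hp0 hpq
  choose D hD0 hD using fun j : ℕ => deriv_bounds a b M B ha hM0 hM1 j
  choose E hE0 hE using fun j : ℕ => pot_bounds a b M B ((M + (1 + M) / 2) / 2) ha hM0 hM1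
    (by linarith) (by linarith) j
  refine ⟨fun j => D j + E j + E j * K, fun j => by
    have := hD0 j; have := hE0 j; positivity,
    fun n h2 hn om hom eps heps V V1 h hb => ?_⟩
  obtain ⟨hV, hV1⟩ := smooth_of_solX hn hopen hne h
  refine ⟨⟨hV, hV1, contDiffOn_wA hn hV, contDiffOn_wB h2 hn hV, contDiffOn_wC h2 hn hV⟩,
    fun j x hx => ?_⟩
  have hDj := hD j n h2 hn om hom eps heps V V1 h hb j le_rfl x hx
  rw [iteratedDerivWithin_of_isOpen hopen hx, iteratedDerivWithin_of_isOpen hopen hx] at hDj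
  obtain ⟨eA, eB, eC⟩ := hE j n h2 hn om hom eps heps V V1 h hb x hx
  have hq0 : (0 : ℝ) < (1 + M) / 2 := by linarith
  have hqn : 0 < ((1 + M) / 2) ^ n := by positivity
  have hEj := hE0 j
  have hDj0 := hD0 j
  have hEK : 0 ≤ E j * K := mul_nonneg hEj hK0
  have l1 : E j * ((M + (1 + M) / 2) / 2) ^ n ≤ (D j + E j + E j * K) * ((1 + M) / 2) ^ n := by
    have h1 : ((M + (1 + M) / 2) / 2) ^ n ≤ ((1 + M) / 2) ^ n := pow_le_pow_left₀ hp0.le hpq.le n
    calc E j * ((M + (1 + M) / 2) / 2) ^ n ≤ E j * ((1 + M) / 2) ^ n :=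
          mul_le_mul_of_nonneg_left h1 hEj
      _ ≤ _ := mul_le_mul_of_nonneg_right (by linarith) hqn.le
  have l2 : (n : ℝ) * (E j * ((M + (1 + M) / 2) / 2) ^ n) ≤
      (D j + E j + E j * K) * ((1 + M) / 2) ^ n := by
    calc (n : ℝ) * (E j * ((M + (1 + M) / 2) / 2) ^ n)
        = E j * ((n : ℝ) * ((M + (1 + M) / 2) / 2) ^ n) := by ring
      _ ≤ E j * (K * ((1 + M) / 2) ^ n) := mul_le_mul_of_nonneg_left (hK n) hEj
      _ = (E j * K) * ((1 + M) / 2) ^ n := by ring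
      _ ≤ _ := mul_le_mul_of_nonneg_right (by linarith) hqn.le
  have hn0 : (0 : ℝ) ≤ n := Nat.cast_nonneg n
  exact ⟨⟨hDj.1.trans (by linarith), hDj.2.trans (by linarith)⟩,
    ⟨eA.trans l1, eB.trans l1, eC.trans l1⟩,
    ⟨(mul_le_mul_of_nonneg_left eA hn0).trans l2, (mul_le_mul_of_nonneg_left eB hn0).trans l2,
      (mul_le_mul_of_nonneg_left eC hn0).trans l2⟩⟩

theorem t1Stmt : T1Stmt := by
  intro a b M B ha _ hM0 hM1
  obtain ⟨C, _, hC⟩ := t1_full a b M B ha hM0 hM1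
  exact ⟨C, fun n h2 hn om hom eps heps V V1 h hb j x hx =>
    ((hC n h2 hn om hom eps heps V V1 h hb).2 j x hx).2.1⟩

end Crest.Agent.R086.B
end

-- ▼ part R086/PFacts
section

/-!
Row 86, part B exports for part C (helper548): facts on `P = |v|^n`, `sigma = Re (v1/v)`, `tau = Im (v1/v)`
for radial profiles close in `C^1([0,8])` to the obstacle profile `U`.
-/

set_option autoImplicit false

open Complex Set Filter Topology

namespace Crest.Agent.R086.PF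

open Crest.Agent.R086.B

/-- logarithmic derivative -/
noncomputable def ld (v v1 : ℝ → ℂ) (r : ℝ) : ℂ := v1 r / v r
noncomputable def sg (v v1 : ℝ → ℂ) (r : ℝ) : ℝ := (v1 r / v r).re
noncomputable def ta (v v1 : ℝ → ℂ) (r : ℝ) : ℝ := (v1 r / v r).im

/-! ### derivatives -/

lemma hasDerivAt_ld {n : ℕ} {om eps : ℝ} {v v1 : ℝ → ℂ} {r : ℝ} (hr : 0 < r)
    (h : HasDerivAt v (v1 r) r ∧ HasDerivAt v1 (-(11 / (r : ℂ) + I * r / 2) * v1 r -
      ((om : ℂ) + I * eps) * v r + ((‖v r‖ ^ n : ℝ) : ℂ) * v r) r) (hv : v r ≠ 0) :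
    HasDerivAt (ld v v1) (-(11 / (r : ℂ) + I * r / 2) * ld v v1 r - ((om : ℂ) + I * eps)
      + ((‖v r‖ ^ n : ℝ) : ℂ) - (ld v v1 r) ^ 2) r := by
  have h2 := h.2.div h.1 hv
  refine (h2.congr_deriv ?_)
  unfold ld
  have hr' : (r : ℂ) ≠ 0 := by exact_mod_cast hr.ne'
  field_simp

lemma hasDerivAt_sg {n : ℕ} {om eps : ℝ} {v v1 : ℝ → ℂ} {r : ℝ} (hr : 0 < r)
    (h : HasDerivAt v (v1 r) r ∧ HasDerivAt v1 (-(11 / (r : ℂ) + I * r / 2) * v1 r -
      ((om : ℂ) + I * eps) * v r + ((‖v r‖ ^ n : ℝ) : ℂ) * v r) r) (hv : v r ≠ 0) :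
    HasDerivAt (sg v v1) (-(11 / r) * sg v v1 r + (r / 2) * ta v v1 r - om + ‖v r‖ ^ n
      - (sg v v1 r) ^ 2 + (ta v v1 r) ^ 2) r := by
  have h1 := hasDerivAt_ld hr h hv
  have h2 := (Complex.reCLM.hasFDerivAt.comp_hasDerivAt r h1)
  refine (h2.congr_deriv ?_)
  have hr' : (r : ℂ) ≠ 0 := by exact_mod_cast hr.ne'
  have e : (11 / (r : ℂ)) = (((11 / r : ℝ)) : ℂ) := by push_cast; ring
  have e2 : I * (r : ℂ) / 2 = (((r / 2 : ℝ)) : ℂ) * I := by push_cast; ring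
  set m := ld v v1 r with hm
  have hs : sg v v1 r = m.re := rfl
  have ht : ta v v1 r = m.im := rfl
  rw [hs, ht, e, e2]
  simp only [Complex.reCLM_apply, Complex.sub_re, Complex.add_re, Complex.neg_re, Complex.mul_re,
    Complex.ofReal_re, Complex.ofReal_im, Complex.I_re, Complex.I_im, Complex.add_im, Complex.mul_im,
    Complex.neg_im, sq]
  ring

lemma hasDerivAt_ta {n : ℕ} {om eps : ℝ} {v v1 : ℝ → ℂ} {r : ℝ} (hr : 0 < r)
    (h : HasDerivAt v (v1 r) r ∧ HasDerivAt v1 (-(11 / (r : ℂ) + I * r / 2) * v1 r -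
      ((om : ℂ) + I * eps) * v r + ((‖v r‖ ^ n : ℝ) : ℂ) * v r) r) (hv : v r ≠ 0) :
    HasDerivAt (ta v v1) (-(11 / r) * ta v v1 r - (r / 2) * sg v v1 r - eps
      - 2 * sg v v1 r * ta v v1 r) r := by
  have h1 := hasDerivAt_ld hr h hv
  have h2 := (Complex.imCLM.hasFDerivAt.comp_hasDerivAt r h1)
  refine (h2.congr_deriv ?_)
  have e : (11 / (r : ℂ)) = (((11 / r : ℝ)) : ℂ) := by push_cast; ring
  have e2 : I * (r : ℂ) / 2 = (((r / 2 : ℝ)) : ℂ) * I := by push_cast; ring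
  set m := ld v v1 r with hm
  have hs : sg v v1 r = m.re := rfl
  have ht : ta v v1 r = m.im := rfl
  rw [hs, ht, e, e2]
  simp only [Complex.imCLM_apply, Complex.sub_im, Complex.add_im, Complex.neg_im, Complex.mul_im,
    Complex.ofReal_re, Complex.ofReal_im, Complex.I_re, Complex.I_im, Complex.add_re, Complex.mul_re,
    Complex.neg_re, sq]
  ring

/-- derivative of `‖v‖` -/
lemma hasDerivAt_norm {v v1 : ℝ → ℂ} {r : ℝ} (h : HasDerivAt v (v1 r) r) (hv : v r ≠ 0) :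
    HasDerivAt (fun s => ‖v s‖) (sg v v1 r * ‖v r‖) r := by
  have h1 := h.norm_sq
  have hpos : ‖v r‖ ^ 2 ≠ 0 := by positivity
  have h2 := h1.sqrt hpos
  have e : (fun s => Real.sqrt (‖v s‖ ^ 2)) = fun s => ‖v s‖ := by
    funext s; exact Real.sqrt_sq (norm_nonneg _)
  rw [e] at h2
  refine h2.congr_deriv ?_
  rw [Real.sqrt_sq (norm_nonneg _)]
  have hn : ‖v r‖ ≠ 0 := norm_ne_zero_iff.mpr hv
  have hin : inner ℝ (v r) (v1 r) = sg v v1 r * ‖v r‖ ^ 2 := by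
    unfold sg
    rw [Complex.inner]
    have : v1 r = (v1 r / v r) * v r := by field_simp
    conv_lhs => rw [this]
    rw [show (v1 r / v r * v r * (starRingEnd ℂ) (v r)) = (v1 r / v r) * ((starRingEnd ℂ) (v r) * v r) by ring,
      ← Complex.normSq_eq_conj_mul_self, Complex.re_mul_ofReal, Complex.normSq_eq_norm_sq]
  rw [hin]
  field_simp

lemma hasDerivAt_P {v v1 : ℝ → ℂ} {r : ℝ} (n : ℕ) (h : HasDerivAt v (v1 r) r) (hv : v r ≠ 0) :
    HasDerivAt (fun s => ‖v s‖ ^ n) (n * sg v v1 r * ‖v r‖ ^ n) r := by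
  have h1 := (hasDerivAt_norm h hv).pow n
  refine h1.congr_deriv ?_
  rcases n with _ | n
  · simp
  · simp only [Nat.add_sub_cancel]
    push_cast
    rw [pow_succ]
    ring

/-- derivative of `log P` written as `n log ‖v‖` -/
lemma hasDerivAt_A {v v1 : ℝ → ℂ} {r : ℝ} (n : ℕ) (h : HasDerivAt v (v1 r) r) (hv : v r ≠ 0) :
    HasDerivAt (fun s => n * Real.log ‖v s‖) (n * sg v v1 r) r := by
  have hn : ‖v r‖ ≠ 0 := norm_ne_zero_iff.mpr hv
  have h1 := ((hasDerivAt_norm h hv).log hn).const_mul (n : ℝ)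
  refine h1.congr_deriv ?_
  field_simp

/-! ### elementary lemmas -/

lemma mono_Icc {f f1 : ℝ → ℝ} {a b : ℝ} (hc : ContinuousOn f (Icc a b))
    (hd : ∀ r ∈ Ioo a b, HasDerivAt f (f1 r) r) (hn : ∀ r ∈ Ioo a b, 0 ≤ f1 r) {x y : ℝ}
    (hx : x ∈ Icc a b) (hy : y ∈ Icc a b) (hxy : x ≤ y) : f x ≤ f y := by
  have := monotoneOn_of_deriv_nonneg (convex_Icc a b) hc
    (by rw [interior_Icc]; exact fun r hr => (hd r hr).differentiableAt.differentiableWithinAt)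
    (by rw [interior_Icc]; intro r hr; rw [(hd r hr).deriv]; exact hn r hr)
  exact this hx hy hxy

/-- a critical point with positive second derivative is not an interior maximum -/
lemma no_max {a a1 : ℝ → ℝ} {l u x c : ℝ} (hx : x ∈ Ioo l u)
    (hd : ∀ r ∈ Ioo l u, HasDerivAt a (a1 r) r) (h0 : a1 x = 0) (h2 : HasDerivAt a1 c x) (hc : 0 < c) :
    ∃ y ∈ Ioo l u, a x < a y := by
  -- `a1 > 0` on a right neighbourhood of `x`
  have h3 : ∀ᶠ y in 𝓝[>] x, 0 < a1 y := by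
    have h4 := h2.hasDerivWithinAt (s := Ioi x)
    rw [hasDerivWithinAt_iff_tendsto_slope] at h4
    have h5 : ∀ᶠ y in 𝓝[Ioi x \ {x}] x, 0 < slope a1 x y := h4.eventually (eventually_gt_nhds hc)
    have h6 : Ioi x \ {x} = Ioi x := by
      ext z; simp only [Set.mem_sdiff, mem_Ioi, mem_singleton_iff]
      constructor
      · exact fun h => h.1
      · exact fun h => ⟨h, ne_of_gt h⟩
    rw [h6] at h5
    filter_upwards [h5, self_mem_nhdsWithin] with y hy hy2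
    rw [slope_def_field, h0] at hy
    have hyx : 0 < y - x := sub_pos.mpr hy2
    have := (div_pos_iff_of_pos_right hyx).mp hy
    linarith
  rw [eventually_nhdsWithin_iff] at h3
  obtain ⟨d, hd0, hd1⟩ := Metric.eventually_nhds_iff.mp h3
  set y := min (x + d / 2) ((x + u) / 2) with hy
  have hxy : x < y := by
    rw [hy]; apply lt_min <;> linarith [hx.2]
  have hyu : y < u := by
    have : y ≤ (x + u) / 2 := min_le_right _ _
    linarith [hx.2]
  have hyd : y ≤ x + d / 2 := min_le_left _ _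
  refine ⟨y, ⟨lt_trans hx.1 hxy, hyu⟩, ?_⟩
  have hsub : ∀ z ∈ Icc x y, z ∈ Ioo l u := fun z hz => ⟨lt_of_lt_of_le hx.1 hz.1, lt_of_le_of_lt hz.2 hyu⟩
  have hcont : ContinuousOn a (Icc x y) := fun z hz => (hd z (hsub z hz)).continuousAt.continuousWithinAt
  obtain ⟨z, hz, hze⟩ := exists_hasDerivAt_eq_slope a a1 hxy hcont
    (fun z hz => hd z (hsub z ⟨hz.1.le, hz.2.le⟩))
  have hzp : 0 < a1 z := by
    apply hd1 _ hz.1
    rw [Real.dist_eq, abs_of_pos (by linarith [hz.1])]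
    linarith [hz.2]
  rw [hze] at hzp
  have := (div_pos_iff_of_pos_right (by linarith : 0 < y - x)).mp hzp
  linarith

/-! ### the engine: one solution with smallness hypotheses -/

/-- hypotheses on one solution. `rs` = right end of the region where everything is small,
`s` = smallness of `sigma`, `e` = smallness of `eps` and `om - om0`. -/
structure Eng (n : ℕ) (om0 om eps : ℝ) (v v1 : ℝ → ℂ) (T rs s e : ℝ) : Prop where
  sol : IsSol n om eps v v1 (Ioo 0 T)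
  cv : ContinuousOn v (Icc 0 T)
  cv1 : ContinuousOn v1 (Icc 0 T)
  v10 : v1 0 = 0
  low : ∀ r ∈ Icc (0 : ℝ) T, 1 / 2 ≤ ‖v r‖
  up : ∀ r ∈ Icc (0 : ℝ) T, ‖v r‖ ≤ 9 / 8
  rs0 : 0 < rs
  rs8 : rs < T
  T8 : T ≤ 8
  sig : ∀ r ∈ Icc (0 : ℝ) rs, |sg v v1 r| ≤ s
  sigr : ∀ r ∈ Icc rs T, sg v v1 r < 0
  s0 : 0 ≤ s
  s1 : s ≤ 1
  e0 : 0 ≤ e
  e1 : e ≤ 1
  eps0 : 0 ≤ eps
  epse : eps ≤ e
  ome : |om - om0| ≤ e

namespace Eng

variable {n : ℕ} {om0 om eps : ℝ} {v v1 : ℝ → ℂ} {T rs s e : ℝ}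

lemma vne (h : Eng n om0 om eps v v1 T rs s e) {r : ℝ} (hr : r ∈ Icc (0 : ℝ) T) : v r ≠ 0 := by
  have := h.low r hr
  intro h0
  rw [h0, norm_zero] at this
  norm_num at this

lemma cld (h : Eng n om0 om eps v v1 T rs s e) : ContinuousOn (ld v v1) (Icc 0 T) :=
  h.cv1.div h.cv (fun _ hr => h.vne hr)

lemma csg (h : Eng n om0 om eps v v1 T rs s e) : ContinuousOn (sg v v1) (Icc 0 T) :=
  Complex.continuous_re.comp_continuousOn h.cld

lemma cta (h : Eng n om0 om eps v v1 T rs s e) : ContinuousOn (ta v v1) (Icc 0 T) :=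
  Complex.continuous_im.comp_continuousOn h.cld

/-- `|tau| <= 2 (s + e) r` on `[0, rs]` -/
lemma tau_le (h : Eng n om0 om eps v v1 T rs s e) {r : ℝ} (hr : r ∈ Icc (0 : ℝ) rs) :
    |ta v v1 r| ≤ 2 * (4 * s + e) * r := by
  -- the function `g = r^11 |v|^2 tau` and the comparison `± C r^12`
  set C : ℝ := (81 / 64) * (4 * s + e) / 12 with hC
  have hse : 0 ≤ 4 * s + e := by linarith [h.s0, h.e0]
  have key : ∀ t : ℝ, |t| = 1 → t * (r ^ 11 * ‖v r‖ ^ 2 * ta v v1 r) ≤ C * r ^ 12 := by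
    intro t ht
    have hm := mono_Icc (a := 0) (b := rs) (f := fun x => C * x ^ 12 - t * (x ^ 11 * ‖v x‖ ^ 2 * ta v v1 x))
      (f1 := fun x => C * (12 * x ^ 11) - t * (-(x ^ 11 * ‖v x‖ ^ 2) * (x / 2 * sg v v1 x + eps)))
      ?_ ?_ ?_ (x := 0) (y := r) ⟨le_refl _, h.rs0.le⟩ hr hr.1
    · simp only [ne_eq, OfNat.ofNat_ne_zero, not_false_eq_true, zero_pow, mul_zero, zero_mul, sub_zero] at hm
      linarith
    · have hcv : ContinuousOn (fun x => ‖v x‖ ^ 2) (Icc 0 rs) :=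
        (h.cv.mono (Icc_subset_Icc_right h.rs8.le)).norm.pow 2
      have hct : ContinuousOn (ta v v1) (Icc 0 rs) := h.cta.mono (Icc_subset_Icc_right h.rs8.le)
      exact (by fun_prop : ContinuousOn (fun x : ℝ => C * x ^ 12) (Icc 0 rs)).sub
        (continuousOn_const.mul (((by fun_prop : ContinuousOn (fun x : ℝ => x ^ 11) (Icc 0 rs)).mul hcv).mul hct))
    · intro x hx
      have hx8 : x ∈ Ioo (0 : ℝ) T := ⟨hx.1, lt_trans hx.2 h.rs8⟩
      have hx8' : x ∈ Icc (0 : ℝ) T := ⟨hx8.1.le, hx8.2.le⟩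
      have hd := h.sol x hx8
      have hvn := h.vne hx8'
      have d1 := hasDerivAt_ta hx.1 hd hvn
      have d2 := hasDerivAt_P 2 hd.1 hvn
      have d3 : HasDerivAt (fun x : ℝ => x ^ 11) (11 * x ^ 10) x := by
        simpa using hasDerivAt_pow 11 x
      have d4 : HasDerivAt (fun x : ℝ => x ^ 12) (12 * x ^ 11) x := by
        simpa using hasDerivAt_pow 12 x
      have d5 := (d4.const_mul C).sub (((d3.mul d2).mul d1).const_mul t)
      refine d5.congr_deriv ?_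
      have hx0 : x ≠ 0 := hx.1.ne'
      simp only [Pi.mul_apply]
      field_simp
      push_cast
      ring
    · intro x hx
      have hx8' : x ∈ Icc (0 : ℝ) T := ⟨hx.1.le, (lt_trans hx.2 h.rs8).le⟩
      have hxs : x ∈ Icc (0 : ℝ) rs := ⟨hx.1.le, hx.2.le⟩
      have h1 := h.sig x hxs
      have h2 : |x / 2 * sg v v1 x + eps| ≤ 4 * s + e := by
        have hx2 : |x / 2| ≤ 4 := by rw [abs_of_pos (by linarith [hx.1])]; linarith [hx8'.2, h.T8]
        calc |x / 2 * sg v v1 x + eps| ≤ |x / 2 * sg v v1 x| + |eps| := abs_add_le _ _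
          _ ≤ 4 * s + e := by
              rw [abs_mul, abs_of_nonneg h.eps0]
              have := mul_le_mul hx2 h1 (abs_nonneg _) (by norm_num)
              linarith [h.epse]
      have h3 : ‖v x‖ ^ 2 ≤ 81 / 64 := by
        have := h.up x hx8'
        have h0 := norm_nonneg (v x)
        nlinarith
      have hx11 : 0 ≤ x ^ 11 := pow_nonneg hx.1.le _
      have h4 : |t * (-(x ^ 11 * ‖v x‖ ^ 2) * (x / 2 * sg v v1 x + eps))| ≤ x ^ 11 * (81 / 64) * (4 * s + e) := by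
        rw [abs_mul, ht, one_mul, abs_mul, abs_neg, abs_of_nonneg (by positivity : 0 ≤ x ^ 11 * ‖v x‖ ^ 2)]
        apply mul_le_mul _ h2 (abs_nonneg _) (by positivity)
        exact mul_le_mul_of_nonneg_left h3 hx11
      have h5 := le_abs_self (t * (-(x ^ 11 * ‖v x‖ ^ 2) * (x / 2 * sg v v1 x + eps)))
      have h6 : C * (12 * x ^ 11) = x ^ 11 * (81 / 64) * (4 * s + e) := by rw [hC]; ring
      linarith
  rcases eq_or_lt_of_le hr.1 with h0 | h0
  · rw [← h0]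
    have : ta v v1 0 = 0 := by unfold ta; rw [h.v10]; simp
    rw [this]; simp
  have hr8 : r ∈ Icc (0 : ℝ) T := ⟨hr.1, hr.2.trans h.rs8.le⟩
  have hl := h.low r hr8
  have k1 := key 1 (by simp)
  have k2 := key (-1) (by simp)
  have h12 : r ^ 12 = r ^ 11 * r := by ring
  have hp11 : 0 < r ^ 11 := by positivity
  have hn2 : 1 / 4 ≤ ‖v r‖ ^ 2 := by nlinarith
  have habs : ‖v r‖ ^ 2 * |ta v v1 r| ≤ C * r := by
    have : |ta v v1 r| = ta v v1 r ∨ |ta v v1 r| = -ta v v1 r := abs_choice _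
    rcases this with h7 | h7
    · rw [h7]
      have : r ^ 11 * (‖v r‖ ^ 2 * ta v v1 r) ≤ r ^ 11 * (C * r) := by rw [h12] at k1; linarith
      exact le_of_mul_le_mul_left this hp11
    · rw [h7]
      have : r ^ 11 * (‖v r‖ ^ 2 * -ta v v1 r) ≤ r ^ 11 * (C * r) := by rw [h12] at k2; linarith
      exact le_of_mul_le_mul_left this hp11
  have h8 : (1 / 4) * |ta v v1 r| ≤ C * r :=
    le_trans (mul_le_mul_of_nonneg_right hn2 (abs_nonneg _)) habs
  have h9 : 4 * C ≤ 2 * (4 * s + e) := by rw [hC]; nlinarith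
  nlinarith [mul_le_mul_of_nonneg_right h9 hr.1]

/-- bound on `tau'` -/
lemma tau1_le (h : Eng n om0 om eps v v1 T rs s e) {r : ℝ} (hr : r ∈ Ioo (0 : ℝ) rs) :
    |-(11 / r) * ta v v1 r - (r / 2) * sg v v1 r - eps - 2 * sg v v1 r * ta v v1 r| ≤ 55 * (4 * s + e) := by
  have ht := h.tau_le ⟨hr.1.le, hr.2.le⟩
  have hs := h.sig r ⟨hr.1.le, hr.2.le⟩
  have hr8 : r ≤ 8 := (lt_trans hr.2 h.rs8).le.trans h.T8
  have hK : 0 ≤ 4 * s + e := by linarith [h.s0, h.e0]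
  have h1 : |-(11 / r) * ta v v1 r| ≤ 22 * (4 * s + e) := by
    rw [abs_mul, abs_neg, abs_of_pos (div_pos (by norm_num) hr.1), div_mul_eq_mul_div, div_le_iff₀ hr.1]
    nlinarith
  have h2 : |(r / 2) * sg v v1 r| ≤ 4 * s := by
    rw [abs_mul, abs_of_pos (by linarith [hr.1] : 0 < r / 2)]
    exact mul_le_mul (by linarith) hs (abs_nonneg _) (by norm_num)
  have ht8 : |ta v v1 r| ≤ 16 * (4 * s + e) := by
    refine ht.trans ?_
    nlinarith
  have h3 : |2 * sg v v1 r * ta v v1 r| ≤ 32 * (4 * s + e) := by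
    rw [abs_mul, abs_mul, abs_two]
    have : |sg v v1 r| ≤ 1 := hs.trans h.s1
    have := mul_le_mul this ht8 (abs_nonneg _) (by norm_num)
    nlinarith [abs_nonneg (sg v v1 r), abs_nonneg (ta v v1 r)]
  have h4 : |eps| ≤ e := by rw [abs_of_nonneg h.eps0]; exact h.epse
  calc |-(11 / r) * ta v v1 r - (r / 2) * sg v v1 r - eps - 2 * sg v v1 r * ta v v1 r|
      ≤ |-(11 / r) * ta v v1 r| + |(r / 2) * sg v v1 r| + |eps| + |2 * sg v v1 r * ta v v1 r| := by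
        refine (abs_sub _ _).trans ?_
        gcongr
        refine (abs_sub _ _).trans ?_
        gcongr
        exact abs_sub _ _
    _ ≤ 55 * (4 * s + e) := by linarith [h.s0, h.e0]

/-- `om_eff` is close to `om0` -/
lemma omeff (h : Eng n om0 om eps v v1 T rs s e) (hK1 : 4 * s + e ≤ 1 / 16) {r : ℝ} (hr : r ∈ Icc (0 : ℝ) rs) :
    |om - (r / 2) * ta v v1 r - (ta v v1 r) ^ 2 - om0| ≤ 81 * (4 * s + e) := by
  have ht := h.tau_le hr
  have hr8 : r ≤ 8 := (hr.2.trans h.rs8.le).trans h.T8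
  have hK : 0 ≤ 4 * s + e := by linarith [h.s0, h.e0]
  have ht8 : |ta v v1 r| ≤ 16 * (4 * s + e) := by
    refine ht.trans ?_
    nlinarith
  have h1 : |(r / 2) * ta v v1 r| ≤ 64 * (4 * s + e) := by
    rw [abs_mul, abs_of_nonneg (by linarith [hr.1] : 0 ≤ r / 2)]
    calc r / 2 * |ta v v1 r| ≤ 4 * (16 * (4 * s + e)) :=
          mul_le_mul (by linarith) ht8 (abs_nonneg _) (by norm_num)
      _ = _ := by ring
  have h2 : (ta v v1 r) ^ 2 ≤ 16 * (4 * s + e) := by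
    rw [← sq_abs]
    have : |ta v v1 r| ≤ 1 := by linarith
    nlinarith [abs_nonneg (ta v v1 r)]
  have h3 := abs_le.mp h1
  have h4 := abs_le.mp h.ome
  have h5 := sq_nonneg (ta v v1 r)
  rw [abs_le]
  constructor <;> linarith [h.s0, h.e0, h3.1, h3.2, h4.1, h4.2]

/-- **log-derivative of `P` is small from above** -/
lemma a_le (h : Eng n om0 om eps v v1 T rs s e) {η : ℝ} (hη : 0 < η) (hom0 : 0 < om0) (hn : 0 < n)
    (hK1 : 4 * s + e ≤ 1 / 16) (hK2 : 200 * (4 * s + e) ≤ om0) (hK3 : 3000 * (4 * s + e) < η * om0)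
    {r : ℝ} (hr : r ∈ Icc (0 : ℝ) T) : n * sg v v1 r ≤ η := by
  by_contra hcon
  push Not at hcon
  have hnR : (0 : ℝ) < n := by exact_mod_cast hn
  have hK : 0 ≤ 4 * s + e := by linarith [h.s0, h.e0]
  obtain ⟨x, hx, hmax⟩ := isCompact_Icc.exists_isMaxOn (⟨r, hr⟩ : (Icc (0 : ℝ) T).Nonempty) h.csg
  have hxr : sg v v1 r ≤ sg v v1 x := hmax hr
  have hpos : 0 < sg v v1 x := by
    have : 0 < sg v v1 r := by
      by_contra h0
      push Not at h0
      have : (n : ℝ) * sg v v1 r ≤ 0 := mul_nonpos_of_nonneg_of_nonpos hnR.le h0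
      linarith
    linarith
  have hx0 : x ≠ 0 := by
    intro h0
    rw [h0] at hpos
    have : sg v v1 0 = 0 := by unfold sg; rw [h.v10]; simp
    linarith
  have hx0' : 0 < x := lt_of_le_of_ne hx.1 (Ne.symm hx0)
  have hxs : x < rs := by
    by_contra h0
    push Not at h0
    have := h.sigr x ⟨h0, hx.2⟩
    linarith
  have hxI : x ∈ Ioo (0 : ℝ) rs := ⟨hx0', hxs⟩
  have hxs' : x ∈ Icc (0 : ℝ) rs := ⟨hx0'.le, hxs.le⟩
  have hx8 : x ∈ Ioo (0 : ℝ) T := ⟨hx0', lt_trans hxs h.rs8⟩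
  have hvn := h.vne hx
  have hd := h.sol x hx8
  set S1 : ℝ → ℝ := fun x => -(11 / x) * sg v v1 x + (x / 2) * ta v v1 x - om + ‖v x‖ ^ n
      - (sg v v1 x) ^ 2 + (ta v v1 x) ^ 2 with hS1
  have dS : ∀ y ∈ Ioo (0 : ℝ) rs, HasDerivAt (sg v v1) (S1 y) y := by
    intro y hy
    have hy8 : y ∈ Ioo (0 : ℝ) T := ⟨hy.1, lt_trans hy.2 h.rs8⟩
    exact hasDerivAt_sg hy.1 (h.sol y hy8) (h.vne ⟨hy8.1.le, hy8.2.le⟩)
  have hlm : IsLocalMax (sg v v1) x := by
    have : Icc (0 : ℝ) T ∈ 𝓝 x := Icc_mem_nhds hx8.1 hx8.2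
    exact hmax.isLocalMax this
  have hcrit : S1 x = 0 := hlm.hasDerivAt_eq_zero (dS x hxI)
  -- derivative of S1 at x
  have dsg := dS x hxI
  have dta := hasDerivAt_ta hx0' hd hvn
  have dP := hasDerivAt_P n hd.1 hvn
  set t1 := -(11 / x) * ta v v1 x - (x / 2) * sg v v1 x - eps - 2 * sg v v1 x * ta v v1 x with ht1
  have dinv : HasDerivAt (fun y : ℝ => -(11 / y)) (11 / x ^ 2) x := by
    have := ((hasDerivAt_inv hx0).const_mul 11).neg
    refine (this.congr_deriv ?_).congr_of_eventuallyEq ?_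
    · field_simp
    · filter_upwards with y
      simp only [Pi.neg_apply, div_eq_mul_inv]
  have dhalf : HasDerivAt (fun y : ℝ => y / 2) (1 / 2) x := by
    simpa using (hasDerivAt_id x).div_const 2
  have dS1 : HasDerivAt S1 ((11 / x ^ 2 * sg v v1 x + -(11 / x) * S1 x) + (1 / 2 * ta v v1 x + x / 2 * t1)
      + n * sg v v1 x * ‖v x‖ ^ n - 2 * sg v v1 x * S1 x + 2 * ta v v1 x * t1) x := by
    have d1 := (((((dinv.mul dsg).add (dhalf.mul dta)).sub_const om).add dP).sub (dsg.pow 2)).add (dta.pow 2)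
    refine d1.congr_deriv ?_
    simp only [Nat.cast_ofNat, Nat.add_one_sub_one, pow_one]
  -- positivity
  have hP : om0 / 2 ≤ ‖v x‖ ^ n := by
    have h1 := abs_le.mp (h.omeff hK1 hxs')
    have h2 : ‖v x‖ ^ n = (om - (x / 2) * ta v v1 x - (ta v v1 x) ^ 2) + (sg v v1 x) ^ 2 + 11 / x * sg v v1 x := by
      have := hcrit
      simp only [hS1] at this
      linarith
    have h3 : 0 ≤ 11 / x * sg v v1 x := by positivity
    have h4 := sq_nonneg (sg v v1 x)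
    rw [h2]
    linarith [h1.1]
  have ht := h.tau_le hxs'
  have ht8 : |ta v v1 x| ≤ 16 * (4 * s + e) := by
    refine ht.trans ?_
    nlinarith [hx.2.trans h.T8]
  have ht1b : |t1| ≤ 55 * (4 * s + e) := h.tau1_le hxI
  have b1 : |1 / 2 * ta v v1 x| ≤ 8 * (4 * s + e) := by
    rw [abs_mul, abs_of_pos (by norm_num : (0 : ℝ) < 1 / 2)]; linarith
  have b2 : |x / 2 * t1| ≤ 220 * (4 * s + e) := by
    rw [abs_mul, abs_of_pos (by linarith : 0 < x / 2)]
    calc x / 2 * |t1| ≤ 4 * (55 * (4 * s + e)) :=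
          mul_le_mul (by linarith [hx.2.trans h.T8]) ht1b (abs_nonneg _) (by norm_num)
      _ = _ := by ring
  have b3 : |2 * ta v v1 x * t1| ≤ 110 * (4 * s + e) := by
    rw [abs_mul, abs_mul, abs_two]
    have h1 : |ta v v1 x| ≤ 1 := by linarith
    have := mul_le_mul h1 ht1b (abs_nonneg _) (by norm_num)
    nlinarith
  have b4 : η * (om0 / 2) ≤ n * sg v v1 x * ‖v x‖ ^ n := by
    have : η ≤ n * sg v v1 x := by
      have := mul_le_mul_of_nonneg_left hxr hnR.le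
      linarith
    exact mul_le_mul this hP (by linarith) (by positivity)
  have b5 : 0 ≤ 11 / x ^ 2 * sg v v1 x := by positivity
  have hc : 0 < (11 / x ^ 2 * sg v v1 x + -(11 / x) * S1 x) + (1 / 2 * ta v v1 x + x / 2 * t1)
      + n * sg v v1 x * ‖v x‖ ^ n - 2 * sg v v1 x * S1 x + 2 * ta v v1 x * t1 := by
    rw [hcrit]
    have c1 := (abs_le.mp b1).1
    have c2 := (abs_le.mp b2).1
    have c3 := (abs_le.mp b3).1
    nlinarith
  obtain ⟨y, hy, hlt⟩ := no_max hxI dS hcrit dS1 hc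
  have : sg v v1 y ≤ sg v v1 x := hmax (⟨hy.1.le, (lt_trans hy.2 h.rs8).le⟩ : y ∈ Icc (0 : ℝ) T)
  linarith

lemma A_growth (h : Eng n om0 om eps v v1 T rs s e) {a0 : ℝ} (ha : ∀ r ∈ Icc (0 : ℝ) T, n * sg v v1 r ≤ a0)
    {x y : ℝ} (hx : x ∈ Icc (0 : ℝ) T) (hy : y ∈ Icc (0 : ℝ) T) (hxy : x ≤ y) :
    n * Real.log ‖v y‖ ≤ n * Real.log ‖v x‖ + a0 * (y - x) := by
  have hm := mono_Icc (a := 0) (b := T) (f := fun z => a0 * z - n * Real.log ‖v z‖)
    (f1 := fun z => a0 - n * sg v v1 z) ?_ ?_ ?_ hx hy hxy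
  · linarith
  · refine (by fun_prop : ContinuousOn (fun z : ℝ => a0 * z) (Icc 0 T)).sub (continuousOn_const.mul ?_)
    exact h.cv.norm.log (fun z hz => norm_ne_zero_iff.mpr (h.vne hz))
  · intro z hz
    have hz' : z ∈ Icc (0 : ℝ) T := ⟨hz.1.le, hz.2.le⟩
    have d1 := hasDerivAt_A n (h.sol z hz).1 (h.vne hz')
    have d2 : HasDerivAt (fun z : ℝ => a0 * z) a0 z := by simpa using (hasDerivAt_id z).const_mul a0
    exact d2.sub d1
  · intro z hz
    have := ha z ⟨hz.1.le, hz.2.le⟩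
    linarith

lemma A_low (h : Eng n om0 om eps v v1 T rs s e)
    {x y : ℝ} (hx : x ∈ Icc (0 : ℝ) rs) (hy : y ∈ Icc (0 : ℝ) rs) (hxy : x ≤ y) :
    n * Real.log ‖v x‖ ≤ n * Real.log ‖v y‖ + n * s * (y - x) := by
  have hm := mono_Icc (a := 0) (b := rs) (f := fun z => n * s * z + n * Real.log ‖v z‖)
    (f1 := fun z => n * s + n * sg v v1 z) ?_ ?_ ?_ hx hy hxy
  · linarith
  · refine (by fun_prop : ContinuousOn (fun z : ℝ => n * s * z) (Icc 0 rs)).add (continuousOn_const.mul ?_)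
    exact (h.cv.mono (Icc_subset_Icc_right h.rs8.le)).norm.log
      (fun z hz => norm_ne_zero_iff.mpr (h.vne ⟨hz.1, hz.2.trans h.rs8.le⟩))
  · intro z hz
    have hz' : z ∈ Icc (0 : ℝ) T := ⟨hz.1.le, (lt_trans hz.2 h.rs8).le⟩
    have d1 := hasDerivAt_A n (h.sol z ⟨hz.1, lt_trans hz.2 h.rs8⟩).1 (h.vne hz')
    have d2 : HasDerivAt (fun z : ℝ => n * s * z) (n * s) z := by
      simpa using (hasDerivAt_id z).const_mul ((n : ℝ) * s)
    exact d2.add d1
  · intro z hz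
    have := (abs_le.mp (h.sig z ⟨hz.1.le, hz.2.le⟩)).1
    have hn0 : (0 : ℝ) ≤ n := Nat.cast_nonneg n
    nlinarith

lemma P_eq_exp (h : Eng n om0 om eps v v1 T rs s e) {x : ℝ} (hx : x ∈ Icc (0 : ℝ) T) :
    ‖v x‖ ^ n = Real.exp (n * Real.log ‖v x‖) := by
  have hp : 0 < ‖v x‖ := by linarith [h.low x hx]
  rw [← Real.log_pow, Real.exp_log (pow_pos hp n)]

lemma P_growth (h : Eng n om0 om eps v v1 T rs s e) {a0 : ℝ} (ha : ∀ r ∈ Icc (0 : ℝ) T, n * sg v v1 r ≤ a0)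
    (ha0 : 0 ≤ a0)
    {x y : ℝ} (hx : x ∈ Icc (0 : ℝ) T) (hy : y ∈ Icc (0 : ℝ) T) (hxy : x ≤ y) :
    ‖v y‖ ^ n ≤ ‖v x‖ ^ n * Real.exp (8 * a0) := by
  rw [h.P_eq_exp hx, h.P_eq_exp hy, ← Real.exp_add]
  apply Real.exp_le_exp.mpr
  have h1 := h.A_growth ha hx hy hxy
  have h2 : a0 * (y - x) ≤ 8 * a0 := by
    have : y - x ≤ 8 := by linarith [hx.1, hy.2, h.T8]
    nlinarith
  linarith

/-- upper bound for `P` on `[0, rs]` -/
lemma P_le_core (h : Eng n om0 om eps v v1 T rs s e) {η a0 : ℝ}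
    (ha : ∀ r ∈ Icc (0 : ℝ) T, n * sg v v1 r ≤ a0) (ha0 : 0 ≤ a0) (haη : 100 * a0 ≤ η)
    (hη : 0 < η) (hη1 : η ≤ 1) (hom0 : 0 < om0) (hom1 : om0 ≤ 1 / 2) (hn : 0 < n) (hnr : 1 ≤ n * rs)
    (hK1 : 4 * s + e ≤ 1 / 16) (hK4 : 1000 * (4 * s + e) ≤ η)
    {r : ℝ} (hr : r ∈ Icc (0 : ℝ) rs) : ‖v r‖ ^ n ≤ om0 + η := by
  have hnR : (0 : ℝ) < n := by exact_mod_cast hn
  have hK : 0 ≤ 4 * s + e := by linarith [h.s0, h.e0]
  have hs0 := h.s0
  have he0 := h.e0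
  -- step 1
  have step1 : ∀ r ∈ Icc (0 : ℝ) rs, 1 ≤ n * r → ‖v r‖ ^ n ≤ om0 + η / 2 := by
    intro r hr hnr1
    by_contra hcon
    push Not at hcon
    have hr0 : 0 < r := by
      by_contra h0
      push Not at h0
      nlinarith
    have hr8 : r ∈ Icc (0 : ℝ) T := ⟨hr.1, hr.2.trans h.rs8.le⟩
    have hexp : Real.exp (8 * a0) ≤ 1 + 16 * a0 := by
      have h1 : |8 * a0| ≤ 1 := by rw [abs_of_nonneg (by linarith)]; linarith
      have := Real.abs_exp_sub_one_le h1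
      rw [abs_of_nonneg (by linarith : 0 ≤ 8 * a0)] at this
      linarith [(abs_le.mp this).2]
    have hPx : ∀ x ∈ Ioo (0 : ℝ) r, om0 + η / 4 ≤ ‖v x‖ ^ n := by
      intro x hx
      have hx8 : x ∈ Icc (0 : ℝ) T := ⟨hx.1.le, hx.2.le.trans hr8.2⟩
      have h1 := h.P_growth ha ha0 hx8 hr8 hx.2.le
      have hPx0 : 0 ≤ ‖v x‖ ^ n := by positivity
      by_contra h2
      push Not at h2
      have h3 : ‖v x‖ ^ n * Real.exp (8 * a0) ≤ (om0 + η / 4) * (1 + 16 * a0) :=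
        mul_le_mul h2.le hexp (Real.exp_pos _).le (by linarith)
      nlinarith
    have hm := mono_Icc (a := 0) (b := r) (f := fun x => x ^ 11 * sg v v1 x - η / 96 * x ^ 12)
      (f1 := fun x => x ^ 11 * (11 / x * sg v v1 x + (-(11 / x) * sg v v1 x + (x / 2) * ta v v1 x - om + ‖v x‖ ^ n
      - (sg v v1 x) ^ 2 + (ta v v1 x) ^ 2)) - η / 96 * (12 * x ^ 11)) ?_ ?_ ?_ (x := 0) (y := r)
      ⟨le_refl _, hr0.le⟩ ⟨hr0.le, le_refl _⟩ hr0.le
    · simp only [ne_eq, OfNat.ofNat_ne_zero, not_false_eq_true, zero_pow, mul_zero, zero_mul, sub_zero] at hm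
      have h12 : r ^ 12 = r ^ 11 * r := by ring
      have hp : 0 < r ^ 11 := by positivity
      have h1 : r ^ 11 * (η / 96 * r) ≤ r ^ 11 * sg v v1 r := by rw [h12] at hm; linarith
      have h2 := le_of_mul_le_mul_left h1 hp
      have h3 := ha r hr8
      have h4 : n * (η / 96 * r) ≤ a0 := le_trans (mul_le_mul_of_nonneg_left h2 hnR.le) h3
      nlinarith
    · have hct : ContinuousOn (sg v v1) (Icc 0 r) := h.csg.mono (Icc_subset_Icc_right hr8.2)
      exact ((by fun_prop : ContinuousOn (fun x : ℝ => x ^ 11) (Icc 0 r)).mul hct).sub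
        (by fun_prop : ContinuousOn (fun x : ℝ => η / 96 * x ^ 12) (Icc 0 r))
    · intro x hx
      have hx8 : x ∈ Ioo (0 : ℝ) T := ⟨hx.1, lt_of_lt_of_le hx.2 hr8.2⟩
      have d1 := hasDerivAt_sg hx.1 (h.sol x hx8) (h.vne ⟨hx8.1.le, hx8.2.le⟩)
      have d3 : HasDerivAt (fun x : ℝ => x ^ 11) (11 * x ^ 10) x := by
        simpa using hasDerivAt_pow 11 x
      have d4 : HasDerivAt (fun x : ℝ => x ^ 12) (12 * x ^ 11) x := by
        simpa using hasDerivAt_pow 12 x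
      have d5 := (d3.mul d1).sub (d4.const_mul (η / 96))
      refine d5.congr_deriv ?_
      have hx0 : x ≠ 0 := hx.1.ne'
      field_simp
    · intro x hx
      have hxs : x ∈ Icc (0 : ℝ) rs := ⟨hx.1.le, hx.2.le.trans hr.2⟩
      have h1 := hPx x hx
      have h2 := abs_le.mp (h.omeff hK1 hxs)
      have h3 : (sg v v1 x) ^ 2 ≤ s := by
        rw [← sq_abs]
        have h4 := h.sig x hxs
        have h5 := h.s1
        nlinarith [abs_nonneg (sg v v1 x)]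
      have hp : 0 ≤ x ^ 11 := pow_nonneg hx.1.le _
      have h6 : η / 8 ≤ 11 / x * sg v v1 x + (-(11 / x) * sg v v1 x + (x / 2) * ta v v1 x - om + ‖v x‖ ^ n
        - (sg v v1 x) ^ 2 + (ta v v1 x) ^ 2) := by
        linarith [h2.2]
      nlinarith [mul_le_mul_of_nonneg_left h6 hp]
  by_cases hc : 1 ≤ n * r
  · exact (step1 r hr hc).trans (by linarith)
  push Not at hc
  have hinv : (n : ℝ) * (1 / n) = 1 := by field_simp
  have h1n : (1 / (n : ℝ)) ∈ Icc (0 : ℝ) rs := by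
    constructor
    · positivity
    · rw [div_le_iff₀ hnR]; linarith
  have hr1n : r ≤ 1 / n := by rw [le_div_iff₀ hnR]; linarith
  have h1 := step1 (1 / n) h1n (by rw [hinv])
  have h2 := h.A_low hr h1n hr1n
  have hr8 : r ∈ Icc (0 : ℝ) T := ⟨hr.1, hr.2.trans h.rs8.le⟩
  have h8 : (1 / (n : ℝ)) ∈ Icc (0 : ℝ) T := ⟨h1n.1, h1n.2.trans h.rs8.le⟩
  have h3 : ‖v r‖ ^ n ≤ ‖v (1 / n)‖ ^ n * Real.exp s := by
    rw [h.P_eq_exp hr8, h.P_eq_exp h8, ← Real.exp_add]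
    apply Real.exp_le_exp.mpr
    have h4 : n * s * (1 / n - r) ≤ s := by
      have : n * s * (1 / n - r) = s * (n * (1 / n)) - s * (n * r) := by ring
      rw [this, hinv]
      nlinarith [hr.1, mul_nonneg hs0 (mul_nonneg hnR.le hr.1)]
    linarith
  have hexp : Real.exp s ≤ 1 + 2 * s := by
    have h1 : |s| ≤ 1 := by rw [abs_of_nonneg hs0]; exact h.s1
    have := Real.abs_exp_sub_one_le h1
    rw [abs_of_nonneg hs0] at this
    linarith [(abs_le.mp this).2]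
  have h5 : ‖v (1 / n)‖ ^ n * Real.exp s ≤ (om0 + η / 2) * (1 + 2 * s) :=
    mul_le_mul h1 hexp (Real.exp_pos _).le (by linarith)
  nlinarith

/-- lower bound for `P` on `[0, R1 - d]` -/
lemma P_ge_core (h : Eng n om0 om eps v v1 T rs s e) {η a0 R1 d : ℝ}
    (ha : ∀ r ∈ Icc (0 : ℝ) T, n * sg v v1 r ≤ a0) (ha0 : 0 ≤ a0) (haη : 100 * a0 ≤ η)
    (hη : 0 < η) (hη1 : η ≤ 1) (hom1 : om0 ≤ 1 / 2)
    (hR1 : R1 ≤ rs) (hd : 0 < d) (hRd : 1 / 2 ≤ R1 - d) (hsd : 8 * s < η * d)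
    (hK1 : 4 * s + e ≤ 1 / 16) (hK4 : 1000 * (4 * s + e) ≤ η)
    {r : ℝ} (hr : r ∈ Icc (0 : ℝ) (R1 - d)) : om0 - η ≤ ‖v r‖ ^ n := by
  by_contra hcon
  push Not at hcon
  have hs0 := h.s0
  have he0 := h.e0
  have hrs8 := h.rs8
  have hr8 : r ∈ Icc (0 : ℝ) T := ⟨hr.1, by linarith [hr.2]⟩
  have hexp : Real.exp (8 * a0) ≤ 1 + 16 * a0 := by
    have h1 : |8 * a0| ≤ 1 := by rw [abs_of_nonneg (by linarith)]; linarith
    have := Real.abs_exp_sub_one_le h1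
    rw [abs_of_nonneg (by linarith : 0 ≤ 8 * a0)] at this
    linarith [(abs_le.mp this).2]
  have hPr : 0 ≤ ‖v r‖ ^ n := by positivity
  have hPx : ∀ x ∈ Icc (R1 - d) R1, ‖v x‖ ^ n ≤ om0 - η / 2 := by
    intro x hx
    have hx8 : x ∈ Icc (0 : ℝ) T := ⟨by linarith [hx.1], by linarith [hx.2]⟩
    have h1 := h.P_growth ha ha0 hr8 hx8 (hr.2.trans hx.1)
    have h3 : ‖v r‖ ^ n * Real.exp (8 * a0) ≤ (om0 - η) * (1 + 16 * a0) :=
      mul_le_mul hcon.le hexp (Real.exp_pos _).le (by linarith)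
    nlinarith
  have hm := mono_Icc (a := R1 - d) (b := R1) (f := fun x => -(sg v v1 x) - η / 4 * x)
    (f1 := fun x => -(-(11 / x) * sg v v1 x + (x / 2) * ta v v1 x - om + ‖v x‖ ^ n
      - (sg v v1 x) ^ 2 + (ta v v1 x) ^ 2) - η / 4) ?_ ?_ ?_ (x := R1 - d) (y := R1)
      ⟨le_refl _, by linarith⟩ ⟨by linarith, le_refl _⟩ (by linarith)
  · have hm := hm
    have h1 := abs_le.mp (h.sig (R1 - d) ⟨by linarith, by linarith⟩)
    have h2 := abs_le.mp (h.sig R1 ⟨by linarith, by linarith⟩)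
    nlinarith [h1.1, h1.2, h2.1, h2.2]
  · have hct : ContinuousOn (sg v v1) (Icc (R1 - d) R1) :=
      h.csg.mono (Icc_subset_Icc (by linarith) (by linarith))
    exact hct.neg.sub (by fun_prop : ContinuousOn (fun x : ℝ => η / 4 * x) (Icc (R1 - d) R1))
  · intro x hx
    have hx0 : 0 < x := by linarith [hx.1]
    have hx8 : x ∈ Ioo (0 : ℝ) T := ⟨hx0, by linarith [hx.2]⟩
    have d1 := hasDerivAt_sg hx0 (h.sol x hx8) (h.vne ⟨hx8.1.le, hx8.2.le⟩)
    have d2 : HasDerivAt (fun z : ℝ => η / 4 * z) (η / 4) x := by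
      simpa using (hasDerivAt_id x).const_mul (η / 4)
    exact d1.neg.sub d2
  · intro x hx
    have hx0 : 1 / 2 < x := by linarith [hx.1]
    have hxs : x ∈ Icc (0 : ℝ) rs := ⟨by linarith, by linarith [hx.2]⟩
    have h1 := hPx x ⟨hx.1.le, hx.2.le⟩
    have h2 := abs_le.mp (h.omeff hK1 hxs)
    have h3 := h.sig x hxs
    have h4 : |11 / x * sg v v1 x| ≤ 22 * s := by
      rw [abs_mul, abs_of_pos (by positivity : 0 < 11 / x)]
      have : 11 / x ≤ 22 := by rw [div_le_iff₀ (by linarith)]; linarith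
      exact mul_le_mul this h3 (abs_nonneg _) (by norm_num)
    have h5 := (abs_le.mp h4).1
    have h6 := sq_nonneg (sg v v1 x)
    linarith [h2.1]

end Eng

/-! ### limit profile and the final theorem -/

/-- the facts on the limit profile which are used (on an interval `[0, T]`, `R < T ≤ 8`) -/
structure Lim (R om0 T : ℝ) (U U1 : ℝ → ℂ) : Prop where
  R1 : 1 ≤ R
  RT : R < T
  T8 : T ≤ 8
  o0 : 0 < om0
  o1 : om0 ≤ 1 / 2
  cU : ContinuousOn U (Icc 0 T)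
  cU1 : ContinuousOn U1 (Icc 0 T)
  core : ∀ r ∈ Icc (0 : ℝ) R, U r = 1
  core1 : ∀ r ∈ Icc (0 : ℝ) R, U1 r = 0
  low : ∀ r ∈ Icc (0 : ℝ) T, 3 / 5 ≤ ‖U r‖
  le : ∀ r ∈ Icc (0 : ℝ) T, ‖U r‖ ≤ 1
  neg : ∀ r ∈ Ioc R T, (U1 r / U r).re < 0

/-- closeness of the logarithmic derivatives -/
lemma ld_close {a b A B : ℂ} {δ M : ℝ} (ha : 1 / 2 ≤ ‖a‖) (hA : 3 / 5 ≤ ‖A‖) (hA1 : ‖A‖ ≤ 1)
    (hB : ‖B‖ ≤ M) (h1 : ‖a - A‖ ≤ δ) (h2 : ‖b - B‖ ≤ δ) : ‖b / a - B / A‖ ≤ 4 * (1 + M) * δ := by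
  have ha0 : a ≠ 0 := norm_ne_zero_iff.mp (by linarith)
  have hA0 : A ≠ 0 := norm_ne_zero_iff.mp (by linarith)
  have hδ : 0 ≤ δ := (norm_nonneg _).trans h1
  have hM : 0 ≤ M := (norm_nonneg _).trans hB
  have e : b / a - B / A = ((b - B) * A - B * (a - A)) / (a * A) := by
    field_simp
    ring
  rw [e, norm_div, norm_mul]
  have h3 : ‖(b - B) * A - B * (a - A)‖ ≤ (1 + M) * δ := by
    refine (norm_sub_le _ _).trans ?_
    rw [norm_mul, norm_mul]
    have h4 : ‖b - B‖ * ‖A‖ ≤ δ * 1 := mul_le_mul h2 hA1 (norm_nonneg _) hδ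
    have h5 : ‖B‖ * ‖a - A‖ ≤ M * δ := mul_le_mul hB h1 (norm_nonneg _) hM
    linarith
  have h6 : 3 / 10 ≤ ‖a‖ * ‖A‖ := by
    have : (1 / 2 : ℝ) * (3 / 5) ≤ ‖a‖ * ‖A‖ := mul_le_mul ha hA (by norm_num) (norm_nonneg _)
    linarith
  rw [div_le_iff₀ (by linarith)]
  have h7 : (1 + M) * δ ≤ 4 * (1 + M) * δ * (3 / 10) := by nlinarith [mul_nonneg hM hδ]
  refine h3.trans (h7.trans ?_)
  exact mul_le_mul_of_nonneg_left h6 (by positivity)

/-- construction of the engine -/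
lemma mkEng {R om0 T : ℝ} {U U1 : ℝ → ℂ} (L : Lim R om0 T U U1) {s : ℝ} (hs : 0 < s) (hs1 : s ≤ 1) :
    ∃ rs δ : ℝ, R < rs ∧ rs < T ∧ 0 < δ ∧ δ ≤ s ∧ ∀ (n : ℕ) (om eps : ℝ) (v v1 : ℝ → ℂ),
      |om - om0| ≤ δ → 0 ≤ eps → eps ≤ δ → IsSol n om eps v v1 (Ioo 0 T) →
      ContinuousOn v (Icc 0 T) → ContinuousOn v1 (Icc 0 T) → v1 0 = 0 →
      (∀ r ∈ Icc (0 : ℝ) T, ‖v r - U r‖ ≤ δ ∧ ‖v1 r - U1 r‖ ≤ δ) →
      Eng n om0 om eps v v1 T rs s δ := by
  obtain ⟨M0, hM0⟩ := isCompact_Icc.exists_bound_of_continuousOn L.cU1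
  set M : ℝ := max M0 0 with hMdef
  have hM : ∀ r ∈ Icc (0 : ℝ) T, ‖U1 r‖ ≤ M := fun r hr => (hM0 r hr).trans (le_max_left _ _)
  have hMn : 0 ≤ M := le_max_right _ _
  have hR1 := L.R1
  have hRT := L.RT
  have hUne : ∀ r ∈ Icc (0 : ℝ) T, U r ≠ 0 := fun r hr => by
    have := L.low r hr
    exact norm_ne_zero_iff.mp (by linarith)
  set g : ℝ → ℝ := fun r => (U1 r / U r).re with hg
  have hgc : ContinuousOn g (Icc 0 T) :=
    Complex.continuous_re.comp_continuousOn (L.cU1.div L.cU hUne)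
  have hRI : R ∈ Icc (0 : ℝ) T := ⟨by linarith, hRT.le⟩
  have hgR : ∀ r ∈ Icc (0 : ℝ) R, g r = 0 := by
    intro r hr
    simp only [hg, L.core1 r hr, zero_div, Complex.zero_re]
  have hcR := (hgc R hRI)
  rw [Metric.continuousWithinAt_iff] at hcR
  obtain ⟨d, hd0, hd⟩ := hcR (s / 2) (by positivity)
  set rs : ℝ := min ((R + T) / 2) (R + d / 2) with hrs
  have hrs1 : R < rs := lt_min (by linarith) (by linarith)
  have hrs2 : rs < T := (min_le_left _ _).trans_lt (by linarith)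
  have hrs3 : rs ≤ R + d / 2 := min_le_right _ _
  have hgs : ∀ r ∈ Icc (0 : ℝ) rs, |g r| ≤ s / 2 := by
    intro r hr
    rcases le_total r R with h | h
    · rw [hgR r ⟨hr.1, h⟩, abs_zero]; positivity
    · have h1 := hd (x := r) ⟨hr.1, hr.2.trans hrs2.le⟩ (by
        rw [Real.dist_eq, abs_of_nonneg (by linarith)]; linarith [hr.2])
      rw [Real.dist_eq, hgR R ⟨by linarith, le_refl _⟩, sub_zero] at h1
      exact h1.le
  obtain ⟨x, hx, hmax⟩ := isCompact_Icc.exists_isMaxOn (⟨rs, ⟨le_refl _, hrs2.le⟩⟩ : (Icc rs T).Nonempty)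
    (hgc.mono (Icc_subset_Icc_left (by linarith : (0 : ℝ) ≤ rs)))
  have hgx : g x < 0 := L.neg x ⟨hrs1.trans_le hx.1, hx.2⟩
  set μ : ℝ := -(g x) with hμ
  have hμ0 : 0 < μ := by rw [hμ]; linarith
  have hgμ : ∀ r ∈ Icc rs T, g r ≤ -μ := by
    intro r hr
    have : g r ≤ g x := hmax hr
    rw [hμ]; linarith
  set δ : ℝ := min (min s (1 / 10)) (min (s / (8 * (1 + M))) (μ / (8 * (1 + M)))) with hδ
  have hδ0 : 0 < δ := by
    rw [hδ]
    refine lt_min (lt_min hs (by norm_num)) (lt_min ?_ ?_) <;> positivity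
  have hδ1 : δ ≤ s := (min_le_left _ _).trans (min_le_left _ _)
  have hδ2 : δ ≤ 1 / 10 := (min_le_left _ _).trans (min_le_right _ _)
  have hδ3 : 4 * (1 + M) * δ ≤ s / 2 := by
    have : δ ≤ s / (8 * (1 + M)) := (min_le_right _ _).trans (min_le_left _ _)
    rw [le_div_iff₀ (by positivity)] at this
    linarith
  have hδ4 : 4 * (1 + M) * δ ≤ μ / 2 := by
    have : δ ≤ μ / (8 * (1 + M)) := (min_le_right _ _).trans (min_le_right _ _)
    rw [le_div_iff₀ (by positivity)] at this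
    linarith
  refine ⟨rs, δ, hrs1, hrs2, hδ0, hδ1, ?_⟩
  intro n om eps v v1 hom he0 he1 hsol hv hv1 hv10 hcl
  have hlow : ∀ r ∈ Icc (0 : ℝ) T, 1 / 2 ≤ ‖v r‖ := by
    intro r hr
    have h1 := L.low r hr
    have h2 := (hcl r hr).1
    have h3 : ‖U r‖ ≤ ‖v r‖ + ‖v r - U r‖ := by
      have := norm_sub_le (v r) (v r - U r)
      simpa using this
    linarith
  have hclose : ∀ r ∈ Icc (0 : ℝ) T, |sg v v1 r - g r| ≤ 4 * (1 + M) * δ := by
    intro r hr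
    have h1 := ld_close (hlow r hr) (L.low r hr) (L.le r hr) (hM r hr) (hcl r hr).1 (hcl r hr).2
    have h2 := Complex.abs_re_le_norm (v1 r / v r - U1 r / U r)
    rw [Complex.sub_re] at h2
    exact h2.trans h1
  exact
    { sol := hsol
      cv := hv
      cv1 := hv1
      v10 := hv10
      low := hlow
      up := by
        intro r hr
        have h1 := L.le r hr
        have h2 := (hcl r hr).1
        have h3 : ‖v r‖ ≤ ‖U r‖ + ‖v r - U r‖ := by
          have := norm_add_le (U r) (v r - U r)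
          simpa using this
        linarith
      rs0 := by linarith
      rs8 := hrs2
      T8 := L.T8
      sig := by
        intro r hr
        have h1 := hclose r ⟨hr.1, hr.2.trans hrs2.le⟩
        have h2 := hgs r hr
        have h3 := abs_le.mp h1
        have h4 := abs_le.mp h2
        rw [abs_le]
        constructor <;> linarith
      sigr := by
        intro r hr
        have h1 := abs_le.mp (hclose r ⟨by linarith [hr.1], hr.2⟩)
        have h2 := hgμ r hr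
        linarith [h1.2]
      s0 := hs.le
      s1 := hs1
      e0 := hδ0.le
      e1 := by linarith
      eps0 := he0
      epse := he1
      ome := hom }

/-- **MAIN THEOREM**: facts on `P = |v|^n`, `sigma`, `tau` for all solutions `C¹`-close to the limit profile -/
theorem pfacts {R om0 T : ℝ} {U U1 : ℝ → ℂ} (L : Lim R om0 T U U1) {η : ℝ} (hη : 0 < η) :
    ∃ δ : ℝ, 0 < δ ∧ ∃ n0 : ℕ, ∀ n : ℕ, n0 ≤ n → ∀ (om : ℝ) (v v1 : ℝ → ℂ),
      |om - om0| ≤ δ → IsSol n om (1 / n) v v1 (Ioo 0 T) →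
      ContinuousOn v (Icc 0 T) → ContinuousOn v1 (Icc 0 T) → v1 0 = 0 →
      (∀ r ∈ Icc (0 : ℝ) T, ‖v r - U r‖ ≤ δ ∧ ‖v1 r - U1 r‖ ≤ δ) →
      (∀ r ∈ Icc (0 : ℝ) T, 1 / 2 ≤ ‖v r‖) ∧
      (∀ r ∈ Icc (0 : ℝ) R, |sg v v1 r| ≤ η) ∧
      (∀ r ∈ Icc (0 : ℝ) R, |ta v v1 r| ≤ η * r) ∧
      (∀ r ∈ Icc (0 : ℝ) T, n * sg v v1 r ≤ η) ∧
      (∀ r ∈ Icc (0 : ℝ) T, ‖v r‖ ^ n ≤ om0 + η) ∧
      (∀ r ∈ Icc (0 : ℝ) (R - η), om0 - η ≤ ‖v r‖ ^ n) := by
  set η1 : ℝ := min η (1 / 2) with hη1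
  have h10 : 0 < η1 := by rw [hη1]; exact lt_min hη (by norm_num)
  have h11 : η1 ≤ η := min_le_left _ _
  have h12 : η1 ≤ 1 / 2 := min_le_right _ _
  have ho0 := L.o0
  have ho1 := L.o1
  have hR1 := L.R1
  have hRT := L.RT
  set s : ℝ := η1 ^ 2 * om0 / 2000000 with hs
  have hs0 : 0 < s := by rw [hs]; positivity
  have hq1 : η1 ^ 2 * om0 ≤ η1 * om0 := by nlinarith [mul_pos h10 ho0]
  have hq2 : η1 ^ 2 * om0 ≤ om0 := by nlinarith [mul_pos h10 ho0]
  have hq3 : η1 ^ 2 * om0 ≤ η1 := by nlinarith [mul_pos h10 ho0]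
  have hq4 : η1 ^ 2 * om0 ≤ η1 ^ 2 := by nlinarith [sq_nonneg η1]
  have hsη : s ≤ η1 := by rw [hs]; linarith
  obtain ⟨rs, δ, hrs1, hrs2, hδ0, hδs, hE⟩ := mkEng L hs0 (by linarith : s ≤ 1)
  refine ⟨δ, hδ0, max 1 ⌈1 / δ⌉₊, ?_⟩
  intro n hn om v v1 hom hsol hv hv1 hv10 hcl
  have hn1 : 1 ≤ n := (le_max_left _ _).trans hn
  have hn2 : 1 / δ ≤ n := (Nat.le_ceil _).trans (by exact_mod_cast (le_max_right _ _).trans hn)
  have hnR : (1 : ℝ) ≤ n := by exact_mod_cast hn1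
  have hnδ : 1 / (n : ℝ) ≤ δ := by
    rw [div_le_iff₀ (by linarith)]
    rw [div_le_iff₀ hδ0] at hn2
    linarith
  have h := hE n om (1 / n) v v1 hom (by positivity) hnδ hsol hv hv1 hv10 hcl
  have hK : 4 * s + δ ≤ 5 * s := by linarith
  have hK1 : 4 * s + δ ≤ 1 / 16 := by rw [hs] at hK; linarith
  have hK2 : 200 * (4 * s + δ) ≤ om0 := by rw [hs] at hK; linarith
  have hpos := mul_pos h10 ho0
  have hK3 : 3000 * (4 * s + δ) < η1 / 100 * om0 := by rw [hs] at hK; nlinarith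
  have hK4 : 1000 * (4 * s + δ) ≤ η1 := by rw [hs] at hK; linarith
  have hK5 : 2 * (4 * s + δ) ≤ η1 := by linarith
  have ha : ∀ r ∈ Icc (0 : ℝ) T, n * sg v v1 r ≤ η1 / 100 := fun r hr =>
    h.a_le (by positivity) ho0 hn1 hK1 hK2 hK3 hr
  have hPc : ∀ r ∈ Icc (0 : ℝ) rs, ‖v r‖ ^ n ≤ om0 + η1 := fun r hr =>
    h.P_le_core ha (by positivity) (by linarith) h10 (by linarith) ho0 ho1 hn1 (by nlinarith) hK1 hK4 hr
  refine ⟨h.low, ?_, ?_, ?_, ?_, ?_⟩
  · intro r hr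
    exact (h.sig r ⟨hr.1, hr.2.trans hrs1.le⟩).trans (by linarith)
  · intro r hr
    refine (h.tau_le ⟨hr.1, hr.2.trans hrs1.le⟩).trans ?_
    exact mul_le_mul_of_nonneg_right (by linarith) hr.1
  · intro r hr
    exact (ha r hr).trans (by linarith)
  · intro r hr
    rcases le_total r rs with h1 | h1
    · exact (hPc r ⟨hr.1, h1⟩).trans (by linarith)
    · -- `P` decreases on `[rs, T]`
      have hm := mono_Icc (a := rs) (b := T) (f := fun z => -(‖v z‖ ^ n))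
        (f1 := fun z => -(n * sg v v1 z * ‖v z‖ ^ n)) ?_ ?_ ?_ (x := rs) (y := r)
        ⟨le_refl _, hrs2.le⟩ ⟨h1, hr.2⟩ h1
      · have h2 := hPc rs ⟨by linarith, le_refl _⟩
        have hm' : -(‖v rs‖ ^ n) ≤ -(‖v r‖ ^ n) := hm
        linarith
      · exact ((h.cv.mono (Icc_subset_Icc_left (by linarith))).norm.pow n).neg
      · intro z hz
        have hz0 : 0 < z := by linarith [hz.1]
        exact (hasDerivAt_P n (h.sol z ⟨hz0, hz.2⟩).1 (h.vne ⟨hz0.le, hz.2.le⟩)).neg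
      · intro z hz
        have h2 := h.sigr z ⟨hz.1.le, hz.2.le⟩
        have h3 : 0 ≤ ‖v z‖ ^ n := by positivity
        have h4 : n * sg v v1 z ≤ 0 := by nlinarith
        nlinarith
  · intro r hr
    have h2 := h.P_ge_core (R1 := R) (d := η1) ha (by positivity) (by linarith) h10 (by linarith) ho1
      hrs1.le h10 (by linarith) (by rw [hs]; nlinarith) hK1 hK4 (r := r) ⟨hr.1, by linarith [hr.2]⟩
    linarith

end Crest.Agent.R086.PF
end

-- ▼ part R086/PFacts2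

/-!
Row 86, part B (helper548): `PF.Lim` from `LimitProfile`, and the fields `pow_ge`, `logder` of `BData`
(in the variables of `BSeq`).
-/

set_option autoImplicit false

open Complex Set Filter Topology

namespace Crest.Agent.R086.PF

open Crest.Agent.R086.B

/-- `U' = 0` on `[0,R]` -/
lemma deriv_core {om0 R : ℝ} {U : ℝ → ℂ} (L : LimitProfile om0 R U) : ∀ r, r ≤ R → deriv U r = 0 := by
  have hcd : Continuous (deriv U) := L.c1.continuous_deriv le_rfl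
  have h1 : ∀ r, r < R → deriv U r = 0 := by
    intro r hr
    have : U =ᶠ[𝓝 r] fun _ => (1 : ℂ) := by
      filter_upwards [Iio_mem_nhds hr] with x hx
      exact L.core x (le_of_lt hx)
    rw [this.deriv_eq, deriv_const]
  intro r hr
  rcases hr.lt_or_eq with h | h
  · exact h1 r h
  · subst h
    have hcl : r ∈ closure (Iio r) := by rw [closure_Iio]; exact Set.mem_Iic.mpr le_rfl
    have hset : IsClosed {x | deriv U x = 0} := isClosed_eq hcd continuous_const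
    exact (closure_minimal (fun x hx => h1 x hx) hset) hcl

/-- the limit profile satisfies the hypotheses `PF.Lim` with `T = 9/2` -/
theorem lim_of_limitProfile {om0 R : ℝ} {U : ℝ → ℂ} (L : LimitProfile om0 R U) :
    Lim R om0 (9 / 2) U (deriv U) := by
  have hR1 := L.R_lo
  have hR2 := L.R_hi
  have ho1 := L.om_lo
  have ho2 := L.om_hi
  have hcd : Continuous (deriv U) := L.c1.continuous_deriv le_rfl
  have hc : Continuous U := L.c1.continuous
  have hdU : ∀ r, HasDerivAt U (deriv U r) r := fun r =>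
    ((L.c1.differentiable one_ne_zero) r).hasDerivAt
  refine
    { R1 := by linarith
      RT := by linarith
      T8 := by norm_num
      o0 := by linarith
      o1 := by linarith
      cU := hc.continuousOn
      cU1 := hcd.continuousOn
      core := fun r hr => L.core r hr.2
      core1 := fun r hr => deriv_core L r hr.2
      low := fun r _ => by
        have := L.lower r
        norm_num at this ⊢
        linarith
      le := ?_
      neg := ?_ }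
  · intro r _
    rcases le_or_gt r R with h | h
    · rw [L.core r h]; simp
    · exact (L.lt_one r h).le
  · intro r hr
    have h1 := A3.re_conj_mul_neg (om := om0) (R := R) (b := 9 / 2) (U := U) (U1 := deriv U)
      (by linarith) (by linarith) (by nlinarith) hc.continuousOn hcd.continuousOn
      (fun x _ => hdU x) (fun x hx => L.ode x hx.1)
      (by rw [L.core R le_rfl]; exact one_ne_zero) (deriv_core L R le_rfl) r hr
    have h2 : 6 / 10 ≤ ‖U r‖ := L.lower r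
    have h3 : U r ≠ 0 := norm_ne_zero_iff.mp (by linarith)
    have h4 : 0 < normSq (U r) := normSq_pos.mpr h3
    have h5 : (deriv U r / U r).re = ((starRingEnd ℂ (U r)) * deriv U r).re / normSq (U r) := by
      rw [Complex.div_re, Complex.mul_re, Complex.conj_re, Complex.conj_im]
      field_simp
      ring
    rw [h5]
    exact div_neg_of_neg_of_pos h1 h4

/-- all facts on one interval, for the sequence -/
theorem facts_of_BSeq {om0 R T : ℝ} {U U1 : ℝ → ℂ} (S : BSeq om0 R U U1) (L : Lim R om0 T U U1)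
    {η : ℝ} (hη : 0 < η) : ∃ N : ℕ, ∀ n : ℕ, N ≤ n → Even n →
      (∀ r ∈ Icc (0 : ℝ) T, 1 / 2 ≤ ‖S.v n r‖) ∧
      (∀ r ∈ Icc (0 : ℝ) R, |sg (S.v n) (S.v1 n) r| ≤ η) ∧
      (∀ r ∈ Icc (0 : ℝ) R, |ta (S.v n) (S.v1 n) r| ≤ η * r) ∧
      (∀ r ∈ Icc (0 : ℝ) T, n * sg (S.v n) (S.v1 n) r ≤ η) ∧
      (∀ r ∈ Icc (0 : ℝ) T, ‖S.v n r‖ ^ n ≤ om0 + η) ∧
      (∀ r ∈ Icc (0 : ℝ) (R - η), om0 - η ≤ ‖S.v n r‖ ^ n) := by
  obtain ⟨δ, hδ, n0, h⟩ := pfacts L hη
  obtain ⟨N1, hN1⟩ := S.conv δ hδ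
  obtain ⟨N2, hN2⟩ := (Metric.tendsto_atTop.mp S.om_lim) δ hδ
  refine ⟨max (max n0 S.n1) (max N1 N2), fun n hn hev => ?_⟩
  have h1 : n0 ≤ n := (le_max_left _ _).trans ((le_max_left _ _).trans hn)
  have h2 : S.n1 ≤ n := (le_max_right _ _).trans ((le_max_left _ _).trans hn)
  have h3 : N1 ≤ n := (le_max_left _ _).trans ((le_max_right _ _).trans hn)
  have h4 : N2 ≤ n := (le_max_right _ _).trans ((le_max_right _ _).trans hn)
  obtain ⟨a1, a2, a3, a4⟩ := S.sol n h2 hev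
  have hT : T ≤ 2 * Real.sqrt S.X + 1 := by
    have hX := S.X_ge
    have : (4 : ℝ) ≤ Real.sqrt S.X := by
      apply Real.le_sqrt_of_sq_le
      norm_num
      linarith
    linarith [L.T8]
  have hsub : Icc (0 : ℝ) T ⊆ Ici 0 := fun x hx => hx.1
  refine h n h1 (S.om n) (S.v n) (S.v1 n) ?_ (fun r hr => a4 r hr.1) (a1.mono hsub) (a2.mono hsub) a3 ?_
  · have := hN2 n h4
    rw [Real.dist_eq] at this
    exact this.le
  · intro r hr
    exact hN1 n h3 hev r ⟨hr.1, hr.2.trans hT⟩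

/-- `BData.logder`, in the variables of `BSeq` -/
theorem logder_of_BSeq {om0 R : ℝ} {U : ℝ → ℂ} (L : LimitProfile om0 R U) (S : BSeq om0 R U (deriv U)) :
    ∃ del0 : ℝ, 0 < del0 ∧ ∀ e : ℝ, 0 < e → ∃ N : ℕ, ∀ n : ℕ, N ≤ n → Even n →
      ∀ r ∈ Icc (0 : ℝ) (R + del0), (n : ℝ) * (S.v1 n r / S.v n r).re ≤ e := by
  refine ⟨1, one_pos, fun e he => ?_⟩
  obtain ⟨N, hN⟩ := facts_of_BSeq S (lim_of_limitProfile L) he
  refine ⟨N, fun n hn hev r hr => ?_⟩
  obtain ⟨_, _, _, h, _, _⟩ := hN n hn hev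
  exact h r ⟨hr.1, hr.2.trans (by linarith [L.R_hi])⟩

/-- `BData.pow_ge`, in the variables of `BSeq` -/
theorem pow_ge_of_BSeq {om0 R : ℝ} {U : ℝ → ℂ} (L : LimitProfile om0 R U) (S : BSeq om0 R U (deriv U)) :
    ∀ del : ℝ, 0 < del → ∃ c : ℝ, 0 < c ∧ ∃ N : ℕ, ∀ n : ℕ, N ≤ n → Even n →
      ∀ r ∈ Icc (0 : ℝ) (R - del), c ≤ ‖S.v n r‖ ^ n := by
  intro del hdel
  have ho := L.om_lo
  obtain ⟨N, hN⟩ := facts_of_BSeq S (lim_of_limitProfile L) (η := min del (1 / 10))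
    (lt_min hdel (by norm_num))
  refine ⟨1 / 10, by norm_num, N, fun n hn hev r hr => ?_⟩
  obtain ⟨_, _, _, _, _, h⟩ := hN n hn hev
  have h1 := h r ⟨hr.1, hr.2.trans (by linarith [min_le_left del (1 / 10)])⟩
  linarith [min_le_right del (1 / 10 : ℝ)]


end Crest.Agent.R086.PF
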