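import Mathlib
import Crest.Agent.R086.BMatchF
import Crest.Agent.R086.BDefs
import Crest.Agent.R086.BMatchY2
import Crest.Agent.R086.CoreODE
import Crest.Agent.R086.BMatchD
import Crest.Agent.R086.ABIface
import Crest.Agent.R086.Phi
import Crest.Agent.R086.BCIface
import Crest.Agent.R086.OutFam
import Crest.Agent.R086.BFin2
import Crest.Agent.R086.BPolyFin
import Crest.Agent.R086.PFacts2_Mg

-- ▼ part R086/BMatchZ
section

/-! # Row 86, Part B, matching: existence of the matching parameters (helper651) -/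

set_option autoImplicit false

open Set Filter Topology Complex

namespace Crest.Agent.R086.BMatch

/-- Matching: if `DI` (interior derivative at `rho`) and `DE` (exterior derivative at `rho`) are
continuous and close to their limits, they agree for some parameters near `(om0, R0)`. -/
theorem matching_zero
    {Y Y1 : ℝ → ℝ → ℝ → ℂ}
    (hYc : Continuous fun q : ℝ × ℝ × ℝ => Y q.1 q.2.1 q.2.2)
    (hY1c : Continuous fun q : ℝ × ℝ × ℝ => Y1 q.1 q.2.1 q.2.2)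
    (hY : ∀ om ∈ Icc (1/5 : ℝ) (1/2), ∀ R1 ∈ Icc (3 : ℝ) (18/5),
      Y om R1 R1 = 1 ∧ Y1 om R1 R1 = 0 ∧ LinSol om (Y om R1) (Y1 om R1) (Ici 1))
    {f f1 : ℝ → ℝ → ℂ} {om0 R0 rho δf : ℝ}
    (hom0 : om0 ∈ Ioo (1/5 : ℝ) (1/2)) (hR0 : R0 ∈ Ioo (3 : ℝ) (18/5)) (hrho : R0 < rho)
    (hδf : 0 < δf)
    (hf : ∀ om ∈ Icc (om0 - δf) (om0 + δf), LinSol om (f om) (f1 om) (Icc 3 rho))
    (hfc : ContinuousAt (fun om => f om rho) om0)
    (hfrho : f om0 rho ≠ 0) (hz : f1 om0 R0 = 0)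
    (L : (ℝ × ℝ) ≃L[ℝ] ℂ)
    (hL : HasFDerivAt (fun p : ℝ × ℝ => f1 p.1 p.2) (L : (ℝ × ℝ) →L[ℝ] ℂ) (om0, R0))
    (δ₀ : ℝ) (hδ₀ : 0 < δ₀) :
    ∃ δ : ℝ, 0 < δ ∧ δ ≤ δ₀ ∧ ∃ η : ℝ, 0 < η ∧
      ∀ DI DE : ℝ × ℝ → ℂ, ContinuousOn DI (Metric.closedBall (om0, R0) δ) →
        ContinuousOn DE (Metric.closedBall (om0, R0) δ) →
        (∀ p ∈ Metric.closedBall (om0, R0) δ, ‖DI p - Y1 p.1 p.2 rho‖ ≤ η ∧
          ‖DE p - f1 p.1 rho / f p.1 rho * Y p.1 p.2 rho‖ ≤ η) →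
        ∃ p ∈ Metric.closedBall (om0, R0) δ, DI p = DE p := by
  set E : ℝ → ℂ := fun r => (r : ℂ) ^ 11 * cexp (I * r ^ 2 / 4) with hE
  have hE0 : ∀ r : ℝ, r ≠ 0 → E r ≠ 0 := by
    intro r hr
    exact mul_ne_zero (pow_ne_zero _ (by exact_mod_cast hr)) (exp_ne_zero _)
  have hEc : Continuous E := by fun_prop
  have hrho0 : rho ≠ 0 := by
    have := hR0.1
    linarith
  set u : ℝ × ℝ → ℂ := fun p => -(E p.2) / (E rho * f p.1 rho) with hu
  set F : ℝ × ℝ → ℂ := fun p => Y1 p.1 p.2 rho - f1 p.1 rho / f p.1 rho * Y p.1 p.2 rho with hF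
  have huc : ContinuousAt u (om0, R0) := by
    refine ContinuousAt.div ?_ ?_ ?_
    · exact (hEc.comp continuous_snd).continuousAt.neg
    · refine continuousAt_const.mul ?_
      exact ContinuousAt.comp (f := fun p : ℝ × ℝ => p.1) (g := fun om => f om rho) hfc continuousAt_fst
    · exact mul_ne_zero (hE0 _ hrho0) hfrho
  have hu0 : u (om0, R0) ≠ 0 := by
    have hR0' : R0 ≠ 0 := by have := hR0.1; linarith
    exact div_ne_zero (neg_ne_zero.2 (hE0 _ hR0')) (mul_ne_zero (hE0 _ hrho0) hfrho)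
  -- the identity near the base point
  have hev : F =ᶠ[𝓝 (om0, R0)] fun p => u p * f1 p.1 p.2 := by
    have e1 : ∀ᶠ p : ℝ × ℝ in 𝓝 (om0, R0), f p.1 rho ≠ 0 := by
      have : ContinuousAt (fun p : ℝ × ℝ => f p.1 rho) (om0, R0) :=
        ContinuousAt.comp (f := fun p : ℝ × ℝ => p.1) (g := fun om => f om rho) hfc continuousAt_fst
      exact this.eventually_ne hfrho
    have e2 : ∀ᶠ p : ℝ × ℝ in 𝓝 (om0, R0), p.1 ∈ Ioo (max (1/5) (om0 - δf)) (min (1/2) (om0 + δf)) := by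
      refine continuousAt_fst.eventually (Ioo_mem_nhds ?_ ?_)
      · exact max_lt hom0.1 (by simp only; linarith)
      · exact lt_min hom0.2 (by simp only; linarith)
    have e3 : ∀ᶠ p : ℝ × ℝ in 𝓝 (om0, R0), p.2 ∈ Ioo (3 : ℝ) (min (18/5) rho) := by
      refine continuousAt_snd.eventually (Ioo_mem_nhds ?_ ?_)
      · exact hR0.1
      · exact lt_min hR0.2 hrho
    filter_upwards [e1, e2, e3] with p h1 h2 h3
    obtain ⟨om, R1⟩ := p
    simp only at h1 h2 h3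
    have hom : om ∈ Icc (1/5 : ℝ) (1/2) :=
      ⟨((le_max_left _ _).trans_lt h2.1).le, (h2.2.trans_le (min_le_left _ _)).le⟩
    have hom' : om ∈ Icc (om0 - δf) (om0 + δf) :=
      ⟨((le_max_right _ _).trans_lt h2.1).le, (h2.2.trans_le (min_le_right _ _)).le⟩
    have hR1 : R1 ∈ Icc (3 : ℝ) (18/5) := ⟨h3.1.le, (h3.2.trans_le (min_le_left _ _)).le⟩
    have hR1r : R1 ≤ rho := (h3.2.trans_le (min_le_right _ _)).le
    obtain ⟨y0, y1, hlin⟩ := hY om hom R1 hR1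
    have hR1p : 0 < R1 := by linarith [h3.1]
    have hw := wronskian (y := Y om R1) (y1 := Y1 om R1) (f := f om) (f1 := f1 om) hR1p hR1r
      (fun r hr => hlin r (by have := hr.1; have := h3.1; exact (by linarith : (1:ℝ) ≤ r)))
      (fun r hr => hf om hom' r ⟨h3.1.le.trans hr.1, hr.2⟩)
    rw [y0, y1] at hw
    simp only [hF, hu, hE]
    have hrc : (rho : ℂ) ≠ 0 := by exact_mod_cast hrho0
    have hex : cexp (I * (rho : ℂ) ^ 2 / 4) ≠ 0 := exp_ne_zero _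
    generalize cexp (I * (rho : ℂ) ^ 2 / 4) = er at hw hex ⊢
    generalize cexp (I * (R1 : ℂ) ^ 2 / 4) = eR at hw ⊢
    field_simp
    linear_combination hw
  have hFd : HasFDerivAt F ((smulEquiv L (u (om0, R0)) hu0 : (ℝ × ℝ) ≃L[ℝ] ℂ) : (ℝ × ℝ) →L[ℝ] ℂ)
      (om0, R0) := by
    rw [smulEquiv_coe]
    exact (hasFDerivAt_mul_of_zero huc hL hz).congr_of_eventuallyEq hev
  have hF0 : F (om0, R0) = 0 := by
    rw [hev.eq_of_nhds]
    simp [hz]
  obtain ⟨δ, hδ, hδ', η, hη, hmain⟩ := zero_of_close_complex F (om0, R0) _ hFd hF0 δ₀ hδ₀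
  refine ⟨δ, hδ, hδ', η / 2, by positivity, ?_⟩
  intro DI DE hDI hDE hcl
  obtain ⟨p, hp, hp0⟩ := hmain (fun p => DI p - DE p) (hDI.sub hDE) (by
    intro p hp
    obtain ⟨a1, a2⟩ := hcl p hp
    have : DI p - DE p - F p
        = (DI p - Y1 p.1 p.2 rho) - (DE p - f1 p.1 rho / f p.1 rho * Y p.1 p.2 rho) := by
      simp only [hF]; ring
    rw [this]
    refine (norm_sub_le _ _).trans ?_
    linarith)
  exact ⟨p, hp, sub_eq_zero.1 hp0⟩

end Crest.Agent.R086.BMatch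
end

-- ▼ part R086/BMatchG
section

/-! # Row 86, Part B, matching: gluing of an interior and an exterior solution, uniqueness for the
linear equation (helper651) -/

set_option autoImplicit false

open Set Filter Topology Complex

namespace Crest.Agent.R086.BMatch

open Crest.Agent.R086.B

/-- two-sided derivative of a glued function at the interface -/
theorem hasDerivAt_glue {f f1 : ℝ → ℂ} {a b x : ℝ} (hx : x ∈ Ioo a b)
    (hd : ∀ y ∈ Ioo a b, y ≠ x → HasDerivAt f (f1 y) y) (hf : ContinuousAt f x)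
    (hf1 : ContinuousAt f1 x) : HasDerivAt f (f1 x) x := by
  have A : HasDerivWithinAt f (f1 x) (Ici x) x := by
    have diff : DifferentiableOn ℝ f (Ioo x b) := fun y hy =>
      (hd y ⟨hx.1.trans hy.1, hy.2⟩ (ne_of_gt hy.1)).differentiableAt.differentiableWithinAt
    apply hasDerivWithinAt_Ici_of_tendsto_deriv diff hf.continuousWithinAt
      (Ioo_mem_nhdsGT hx.2)
    have : Tendsto f1 (𝓝[>] x) (𝓝 (f1 x)) := tendsto_inf_left hf1
    apply this.congr' _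
    filter_upwards [Ioo_mem_nhdsGT hx.2] with y hy
    exact (hd y ⟨hx.1.trans hy.1, hy.2⟩ (ne_of_gt hy.1)).deriv.symm
  have B : HasDerivWithinAt f (f1 x) (Iic x) x := by
    have diff : DifferentiableOn ℝ f (Ioo a x) := fun y hy =>
      (hd y ⟨hy.1, hy.2.trans hx.2⟩ (ne_of_lt hy.2)).differentiableAt.differentiableWithinAt
    apply hasDerivWithinAt_Iic_of_tendsto_deriv diff hf.continuousWithinAt
      (Ioo_mem_nhdsLT hx.1)
    have : Tendsto f1 (𝓝[<] x) (𝓝 (f1 x)) := tendsto_inf_left hf1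
    apply this.congr' _
    filter_upwards [Ioo_mem_nhdsLT hx.1] with y hy
    exact (hd y ⟨hy.1, hy.2.trans hx.2⟩ (ne_of_lt hy.2)).deriv.symm
  simpa using B.union A

/-- glued function -/
noncomputable def glue (rho : ℝ) (f g : ℝ → ℂ) (r : ℝ) : ℂ := if r ≤ rho then f r else g r

theorem glue_le {rho : ℝ} {f g : ℝ → ℂ} {r : ℝ} (h : r ≤ rho) : glue rho f g r = f r := if_pos h

theorem glue_ge {rho : ℝ} {f g : ℝ → ℂ} (hfg : f rho = g rho) {r : ℝ} (h : rho ≤ r) :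
    glue rho f g r = g r := by
  unfold glue
  split_ifs with h1
  · have : r = rho := le_antisymm h1 h
    rw [this, hfg]
  · rfl

theorem continuousOn_glue {rho : ℝ} {f g : ℝ → ℂ} (hrho : 0 ≤ rho)
    (hf : ContinuousOn f (Icc 0 rho)) (hg : ContinuousOn g (Ici rho)) (hfg : f rho = g rho) :
    ContinuousOn (glue rho f g) (Ici 0) := by
  have h1 : ContinuousOn (glue rho f g) (Icc 0 rho) := hf.congr fun r hr => glue_le hr.2
  have h2 : ContinuousOn (glue rho f g) (Ici rho) := hg.congr fun r hr => glue_ge hfg hr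
  have h3 : Ici (0:ℝ) = Icc 0 rho ∪ Ici rho := (Icc_union_Ici_eq_Ici hrho).symm
  rw [h3]
  exact ContinuousOn.union_of_isClosed h1 h2 isClosed_Icc isClosed_Ici

/-- gluing of solutions -/
theorem isSol_glue {n : ℕ} {om eps rho : ℝ} {v v1 w w1 : ℝ → ℂ} (hrho : 0 < rho)
    (hv : ContinuousOn v (Icc 0 rho)) (hv1 : ContinuousOn v1 (Icc 0 rho))
    (hw : ContinuousOn w (Ici rho)) (hw1 : ContinuousOn w1 (Ici rho))
    (hs : IsSol n om eps v v1 (Ioo 0 rho)) (ht : IsSol n om eps w w1 (Ioi rho))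
    (h0 : v rho = w rho) (h1 : v1 rho = w1 rho) :
    IsSol n om eps (glue rho v w) (glue rho v1 w1) (Ioi 0) := by
  have hc := continuousOn_glue hrho.le hv hw h0
  have hc1 := continuousOn_glue hrho.le hv1 hw1 h1
  -- away from the interface
  have key : ∀ r ∈ Ioi (0:ℝ), r ≠ rho → HasDerivAt (glue rho v w) (glue rho v1 w1 r) r ∧
      HasDerivAt (glue rho v1 w1) (-(11 / (r : ℂ) + I * r / 2) * glue rho v1 w1 r
        - ((om : ℂ) + I * eps) * glue rho v w r +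
        ((‖glue rho v w r‖ ^ n : ℝ) : ℂ) * glue rho v w r) r := by
    intro r hr hne
    rcases lt_or_gt_of_ne hne with hlt | hgt
    · have e0 : glue rho v w =ᶠ[𝓝 r] v := by
        filter_upwards [Iio_mem_nhds hlt] with x hx using glue_le hx.le
      have e1 : glue rho v1 w1 =ᶠ[𝓝 r] v1 := by
        filter_upwards [Iio_mem_nhds hlt] with x hx using glue_le hx.le
      have := hs r ⟨hr, hlt⟩
      rw [e0.eq_of_nhds, e1.eq_of_nhds]
      exact ⟨this.1.congr_of_eventuallyEq e0, this.2.congr_of_eventuallyEq e1⟩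
    · have e0 : glue rho v w =ᶠ[𝓝 r] w := by
        filter_upwards [Ioi_mem_nhds hgt] with x hx using glue_ge h0 (le_of_lt hx)
      have e1 : glue rho v1 w1 =ᶠ[𝓝 r] w1 := by
        filter_upwards [Ioi_mem_nhds hgt] with x hx using glue_ge h1 (le_of_lt hx)
      have := ht r hgt
      rw [e0.eq_of_nhds, e1.eq_of_nhds]
      exact ⟨this.1.congr_of_eventuallyEq e0, this.2.congr_of_eventuallyEq e1⟩
  have hcA : ∀ r ∈ Ioi (0:ℝ), ContinuousAt (glue rho v w) r := fun r hr =>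
    hc.continuousAt (Ici_mem_nhds hr)
  have hcA1 : ∀ r ∈ Ioi (0:ℝ), ContinuousAt (glue rho v1 w1) r := fun r hr =>
    hc1.continuousAt (Ici_mem_nhds hr)
  intro r hr
  by_cases hne : r = rho
  · have hmem : r ∈ Ioo 0 (r + 1) := ⟨hr, by linarith⟩
    refine ⟨?_, ?_⟩
    · refine hasDerivAt_glue hmem (fun y hy hy2 => (key y hy.1 (fun h => hy2 (h.trans hne.symm))).1)
        (hcA r hr) (hcA1 r hr)
    · have hcont : ContinuousAt (fun r : ℝ => -(11 / (r : ℂ) + I * r / 2) * glue rho v1 w1 r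
        - ((om : ℂ) + I * eps) * glue rho v w r +
        ((‖glue rho v w r‖ ^ n : ℝ) : ℂ) * glue rho v w r) r := by
        have hr0 : (r : ℂ) ≠ 0 := by
          have : r ≠ 0 := ne_of_gt hr
          exact_mod_cast this
        have a1 : ContinuousAt (fun r : ℝ => -(11 / (r : ℂ) + I * r / 2)) r := by
          refine (ContinuousAt.add ?_ ?_).neg
          · exact continuousAt_const.div Complex.continuous_ofReal.continuousAt hr0
          · fun_prop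
        have a2 : ContinuousAt (fun r : ℝ => ((‖glue rho v w r‖ ^ n : ℝ) : ℂ)) r :=
          Complex.continuous_ofReal.continuousAt.comp ((hcA r hr).norm.pow n)
        exact ((a1.mul (hcA1 r hr)).sub (continuousAt_const.mul (hcA r hr))).add
          (a2.mul (hcA r hr))
      exact hasDerivAt_glue hmem
        (fun y hy hy2 => (key y hy.1 (fun h => hy2 (h.trans hne.symm))).2) (hcA1 r hr) hcont
  · exact key r hr hne

end Crest.Agent.R086.BMatch
end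

-- ▼ part R086/CoreMax
section

/-!
Row 86 (S0114), Part B interior (helper702): maximum principle for regular solutions.
-/

set_option autoImplicit false

open Set MeasureTheory Complex

namespace Crest.Agent.R086.Core

theorem hasDerivAt_re' {f : ℝ → ℂ} {f' : ℂ} {x : ℝ} (h : HasDerivAt f f' x) :
    HasDerivAt (fun y => (f y).re) f'.re x :=
  (Complex.reCLM.hasFDerivAt (x := f x)).comp_hasDerivAt x h

theorem hasDerivAt_im' {f : ℝ → ℂ} {f' : ℂ} {x : ℝ} (h : HasDerivAt f f' x) :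
    HasDerivAt (fun y => (f y).im) f'.im x :=
  (Complex.imCLM.hasFDerivAt (x := f x)).comp_hasDerivAt x h

/-- **Maximum principle.** If `Re (conj w * F(r,w)) ≥ 0` whenever `‖w‖ > κ`, then
`‖w r‖ ≤ max ‖w ρ‖ κ` on `[0,ρ]`. -/
theorem max_principle {ρ κ : ℝ} {F : ℝ → ℂ → ℂ} {w w1 : ℝ → ℂ} (hρ : 0 < ρ)
    (hw : ContinuousOn w (Icc 0 ρ)) (hw1 : ContinuousOn w1 (Icc 0 ρ))
    (der : ∀ r ∈ Ioo 0 ρ, HasDerivAt w (w1 r) r)
    (der1 : ∀ r ∈ Ioo 0 ρ, HasDerivAt w1 (F r (w r) - (11 / r : ℂ) * w1 r) r)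
    (hF : ∀ r ∈ Ioo 0 ρ, ∀ a : ℂ, κ < ‖a‖ → 0 ≤ ((starRingEnd ℂ) a * F r a).re) :
    ∀ r ∈ Icc 0 ρ, ‖w r‖ ≤ max ‖w ρ‖ κ := by
  by_contra hcon
  push Not at hcon
  obtain ⟨r₁, hr₁, hbig⟩ := hcon
  -- the squared modulus
  set m : ℝ → ℝ := fun r => normSq (w r) with hm
  have hmc : ContinuousOn m (Icc 0 ρ) := Complex.continuous_normSq.comp_continuousOn hw
  have hm_sq : ∀ r, m r = ‖w r‖ ^ 2 := fun r => Complex.normSq_eq_norm_sq _
  obtain ⟨r₂, hr₂, hmax₂⟩ := isCompact_Icc.exists_isMaxOn (nonempty_Icc.mpr hρ.le) hmc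
  -- last maximum point
  set S : Set ℝ := Icc 0 ρ ∩ m ⁻¹' {m r₂} with hS
  have hSc : IsCompact S := by
    have : IsClosed S := hmc.preimage_isClosed_of_isClosed isClosed_Icc isClosed_singleton
    exact isCompact_Icc.of_isClosed_subset this inter_subset_left
  obtain ⟨r₀, hr₀⟩ := hSc.exists_isGreatest ⟨r₂, hr₂, rfl⟩
  have hr₀I : r₀ ∈ Icc 0 ρ := hr₀.1.1
  have hmr₀ : m r₀ = m r₂ := hr₀.1.2
  have hmax : ∀ r ∈ Icc 0 ρ, m r ≤ m r₀ := fun r hr => by rw [hmr₀]; exact hmax₂ hr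
  have hbig₀ : max ‖w ρ‖ κ < ‖w r₀‖ := by
    refine hbig.trans_le ?_
    have := hmax r₁ hr₁
    rw [hm_sq, hm_sq] at this
    exact (sq_le_sq₀ (norm_nonneg _) (norm_nonneg _)).mp this
  have hr₀ρ : r₀ < ρ := by
    refine lt_of_le_of_ne hr₀I.2 (fun h => ?_)
    rw [h] at hbig₀
    exact absurd (le_max_left ‖w ρ‖ κ) (not_le.mpr hbig₀)
  have hκ₀ : κ < ‖w r₀‖ := (le_max_right _ _).trans_lt hbig₀
  -- derivative of m
  have hmd : ∀ r ∈ Ioo 0 ρ, HasDerivAt m (2 * ((starRingEnd ℂ) (w r) * w1 r).re) r := by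
    intro r hr
    have h1 := der r hr
    have hre := hasDerivAt_re' h1
    have him := hasDerivAt_im' h1
    have h2 := (hre.mul hre).add (him.mul him)
    have h3 : m = fun x => (w x).re * (w x).re + (w x).im * (w x).im := by
      funext x; simp [hm, Complex.normSq_apply]
    rw [h3]
    refine h2.congr_deriv ?_
    simp [Complex.mul_re]
    ring
  -- weighted flux
  set h : ℝ → ℝ := fun r => r ^ 11 * (2 * ((starRingEnd ℂ) (w r) * w1 r).re) with hh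
  have hhc : ContinuousOn h (Icc 0 ρ) := by
    refine ContinuousOn.mul (by fun_prop) (ContinuousOn.mul continuousOn_const ?_)
    refine Complex.continuous_re.comp_continuousOn ?_
    exact (Complex.continuous_conj.comp_continuousOn hw).mul hw1
  have hhd : ∀ r ∈ Ioo 0 ρ, HasDerivAt h
      (2 * r ^ 11 * (‖w1 r‖ ^ 2 + ((starRingEnd ℂ) (w r) * F r (w r)).re)) r := by
    intro r hr
    have h1 := der r hr
    have h1' := der1 r hr
    have hre := hasDerivAt_re' h1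
    have him := hasDerivAt_im' h1
    have hre1 := hasDerivAt_re' h1'
    have him1 := hasDerivAt_im' h1'
    have h2 := (hasDerivAt_pow 11 r).mul (((hre.mul hre1).add (him.mul him1)).const_mul 2)
    have h3 : h = fun x => x ^ 11 * (2 * ((w x).re * (w1 x).re + (w x).im * (w1 x).im)) := by
      funext x; simp [hh, Complex.mul_re]
    rw [h3]
    refine h2.congr_deriv ?_
    have hr0 : r ≠ 0 := hr.1.ne'
    have e1 : ((11 / r : ℂ) * w1 r).re = 11 / r * (w1 r).re := by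
      have : (11 / r : ℂ) = ((11 / r : ℝ) : ℂ) := by push_cast; rfl
      rw [this, Complex.re_ofReal_mul]
    have e2 : ((11 / r : ℂ) * w1 r).im = 11 / r * (w1 r).im := by
      have : (11 / r : ℂ) = ((11 / r : ℝ) : ℂ) := by push_cast; rfl
      rw [this, Complex.im_ofReal_mul]
    rw [← Complex.normSq_eq_norm_sq, Complex.normSq_apply, Complex.sub_re, Complex.sub_im, e1, e2,
      Complex.mul_re]
    simp only [Complex.conj_re, Complex.conj_im, Pi.mul_apply, Pi.add_apply]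
    field_simp
    push_cast
    ring
  -- flux vanishes at r₀
  have hflux0 : h r₀ = 0 := by
    rcases eq_or_lt_of_le hr₀I.1 with h0 | h0
    · simp [hh, ← h0]
    · have hloc : IsLocalMax m r₀ := by
        filter_upwards [Ioo_mem_nhds h0 hr₀ρ] with r hr
        exact hmax r ⟨hr.1.le, hr.2.le⟩
      have := hloc.hasDerivAt_eq_zero (hmd r₀ ⟨h0, hr₀ρ⟩)
      simp only [hh]
      rw [this, mul_zero]
  -- neighbourhood where ‖w‖ > κ
  have hnb : ∃ δ > 0, r₀ + δ ≤ ρ ∧ ∀ r ∈ Icc r₀ (r₀ + δ), κ < ‖w r‖ := by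
    have hc := (hw r₀ hr₀I).norm
    have hev : ∀ᶠ r in nhdsWithin r₀ (Icc 0 ρ), κ < ‖w r‖ := hc.eventually (lt_mem_nhds hκ₀)
    rw [eventually_nhdsWithin_iff, Metric.eventually_nhds_iff] at hev
    obtain ⟨e, he, hev⟩ := hev
    refine ⟨min (e / 2) (ρ - r₀), lt_min (by positivity) (by linarith), ?_, ?_⟩
    · have := min_le_right (e / 2) (ρ - r₀); linarith
    · intro r hr
      have h1 := min_le_left (e / 2) (ρ - r₀)
      have h2 := min_le_right (e / 2) (ρ - r₀)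
      refine hev ?_ ⟨hr₀I.1.trans hr.1, by linarith [hr.2]⟩
      rw [Real.dist_eq, abs_of_nonneg (by linarith [hr.1])]
      linarith [hr.2]
  obtain ⟨δ, hδ, hδρ, hδw⟩ := hnb
  have hIcc : Icc r₀ (r₀ + δ) ⊆ Icc 0 ρ := Icc_subset_Icc hr₀I.1 hδρ
  have hIoo : ∀ r ∈ Ioo r₀ (r₀ + δ), r ∈ Ioo 0 ρ := fun r hr =>
    ⟨hr₀I.1.trans_lt hr.1, hr.2.trans_le hδρ⟩
  have hmonoh : MonotoneOn h (Icc r₀ (r₀ + δ)) := by
    refine monotoneOn_of_deriv_nonneg (convex_Icc _ _) (hhc.mono hIcc) ?_ ?_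
    · intro r hr
      rw [interior_Icc] at hr
      exact (hhd r (hIoo r hr)).differentiableAt.differentiableWithinAt
    · intro r hr
      rw [interior_Icc] at hr
      rw [(hhd r (hIoo r hr)).deriv]
      have h1 := hF r (hIoo r hr) (w r) (hδw r ⟨hr.1.le, hr.2.le⟩)
      have h2 : 0 < r := (hIoo r hr).1
      positivity
  have hhnn : ∀ r ∈ Icc r₀ (r₀ + δ), 0 ≤ h r := by
    intro r hr
    rw [← hflux0]
    exact hmonoh ⟨le_rfl, by linarith⟩ hr hr.1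
  have hmonom : MonotoneOn m (Icc r₀ (r₀ + δ)) := by
    refine monotoneOn_of_deriv_nonneg (convex_Icc _ _) (hmc.mono hIcc) ?_ ?_
    · intro r hr
      rw [interior_Icc] at hr
      exact (hmd r (hIoo r hr)).differentiableAt.differentiableWithinAt
    · intro r hr
      rw [interior_Icc] at hr
      rw [(hmd r (hIoo r hr)).deriv]
      have h1 := hhnn r ⟨hr.1.le, hr.2.le⟩
      have h2 : 0 < r := (hIoo r hr).1
      have h3 : 0 < r ^ 11 := by positivity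
      simp only [hh] at h1
      exact (mul_nonneg_iff_of_pos_left h3).mp h1
  have hlast : r₀ + δ ∈ S := by
    refine ⟨hIcc ⟨by linarith, le_rfl⟩, ?_⟩
    have h1 : m r₀ ≤ m (r₀ + δ) := hmonom ⟨le_rfl, by linarith⟩ ⟨by linarith, le_rfl⟩ (by linarith)
    have h2 : m (r₀ + δ) ≤ m r₀ := hmax _ (hIcc ⟨by linarith, le_rfl⟩)
    change m (r₀ + δ) = m r₂
    rw [← hmr₀]
    exact le_antisymm h2 h1
  have := hr₀.2 hlast
  linarith

end Crest.Agent.R086.Core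
end

-- ▼ part R086/CoreEx
section

/-!
Row 86 (S0114), Part B interior (helper702): existence for the interior boundary value problem
and the a-priori bounds (interface (I1) of note 12485).
-/

set_option autoImplicit false

open Set MeasureTheory Complex

namespace Crest.Agent.R086.Core

/-- the phase `e^{i r²/8}` -/
noncomputable def ph (r : ℝ) : ℂ := cexp (I * ((r ^ 2 / 8 : ℝ) : ℂ))

theorem norm_ph (r : ℝ) : ‖ph r‖ = 1 := by
  unfold ph
  rw [mul_comm]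
  exact Complex.norm_exp_ofReal_mul_I _

theorem ph_ne (r : ℝ) : ph r ≠ 0 := Complex.exp_ne_zero _

theorem ph_hasDerivAt (r : ℝ) : HasDerivAt ph (ph r * (I * (r / 4 : ℂ))) r := by
  unfold ph
  have h1 : HasDerivAt (fun r : ℝ => (r ^ 2 / 8 : ℝ)) (r / 4) r := by
    have := (hasDerivAt_pow 2 r).div_const 8
    refine this.congr_deriv ?_
    push_cast
    ring
  have h2 := (h1.ofReal_comp.const_mul I).cexp
  refine h2.congr_deriv ?_
  push_cast
  ring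

theorem ph_continuous : Continuous ph := by unfold ph; fun_prop

theorem ph_inv_hasDerivAt (r : ℝ) : HasDerivAt (fun x => (ph x)⁻¹) (-((ph r)⁻¹ * (I * (r / 4 : ℂ)))) r := by
  have := (ph_hasDerivAt r).fun_inv (ph_ne r)
  refine this.congr_deriv ?_
  have := ph_ne r
  field_simp

/-- the gauged right-hand side with a general real factor `p` -/
noncomputable def FF (p : ℂ → ℝ) (om eps r : ℝ) (a : ℂ) : ℂ :=
  ((p a : ℝ) : ℂ) * a - (((r ^ 2 / 16 + om : ℝ) : ℂ) + I * ((eps - 3 : ℝ) : ℂ)) * a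

/-- gauge transform, from `v` to `w = e^{ir²/8} v` -/
theorem gauge_der {v v1 : ℝ → ℂ} {n : ℕ} {om eps r : ℝ} (hr : r ≠ 0)
    (h : B.IsSol n om eps v v1 {r}) :
    HasDerivAt (fun x => ph x * v x) (ph r * (v1 r + I * (r / 4 : ℂ) * v r)) r ∧
    HasDerivAt (fun x : ℝ => ph x * (v1 x + I * (x / 4 : ℂ) * v x))
      (FF (fun a => ‖a‖ ^ n) om eps r (ph r * v r) -
        (11 / r : ℂ) * (ph r * (v1 r + I * (r / 4 : ℂ) * v r))) r := by
  obtain ⟨hv, hv1⟩ := h r rfl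
  have hrc : (r : ℂ) ≠ 0 := by exact_mod_cast hr
  constructor
  · refine ((ph_hasDerivAt r).mul hv).congr_deriv ?_
    ring
  · have hx : HasDerivAt (fun x : ℝ => I * ((x : ℂ) / 4)) (I * (1 / 4)) r := by
      have := ((Complex.ofRealCLM.hasDerivAt (x := r)).div_const 4).const_mul I
      simpa using this
    have h1 := (ph_hasDerivAt r).mul (hv1.add (hx.mul hv))
    refine h1.congr_deriv ?_
    have hn : ‖ph r * v r‖ = ‖v r‖ := by rw [norm_mul, norm_ph, one_mul]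
    unfold FF
    simp only [hn, Pi.add_apply, Pi.mul_apply]
    push_cast
    field_simp
    ring_nf
    simp only [I_sq]
    ring

/-- inverse gauge transform, from `w` to `v = e^{-ir²/8} w` -/
theorem ungauge_der {w w1 : ℝ → ℂ} {n : ℕ} {om eps r : ℝ} (hr : r ≠ 0)
    (hw : HasDerivAt w (w1 r) r)
    (hw1 : HasDerivAt w1 (FF (fun a => ‖a‖ ^ n) om eps r (w r) - (11 / r : ℂ) * w1 r) r) :
    B.IsSol n om eps (fun x => (ph x)⁻¹ * w x)
      (fun x : ℝ => (ph x)⁻¹ * (w1 x - I * (x / 4 : ℂ) * w x)) {r} := by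
  intro r' hr'
  rw [mem_singleton_iff] at hr'
  subst hr'
  have hrc : (r' : ℂ) ≠ 0 := by exact_mod_cast hr
  constructor
  · refine ((ph_inv_hasDerivAt r').mul hw).congr_deriv ?_
    ring
  · have hx : HasDerivAt (fun x : ℝ => I * ((x : ℂ) / 4)) (I * (1 / 4)) r' := by
      have := ((Complex.ofRealCLM.hasDerivAt (x := r')).div_const 4).const_mul I
      simpa using this
    have h1 := (ph_inv_hasDerivAt r').mul (hw1.sub (hx.mul hw))
    refine h1.congr_deriv ?_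
    have hn : ‖(ph r')⁻¹ * w r'‖ = ‖w r'‖ := by rw [norm_mul, norm_inv, norm_ph, inv_one, one_mul]
    unfold FF
    simp only [hn, Pi.sub_apply, Pi.mul_apply]
    push_cast
    field_simp
    ring_nf
    simp only [I_sq]
    ring

/-- truncated factor -/
noncomputable def pt (n : ℕ) (a : ℂ) : ℝ := (min ‖a‖ 2) ^ n

theorem pt_continuous (n : ℕ) : Continuous (pt n) := by unfold pt; fun_prop

theorem FF_continuous {p : ℂ → ℝ} (hp : Continuous p) (om eps : ℝ) :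
    Continuous (fun q : ℝ × ℂ => FF p om eps q.1 q.2) := by
  unfold FF; fun_prop

theorem pt_lip (n : ℕ) (a b : ℂ) : ‖((pt n a : ℝ) : ℂ) * a - ((pt n b : ℝ) : ℂ) * b‖
    ≤ ((n + 1) * 2 ^ n) * ‖a - b‖ := by
  wlog hab : ‖b‖ ≤ ‖a‖ with H
  · have := H n b a (le_of_not_ge hab)
    rw [norm_sub_rev, norm_sub_rev a b]
    exact this
  have h0a : 0 ≤ min ‖a‖ 2 := le_min (norm_nonneg _) (by norm_num)
  have h0b : 0 ≤ min ‖b‖ 2 := le_min (norm_nonneg _) (by norm_num)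
  have hle : min ‖b‖ 2 ≤ min ‖a‖ 2 := min_le_min_right _ hab
  have hpa0 : 0 ≤ pt n a := pow_nonneg h0a n
  have hpa : pt n a ≤ 2 ^ n := pow_le_pow_left₀ h0a (min_le_right _ _) n
  have hdiff : 0 ≤ pt n a - pt n b := sub_nonneg.mpr (pow_le_pow_left₀ h0b hle n)
  -- (pt a - pt b) * ‖b‖ ≤ n 2^n ‖a-b‖
  have hkey : (pt n a - pt n b) * ‖b‖ ≤ (n * 2 ^ n) * ‖a - b‖ := by
    rcases le_or_gt 2 ‖b‖ with hb | hb
    · have : pt n a = pt n b := by
        unfold pt; rw [min_eq_right hb, min_eq_right (hb.trans hab)]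
      rw [this, sub_self, zero_mul]; positivity
    · have h1 : pt n a - pt n b ≤ n * 2 ^ (n - 1) * (min ‖a‖ 2 - min ‖b‖ 2) := by
        rcases Nat.eq_zero_or_pos n with hn | hn
        · subst hn; simp [pt]
        have hgeo := (Commute.all (min ‖a‖ 2) (min ‖b‖ 2)).mul_geom_sum₂ n
        have : pt n a - pt n b = (min ‖a‖ 2 - min ‖b‖ 2) *
            ∑ i ∈ Finset.range n, (min ‖a‖ 2) ^ i * (min ‖b‖ 2) ^ (n - 1 - i) := by
          unfold pt; rw [← hgeo]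
        rw [this, mul_comm]
        refine mul_le_mul_of_nonneg_right ?_ (by linarith)
        calc ∑ i ∈ Finset.range n, (min ‖a‖ 2) ^ i * (min ‖b‖ 2) ^ (n - 1 - i)
            ≤ ∑ i ∈ Finset.range n, (2:ℝ) ^ i * 2 ^ (n - 1 - i) := by
              refine Finset.sum_le_sum (fun i _ => ?_)
              exact mul_le_mul (pow_le_pow_left₀ h0a (min_le_right _ _) _)
                (pow_le_pow_left₀ h0b (min_le_right _ _) _) (by positivity) (by positivity)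
          _ = ∑ i ∈ Finset.range n, (2:ℝ) ^ (n - 1) := by
              refine Finset.sum_congr rfl (fun i hi => ?_)
              rw [← pow_add]
              congr 1
              have := Finset.mem_range.mp hi
              omega
          _ = n * 2 ^ (n - 1) := by simp
      have h2 : min ‖a‖ 2 - min ‖b‖ 2 ≤ ‖a - b‖ := by
        have h3 : min ‖b‖ 2 = ‖b‖ := min_eq_left hb.le
        have h4 : min ‖a‖ 2 ≤ ‖a‖ := min_le_left _ _
        have h5 := norm_sub_norm_le a b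
        rw [h3]; linarith
      rcases Nat.eq_zero_or_pos n with hn | hn
      · subst hn; simp [pt]
      have h6 : (2:ℝ) ^ n = 2 ^ (n - 1) * 2 := by
        rw [← pow_succ]; congr 1; omega
      calc (pt n a - pt n b) * ‖b‖ ≤ (n * 2 ^ (n - 1) * ‖a - b‖) * 2 := by
            refine mul_le_mul (h1.trans ?_) hb.le (norm_nonneg _) (by positivity)
            exact mul_le_mul_of_nonneg_left h2 (by positivity)
        _ = _ := by rw [h6]; ring
  have e : ((pt n a : ℝ) : ℂ) * a - ((pt n b : ℝ) : ℂ) * b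
      = ((pt n a : ℝ) : ℂ) * (a - b) + ((pt n a - pt n b : ℝ) : ℂ) * b := by
    push_cast; ring
  rw [e]
  calc ‖((pt n a : ℝ) : ℂ) * (a - b) + ((pt n a - pt n b : ℝ) : ℂ) * b‖
      ≤ pt n a * ‖a - b‖ + (pt n a - pt n b) * ‖b‖ := by
        refine (norm_add_le _ _).trans ?_
        rw [norm_mul, norm_mul, Complex.norm_real, Complex.norm_real, Real.norm_of_nonneg hpa0,
          Real.norm_of_nonneg hdiff]
    _ ≤ 2 ^ n * ‖a - b‖ + (n * 2 ^ n) * ‖a - b‖ :=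
        add_le_add (mul_le_mul_of_nonneg_right hpa (norm_nonneg _)) hkey
    _ = _ := by ring

theorem FF_lip (n : ℕ) {ρ om eps : ℝ} (hρ' : ρ ≤ 18 / 5) (hom : om ∈ Icc (1/5 : ℝ) (1/2))
    (heps : eps ∈ Icc (0:ℝ) 1) : ∀ r ∈ Icc 0 ρ, ∀ a b : ℂ,
    ‖FF (pt n) om eps r a - FF (pt n) om eps r b‖ ≤ ((n + 1) * 2 ^ n + 5) * ‖a - b‖ := by
  intro r hr a b
  have e : FF (pt n) om eps r a - FF (pt n) om eps r b =
      (((pt n a : ℝ) : ℂ) * a - ((pt n b : ℝ) : ℂ) * b)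
      - (((r ^ 2 / 16 + om : ℝ) : ℂ) + I * ((eps - 3 : ℝ) : ℂ)) * (a - b) := by
    unfold FF; ring
  rw [e]
  have h1 : ‖(((r ^ 2 / 16 + om : ℝ) : ℂ) + I * ((eps - 3 : ℝ) : ℂ))‖ ≤ 5 := by
    refine (norm_add_le _ _).trans ?_
    rw [norm_mul, Complex.norm_I, one_mul, Complex.norm_real, Complex.norm_real,
      Real.norm_of_nonneg (by have := hom.1; positivity), Real.norm_eq_abs,
      abs_of_nonpos (by linarith [heps.2])]
    have : r ^ 2 ≤ (18/5) ^ 2 := by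
      have := hr.1; have := hr.2; nlinarith
    have := hom.2
    have := heps.1
    nlinarith
  calc _ ≤ ‖((pt n a : ℝ) : ℂ) * a - ((pt n b : ℝ) : ℂ) * b‖ +
        ‖(((r ^ 2 / 16 + om : ℝ) : ℂ) + I * ((eps - 3 : ℝ) : ℂ)) * (a - b)‖ := norm_sub_le _ _
    _ ≤ ((n + 1) * 2 ^ n) * ‖a - b‖ + 5 * ‖a - b‖ := by
        refine add_le_add (pt_lip n a b) ?_
        rw [norm_mul]
        exact mul_le_mul_of_nonneg_right h1 (norm_nonneg _)
    _ = _ := by ring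

theorem re_conj_FF (p : ℂ → ℝ) (om eps r : ℝ) (a : ℂ) :
    ((starRingEnd ℂ) a * FF p om eps r a).re = (p a - (r ^ 2 / 16 + om)) * ‖a‖ ^ 2 := by
  rw [← Complex.normSq_eq_norm_sq, Complex.normSq_apply]
  unfold FF
  simp only [Complex.mul_re, Complex.sub_re, Complex.sub_im, Complex.add_re, Complex.add_im,
    Complex.mul_im, Complex.ofReal_re, Complex.ofReal_im, Complex.conj_re, Complex.conj_im,
    Complex.I_re, Complex.I_im]
  ring

/-- the threshold constant `om + ρ²/16` -/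
theorem c0_bound {ρ om : ℝ} (hρ : 0 < ρ) (hρ' : ρ ≤ 18 / 5) (hom : om ∈ Icc (1/5 : ℝ) (1/2)) :
    0 < om + ρ ^ 2 / 16 ∧ om + ρ ^ 2 / 16 < 3 / 2 := by
  have h1 : ρ ^ 2 ≤ (18/5) ^ 2 := by nlinarith
  have := hom.1
  have := hom.2
  constructor
  · positivity
  · nlinarith

/-- the `n`-th root threshold -/
theorem exists_kappa (n : ℕ) (hn : 2 ≤ n) {c : ℝ} (hc : 0 < c) (hc' : c < 3 / 2) :
    ∃ κ : ℝ, 0 < κ ∧ κ < 2 ∧ κ ^ n = c := by
  refine ⟨c ^ ((n : ℝ)⁻¹), Real.rpow_pos_of_pos hc _, ?_, ?_⟩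
  · have h1 : (c ^ ((n : ℝ)⁻¹)) ^ n = c := Real.rpow_inv_natCast_pow hc.le (by omega)
    have h2 : (c ^ ((n : ℝ)⁻¹)) ^ n < 2 ^ n := by
      rw [h1]
      calc c < 2 := by linarith
        _ = 2 ^ 1 := by norm_num
        _ ≤ 2 ^ n := pow_le_pow_right₀ (by norm_num) (by omega)
    exact lt_of_pow_lt_pow_left₀ n (by norm_num) h2
  · exact Real.rpow_inv_natCast_pow hc.le (by omega)

/-- a-priori bound for gauged solutions with factor `p` satisfying `p ≥ c0` beyond `κ` -/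
theorem gauged_bound {p : ℂ → ℝ} {ρ om eps κ : ℝ} (hρ : 0 < ρ) {w w1 : ℝ → ℂ}
    (hw : ContinuousOn w (Icc 0 ρ)) (hw1 : ContinuousOn w1 (Icc 0 ρ))
    (der : ∀ r ∈ Ioo 0 ρ, HasDerivAt w (w1 r) r)
    (der1 : ∀ r ∈ Ioo 0 ρ, HasDerivAt w1 (FF p om eps r (w r) - (11 / r : ℂ) * w1 r) r)
    (hp : ∀ a : ℂ, κ < ‖a‖ → om + ρ ^ 2 / 16 ≤ p a) :
    ∀ r ∈ Icc 0 ρ, ‖w r‖ ≤ max ‖w ρ‖ κ := by
  refine max_principle hρ hw hw1 der der1 (fun r hr a ha => ?_)
  rw [re_conj_FF]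
  refine mul_nonneg ?_ (by positivity)
  have h1 := hp a ha
  have h2 : r ^ 2 ≤ ρ ^ 2 := by have := hr.1; have := hr.2; nlinarith
  linarith

/-- gauge a solution on `[0,ρ]` -/
theorem gauged {n : ℕ} {ρ om eps : ℝ} {v v1 : ℝ → ℂ}
    (hv : ContinuousOn v (Icc 0 ρ)) (hv1 : ContinuousOn v1 (Icc 0 ρ))
    (hsol : B.IsSol n om eps v v1 (Ioo 0 ρ)) :
    ContinuousOn (fun x => ph x * v x) (Icc 0 ρ) ∧
    ContinuousOn (fun x : ℝ => ph x * (v1 x + I * (x / 4 : ℂ) * v x)) (Icc 0 ρ) ∧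
    (∀ r ∈ Ioo 0 ρ, HasDerivAt (fun x => ph x * v x) (ph r * (v1 r + I * (r / 4 : ℂ) * v r)) r) ∧
    (∀ r ∈ Ioo 0 ρ, HasDerivAt (fun x : ℝ => ph x * (v1 x + I * (x / 4 : ℂ) * v x))
      (FF (fun a => ‖a‖ ^ n) om eps r (ph r * v r) -
        (11 / r : ℂ) * (ph r * (v1 r + I * (r / 4 : ℂ) * v r))) r) := by
  refine ⟨ph_continuous.continuousOn.mul hv, ph_continuous.continuousOn.mul
    (hv1.add (ContinuousOn.mul (by fun_prop) hv)), fun r hr => ?_, fun r hr => ?_⟩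
  · exact (gauge_der hr.1.ne' (fun r' hr' => by rw [mem_singleton_iff.mp hr']; exact hsol r hr)).1
  · exact (gauge_der hr.1.ne' (fun r' hr' => by rw [mem_singleton_iff.mp hr']; exact hsol r hr)).2

/-- **A-priori bound for `P = ‖v‖^n`**, any solution. -/
theorem apriori_P (n : ℕ) (hn : 2 ≤ n) {ρ om eps : ℝ} (hρ : 0 < ρ) (hρ' : ρ ≤ 18 / 5)
    (hom : om ∈ Icc (1/5 : ℝ) (1/2)) {v v1 : ℝ → ℂ}
    (hv : ContinuousOn v (Icc 0 ρ)) (hv1 : ContinuousOn v1 (Icc 0 ρ))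
    (hsol : B.IsSol n om eps v v1 (Ioo 0 ρ)) :
    ∀ r ∈ Icc 0 ρ, ‖v r‖ ^ n ≤ max (‖v ρ‖ ^ n) (om + ρ ^ 2 / 16) := by
  obtain ⟨hc, hc'⟩ := c0_bound hρ hρ' hom
  obtain ⟨κ, hκ0, _, hκn⟩ := exists_kappa n hn hc hc'
  obtain ⟨h1, h2, h3, h4⟩ := gauged hv hv1 hsol
  have hb := gauged_bound (κ := κ) hρ h1 h2 h3 h4 (fun a ha => by
    rw [← hκn]; exact pow_le_pow_left₀ hκ0.le ha.le n)
  intro r hr
  have h5 := hb r hr
  rw [norm_mul, norm_mul, norm_ph, norm_ph, one_mul, one_mul] at h5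
  calc ‖v r‖ ^ n ≤ (max ‖v ρ‖ κ) ^ n := pow_le_pow_left₀ (norm_nonneg _) h5 n
    _ ≤ max (‖v ρ‖ ^ n) (om + ρ ^ 2 / 16) := by
        rcases le_total ‖v ρ‖ κ with h | h
        · rw [max_eq_right h, hκn]; exact le_max_right _ _
        · rw [max_eq_left h]; exact le_max_left _ _

/-- **A-priori bound for `v` and `v'`**, any solution with `‖v ρ‖ ≤ 1`, `v' 0 = 0`. -/
theorem apriori_v1 (n : ℕ) (hn : 2 ≤ n) {ρ om eps : ℝ} (hρ : 0 < ρ) (hρ' : ρ ≤ 18 / 5)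
    (hom : om ∈ Icc (1/5 : ℝ) (1/2)) (heps : eps ∈ Icc (0:ℝ) 1) {v v1 : ℝ → ℂ}
    (hv : ContinuousOn v (Icc 0 ρ)) (hv1 : ContinuousOn v1 (Icc 0 ρ)) (hv10 : v1 0 = 0)
    (hsol : B.IsSol n om eps v v1 (Ioo 0 ρ)) (hb : ‖v ρ‖ ≤ 1) :
    (∀ r ∈ Icc 0 ρ, ‖v r‖ ^ n ≤ 3 / 2) ∧ (∀ r ∈ Icc 0 ρ, ‖v r‖ ≤ 2) ∧
      ∀ r ∈ Icc 0 ρ, ‖v1 r‖ ≤ 2 * r := by
  obtain ⟨hc, hc'⟩ := c0_bound hρ hρ' hom
  have hP : ∀ r ∈ Icc 0 ρ, ‖v r‖ ^ n ≤ 3 / 2 := by
    intro r hr
    refine (apriori_P n hn hρ hρ' hom hv hv1 hsol r hr).trans (max_le ?_ hc'.le)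
    exact (pow_le_one₀ (norm_nonneg _) hb).trans (by norm_num)
  have hv2 : ∀ r ∈ Icc 0 ρ, ‖v r‖ ≤ 2 := by
    intro r hr
    by_contra hcon
    push Not at hcon
    have h1 : (2:ℝ) ^ n ≤ ‖v r‖ ^ n := pow_le_pow_left₀ (by norm_num) hcon.le n
    have h2 : (2:ℝ) ^ 1 ≤ 2 ^ n := pow_le_pow_right₀ (by norm_num) (by omega)
    have h3 := hP r hr
    linarith
  refine ⟨hP, hv2, ?_⟩
  obtain ⟨h1, h2, h3, h4⟩ := gauged hv hv1 hsol
  have hFc : Continuous (fun q : ℝ × ℂ => FF (fun a : ℂ => ‖a‖ ^ n) om eps q.1 q.2) :=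
    FF_continuous (by fun_prop) om eps
  have hreg : Reg ρ (FF (fun a : ℂ => ‖a‖ ^ n) om eps) (fun x => ph x * v x)
      (fun x : ℝ => ph x * (v1 x + I * (x / 4 : ℂ) * v x)) :=
    ⟨h1, h2, by simp [hv10], h3, h4⟩
  intro r hr
  have e := hreg.w1_eq hFc r hr
  have hg : ∀ t ∈ Icc 0 r, ‖gcl ρ (FF (fun a : ℂ => ‖a‖ ^ n) om eps) (fun x => ph x * v x) t‖ ≤ 9 := by
    intro t ht
    have ht' : t ∈ Icc 0 ρ := ⟨ht.1, ht.2.trans hr.2⟩
    unfold gcl
    rw [cl_eq ht']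
    unfold FF
    simp only [norm_mul, norm_ph, one_mul]
    have ea : ((‖v t‖ ^ n : ℝ) : ℂ) * (ph t * v t)
        - (((t ^ 2 / 16 + om : ℝ) : ℂ) + I * ((eps - 3 : ℝ) : ℂ)) * (ph t * v t)
        = ((((‖v t‖ ^ n - (t ^ 2 / 16 + om)) : ℝ) : ℂ) - I * ((eps - 3 : ℝ) : ℂ)) * (ph t * v t) := by
      push_cast; ring
    rw [ea, norm_mul, norm_mul, norm_ph, one_mul]
    have hb1 : ‖((((‖v t‖ ^ n - (t ^ 2 / 16 + om)) : ℝ) : ℂ) - I * ((eps - 3 : ℝ) : ℂ))‖ ≤ 9 / 2 := by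
      refine (norm_sub_le _ _).trans ?_
      rw [norm_mul, Complex.norm_I, one_mul, Complex.norm_real, Complex.norm_real,
        Real.norm_eq_abs, Real.norm_eq_abs]
      have hA : |‖v t‖ ^ n - (t ^ 2 / 16 + om)| ≤ 3 / 2 := by
        have q1 := hP t ht'
        have q2 : 0 ≤ ‖v t‖ ^ n := by positivity
        have q3 : t ^ 2 ≤ ρ ^ 2 := by have := ht'.1; have := ht'.2; nlinarith
        have q4 := hom.1
        have q5 : 0 ≤ t ^ 2 := by positivity
        rw [abs_le]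
        constructor <;> linarith
      have hB : |eps - 3| ≤ 3 := by
        rw [abs_le]; constructor <;> linarith [heps.1, heps.2]
      linarith
    calc _ ≤ 9 / 2 * 2 := mul_le_mul hb1 (hv2 t ht') (norm_nonneg _) (by norm_num)
      _ = 9 := by norm_num
  have hb2 := norm_avg_le' hr.1 hg
  rw [← e] at hb2
  have e2 : v1 r = (ph r)⁻¹ * (ph r * (v1 r + I * (r / 4 : ℂ) * v r)) - I * (r / 4 : ℂ) * v r := by
    have := ph_ne r
    field_simp
    ring
  have e3 : ‖I * (r / 4 : ℂ) * v r‖ ≤ r / 4 * 2 := by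
    have : (r / 4 : ℂ) = ((r / 4 : ℝ) : ℂ) := by push_cast; rfl
    rw [norm_mul, norm_mul, Complex.norm_I, one_mul, this, Complex.norm_real,
      Real.norm_of_nonneg (by have := hr.1; positivity)]
    exact mul_le_mul_of_nonneg_left (hv2 r hr) (by have := hr.1; positivity)
  rw [e2]
  refine (norm_sub_le _ _).trans ?_
  rw [norm_mul, norm_inv, norm_ph, inv_one, one_mul]
  have := hr.1
  linarith

/-- **Existence for the interior problem** (I1). -/
theorem exists_bvp (n : ℕ) (hn : 2 ≤ n) (rho om eps : ℝ) (hρ : 0 < rho) (hρ' : rho ≤ 18 / 5)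
    (hom : om ∈ Icc (1/5 : ℝ) (1/2)) (heps : eps ∈ Icc (0:ℝ) 1) (b : ℂ) (hb : ‖b‖ ≤ 1) :
    ∃ v v1 : ℝ → ℂ, ContinuousOn v (Icc 0 rho) ∧ ContinuousOn v1 (Icc 0 rho) ∧ v1 0 = 0 ∧
      B.IsSol n om eps v v1 (Ioo 0 rho) ∧ v rho = b ∧
      (∀ r ∈ Icc 0 rho, ‖v r‖ ^ n ≤ max (‖b‖ ^ n) (om + rho ^ 2 / 16)) ∧
      (∀ r ∈ Icc 0 rho, ‖v1 r‖ ≤ 8 * r) := by
  obtain ⟨hc, hc'⟩ := c0_bound hρ hρ' hom
  obtain ⟨κ, hκ0, hκ2, hκn⟩ := exists_kappa n hn hc hc'
  have hFc : Continuous (fun q : ℝ × ℂ => FF (pt n) om eps q.1 q.2) :=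
    FF_continuous (pt_continuous n) om eps
  have hK : (0:ℝ) ≤ (n + 1) * 2 ^ n + 5 := by positivity
  have hLip := FF_lip n hρ' hom heps
  choose W W1 hReg hW0 hWc hW1c using fun a : ℝ => exists_reg hρ hFc hK hLip ((a : ℂ))
  have hp : ∀ a : ℂ, κ < ‖a‖ → om + rho ^ 2 / 16 ≤ pt n a := by
    intro a ha
    rw [← hκn]
    exact pow_le_pow_left₀ hκ0.le (le_min ha.le hκ2.le) n
  have hmaxW : ∀ a : ℝ, ∀ r ∈ Icc 0 rho, ‖W a r‖ ≤ max ‖W a rho‖ κ := fun a =>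
    gauged_bound hρ (hReg a).cont (hReg a).cont1 (hReg a).der (hReg a).der1 hp
  have hmemρ : rho ∈ Icc 0 rho := ⟨hρ.le, le_rfl⟩
  have hmem0 : (0:ℝ) ∈ Icc 0 rho := ⟨le_rfl, hρ.le⟩
  -- continuity of the shooting map
  set C : ℝ := 2 * Real.exp ((2 * rho * ((n + 1) * 2 ^ n + 5) + 1) * rho) with hC
  have hdist : ∀ a a' : ℝ, ‖W a rho - W a' rho‖ ≤ C * |a - a'| := by
    intro a a'
    have := reg_dist (δ := 0) hρ hFc hFc hK hLip (hReg a) (hReg a') (fun r _ => by simp) rho hmemρ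
    rw [hW0, hW0, mul_zero, add_zero, ← Complex.ofReal_sub, Complex.norm_real, Real.norm_eq_abs] at this
    exact this
  have hcont : Continuous (fun a : ℝ => ‖W a rho‖) := by
    refine continuous_norm.comp ?_
    have : LipschitzWith (Real.toNNReal C) (fun a : ℝ => W a rho) := by
      refine LipschitzWith.of_dist_le_mul (fun a a' => ?_)
      rw [dist_eq_norm, Real.dist_eq, Real.coe_toNNReal _ (by positivity)]
      exact hdist a a'
    exact this.continuous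
  -- zero solution
  have hzero : ‖W 0 rho‖ = 0 := by
    have hz : Reg rho (FF (pt n) om eps) (fun _ => 0) (fun _ => 0) := by
      refine ⟨continuousOn_const, continuousOn_const, rfl, fun r _ => hasDerivAt_const r 0, fun r _ => ?_⟩
      have : FF (pt n) om eps r 0 - (11 / r : ℂ) * 0 = 0 := by simp [FF]
      rw [this]
      exact hasDerivAt_const r 0
    have := reg_dist (δ := 0) hρ hFc hFc hK hLip (hReg 0) hz (fun r _ => by simp) rho hmemρ
    rw [hW0] at this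
    simp only [sub_zero, Complex.ofReal_zero, norm_zero, mul_zero, add_zero] at this
    exact le_antisymm this (norm_nonneg _)
  have htwo : 1 ≤ ‖W 2 rho‖ := by
    have h1 := hmaxW 2 0 hmem0
    rw [hW0] at h1
    have h2 : ‖((2:ℝ) : ℂ)‖ = 2 := by simp
    rw [h2] at h1
    rcases le_max_iff.mp h1 with h | h
    · linarith
    · linarith
  obtain ⟨a, _, haw⟩ := intermediate_value_Icc (show (0:ℝ) ≤ 2 by norm_num) hcont.continuousOn
    (show ‖b‖ ∈ Icc ‖W 0 rho‖ ‖W 2 rho‖ from ⟨by rw [hzero]; exact norm_nonneg _, hb.trans htwo⟩)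
  simp only at haw
  -- phase
  obtain ⟨c, hc1, hcb⟩ : ∃ c : ℂ, ‖c‖ = 1 ∧ c * W a rho = ph rho * b := by
    by_cases h0 : W a rho = 0
    · refine ⟨1, norm_one, ?_⟩
      rw [h0, norm_zero] at haw
      have : b = 0 := norm_eq_zero.mp haw.symm
      rw [h0, this]; simp
    · refine ⟨ph rho * b / W a rho, ?_, by field_simp⟩
      rw [norm_div, norm_mul, norm_ph, one_mul, haw]
      exact div_self (by rw [← haw]; exact norm_ne_zero_iff.mpr h0)
  have hcn : ∀ x : ℂ, ‖c * x‖ = ‖x‖ := fun x => by rw [norm_mul, hc1, one_mul]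
  set w : ℝ → ℂ := fun r => c * W a r with hw
  set w1 : ℝ → ℂ := fun r => c * W1 a r with hw1
  have hwbound : ∀ r ∈ Icc 0 rho, ‖w r‖ ≤ 2 := by
    intro r hr
    rw [hw]
    simp only
    rw [hcn]
    refine (hmaxW a r hr).trans (max_le ?_ hκ2.le)
    rw [haw]; linarith
  have hpt : ∀ r ∈ Icc 0 rho, pt n (w r) = ‖w r‖ ^ n := by
    intro r hr
    unfold pt
    rw [min_eq_left (hwbound r hr)]
  have hwder : ∀ r ∈ Ioo 0 rho, HasDerivAt w (w1 r) r := fun r hr => ((hReg a).der r hr).const_mul c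
  have hw1der : ∀ r ∈ Ioo 0 rho, HasDerivAt w1
      (FF (fun a => ‖a‖ ^ n) om eps r (w r) - (11 / r : ℂ) * w1 r) r := by
    intro r hr
    refine (((hReg a).der1 r hr).const_mul c).congr_deriv ?_
    have h1 : pt n (W a r) = ‖w r‖ ^ n := by
      rw [← hpt r ⟨hr.1.le, hr.2.le⟩, hw]
      unfold pt
      simp only
      rw [hcn]
    unfold FF
    simp only [h1, hw, hw1]
    ring
  have hwc : ContinuousOn w (Icc 0 rho) := continuousOn_const.mul (hReg a).cont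
  have hw1c : ContinuousOn w1 (Icc 0 rho) := continuousOn_const.mul (hReg a).cont1
  have hphi : ContinuousOn (fun x => (ph x)⁻¹) (Icc 0 rho) :=
    (ph_continuous.inv₀ ph_ne).continuousOn
  have hvc : ContinuousOn (fun x => (ph x)⁻¹ * w x) (Icc 0 rho) := hphi.mul hwc
  have hv1c : ContinuousOn (fun x : ℝ => (ph x)⁻¹ * (w1 x - I * (x / 4 : ℂ) * w x)) (Icc 0 rho) :=
    hphi.mul (hw1c.sub (ContinuousOn.mul (by fun_prop) hwc))
  have hv10 : (fun x : ℝ => (ph x)⁻¹ * (w1 x - I * (x / 4 : ℂ) * w x)) 0 = 0 := by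
    simp [hw1, (hReg a).w1_zero]
  have hsol : B.IsSol n om eps (fun x => (ph x)⁻¹ * w x)
      (fun x : ℝ => (ph x)⁻¹ * (w1 x - I * (x / 4 : ℂ) * w x)) (Ioo 0 rho) := by
    intro r hr
    exact ungauge_der hr.1.ne' (hwder r hr) (hw1der r hr) r rfl
  have hvρ : (fun x => (ph x)⁻¹ * w x) rho = b := by
    simp only [hw, hcb]
    have := ph_ne rho
    field_simp
  have hvρ' : (ph rho)⁻¹ * w rho = b := hvρ
  refine ⟨_, _, hvc, hv1c, hv10, hsol, hvρ, ?_, ?_⟩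
  · have := apriori_P n hn hρ hρ' hom hvc hv1c hsol
    rw [hvρ'] at this
    exact this
  · intro r hr
    have := (apriori_v1 n hn hρ hρ' hom heps hvc hv1c hv10 hsol (by rw [hvρ']; exact hb)).2.2 r hr
    refine this.trans ?_
    have := hr.1
    linarith

end Crest.Agent.R086.Core
end

-- ▼ part R086/BMatchM
section

/-! # Row 86, Part B, matching: the main theorem (helper651) -/

set_option autoImplicit false

open Set Filter Topology Complex

namespace Crest.Agent.R086.BMatch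

open Crest.Agent.R086.B

/-- geometry of the matching: the parameter box around `(om0, R)` -/
theorem exists_geom {Y Y1 : ℝ → ℝ → ℝ → ℂ}
    (hYc : Continuous fun q : ℝ × ℝ × ℝ => Y q.1 q.2.1 q.2.2)
    (hY : ∀ om ∈ Icc (1/5 : ℝ) (1/2), ∀ R1 ∈ Icc (3 : ℝ) (18/5),
      Y om R1 R1 = 1 ∧ Y1 om R1 R1 = 0 ∧ LinSol om (Y om R1) (Y1 om R1) (Ici 1))
    {Uo Uo1 : ℝ → ℝ → ℂ} (hO : OutFam Uo Uo1) {om0 R : ℝ} {c0 : ℂ}
    (hom0 : om0 ∈ Ioo (1/5 : ℝ) (1/2)) (hR : R ∈ Ioo (3 : ℝ) (18/5))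
    (hc0 : c0 * Uo om0 R = 1) (hz : Uo1 om0 R = 0) {d0 : ℝ} (hd0 : 0 < d0)
    {rho : ℝ} (hrho : R < rho) (hrho2 : rho ≤ R + d0 / 2) (hrho3 : rho < 18/5)
    (hU : Uo om0 rho ≠ 0) :
    (∀ r ∈ Icc R rho, Y om0 R r = c0 * Uo om0 r ∧ Y1 om0 R r = c0 * Uo1 om0 r) ∧
    ContinuousAt (fun om => Uo om rho) om0 ∧
    ContinuousAt (fun p : ℝ × ℝ => Y p.1 p.2 rho / Uo p.1 rho) (om0, R) ∧
    Y om0 R rho / Uo om0 rho = c0 ∧
    ∀ del : ℝ, 0 < del → ∃ δ₁ : ℝ, 0 < δ₁ ∧ ∀ p ∈ Metric.closedBall ((om0, R) : ℝ × ℝ) δ₁,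
      p.1 ∈ Icc (1/5 : ℝ) (1/2) ∧ |p.1 - om0| ≤ del ∧ p.2 ∈ Icc (3 : ℝ) rho ∧
      (rho - R) / 2 ≤ rho - p.2 ∧ rho - p.2 ≤ d0 ∧ Uo p.1 rho ≠ 0 ∧
      ‖Y p.1 p.2 rho / Uo p.1 rho - c0‖ ≤ del := by
  have hrho0 : 0 < rho := by linarith [hR.1]
  have hid : ∀ r ∈ Icc R rho, Y om0 R r = c0 * Uo om0 r ∧ Y1 om0 R r = c0 * Uo1 om0 r := by
    have h := hY om0 (Ioo_subset_Icc_self hom0) R (Ioo_subset_Icc_self hR)
    refine lin_unique (om := om0) (by linarith [hR.1]) (fun r hr => h.2.2 r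
      (show (1:ℝ) ≤ r by linarith [hR.1, hr.1])) ?_ ?_ ?_
    · intro r hr
      have h2 := hO.lin om0 (Ioo_subset_Icc_self hom0) r (show (0:ℝ) < r by linarith [hR.1, hr.1])
      refine ⟨h2.1.const_mul c0, (h2.2.const_mul c0).congr_deriv ?_⟩
      ring
    · rw [h.1, hc0]
    · rw [h.2.1, hz, mul_zero]
  have hUc : ContinuousAt (fun om => Uo om rho) om0 := by
    have h1 : ContinuousOn (fun om => Uo om rho) (Icc (1/5 : ℝ) (1/2)) :=
      hO.cont.comp (f := fun om : ℝ => ((om, rho) : ℝ × ℝ)) (by fun_prop)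
        (fun om hom => ⟨hom, hrho0⟩)
    exact h1.continuousAt (Icc_mem_nhds hom0.1 hom0.2)
  have hUc' : ContinuousAt (fun p : ℝ × ℝ => Uo p.1 rho) (om0, R) :=
    ContinuousAt.comp (f := fun p : ℝ × ℝ => p.1) (g := fun om => Uo om rho) hUc continuousAt_fst
  have hYc' : Continuous (fun p : ℝ × ℝ => Y p.1 p.2 rho) := by
    have : Continuous (fun p : ℝ × ℝ => ((p.1, p.2, rho) : ℝ × ℝ × ℝ)) := by fun_prop
    exact hYc.comp this
  have hcc : ContinuousAt (fun p : ℝ × ℝ => Y p.1 p.2 rho / Uo p.1 rho) (om0, R) :=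
    hYc'.continuousAt.div hUc' hU
  have hcv : Y om0 R rho / Uo om0 rho = c0 := by
    rw [(hid rho ⟨hrho.le, le_rfl⟩).1]
    field_simp
  refine ⟨hid, hUc, hcc, hcv, ?_⟩
  intro del hdel
  have e1 : ∀ᶠ p : ℝ × ℝ in 𝓝 (om0, R), p.1 ∈ Ioo (1/5 : ℝ) (1/2) :=
    (continuous_fst.tendsto ((om0, R) : ℝ × ℝ)) (Ioo_mem_nhds hom0.1 hom0.2)
  have e2 : ∀ᶠ p : ℝ × ℝ in 𝓝 (om0, R), p.1 ∈ Ioo (om0 - del) (om0 + del) :=
    (continuous_fst.tendsto ((om0, R) : ℝ × ℝ)) (Ioo_mem_nhds (by simp [hdel]) (by simp [hdel]))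
  have e3 : ∀ᶠ p : ℝ × ℝ in 𝓝 (om0, R), p.2 ∈ Ioo 3 rho :=
    (continuous_snd.tendsto ((om0, R) : ℝ × ℝ)) (Ioo_mem_nhds hR.1 hrho)
  have e4 : ∀ᶠ p : ℝ × ℝ in 𝓝 (om0, R), p.2 ∈ Ioo (rho - d0) (rho - (rho - R) / 2) :=
    (continuous_snd.tendsto ((om0, R) : ℝ × ℝ))
      (Ioo_mem_nhds (by simp only; linarith) (by simp only; linarith))
  have e5 : ∀ᶠ p : ℝ × ℝ in 𝓝 (om0, R), Uo p.1 rho ≠ 0 := hUc'.eventually_ne hU
  have e6 : ∀ᶠ p : ℝ × ℝ in 𝓝 (om0, R), dist (Y p.1 p.2 rho / Uo p.1 rho) c0 < del := by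
    have h1 := hcc
    unfold ContinuousAt at h1
    simp only [hcv] at h1
    exact h1 (Metric.ball_mem_nhds _ hdel)
  obtain ⟨δ₁, hδ₁, hsub⟩ := Metric.nhds_basis_closedBall.eventually_iff.1
    (e1.and (e2.and (e3.and (e4.and (e5.and e6)))))
  refine ⟨δ₁, hδ₁, fun p hp => ?_⟩
  obtain ⟨h1, h2, h3, h4, h5, h6⟩ := hsub hp
  refine ⟨Ioo_subset_Icc_self h1, ?_, Ioo_subset_Icc_self h3, ?_, ?_, h5, ?_⟩
  · rw [abs_le]
    constructor <;> linarith [h2.1, h2.2]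
  · linarith [h4.2]
  · linarith [h4.1]
  · rw [← dist_eq_norm]
    exact h6.le

end Crest.Agent.R086.BMatch
end

-- ▼ part R086/BMatchN
section

/-! # Row 86, Part B, matching: the main theorem (helper651) -/

set_option autoImplicit false

open Set Filter Topology Complex

namespace Crest.Agent.R086.BMatch

open Crest.Agent.R086.B

set_option maxHeartbeats 1000000 in
/-- matching at a fixed radius `rho` -/
theorem match_rho {Y Y1 : ℝ → ℝ → ℝ → ℂ}
    (hYc : Continuous fun q : ℝ × ℝ × ℝ => Y q.1 q.2.1 q.2.2)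
    (hY1c : Continuous fun q : ℝ × ℝ × ℝ => Y1 q.1 q.2.1 q.2.2)
    (hY : ∀ om ∈ Icc (1/5 : ℝ) (1/2), ∀ R1 ∈ Icc (3 : ℝ) (18/5),
      Y om R1 R1 = 1 ∧ Y1 om R1 R1 = 0 ∧ LinSol om (Y om R1) (Y1 om R1) (Ici 1))
    {d0 : ℝ} (hd0 : 0 < d0)
    (hdecr : ∀ om ∈ Icc (1/5 : ℝ) (1/2), ∀ R1 ∈ Icc (3 : ℝ) (18/5),
      ∀ r ∈ Icc R1 (R1 + d0), ‖Y om R1 r‖ ^ 2 ≤ 1 - (r - R1) ^ 2 / 10)
    {Uo Uo1 : ℝ → ℝ → ℂ} (hO : OutFam Uo Uo1) {om0 R : ℝ} {c0 : ℂ}
    (hom0 : om0 ∈ Ioo (1/5 : ℝ) (1/2)) (hR : R ∈ Ioo (3 : ℝ) (18/5))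
    (hc0 : c0 * Uo om0 R = 1) (hz : Uo1 om0 R = 0)
    (L : (ℝ × ℝ) ≃L[ℝ] ℂ)
    (hL : HasFDerivAt (fun p : ℝ × ℝ => Uo1 p.1 p.2) (L : (ℝ × ℝ) →L[ℝ] ℂ) (om0, R))
    {rho : ℝ} (hrho : R < rho) (hrho2 : rho ≤ R + d0 / 2) (hrho3 : rho < 18/5)
    (hU : Uo om0 rho ≠ 0) (hLim : LimStmt rho) (hCont : ContStmt rho)
    {del : ℝ} {n1 : ℕ} {v v1 : ℕ → ℝ → ℂ → ℝ → ℂ} (hdel : 0 < del)
    (H1 : ∀ n : ℕ, n1 ≤ n → Even n → ∀ om : ℝ, |om - om0| ≤ del → ∀ c : ℂ, ‖c - c0‖ ≤ del →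
      ContinuousOn (v n om c) (Ici rho) ∧ ContinuousOn (v1 n om c) (Ici rho) ∧
      IsSol n om (1 / n) (v n om c) (v1 n om c) (Ioi rho))
    (H2 : ∀ n : ℕ, n1 ≤ n → Even n →
      ContinuousOn (fun p : ℝ × ℂ => v n p.1 p.2 rho)
        {p : ℝ × ℂ | |p.1 - om0| ≤ del ∧ ‖p.2 - c0‖ ≤ del} ∧
      ContinuousOn (fun p : ℝ × ℂ => v1 n p.1 p.2 rho)
        {p : ℝ × ℂ | |p.1 - om0| ≤ del ∧ ‖p.2 - c0‖ ≤ del})
    (H3 : ∀ η : ℝ, 0 < η → ∃ N : ℕ, ∀ n, N ≤ n → Even n → ∀ om : ℝ, |om - om0| ≤ del →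
      ∀ c : ℂ, ‖c - c0‖ ≤ del →
        ‖v n om c rho - c * Uo om rho‖ ≤ η ∧ ‖v1 n om c rho - c * Uo1 om rho‖ ≤ η) :
    ∃ (N : ℕ) (om R1 : ℕ → ℝ) (c : ℕ → ℂ) (u u1 : ℕ → ℝ → ℂ),
      Tendsto om atTop (𝓝 om0) ∧ Tendsto R1 atTop (𝓝 R) ∧ Tendsto c atTop (𝓝 c0) ∧
      (∀ n : ℕ, N ≤ n → Even n → om n ∈ Icc (1/5 : ℝ) (1/2) ∧ |om n - om0| ≤ del ∧
        ‖c n - c0‖ ≤ del ∧ ContinuousOn (u n) (Ici 0) ∧ ContinuousOn (u1 n) (Ici 0) ∧
        u1 n 0 = 0 ∧ IsSol n (om n) (1 / n) (u n) (u1 n) (Ioi 0) ∧ ‖u n rho‖ ≤ 1 ∧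
        (∀ r, rho ≤ r → u n r = v n (om n) (c n) r ∧ u1 n r = v1 n (om n) (c n) r)) ∧
      (∀ η : ℝ, 0 < η → ∃ N' : ℕ, ∀ n, N' ≤ n → Even n → ∀ r ∈ Icc 0 rho,
        ‖u n r - (if r ≤ R then 1 else c0 * Uo om0 r)‖ ≤ η ∧
        ‖u1 n r - (if r ≤ R then 0 else c0 * Uo1 om0 r)‖ ≤ η) := by
  obtain ⟨hid, hUc, hcc, hcv, hgeo⟩ := exists_geom hYc hY hO hom0 hR hc0 hz hd0 hrho hrho2 hrho3 hU
  obtain ⟨δ₁, hδ₁, hbox⟩ := hgeo del hdel
  have hrho0 : 0 < rho := by linarith [hR.1]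
  set c' : ℝ × ℝ → ℂ := fun p => Y p.1 p.2 rho / Uo p.1 rho with hc'
  set K : Set (ℝ × ℝ) := Metric.closedBall ((om0, R) : ℝ × ℝ) δ₁ with hK
  have hKc : IsCompact K := isCompact_closedBall _ _
  -- continuity of the amplitude
  have hcK : ContinuousOn c' K := by
    have h1 : Continuous (fun p : ℝ × ℝ => Y p.1 p.2 rho) := by
      have : Continuous (fun p : ℝ × ℝ => ((p.1, p.2, rho) : ℝ × ℝ × ℝ)) := by fun_prop
      exact hYc.comp this
    have h2 : ContinuousOn (fun p : ℝ × ℝ => Uo p.1 rho) K :=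
      hO.cont.comp (f := fun p : ℝ × ℝ => ((p.1, rho) : ℝ × ℝ)) (by fun_prop)
        (fun p hp => ⟨(hbox p hp).1, hrho0⟩)
    exact h1.continuousOn.div h2 (fun p hp => (hbox p hp).2.2.2.2.2.1)
  -- interior solutions
  have hex : ∀ (n : ℕ) (om : ℝ) (b : ℂ), ∃ u u1 : ℝ → ℂ, 2 ≤ n → om ∈ Icc (1/5 : ℝ) (1/2) →
      ‖b‖ ≤ 1 → IntSol n om rho u u1 ∧ u rho = b := by
    intro n om b
    by_cases h : 2 ≤ n ∧ om ∈ Icc (1/5 : ℝ) (1/2) ∧ ‖b‖ ≤ 1
    · obtain ⟨h1, h2, h3⟩ := h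
      have heps : (1 / (n : ℝ)) ∈ Icc (0:ℝ) 1 := by
        have hn : (1:ℝ) ≤ n := by exact_mod_cast (le_trans (by norm_num) h1)
        exact ⟨by positivity, by rw [div_le_one (by linarith)]; exact hn⟩
      obtain ⟨u, u1, a1, a2, a3, a4, a5, -, -⟩ :=
        Core.exists_bvp n h1 rho om (1 / n) hrho0 hrho3.le h2 heps b h3
      exact ⟨u, u1, fun _ _ _ => ⟨⟨a1, a2, a3, a4, by rw [a5]; exact h3⟩, a5⟩⟩
    · exact ⟨fun _ => 0, fun _ => 0, fun h1 h2 h3 => absurd ⟨h1, h2, h3⟩ h⟩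
  choose uI uI1 huI using hex
  set b : ℕ → ℝ × ℝ → ℂ := fun n p => v n p.1 (c' p) rho with hb
  -- closeness of the boundary values
  have hbY : ∀ η : ℝ, 0 < η → ∃ N : ℕ, ∀ n, N ≤ n → Even n → ∀ p ∈ K,
      ‖b n p - Y p.1 p.2 rho‖ ≤ η ∧ ‖v1 n p.1 (c' p) rho - c' p * Uo1 p.1 rho‖ ≤ η := by
    intro η hη
    obtain ⟨N, hN⟩ := H3 η hη
    refine ⟨N, fun n hn he p hp => ?_⟩
    obtain ⟨-, q2, -, -, -, q6, q7⟩ := hbox p hp
    have h1 := hN n hn he p.1 q2 (c' p) q7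
    refine ⟨?_, h1.2⟩
    have h2 : c' p * Uo p.1 rho = Y p.1 p.2 rho := by
      simp only [hc']
      field_simp
    rw [← h2]
    exact h1.1
  set κ : ℝ := ((rho - R) / 2) ^ 2 / 20 with hκ
  have hκ0 : 0 < κ := by
    have : 0 < rho - R := by linarith
    positivity
  have hYle : ∀ p ∈ K, ‖Y p.1 p.2 rho‖ ≤ 1 - κ := by
    intro p hp
    obtain ⟨q1, q2, q3, q4, q5, q6, q7⟩ := hbox p hp
    have h1 := hdecr p.1 q1 p.2 ⟨q3.1, by linarith [q3.2]⟩ rho ⟨q3.2, by linarith⟩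
    have h2 : ((rho - R) / 2) ^ 2 ≤ (rho - p.2) ^ 2 := by
      apply pow_le_pow_left₀ (by linarith) q4
    have h3 : ‖Y p.1 p.2 rho‖ ^ 2 ≤ 1 - 2 * κ := by
      rw [hκ]; linarith
    by_contra h4
    rw [not_le] at h4
    have h5 : 0 ≤ 1 - 2 * κ := (sq_nonneg _).trans h3
    have h6 : (1 - κ) ^ 2 < ‖Y p.1 p.2 rho‖ ^ 2 := by
      apply pow_lt_pow_left₀ h4 (by linarith) (by norm_num)
    nlinarith
  obtain ⟨NB, hNB⟩ := hbY κ hκ0
  have hb1 : ∀ n, NB ≤ n → Even n → ∀ p ∈ K, ‖b n p‖ ≤ 1 := by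
    intro n hn he p hp
    have h1 := (hNB n hn he p hp).1
    have h2 := hYle p hp
    calc ‖b n p‖ = ‖(b n p - Y p.1 p.2 rho) + Y p.1 p.2 rho‖ := by ring_nf
      _ ≤ ‖b n p - Y p.1 p.2 rho‖ + ‖Y p.1 p.2 rho‖ := norm_add_le _ _
      _ ≤ 1 := by linarith
  -- continuity of the boundary value
  have hbc : ∀ n, n1 ≤ n → Even n → ContinuousOn (b n) K := by
    intro n hn he
    refine (H2 n hn he).1.comp (f := fun p : ℝ × ℝ => ((p.1, c' p) : ℝ × ℂ)) ?_ ?_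
    · exact continuous_fst.continuousOn.prodMk hcK
    · intro p hp
      exact ⟨(hbox p hp).2.1, (hbox p hp).2.2.2.2.2.2⟩
  have hDEc : ∀ n, n1 ≤ n → Even n → ContinuousOn (fun p : ℝ × ℝ => v1 n p.1 (c' p) rho) K := by
    intro n hn he
    refine (H2 n hn he).2.comp (f := fun p : ℝ × ℝ => ((p.1, c' p) : ℝ × ℂ)) ?_ ?_
    · exact continuous_fst.continuousOn.prodMk hcK
    · intro p hp
      exact ⟨(hbox p hp).2.1, (hbox p hp).2.2.2.2.2.2⟩
  have hDIc : ∀ n, n1 ≤ n → 2 ≤ n → NB ≤ n → Even n →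
      ContinuousOn (fun p : ℝ × ℝ => uI1 n p.1 (b n p) rho) K := by
    intro n hn hn2 hnB he
    rw [Metric.continuousOn_iff]
    intro p hp ε hε
    obtain ⟨hs, hsb⟩ := huI n p.1 (b n p) hn2 (hbox p hp).1 (hb1 n hnB he p hp)
    obtain ⟨dl, hdl, hcl⟩ := hCont n hn2 he p.1 (hbox p hp).1 _ _ hs (ε / 2) (by positivity)
    have hbc' := Metric.continuousOn_iff.1 (hbc n hn he) p hp dl hdl
    obtain ⟨d2, hd2, hbc2⟩ := hbc'
    refine ⟨min d2 dl, lt_min hd2 hdl, fun q hq hqp => ?_⟩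
    obtain ⟨hsq, hsqb⟩ := huI n q.1 (b n q) hn2 (hbox q hq).1 (hb1 n hnB he q hq)
    have h1 := hcl q.1 (hbox q hq).1 ?_ _ _ hsq ?_
    · rw [dist_eq_norm]
      linarith
    · have h2 : dist q.1 p.1 ≤ dist q p := by rw [Prod.dist_eq]; exact le_max_left _ _
      rw [Real.dist_eq] at h2
      exact h2.trans (hqp.le.trans (min_le_right _ _))
    · rw [hsb, hsqb, ← dist_eq_norm]
      exact (hbc2 q hq (hqp.trans_le (min_le_left _ _))).le
  -- bound for `VV Y1`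
  obtain ⟨M, hM⟩ : ∃ M : ℝ, ∀ q ∈ K ×ˢ Icc 0 rho, ‖VV Y1 q.1.1 q.1.2 q.2‖ ≤ M :=
    (hKc.prod isCompact_Icc).exists_bound_of_continuousOn (continuous_VV hY1c).continuousOn
  have hVle : ∀ p ∈ K, ∀ r ∈ Icc 0 rho, ‖VV Y p.1 p.2 r‖ ≤ 1 := by
    intro p hp r hr
    obtain ⟨q1, q2, q3, q4, q5, q6, q7⟩ := hbox p hp
    have hR1 : p.2 ∈ Icc (3:ℝ) (18/5) := ⟨q3.1, by linarith [q3.2]⟩
    rcases le_total r p.2 with h | h
    · rw [VV_le h, (hY p.1 q1 p.2 hR1).1]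
      simp
    · rw [VV_ge h]
      have h1 := hdecr p.1 q1 p.2 hR1 r ⟨h, by linarith [hr.2]⟩
      have h2 : ‖Y p.1 p.2 r‖ ^ 2 ≤ 1 := h1.trans (by nlinarith [sq_nonneg (r - p.2)])
      exact (sq_le_one_iff₀ (norm_nonneg _)).1 h2
  -- the interior limit
  have hD : ∀ η : ℝ, 0 < η → ∃ N : ℕ, ∀ n, N ≤ n → Even n → ∀ p ∈ K, ∀ r ∈ Icc 0 rho,
      ‖uI n p.1 (b n p) r - VV Y p.1 p.2 r‖ ≤ η ∧ ‖uI1 n p.1 (b n p) r - VV Y1 p.1 p.2 r‖ ≤ η := by
    intro η hη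
    obtain ⟨n0, η1, hη1, hlim⟩ := hLim η hη M
    obtain ⟨N2, hN2⟩ := hbY η1 hη1
    refine ⟨max n0 (max N2 (max NB 2)), fun n hn he p hp => ?_⟩
    have hn0 : n0 ≤ n := (le_max_left _ _).trans hn
    have hnN2 : N2 ≤ n := ((le_max_left _ _).trans (le_max_right _ _)).trans hn
    have hnNB : NB ≤ n :=
      ((le_max_left _ _).trans ((le_max_right _ _).trans (le_max_right _ _))).trans hn
    have hn2 : 2 ≤ n :=
      ((le_max_right _ _).trans ((le_max_right _ _).trans (le_max_right _ _))).trans hn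
    obtain ⟨q1, q2, q3, q4, q5, q6, q7⟩ := hbox p hp
    have hR1 : p.2 ∈ Icc (3:ℝ) (18/5) := ⟨q3.1, by linarith [q3.2]⟩
    obtain ⟨hy1, hy2, hy3⟩ := hY p.1 q1 p.2 hR1
    obtain ⟨hs, hsb⟩ := huI n p.1 (b n p) hn2 q1 (hb1 n hnNB he p hp)
    have hcv1 : Continuous (VV Y p.1 p.2) := by
      have : Continuous (fun r : ℝ => (((p.1, p.2), r) : (ℝ × ℝ) × ℝ)) := by fun_prop
      exact (continuous_VV hYc).comp this
    have hcv2 : Continuous (VV Y1 p.1 p.2) := by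
      have : Continuous (fun r : ℝ => (((p.1, p.2), r) : (ℝ × ℝ) × ℝ)) := by fun_prop
      exact (continuous_VV hY1c).comp this
    refine hlim n hn0 he p.1 q1 p.2 q3 (VV Y p.1 p.2) (VV Y1 p.1 p.2) hcv1.continuousOn
      hcv2.continuousOn ?_ (isLin_VV q3.1 hy3 rho) (hVle p hp) ?_ _ _ hs ?_
    · intro r hr
      exact ⟨by rw [VV_le hr.2, hy1], by rw [VV_le hr.2, hy2]⟩
    · intro r hr
      exact hM (p, r) ⟨hp, hr⟩
    · rw [hsb, VV_ge q3.2]
      exact (hN2 n hnN2 he p hp).1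
  -- matching in small balls
  obtain ⟨δf, hδf, hδf2⟩ : ∃ δf : ℝ, 0 < δf ∧ Icc (om0 - δf) (om0 + δf) ⊆ Icc (1/5 : ℝ) (1/2) := by
    refine ⟨min (om0 - 1/5) (1/2 - om0), lt_min (by linarith [hom0.1]) (by linarith [hom0.2]), ?_⟩
    intro x hx
    have a1 := min_le_left (om0 - 1/5) (1/2 - om0)
    have a2 := min_le_right (om0 - 1/5) (1/2 - om0)
    exact ⟨by linarith [hx.1], by linarith [hx.2]⟩
  have hmatch : ∀ δ₀ : ℝ, 0 < δ₀ → δ₀ ≤ δ₁ → ∃ N : ℕ, ∀ n, N ≤ n → Even n →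
      ∃ p ∈ Metric.closedBall ((om0, R) : ℝ × ℝ) δ₀,
        uI1 n p.1 (b n p) rho = v1 n p.1 (c' p) rho := by
    intro δ₀ hδ₀ hδ₀1
    obtain ⟨δ, hδ, hδδ, η, hη, hzero⟩ := matching_zero hYc hY1c hY (f := Uo) (f1 := Uo1)
      (om0 := om0) (R0 := R) (rho := rho) (δf := δf) hom0 hR hrho hδf
      (fun om hom r hr => hO.lin om (hδf2 hom) r (show (0:ℝ) < r by linarith [hr.1])) hUc hU hz L hL
      δ₀ hδ₀
    have hsub : Metric.closedBall ((om0, R) : ℝ × ℝ) δ ⊆ K :=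
      Metric.closedBall_subset_closedBall (hδδ.trans hδ₀1)
    obtain ⟨N1, hN1⟩ := hD η hη
    obtain ⟨N2, hN2⟩ := hbY η hη
    refine ⟨max N1 (max N2 (max NB (max n1 2))), fun n hn he => ?_⟩
    simp only [max_le_iff] at hn
    obtain ⟨hnN1, hnN2, hnNB, hnn1, hn2⟩ := hn
    obtain ⟨p, hp, hpe⟩ := hzero (fun p => uI1 n p.1 (b n p) rho) (fun p => v1 n p.1 (c' p) rho)
      ((hDIc n hnn1 hn2 hnNB he).mono hsub) ((hDEc n hnn1 he).mono hsub) (by
        intro p hp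
        refine ⟨?_, ?_⟩
        · have h1 := (hN1 n hnN1 he p (hsub hp) rho ⟨hrho0.le, le_rfl⟩).2
          rw [VV_ge (hbox p (hsub hp)).2.2.1.2] at h1
          exact h1
        · have h1 := (hN2 n hnN2 he p (hsub hp)).2
          have h2 : c' p * Uo1 p.1 rho = Uo1 p.1 rho / Uo p.1 rho * Y p.1 p.2 rho := by
            simp only [hc']
            ring
          rw [← h2]
          exact h1)
    exact ⟨p, Metric.closedBall_subset_closedBall hδδ hp, hpe⟩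
  -- diagonal sequence
  have hcen : ∀ k : ℕ, ((om0, R) : ℝ × ℝ) ∈ Metric.closedBall ((om0, R) : ℝ × ℝ) (δ₁ / (k + 1)) :=
    fun k => Metric.mem_closedBall_self (by positivity)
  obtain ⟨s, hs⟩ := exists_diag
    (fun k n (p : ℝ × ℝ) => p ∈ Metric.closedBall ((om0, R) : ℝ × ℝ) (δ₁ / (k + 1)) ∧
      (0 < k → Even n → uI1 n p.1 (b n p) rho = v1 n p.1 (c' p) rho))
    (by
      intro k n p hp
      refine ⟨Metric.closedBall_subset_closedBall ?_ hp.1, fun _ => hp.2 (Nat.succ_pos k)⟩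
      apply div_le_div_of_nonneg_left hδ₁.le (by positivity)
      push_cast
      linarith)
    (fun n => ⟨(om0, R), hcen 0, fun h => absurd h (lt_irrefl 0)⟩)
    (by
      intro k
      obtain ⟨N, hN⟩ := hmatch (δ₁ / (k + 1)) (by positivity) (by
        rw [div_le_iff₀ (by positivity)]
        have : (0:ℝ) ≤ k := Nat.cast_nonneg k
        nlinarith)
      refine ⟨N, fun n hn => ?_⟩
      by_cases he : Even n
      · obtain ⟨p, hp, hpe⟩ := hN n hn he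
        exact ⟨p, hp, fun _ _ => hpe⟩
      · exact ⟨(om0, R), hcen k, fun _ h => absurd h he⟩)
  obtain ⟨N1, hN1⟩ := hs 1
  have hslim : Tendsto s atTop (𝓝 ((om0, R) : ℝ × ℝ)) := by
    rw [Metric.tendsto_atTop]
    intro ε hε
    obtain ⟨k, hk⟩ := exists_nat_gt (δ₁ / ε)
    obtain ⟨N, hN⟩ := hs k
    refine ⟨N, fun n hn => ?_⟩
    have h1 := (hN n hn).1
    rw [Metric.mem_closedBall] at h1
    refine h1.trans_lt ?_
    rw [div_lt_iff₀ (by positivity)]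
    rw [div_lt_iff₀ hε] at hk
    nlinarith
  have hsK : ∀ n, N1 ≤ n → s n ∈ K := fun n hn => by
    refine Metric.closedBall_subset_closedBall ?_ (hN1 n hn).1
    rw [div_le_iff₀ (by positivity)]
    push_cast
    nlinarith
  set N0 : ℕ := max N1 (max NB (max n1 2)) with hN0
  refine ⟨N0, fun n => (s n).1, fun n => (s n).2, fun n => c' (s n),
    fun n => glue rho (uI n (s n).1 (b n (s n))) (v n (s n).1 (c' (s n))),
    fun n => glue rho (uI1 n (s n).1 (b n (s n))) (v1 n (s n).1 (c' (s n))),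
    ?_, ?_, ?_, ?_, ?_⟩
  · exact (continuous_fst.tendsto _).comp hslim
  · exact (continuous_snd.tendsto _).comp hslim
  · have h1 := hcc.tendsto.comp hslim
    have h2 : c' ((om0, R) : ℝ × ℝ) = c0 := hcv
    rw [h2] at h1
    exact h1
  · intro n hn he
    rw [hN0] at hn
    simp only [max_le_iff] at hn
    obtain ⟨hnN1, hnNB, hnn1, hn2⟩ := hn
    have hp := hsK n hnN1
    obtain ⟨q1, q2, q3, q4, q5, q6, q7⟩ := hbox _ hp
    obtain ⟨⟨a1, a2, a3, a4, a5⟩, hsb⟩ := huI n (s n).1 (b n (s n)) hn2 q1 (hb1 n hnNB he _ hp)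
    obtain ⟨w1, w2, w3⟩ := H1 n hnn1 he (s n).1 q2 (c' (s n)) q7
    have hm0 : uI n (s n).1 (b n (s n)) rho = v n (s n).1 (c' (s n)) rho := hsb
    have hm1 : uI1 n (s n).1 (b n (s n)) rho = v1 n (s n).1 (c' (s n)) rho :=
      (hN1 n hnN1).2 one_pos he
    refine ⟨q1, q2, q7, continuousOn_glue hrho0.le a1 w1 hm0, continuousOn_glue hrho0.le a2 w2 hm1,
      ?_, isSol_glue hrho0 a1 a2 w1 w2 a4 w3 hm0 hm1, ?_, fun r hr => ⟨glue_ge hm0 hr, glue_ge hm1 hr⟩⟩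
    · show glue rho _ _ 0 = 0
      rw [glue_le hrho0.le, a3]
    · show ‖glue rho _ _ rho‖ ≤ 1
      rw [glue_le le_rfl]
      exact a5
  · intro η hη
    obtain ⟨N2, hN2⟩ := hD (η / 2) (by positivity)
    -- uniform continuity in the parameter
    have hunif : ∀ (Z : ℝ → ℝ → ℝ → ℂ), (Continuous fun q : ℝ × ℝ × ℝ => Z q.1 q.2.1 q.2.2) →
        ∃ N, ∀ n, N ≤ n → ∀ r ∈ Icc 0 rho, ‖VV Z (s n).1 (s n).2 r - VV Z om0 R r‖ ≤ η / 2 := by
      intro Z hZ
      have h1 : Continuous (↿(fun (p : ℝ × ℝ) (r : Icc (0:ℝ) rho) => VV Z p.1 p.2 (r : ℝ))) := by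
        have : Continuous (fun q : (ℝ × ℝ) × (Icc (0:ℝ) rho) =>
            (((q.1.1, q.1.2), (q.2 : ℝ)) : (ℝ × ℝ) × ℝ)) := by fun_prop
        exact (continuous_VV hZ).comp this
      have h2 := Continuous.tendstoUniformly _ h1 ((om0, R) : ℝ × ℝ)
      rw [Metric.tendstoUniformly_iff] at h2
      have h3 := hslim.eventually (h2 (η / 2) (by positivity))
      obtain ⟨N, hN⟩ := eventually_atTop.1 h3
      refine ⟨N, fun n hn r hr => ?_⟩
      have h4 := hN n hn ⟨r, hr⟩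
      rw [dist_comm, dist_eq_norm] at h4
      exact h4.le
    obtain ⟨N3, hN3⟩ := hunif Y hYc
    obtain ⟨N4, hN4⟩ := hunif Y1 hY1c
    refine ⟨max N1 (max N2 (max N3 N4)), fun n hn he r hr => ?_⟩
    simp only [max_le_iff] at hn
    obtain ⟨hnN1, hnN2, hnN3, hnN4⟩ := hn
    obtain ⟨hy1, hy2, hy3⟩ := hY om0 (Ioo_subset_Icc_self hom0) R (Ioo_subset_Icc_self hR)
    have e0 : VV Y om0 R r = if r ≤ R then 1 else c0 * Uo om0 r := by
      split_ifs with h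
      · rw [VV_le h, hy1]
      · rw [VV_ge (not_le.1 h).le]
        exact (hid r ⟨(not_le.1 h).le, hr.2⟩).1
    have e1 : VV Y1 om0 R r = if r ≤ R then 0 else c0 * Uo1 om0 r := by
      split_ifs with h
      · rw [VV_le h, hy2]
      · rw [VV_ge (not_le.1 h).le]
        exact (hid r ⟨(not_le.1 h).le, hr.2⟩).2
    have g0 := hN3 n hnN3 r hr
    have g1 := hN4 n hnN4 r hr
    obtain ⟨g2, g3⟩ := hN2 n hnN2 he (s n) (hsK n hnN1) r hr
    rw [← e0, ← e1]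
    show ‖glue rho _ _ r - _‖ ≤ η ∧ ‖glue rho _ _ r - _‖ ≤ η
    rw [glue_le hr.2, glue_le hr.2]
    refine ⟨?_, ?_⟩
    · calc ‖uI n (s n).1 (b n (s n)) r - VV Y om0 R r‖
          = ‖(uI n (s n).1 (b n (s n)) r - VV Y (s n).1 (s n).2 r)
            + (VV Y (s n).1 (s n).2 r - VV Y om0 R r)‖ := by ring_nf
        _ ≤ η / 2 + η / 2 := (norm_add_le _ _).trans (add_le_add g2 g0)
        _ = η := by ring
    · calc ‖uI1 n (s n).1 (b n (s n)) r - VV Y1 om0 R r‖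
          = ‖(uI1 n (s n).1 (b n (s n)) r - VV Y1 (s n).1 (s n).2 r)
            + (VV Y1 (s n).1 (s n).2 r - VV Y1 om0 R r)‖ := by ring_nf
        _ ≤ η / 2 + η / 2 := (norm_add_le _ _).trans (add_le_add g3 g1)
        _ = η := by ring

/-- **matching**: for `rho` slightly larger than `R` -/
theorem match_main {Uo Uo1 : ℝ → ℝ → ℂ} (hO : OutFam Uo Uo1) {om0 R : ℝ} {c0 : ℂ}
    (hom0 : om0 ∈ Ioo (1/5 : ℝ) (1/2)) (hR : R ∈ Ioo (3 : ℝ) (18/5))
    (hc0 : c0 * Uo om0 R = 1) (hz : Uo1 om0 R = 0)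
    (L : (ℝ × ℝ) ≃L[ℝ] ℂ)
    (hL : HasFDerivAt (fun p : ℝ × ℝ => Uo1 p.1 p.2) (L : (ℝ × ℝ) →L[ℝ] ℂ) (om0, R)) :
    ∃ d1 : ℝ, 0 < d1 ∧ ∀ rho : ℝ, R < rho → rho ≤ R + d1 →
      rho < 18/5 ∧ (∀ r ∈ Icc R rho, Uo om0 r ≠ 0) ∧ (LimStmt rho → ContStmt rho →
      ∀ {del : ℝ} {n1 : ℕ} {v v1 : ℕ → ℝ → ℂ → ℝ → ℂ} (_ : 0 < del)
        (_ : ∀ n : ℕ, n1 ≤ n → Even n → ∀ om : ℝ, |om - om0| ≤ del → ∀ c : ℂ, ‖c - c0‖ ≤ del →
          ContinuousOn (v n om c) (Ici rho) ∧ ContinuousOn (v1 n om c) (Ici rho) ∧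
          IsSol n om (1 / n) (v n om c) (v1 n om c) (Ioi rho))
        (_ : ∀ n : ℕ, n1 ≤ n → Even n →
          ContinuousOn (fun p : ℝ × ℂ => v n p.1 p.2 rho)
            {p : ℝ × ℂ | |p.1 - om0| ≤ del ∧ ‖p.2 - c0‖ ≤ del} ∧
          ContinuousOn (fun p : ℝ × ℂ => v1 n p.1 p.2 rho)
            {p : ℝ × ℂ | |p.1 - om0| ≤ del ∧ ‖p.2 - c0‖ ≤ del})
        (_ : ∀ η : ℝ, 0 < η → ∃ N : ℕ, ∀ n, N ≤ n → Even n → ∀ om : ℝ, |om - om0| ≤ del →
          ∀ c : ℂ, ‖c - c0‖ ≤ del →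
            ‖v n om c rho - c * Uo om rho‖ ≤ η ∧ ‖v1 n om c rho - c * Uo1 om rho‖ ≤ η),
        ∃ (N : ℕ) (om R1 : ℕ → ℝ) (c : ℕ → ℂ) (u u1 : ℕ → ℝ → ℂ),
          Tendsto om atTop (𝓝 om0) ∧ Tendsto R1 atTop (𝓝 R) ∧ Tendsto c atTop (𝓝 c0) ∧
          (∀ n : ℕ, N ≤ n → Even n → om n ∈ Icc (1/5 : ℝ) (1/2) ∧ |om n - om0| ≤ del ∧
            ‖c n - c0‖ ≤ del ∧ ContinuousOn (u n) (Ici 0) ∧ ContinuousOn (u1 n) (Ici 0) ∧
            u1 n 0 = 0 ∧ IsSol n (om n) (1 / n) (u n) (u1 n) (Ioi 0) ∧ ‖u n rho‖ ≤ 1 ∧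
            (∀ r, rho ≤ r → u n r = v n (om n) (c n) r ∧ u1 n r = v1 n (om n) (c n) r)) ∧
          (∀ η : ℝ, 0 < η → ∃ N' : ℕ, ∀ n, N' ≤ n → Even n → ∀ r ∈ Icc 0 rho,
            ‖u n r - (if r ≤ R then 1 else c0 * Uo om0 r)‖ ≤ η ∧
            ‖u1 n r - (if r ≤ R then 0 else c0 * Uo1 om0 r)‖ ≤ η)) := by
  obtain ⟨Y, Y1, hYc, hY1c, hY⟩ := exists_Y
  obtain ⟨d0, hd0, hdecr⟩ := exists_decr hYc hY1c hY
  -- `Uo om0 ≠ 0` near `R`
  have hUR : Uo om0 R ≠ 0 := by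
    intro h
    rw [h, mul_zero] at hc0
    exact zero_ne_one hc0
  have hcU : ContinuousAt (Uo om0) R :=
    (hO.lin om0 (Ioo_subset_Icc_self hom0) R (show (0:ℝ) < R by linarith [hR.1])).1.continuousAt
  obtain ⟨d2, hd2, hd2'⟩ := Metric.nhds_basis_closedBall.eventually_iff.1 (hcU.eventually_ne hUR)
  refine ⟨min (d0 / 2) (min d2 ((18/5 - R) / 2)), by
    refine lt_min (by positivity) (lt_min hd2 (by linarith [hR.2])), ?_⟩
  intro rho hrho hrho1
  have e1 : rho ≤ R + d0 / 2 := hrho1.trans (by gcongr; exact min_le_left _ _)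
  have e2 : rho ≤ R + d2 := hrho1.trans (by
    gcongr; exact (min_le_right _ _).trans (min_le_left _ _))
  have e3 : rho ≤ R + (18/5 - R) / 2 := hrho1.trans (by
    gcongr; exact (min_le_right _ _).trans (min_le_right _ _))
  have e4 : rho < 18/5 := by linarith [hR.2]
  have e5 : ∀ r ∈ Icc R rho, Uo om0 r ≠ 0 := by
    intro r hr
    apply hd2'
    rw [Metric.mem_closedBall, Real.dist_eq, abs_le]
    constructor <;> linarith [hr.1, hr.2]
  refine ⟨e4, e5, fun hLim hCont => ?_⟩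
  intro del n1 v v1 hdel H1 H2 H3
  exact match_rho hYc hY1c hY hd0 hdecr hO hom0 hR hc0 hz L hL hrho e1 e4
    (e5 rho ⟨hrho.le, le_rfl⟩) hLim hCont hdel H1 H2 H3

end Crest.Agent.R086.BMatch
end

-- ▼ part R086/BMono
section

/-!
Row 86, part B: monotonicity (pointwise comparison lemma), uniqueness, C¹ interpolation and the obstacle
limit of the interior problem.
-/

set_option autoImplicit false

open Complex Set
open scoped ComplexConjugate

namespace Crest.Agent.R086.B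

/-! ### one dimensional tools -/

/-- monotonicity from the derivative with one exceptional point -/
theorem mono_of_deriv {f f' : ℝ → ℝ} {a b c : ℝ} (hc : ContinuousOn f (Icc a b))
    (hd : ∀ x ∈ Ioo a b, x ≠ c → HasDerivAt f (f' x) x)
    (h0 : ∀ x ∈ Ioo a b, x ≠ c → 0 ≤ f' x) : MonotoneOn f (Icc a b) := by
  have key : ∀ a' b', a ≤ a' → b' ≤ b → (∀ x ∈ Ioo a' b', x ≠ c) → MonotoneOn f (Icc a' b') := by
    intro a' b' ha hb hne
    refine monotoneOn_of_deriv_nonneg (convex_Icc _ _) (hc.mono (Icc_subset_Icc ha hb)) ?_ ?_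
    · intro x hx
      rw [interior_Icc] at hx
      exact (hd x ⟨ha.trans_lt hx.1, hx.2.trans_le hb⟩ (hne x hx)).differentiableAt.differentiableWithinAt
    · intro x hx
      rw [interior_Icc] at hx
      rw [(hd x ⟨ha.trans_lt hx.1, hx.2.trans_le hb⟩ (hne x hx)).deriv]
      exact h0 x ⟨ha.trans_lt hx.1, hx.2.trans_le hb⟩ (hne x hx)
  by_cases h : c ∈ Ioo a b
  · have h1 := key a c le_rfl h.2.le (fun x hx => hx.2.ne)
    have h2 := key c b h.1.le le_rfl (fun x hx => hx.1.ne')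
    have := h1.union_right h2 (isGreatest_Icc h.1.le) (isLeast_Icc h.2.le)
    rwa [Icc_union_Icc_eq_Icc h.1.le h.2.le] at this
  · exact key a b le_rfl le_rfl (fun x hx hxc => h (hxc ▸ hx))

/-- mean value inequality, complex values, one exceptional point -/
theorem mvt_norm {g g' : ℝ → ℂ} {a b c C : ℝ} (hab : a ≤ b) (hg : ContinuousOn g (Icc a b))
    (hd : ∀ x ∈ Ioo a b, x ≠ c → HasDerivAt g (g' x) x)
    (hC : ∀ x ∈ Ioo a b, x ≠ c → ‖g' x‖ ≤ C) : ‖g b - g a‖ ≤ C * (b - a) := by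
  -- multiply by a unit number
  obtain ⟨u, hu, hu2⟩ : ∃ u : ℂ, ‖u‖ = 1 ∧ (u * (g b - g a)).re = ‖g b - g a‖ := by
    by_cases h : g b - g a = 0
    · exact ⟨1, by simp, by simp [h]⟩
    · refine ⟨conj (g b - g a) / ‖g b - g a‖, ?_, ?_⟩
      · rw [norm_div, Complex.norm_conj, Complex.norm_real, norm_norm, div_self (norm_ne_zero_iff.2 h)]
      · have h1 : ((‖g b - g a‖ : ℝ) : ℂ) ≠ 0 := by exact_mod_cast norm_ne_zero_iff.2 h
        have h2 : conj (g b - g a) / (‖g b - g a‖ : ℂ) * (g b - g a) = (‖g b - g a‖ : ℂ) := by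
          rw [div_mul_eq_mul_div, mul_comm (conj _), Complex.mul_conj, Complex.normSq_eq_norm_sq]
          push_cast
          field_simp
        rw [h2, Complex.ofReal_re]
  have hm : MonotoneOn (fun x => C * x - (u * g x).re) (Icc a b) := by
    refine mono_of_deriv (f' := fun x => C - (u * g' x).re) (c := c) ?_ ?_ ?_
    · exact (continuousOn_const.mul continuousOn_id).sub
        (Complex.continuous_re.comp_continuousOn (continuousOn_const.mul hg))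
    · intro x hx hxc
      have h1 := (hd x hx hxc).const_mul u
      have h2 : HasDerivAt (fun x => (u * g x).re) (u * g' x).re x :=
        (Complex.reCLM.hasFDerivAt.comp_hasDerivAt x h1)
      have h3 : HasDerivAt (fun x : ℝ => C * x - (u * g x).re) (C * 1 - (u * g' x).re) x :=
        ((hasDerivAt_id x).const_mul C).sub h2
      rwa [mul_one] at h3
    · intro x hx hxc
      have h1 : (u * g' x).re ≤ ‖u * g' x‖ := Complex.re_le_norm _
      rw [norm_mul, hu, one_mul] at h1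
      linarith [hC x hx hxc]
  have := hm (left_mem_Icc.2 hab) (right_mem_Icc.2 hab) hab
  simp only at this
  have h5 : (u * (g b - g a)).re = (u * g b).re - (u * g a).re := by
    rw [mul_sub, Complex.sub_re]
  rw [← hu2, h5]
  linarith

/-- bound for the derivative by interpolation -/
theorem interp {f f1 : ℝ → ℂ} {a b c L d h : ℝ} (hf : ContinuousOn f (Icc a b))
    (hd : ∀ x ∈ Ioo a b, x ≠ c → HasDerivAt f (f1 x) x)
    (hL : ∀ x ∈ Icc a b, ∀ y ∈ Icc a b, ‖f1 x - f1 y‖ ≤ L * |x - y|)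
    (hfd : ∀ x ∈ Icc a b, ‖f x‖ ≤ d) (hh : 0 < h) (hab : h ≤ (b - a) / 2) :
    ∀ r ∈ Icc a b, ‖f1 r‖ ≤ 2 * d / h + L * h := by
  intro r hr
  -- a general step on a subinterval
  have key : ∀ p q : ℝ, a ≤ p → q ≤ b → q = p + h → (r = p ∨ r = q) →
      ‖f1 r‖ ≤ 2 * d / h + L * h := by
    intro p q hp hq hpq hrpq
    have hpq' : p ≤ q := by linarith
    have hrp : r ∈ Icc p q := by
      rcases hrpq with rfl | rfl
      · exact left_mem_Icc.2 hpq'
      · exact right_mem_Icc.2 hpq'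
    have h1 := mvt_norm (g := fun t => f t - f1 r * t) (g' := fun t => f1 t - f1 r) (c := c)
      (C := L * h) hpq' ?_ ?_ ?_
    · have hfp := hfd p ⟨hp, hpq'.trans hq⟩
      have hfq := hfd q ⟨hp.trans hpq', hq⟩
      have e1 : f1 r * ((h : ℝ) : ℂ) = (f q - f p) - ((f q - f1 r * (q : ℂ)) - (f p - f1 r * (p : ℂ))) := by
        rw [hpq]; push_cast; ring
      have e2 : ‖f1 r‖ * h = ‖f1 r * ((h : ℝ) : ℂ)‖ := by
        rw [norm_mul, Complex.norm_real, Real.norm_eq_abs, abs_of_pos hh]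
      have e3 : ‖f1 r‖ * h ≤ 2 * d + L * h * h := by
        rw [e2, e1]
        refine (norm_sub_le _ _).trans ?_
        have e4 : ‖f q - f p‖ ≤ 2 * d := (norm_sub_le _ _).trans (by linarith)
        have e5 : q - p = h := by linarith
        rw [e5] at h1
        linarith
      rw [← sub_nonneg]
      have e6 : 2 * d / h + L * h - ‖f1 r‖ = (2 * d + L * h * h - ‖f1 r‖ * h) / h := by
        field_simp
      rw [e6]
      exact div_nonneg (by linarith) hh.le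
    · exact (hf.mono (Icc_subset_Icc hp hq)).sub
        (continuousOn_const.mul Complex.continuous_ofReal.continuousOn)
    · intro x hx hxc
      have h2 := hd x ⟨hp.trans_lt hx.1, hx.2.trans_le hq⟩ hxc
      have h3 : HasDerivAt (fun t : ℝ => f1 r * (t : ℂ)) (f1 r) x := by
        have := (Complex.ofRealCLM.hasDerivAt (x := x)).const_mul (f1 r)
        simpa using this
      exact h2.sub h3
    · intro x hx _
      have hL0 := hL x ⟨hp.trans hx.1.le, hx.2.le.trans hq⟩ r hr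
      have hx2 : |x - r| ≤ h := by
        rw [abs_le]
        constructor <;> linarith [hx.1, hx.2, hrp.1, hrp.2]
      have hLn : 0 ≤ L := by
        by_contra hneg
        rw [not_le] at hneg
        have := hL p ⟨hp, hpq'.trans hq⟩ q ⟨hp.trans hpq', hq⟩
        have h8 : |p - q| = h := by
          rw [abs_sub_comm, abs_of_nonneg (by linarith)]; linarith
        rw [h8] at this
        nlinarith [norm_nonneg (f1 p - f1 q)]
      exact hL0.trans (mul_le_mul_of_nonneg_left hx2 hLn)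
  rcases le_total (r + h) b with h1 | h1
  · exact key r (r + h) hr.1 h1 rfl (Or.inl rfl)
  · exact key (r - h) r (by linarith) hr.2 (by ring) (Or.inr rfl)

/-! ### the monotone quantities -/

theorem hasDerivAt_re {f : ℝ → ℂ} {f' : ℂ} {x : ℝ} (h : HasDerivAt f f' x) :
    HasDerivAt (fun t => (f t).re) f'.re x := Complex.reCLM.hasFDerivAt.comp_hasDerivAt x h

theorem hasDerivAt_im {f : ℝ → ℂ} {f' : ℂ} {x : ℝ} (h : HasDerivAt f f' x) :
    HasDerivAt (fun t => (f t).im) f'.im x := Complex.imCLM.hasFDerivAt.comp_hasDerivAt x h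

/-- `H = r¹¹ Re (ē e₁) + 5 r¹⁰ |e|²` -/
noncomputable def Hf (e e1 : ℝ → ℂ) (r : ℝ) : ℝ :=
  r ^ 11 * ((e r).re * (e1 r).re + (e r).im * (e1 r).im) + 5 * r ^ 10 * ((e r).re ^ 2 + (e r).im ^ 2)

theorem hasDerivAt_Hf {e e1 : ℝ → ℂ} {N : ℂ} {om r : ℝ} (hr : 0 < r) (h1 : HasDerivAt e (e1 r) r)
    (h2 : HasDerivAt e1 (-(11 / (r : ℂ) + I * r / 2) * e1 r - (om : ℂ) * e r + N) r) :
    HasDerivAt (Hf e e1)
      (r ^ 11 * (((e1 r).re - r / 4 * (e r).im + 5 / r * (e r).re) ^ 2 +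
          ((e1 r).im + r / 4 * (e r).re + 5 / r * (e r).im) ^ 2) +
        r ^ 9 * ((e r).re ^ 2 + (e r).im ^ 2) * (25 - r ^ 4 / 16 - om * r ^ 2) +
        r ^ 11 * ((e r).re * N.re + (e r).im * N.im)) r := by
  have a := hasDerivAt_re h1
  have b := hasDerivAt_im h1
  have c := hasDerivAt_re h2
  have d := hasDerivAt_im h2
  have hre : (-(11 / (r : ℂ) + I * r / 2) * e1 r - (om : ℂ) * e r + N).re =
      -(11 / r) * (e1 r).re + r / 2 * (e1 r).im - om * (e r).re + N.re := by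
    have : (11 / (r : ℂ) + I * r / 2) = ((11 / r : ℝ) : ℂ) + ((r / 2 : ℝ) : ℂ) * I := by
      push_cast; ring
    rw [this]
    simp only [Complex.add_re, Complex.sub_re, Complex.mul_re, Complex.neg_re, Complex.neg_im,
      Complex.add_im, Complex.mul_im, Complex.ofReal_re, Complex.ofReal_im, Complex.I_re,
      Complex.I_im]
    ring
  have him : (-(11 / (r : ℂ) + I * r / 2) * e1 r - (om : ℂ) * e r + N).im =
      -(11 / r) * (e1 r).im - r / 2 * (e1 r).re - om * (e r).im + N.im := by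
    have : (11 / (r : ℂ) + I * r / 2) = ((11 / r : ℝ) : ℂ) + ((r / 2 : ℝ) : ℂ) * I := by
      push_cast; ring
    rw [this]
    simp only [Complex.add_re, Complex.sub_im, Complex.mul_re, Complex.neg_re, Complex.neg_im,
      Complex.add_im, Complex.mul_im, Complex.ofReal_re, Complex.ofReal_im, Complex.I_re,
      Complex.I_im]
    ring
  rw [hre] at c
  rw [him] at d
  have h11 : HasDerivAt (fun t : ℝ => t ^ 11) (11 * r ^ 10) r := by
    simpa using hasDerivAt_pow 11 r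
  have h10 : HasDerivAt (fun t : ℝ => 5 * t ^ 10) (5 * (10 * r ^ 9)) r := by
    simpa using (hasDerivAt_pow 10 r).const_mul 5
  have hA := (h11.mul ((a.mul c).add (b.mul d))).add (h10.mul ((a.pow 2).add (b.pow 2)))
  refine hA.congr_deriv ?_
  simp only [Pi.add_apply, Pi.mul_apply, Pi.pow_apply]
  have hr' : r ≠ 0 := hr.ne'
  field_simp
  ring

/-- `G = r¹⁰ |e|²` -/
noncomputable def Gf (e : ℝ → ℂ) (r : ℝ) : ℝ := r ^ 10 * ((e r).re ^ 2 + (e r).im ^ 2)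

theorem hasDerivAt_Gf {e e1 : ℝ → ℂ} {r : ℝ} (hr : 0 < r) (h1 : HasDerivAt e (e1 r) r) :
    HasDerivAt (Gf e) (2 / r * Hf e e1 r) r := by
  have a := hasDerivAt_re h1
  have b := hasDerivAt_im h1
  have h10 : HasDerivAt (fun t : ℝ => t ^ 10) (10 * r ^ 9) r := by
    simpa using hasDerivAt_pow 10 r
  have hA := h10.mul ((a.pow 2).add (b.pow 2))
  refine hA.congr_deriv ?_
  simp only [Pi.add_apply, Pi.pow_apply, Hf]
  have hr' : r ≠ 0 := hr.ne'
  field_simp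
  ring

theorem Gf_eq (e : ℝ → ℂ) (r : ℝ) : Gf e r = r ^ 10 * ‖e r‖ ^ 2 := by
  unfold Gf
  rw [← Complex.normSq_eq_norm_sq, Complex.normSq_apply]
  ring

theorem cont_re {e : ℝ → ℂ} {s : Set ℝ} (h : ContinuousOn e s) :
    ContinuousOn (fun t => (e t).re) s := Complex.continuous_re.comp_continuousOn h

theorem cont_im {e : ℝ → ℂ} {s : Set ℝ} (h : ContinuousOn e s) :
    ContinuousOn (fun t => (e t).im) s := Complex.continuous_im.comp_continuousOn h

/-- **comparison lemma** -/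
theorem core_cmp {e e1 N : ℝ → ℂ} {om ρ η c : ℝ} (hρ : 0 < ρ) (hρ2 : ρ ≤ 18 / 5) (hom : om ≤ 1 / 2)
    (hη : 0 ≤ η) (hc : ContinuousOn e (Icc 0 ρ)) (hc1 : ContinuousOn e1 (Icc 0 ρ))
    (hd : ∀ r ∈ Ioo 0 ρ, r ≠ c → HasDerivAt e (e1 r) r ∧
      HasDerivAt e1 (-(11 / (r : ℂ) + I * r / 2) * e1 r - (om : ℂ) * e r + N r) r)
    (hN : ∀ r ∈ Ioo 0 ρ, r ≠ c → -η ≤ (e r).re * (N r).re + (e r).im * (N r).im) :
    ∀ r ∈ Icc 0 ρ, r ^ 10 * ‖e r‖ ^ 2 ≤ ρ ^ 10 * ‖e ρ‖ ^ 2 + η * ρ ^ 12 / 72 := by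
  have hHc : ContinuousOn (Hf e e1) (Icc 0 ρ) := by
    unfold Hf
    refine (((continuous_pow 11).continuousOn).mul
      (((cont_re hc).mul (cont_re hc1)).add ((cont_im hc).mul (cont_im hc1)))).add ?_
    exact ((continuous_const.mul (continuous_pow 10)).continuousOn).mul
      (((cont_re hc).pow 2).add ((cont_im hc).pow 2))
  have hGc : ContinuousOn (Gf e) (Icc 0 ρ) := by
    unfold Gf
    exact ((continuous_pow 10).continuousOn).mul (((cont_re hc).pow 2).add ((cont_im hc).pow 2))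
  have hH : ∀ r ∈ Icc 0 ρ, -(η * r ^ 12 / 12) ≤ Hf e e1 r := by
    have hm := mono_of_deriv (f := fun r => Hf e e1 r + η * r ^ 12 / 12)
      (f' := fun r => (r ^ 11 * (((e1 r).re - r / 4 * (e r).im + 5 / r * (e r).re) ^ 2 +
          ((e1 r).im + r / 4 * (e r).re + 5 / r * (e r).im) ^ 2) +
        r ^ 9 * ((e r).re ^ 2 + (e r).im ^ 2) * (25 - r ^ 4 / 16 - om * r ^ 2) +
        r ^ 11 * ((e r).re * (N r).re + (e r).im * (N r).im)) + η * r ^ 11) (a := 0) (b := ρ) (c := c)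
      (hHc.add (by fun_prop)) ?_ ?_
    · intro r hr
      have := hm (left_mem_Icc.2 hρ.le) hr hr.1
      simp only [Hf] at this ⊢
      norm_num at this
      linarith
    · intro x hx hxc
      have h1 := hasDerivAt_Hf hx.1 (hd x hx hxc).1 (hd x hx hxc).2
      have h2 : HasDerivAt (fun r : ℝ => η * r ^ 12 / 12) (η * x ^ 11) x := by
        have := ((hasDerivAt_pow 12 x).const_mul η).div_const 12
        refine this.congr_deriv ?_
        norm_num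
        ring
      exact h1.add h2
    · intro x hx hxc
      have h1 := hN x hx hxc
      have hx0 : 0 < x := hx.1
      have hx2 : x ≤ 18 / 5 := hx.2.le.trans hρ2
      have h2 : 0 ≤ 25 - x ^ 4 / 16 - om * x ^ 2 := by
        have h3 : x ^ 2 ≤ (18 / 5) ^ 2 := by gcongr
        have h4 : x ^ 4 ≤ (18 / 5) ^ 4 := by gcongr
        have h5 : om * x ^ 2 ≤ 1 / 2 * x ^ 2 := by gcongr
        norm_num at h3 h4
        linarith
      have h3 : 0 ≤ x ^ 11 * (((e1 x).re - x / 4 * (e x).im + 5 / x * (e x).re) ^ 2 +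
          ((e1 x).im + x / 4 * (e x).re + 5 / x * (e x).im) ^ 2) := by positivity
      have h4 : 0 ≤ x ^ 9 * ((e x).re ^ 2 + (e x).im ^ 2) * (25 - x ^ 4 / 16 - om * x ^ 2) :=
        mul_nonneg (by positivity) h2
      have h5 : x ^ 11 * (-η) ≤ x ^ 11 * ((e x).re * (N x).re + (e x).im * (N x).im) :=
        mul_le_mul_of_nonneg_left h1 (by positivity)
      linarith
  have hm := mono_of_deriv (f := fun r => Gf e r + η * r ^ 12 / 72)
      (f' := fun r => 2 / r * Hf e e1 r + η * r ^ 11 / 6) (a := 0) (b := ρ) (c := c)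
      (hGc.add (by fun_prop)) ?_ ?_
  · intro r hr
    have h1 := hm hr (right_mem_Icc.2 hρ.le) hr.2
    simp only [Gf_eq] at h1
    have h2 : 0 ≤ η * r ^ 12 / 72 := by
      have := hr.1
      positivity
    linarith
  · intro x hx hxc
    have h1 := hasDerivAt_Gf hx.1 (hd x hx hxc).1
    have h2 : HasDerivAt (fun r : ℝ => η * r ^ 12 / 72) (η * x ^ 11 / 6) x := by
      have := ((hasDerivAt_pow 12 x).const_mul η).div_const 72
      refine this.congr_deriv ?_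
      norm_num
      ring
    exact h1.add h2
  · intro x hx hxc
    have hx0 : 0 < x := hx.1
    have h1 := hH x ⟨hx.1.le, hx.2.le⟩
    have h2 : 2 / x * (-(η * x ^ 12 / 12)) ≤ 2 / x * Hf e e1 x :=
      mul_le_mul_of_nonneg_left h1 (by positivity)
    have h3 : 2 / x * (-(η * x ^ 12 / 12)) = -(η * x ^ 11 / 6) := by
      field_simp
      ring
    linarith

/-! ### monotonicity of the nonlinearity -/

/-- `Re (conj (v - V) (|v|ⁿ v - |V|ⁿ V)) ≥ 0` -/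
theorem mono_pow (n : ℕ) (v V : ℂ) :
    0 ≤ (v - V).re * (((‖v‖ ^ n : ℝ) : ℂ) * v - ((‖V‖ ^ n : ℝ) : ℂ) * V).re +
      (v - V).im * (((‖v‖ ^ n : ℝ) : ℂ) * v - ((‖V‖ ^ n : ℝ) : ℂ) * V).im := by
  set P := ‖v‖ ^ n with hP
  set S := ‖V‖ ^ n with hS
  have hP0 : 0 ≤ P := by positivity
  have hS0 : 0 ≤ S := by positivity
  have hv : v.re ^ 2 + v.im ^ 2 = ‖v‖ ^ 2 := by
    rw [← Complex.normSq_eq_norm_sq, Complex.normSq_apply]; ring
  have hV : V.re ^ 2 + V.im ^ 2 = ‖V‖ ^ 2 := by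
    rw [← Complex.normSq_eq_norm_sq, Complex.normSq_apply]; ring
  have hcs : v.re * V.re + v.im * V.im ≤ ‖v‖ * ‖V‖ := by
    refine abs_le_of_sq_le_sq' ?_ (by positivity) |>.2
    rw [mul_pow, ← hv, ← hV]
    nlinarith [sq_nonneg (v.re * V.im - v.im * V.re)]
  have hmono : 0 ≤ (P * ‖v‖ - S * ‖V‖) * (‖v‖ - ‖V‖) := by
    rcases le_total ‖v‖ ‖V‖ with h | h
    · have h1 : P ≤ S := by rw [hP, hS]; gcongr
      have h2 : P * ‖v‖ ≤ S * ‖V‖ := by gcongr
      exact mul_nonneg_of_nonpos_of_nonpos (by linarith) (by linarith)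
    · have h1 : S ≤ P := by rw [hP, hS]; gcongr
      have h2 : S * ‖V‖ ≤ P * ‖v‖ := by gcongr
      exact mul_nonneg (by linarith) (by linarith)
  have e1 : (((P : ℝ) : ℂ) * v - ((S : ℝ) : ℂ) * V).re = P * v.re - S * V.re := by
    simp [Complex.sub_re, Complex.mul_re]
  have e2 : (((P : ℝ) : ℂ) * v - ((S : ℝ) : ℂ) * V).im = P * v.im - S * V.im := by
    simp [Complex.sub_im, Complex.mul_im]
  rw [e1, e2, Complex.sub_re, Complex.sub_im]
  have e3 : (v.re - V.re) * (P * v.re - S * V.re) + (v.im - V.im) * (P * v.im - S * V.im) =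
      P * (v.re ^ 2 + v.im ^ 2) + S * (V.re ^ 2 + V.im ^ 2) -
        (P + S) * (v.re * V.re + v.im * V.im) := by ring
  rw [e3, hv, hV]
  have h4 : (P + S) * (v.re * V.re + v.im * V.im) ≤ (P + S) * (‖v‖ * ‖V‖) := by gcongr
  nlinarith

/-- **comparison of two solutions** (continuity in the parameter and in the boundary value) -/
theorem cmp {n : ℕ} {om om' eps ρ K : ℝ} {v v1 V V1 : ℝ → ℂ} (hρ : 0 < ρ) (hρ2 : ρ ≤ 18 / 5)
    (hom : om ≤ 1 / 2) (hv : ContinuousOn v (Icc 0 ρ)) (hv1 : ContinuousOn v1 (Icc 0 ρ))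
    (hV : ContinuousOn V (Icc 0 ρ)) (hV1 : ContinuousOn V1 (Icc 0 ρ))
    (hs : IsSol n om eps v v1 (Ioo 0 ρ)) (hS : IsSol n om' eps V V1 (Ioo 0 ρ))
    (hvK : ∀ r ∈ Icc 0 ρ, ‖v r‖ ≤ K) (hVK : ∀ r ∈ Icc 0 ρ, ‖V r‖ ≤ K) :
    ∀ r ∈ Icc 0 ρ, r ^ 10 * ‖v r - V r‖ ^ 2 ≤
      ρ ^ 10 * ‖v ρ - V ρ‖ ^ 2 + 2 * K ^ 2 * |om - om'| * ρ ^ 12 / 72 := by
  have hK0 : 0 ≤ K := (norm_nonneg _).trans (hvK 0 (left_mem_Icc.2 hρ.le))
  refine core_cmp (e := fun r => v r - V r) (e1 := fun r => v1 r - V1 r)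
    (N := fun r => (((‖v r‖ ^ n : ℝ) : ℂ) * v r - ((‖V r‖ ^ n : ℝ) : ℂ) * V r) -
      I * eps * (v r - V r) - ((om - om' : ℝ) : ℂ) * V r) (c := 0) hρ hρ2 hom (by positivity)
    (hv.sub hV) (hv1.sub hV1) ?_ ?_
  · intro r hr _
    refine ⟨(hs r hr).1.sub (hS r hr).1, ((hs r hr).2.sub (hS r hr).2).congr_deriv ?_⟩
    push_cast
    ring
  · intro r hr _
    have hm := mono_pow n (v r) (V r)
    have hr' : r ∈ Icc 0 ρ := Ioo_subset_Icc_self hr
    have h1 := hvK r hr'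
    have h2 := hVK r hr'
    have e1 : (v r - V r).re * ((((‖v r‖ ^ n : ℝ) : ℂ) * v r - ((‖V r‖ ^ n : ℝ) : ℂ) * V r) -
        I * eps * (v r - V r) - ((om - om' : ℝ) : ℂ) * V r).re +
        (v r - V r).im * ((((‖v r‖ ^ n : ℝ) : ℂ) * v r - ((‖V r‖ ^ n : ℝ) : ℂ) * V r) -
        I * eps * (v r - V r) - ((om - om' : ℝ) : ℂ) * V r).im =
        ((v r - V r).re * (((‖v r‖ ^ n : ℝ) : ℂ) * v r - ((‖V r‖ ^ n : ℝ) : ℂ) * V r).re +
        (v r - V r).im * (((‖v r‖ ^ n : ℝ) : ℂ) * v r - ((‖V r‖ ^ n : ℝ) : ℂ) * V r).im) -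
        (om - om') * ((v r - V r).re * (V r).re + (v r - V r).im * (V r).im) := by
      simp only [Complex.sub_re, Complex.sub_im, Complex.mul_re, Complex.mul_im, Complex.I_re,
        Complex.I_im, Complex.ofReal_re, Complex.ofReal_im]
      ring
    have hcs : |(v r - V r).re * (V r).re + (v r - V r).im * (V r).im| ≤ 2 * K ^ 2 := by
      have h3 : ‖v r - V r‖ ≤ 2 * K := (norm_sub_le _ _).trans (by linarith)
      have h4 : (v r - V r).re * (V r).re + (v r - V r).im * (V r).im =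
          ((v r - V r) * conj (V r)).re := by
        rw [Complex.mul_re, Complex.conj_re, Complex.conj_im]; ring
      rw [h4]
      refine (Complex.abs_re_le_norm _).trans ?_
      rw [norm_mul, Complex.norm_conj]
      calc ‖v r - V r‖ * ‖V r‖ ≤ (2 * K) * K := by gcongr
        _ = 2 * K ^ 2 := by ring
    have h5 : (om - om') * ((v r - V r).re * (V r).re + (v r - V r).im * (V r).im) ≤
        2 * K ^ 2 * |om - om'| := by
      refine (le_abs_self _).trans ?_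
      rw [abs_mul, mul_comm]
      gcongr
    show -(2 * K ^ 2 * |om - om'|) ≤ _
    rw [e1]
    linarith


end Crest.Agent.R086.B
end

-- ▼ part R086/BLim
section

/-!
Row 86, part B: (I3), the obstacle limit of the interior problem, uniformly in the parameters.
-/

set_option autoImplicit false

open Complex Set
open scoped ComplexConjugate

namespace Crest.Agent.R086.B

theorem pow_bound (m : ℕ) {x : ℝ} (h0 : 0 ≤ x) (h1 : x ≤ 1) : x ^ m * (1 - x) ≤ 1 / (m + 1) := by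
  have h2 : (∑ i ∈ Finset.range (m + 1), x ^ i) * (1 - x) = 1 - x ^ (m + 1) := geom_sum_mul_neg x (m + 1)
  have h3 : ((m : ℝ) + 1) * x ^ m ≤ ∑ i ∈ Finset.range (m + 1), x ^ i := by
    have : ∑ _i ∈ Finset.range (m + 1), x ^ m ≤ ∑ i ∈ Finset.range (m + 1), x ^ i := by
      refine Finset.sum_le_sum fun i hi => ?_
      exact pow_le_pow_of_le_one h0 h1 (by have := Finset.mem_range.1 hi; omega)
    rw [Finset.sum_const, Finset.card_range, nsmul_eq_mul] at this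
    push_cast at this
    exact this
  have h4 : ((m : ℝ) + 1) * x ^ m * (1 - x) ≤ 1 := by
    have h5 : ((m : ℝ) + 1) * x ^ m * (1 - x) ≤ (∑ i ∈ Finset.range (m + 1), x ^ i) * (1 - x) :=
      mul_le_mul_of_nonneg_right h3 (by linarith)
    rw [h2] at h5
    have : 0 ≤ x ^ (m + 1) := by positivity
    linarith
  rw [le_div_iff₀ (by positivity)]
  linarith

theorem norm_sq_re_im (v : ℂ) : v.re ^ 2 + v.im ^ 2 = ‖v‖ ^ 2 := by
  rw [← Complex.normSq_eq_norm_sq, Complex.normSq_apply]; ring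

theorem norm6 (a b c d e f : ℂ) :
    ‖a - b - c + ((d - e) - f)‖ ≤ ‖a‖ + ‖b‖ + ‖c‖ + ‖d‖ + ‖e‖ + ‖f‖ := by
  have h1 := norm_add_le (a - b - c) ((d - e) - f)
  have h2 := norm_sub_le (a - b) c
  have h3 := norm_sub_le a b
  have h4 := norm_sub_le (d - e) f
  have h5 := norm_sub_le d e
  linarith

/-- outside the core -/
theorem off_core (n : ℕ) {v V : ℂ} (hV : ‖V‖ ≤ 1) :
    -(1 / ((n : ℝ) + 2)) ≤ (v - V).re * (((‖v‖ ^ n : ℝ) : ℂ) * v).re +
      (v - V).im * (((‖v‖ ^ n : ℝ) : ℂ) * v).im := by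
  set x := ‖v‖ with hx
  have hx0 : 0 ≤ x := norm_nonneg _
  have hcs : V.re * v.re + V.im * v.im ≤ x := by
    have h1 : V.re * v.re + V.im * v.im = (conj V * v).re := by
      rw [Complex.mul_re, Complex.conj_re, Complex.conj_im]; ring
    rw [h1]
    refine (Complex.re_le_norm _).trans ?_
    rw [norm_mul, Complex.norm_conj]
    calc ‖V‖ * x ≤ 1 * x := by gcongr
      _ = x := one_mul x
  have e1 : (((x ^ n : ℝ) : ℂ) * v).re = x ^ n * v.re := Complex.re_ofReal_mul _ _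
  have e2 : (((x ^ n : ℝ) : ℂ) * v).im = x ^ n * v.im := Complex.im_ofReal_mul _ _
  rw [e1, e2, Complex.sub_re, Complex.sub_im]
  have e3 : (v.re - V.re) * (x ^ n * v.re) + (v.im - V.im) * (x ^ n * v.im) =
      x ^ n * ((v.re ^ 2 + v.im ^ 2) - (V.re * v.re + V.im * v.im)) := by ring
  rw [e3, norm_sq_re_im, ← hx]
  have h2 : x ^ n * (x ^ 2 - x) ≤ x ^ n * (x ^ 2 - (V.re * v.re + V.im * v.im)) := by gcongr
  refine le_trans ?_ h2
  have e4 : x ^ n * (x ^ 2 - x) = -(x ^ (n + 1) * (1 - x)) := by ring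
  rw [e4]
  rcases le_total x 1 with h | h
  · have := pow_bound (n + 1) hx0 h
    push_cast at this
    have e5 : (n : ℝ) + 1 + 1 = n + 2 := by ring
    rw [e5] at this
    linarith
  · have h3 : 0 ≤ x ^ (n + 1) * (x - 1) := mul_nonneg (by positivity) (by linarith)
    have h4 : (0 : ℝ) ≤ 1 / ((n : ℝ) + 2) := by positivity
    nlinarith

/-- inside the core -/
theorem on_core (n : ℕ) {v : ℂ} {om : ℝ} (h0 : 0 ≤ om) (h1 : om ≤ 1) :
    -(1 / ((n : ℝ) + 2)) ≤ (v - 1).re * (((‖v‖ ^ n : ℝ) : ℂ) * v - (om : ℂ)).re +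
      (v - 1).im * (((‖v‖ ^ n : ℝ) : ℂ) * v - (om : ℂ)).im := by
  set x := ‖v‖ with hx
  have hx0 : 0 ≤ x := norm_nonneg _
  have e1 : (((x ^ n : ℝ) : ℂ) * v - (om : ℂ)).re = x ^ n * v.re - om := by
    rw [Complex.sub_re, Complex.re_ofReal_mul, Complex.ofReal_re]
  have e2 : (((x ^ n : ℝ) : ℂ) * v - (om : ℂ)).im = x ^ n * v.im := by
    rw [Complex.sub_im, Complex.im_ofReal_mul, Complex.ofReal_im, sub_zero]
  rw [e1, e2, Complex.sub_re, Complex.sub_im, Complex.one_re, Complex.one_im]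
  have e3 : (v.re - 1) * (x ^ n * v.re - om) + (v.im - 0) * (x ^ n * v.im) =
      x ^ n * (v.re ^ 2 + v.im ^ 2) + om - (x ^ n + om) * v.re := by ring
  rw [e3, norm_sq_re_im, ← hx]
  have hre : v.re ≤ x := Complex.re_le_norm v
  have h2 : (x ^ n + om) * v.re ≤ (x ^ n + om) * x := by gcongr
  have h3 : (x ^ (n + 1) - om) * (x - 1) ≤ x ^ n * x ^ 2 + om - (x ^ n + om) * v.re := by
    have : (x ^ (n + 1) - om) * (x - 1) = x ^ n * x ^ 2 + om - (x ^ n + om) * x := by ring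
    linarith
  refine le_trans ?_ h3
  have h4 : (0 : ℝ) ≤ 1 / ((n : ℝ) + 2) := by positivity
  rcases le_total x 1 with h | h
  · have := pow_bound (n + 1) hx0 h
    push_cast at this
    have e5 : (n : ℝ) + 1 + 1 = n + 2 := by ring
    rw [e5] at this
    have h6 : 0 ≤ om * (1 - x) := mul_nonneg h0 (by linarith)
    nlinarith
  · have h7 : 1 ≤ x ^ (n + 1) := one_le_pow₀ h
    have : 0 ≤ (x ^ (n + 1) - om) * (x - 1) := mul_nonneg (by linarith) (by linarith)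
    linarith

/-- **(I3)** the obstacle limit: uniform convergence in `C¹[0, ρ]` -/
theorem limit {ρ M η : ℝ} (hρ2 : ρ ≤ 18 / 5) (hM : 0 ≤ M) (hη : 0 < η) :
    ∃ n0 : ℕ, ∃ δ : ℝ, 0 < δ ∧ ∀ n : ℕ, n0 ≤ n → ∀ om ∈ Icc (0 : ℝ) (1 / 2), ∀ R1 ∈ Icc (3 : ℝ) ρ,
      ∀ V V1 v v1 : ℝ → ℂ, ContinuousOn V (Icc 0 ρ) → ContinuousOn V1 (Icc 0 ρ) →
      (∀ r ∈ Icc 0 R1, V r = 1 ∧ V1 r = 0) → IsLin om V V1 (Ioo R1 ρ) →
      (∀ r ∈ Icc 0 ρ, ‖V r‖ ≤ 1) → (∀ r ∈ Icc 0 ρ, ‖V1 r‖ ≤ M) →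
      ContinuousOn v (Icc 0 ρ) → ContinuousOn v1 (Icc 0 ρ) → IsSol n om (1 / n) v v1 (Ioo 0 ρ) →
      (∀ r ∈ Icc 0 ρ, ‖v r‖ ^ n ≤ 3 / 2) → (∀ r ∈ Icc 0 ρ, ‖v1 r‖ ≤ 8 * r) →
      ‖v ρ - V ρ‖ ≤ δ → ∀ r ∈ Icc 0 ρ, ‖v r - V r‖ ≤ η ∧ ‖v1 r - V1 r‖ ≤ η := by
  -- constants
  obtain ⟨L, hL⟩ : ∃ L : ℝ, L = 150 + 6 * M := ⟨_, rfl⟩
  have hL0 : 0 < L := by rw [hL]; linarith
  obtain ⟨h, hh⟩ : ∃ h : ℝ, h = min 1 (η / (2 * L)) := ⟨_, rfl⟩
  have hh0 : 0 < h := by rw [hh]; positivity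
  have hh1 : h ≤ 1 := by rw [hh]; exact min_le_left _ _
  have hhL : L * h ≤ η / 2 := by
    have : h ≤ η / (2 * L) := by rw [hh]; exact min_le_right _ _
    calc L * h ≤ L * (η / (2 * L)) := by gcongr
      _ = η / 2 := by field_simp
  obtain ⟨d, hd⟩ : ∃ d : ℝ, d = min η (η * h / 4) := ⟨_, rfl⟩
  have hd0 : 0 < d := by rw [hd]; positivity
  have hdη : d ≤ η := by rw [hd]; exact min_le_left _ _
  have hdh : 2 * d / h ≤ η / 2 := by
    have : d ≤ η * h / 4 := by rw [hd]; exact min_le_right _ _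
    rw [div_le_iff₀ hh0]; linarith
  obtain ⟨B, hB⟩ : ∃ B : ℝ, B = 29 + M := ⟨_, rfl⟩
  have hB0 : 0 < B := by rw [hB]; linarith
  obtain ⟨s, hs⟩ : ∃ s : ℝ, s = min 1 (d / (2 * B)) := ⟨_, rfl⟩
  have hs0 : 0 < s := by rw [hs]; positivity
  have hs1 : s ≤ 1 := by rw [hs]; exact min_le_left _ _
  have hsB : B * s ≤ d / 2 := by
    have : s ≤ d / (2 * B) := by rw [hs]; exact min_le_right _ _
    calc B * s ≤ B * (d / (2 * B)) := by gcongr
      _ = d / 2 := by field_simp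
  -- smallness
  obtain ⟨n0, hn0⟩ := exists_nat_gt (200000 * 8 / (s ^ 10 * d ^ 2))
  obtain ⟨δ, hδ⟩ : ∃ δ : ℝ, δ = s ^ 5 * d / (3 * (18 / 5) ^ 5) := ⟨_, rfl⟩
  have hδ0 : 0 < δ := by rw [hδ]; positivity
  refine ⟨max n0 1, δ, hδ0, ?_⟩
  intro n hn om hom R1 hR1 V V1 v v1 hV hV1 hVc hVl hVb hV1b hv hv1 hsol hP hv1b hbd
  have hρ3 : 3 ≤ ρ := hR1.1.trans hR1.2
  have hρ : 0 < ρ := by linarith
  have hn1 : 1 ≤ n := (le_max_right _ _).trans hn
  have hnn0 : n0 ≤ n := (le_max_left _ _).trans hn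
  have hnpos : (0 : ℝ) < n := by exact_mod_cast hn1
  have hvb : ∀ r ∈ Icc 0 ρ, ‖v r‖ ≤ 3 / 2 := by
    intro r hr
    by_contra hc
    rw [not_le] at hc
    have h1 := hP r hr
    have h2 : ‖v r‖ ≤ ‖v r‖ ^ n := le_self_pow₀ (by linarith) (by omega)
    linarith
  have hv32 : ∀ r ∈ Icc 0 ρ, ‖((‖v r‖ ^ n : ℝ) : ℂ) * v r‖ ≤ 9 / 4 := by
    intro r hr
    rw [norm_mul, Complex.norm_real, Real.norm_eq_abs, abs_of_nonneg (by positivity)]
    calc ‖v r‖ ^ n * ‖v r‖ ≤ (3 / 2) * (3 / 2) := by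
          gcongr
          · exact hP r hr
          · exact hvb r hr
      _ = 9 / 4 := by norm_num
  -- derivative facts for V
  have hV1d : ∀ r ∈ Ioo 0 ρ, r ≠ R1 → HasDerivAt V (V1 r) r ∧
      HasDerivAt V1 (-(11 / (r : ℂ) + I * r / 2) * V1 r - (om : ℂ) * V r +
        (if r < R1 then (om : ℂ) else 0)) r := by
    intro r hr hrR
    rcases lt_or_gt_of_ne hrR with h1 | h1
    · have h2 : V =ᶠ[nhds r] fun _ => 1 := by
        filter_upwards [isOpen_Ioo.mem_nhds ⟨hr.1, h1⟩] with x hx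
        exact (hVc x ⟨hx.1.le, hx.2.le⟩).1
      have h3 : V1 =ᶠ[nhds r] fun _ => 0 := by
        filter_upwards [isOpen_Ioo.mem_nhds ⟨hr.1, h1⟩] with x hx
        exact (hVc x ⟨hx.1.le, hx.2.le⟩).2
      have h4 := hVc r ⟨hr.1.le, h1.le⟩
      refine ⟨?_, ?_⟩
      · rw [h4.2]
        exact (hasDerivAt_const r (1 : ℂ)).congr_of_eventuallyEq h2
      · have e : (-(11 / (r : ℂ) + I * r / 2) * V1 r - (om : ℂ) * V r +
          (if r < R1 then (om : ℂ) else 0)) = 0 := by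
          rw [if_pos h1, h4.1, h4.2]; ring
        rw [e]
        exact (hasDerivAt_const r (0 : ℂ)).congr_of_eventuallyEq h3
    · have h2 := hVl r ⟨h1, hr.2⟩
      refine ⟨h2.1, ?_⟩
      rw [if_neg (not_lt.2 h1.le), add_zero]
      exact h2.2
  -- comparison
  have hN : ∀ r ∈ Ioo 0 ρ, r ≠ R1 → HasDerivAt (fun t => v t - V t) (v1 r - V1 r) r ∧
      HasDerivAt (fun t => v1 t - V1 t) (-(11 / (r : ℂ) + I * r / 2) * (v1 r - V1 r) -
        (om : ℂ) * (v r - V r) + ((((‖v r‖ ^ n : ℝ) : ℂ) * v r - (if r < R1 then (om : ℂ) else 0)) -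
          I * ((1 / n : ℝ) : ℂ) * v r)) r := by
    intro r hr hrR
    obtain ⟨a1, a2⟩ := hV1d r hr hrR
    obtain ⟨b1, b2⟩ := hsol r hr
    refine ⟨b1.sub a1, (b2.sub a2).congr_deriv ?_⟩
    ring
  have hcmp := core_cmp (e := fun r => v r - V r) (e1 := fun r => v1 r - V1 r)
    (N := fun r => (((‖v r‖ ^ n : ℝ) : ℂ) * v r - (if r < R1 then (om : ℂ) else 0)) -
          I * ((1 / n : ℝ) : ℂ) * v r) (om := om) (η := 3 / n) (c := R1) hρ hρ2 hom.2
    (by positivity) (hv.sub hV) (hv1.sub hV1) hN ?_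
  swap
  · intro r hr hrR
    have hr' := Ioo_subset_Icc_self hr
    have hvr := hvb r hr'
    have hVr := hVb r hr'
    -- the eps part
    have h1 : -(3 / 2 * (1 / (n : ℝ))) ≤ (v r - V r).re * (-(I * ((1 / n : ℝ) : ℂ) * v r)).re +
        (v r - V r).im * (-(I * ((1 / n : ℝ) : ℂ) * v r)).im := by
      have e1 : (v r - V r).re * (-(I * ((1 / n : ℝ) : ℂ) * v r)).re +
        (v r - V r).im * (-(I * ((1 / n : ℝ) : ℂ) * v r)).im =
          -((1 / (n : ℝ)) * (conj (V r) * v r).im) := by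
        simp only [Complex.neg_re, Complex.neg_im, Complex.mul_re, Complex.mul_im, Complex.I_re,
          Complex.I_im, Complex.ofReal_re, Complex.ofReal_im, Complex.sub_re, Complex.sub_im,
          Complex.conj_re, Complex.conj_im]
        ring
      rw [e1, neg_le_neg_iff, mul_comm (3 / 2 : ℝ)]
      have h2 : (conj (V r) * v r).im ≤ 3 / 2 := by
        refine (Complex.im_le_norm _).trans ?_
        rw [norm_mul, Complex.norm_conj]
        calc ‖V r‖ * ‖v r‖ ≤ 1 * (3 / 2) := by gcongr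
          _ = 3 / 2 := one_mul _
      exact mul_le_mul_of_nonneg_left h2 (by positivity)
    have h2 : -(1 / ((n : ℝ) + 2)) ≤ (v r - V r).re * (((‖v r‖ ^ n : ℝ) : ℂ) * v r -
          (if r < R1 then (om : ℂ) else 0)).re +
        (v r - V r).im * (((‖v r‖ ^ n : ℝ) : ℂ) * v r - (if r < R1 then (om : ℂ) else 0)).im := by
      split_ifs with hlt
      · have := on_core n (v := v r) hom.1 (hom.2.trans (by norm_num))
        rw [(hVc r ⟨hr.1.le, hlt.le⟩).1]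
        exact this
      · have := off_core n (v := v r) hVr
        rw [sub_zero]
        exact this
    have h3 : 1 / ((n : ℝ) + 2) ≤ 1 / n := one_div_le_one_div_of_le hnpos (by linarith)
    have h4 : 3 / (n : ℝ) = 3 * (1 / n) := by ring
    have h5 : (0 : ℝ) ≤ 1 / n := by positivity
    show -(3 / (n : ℝ)) ≤ (v r - V r).re * ((((‖v r‖ ^ n : ℝ) : ℂ) * v r -
          (if r < R1 then (om : ℂ) else 0)) - I * ((1 / n : ℝ) : ℂ) * v r).re +
        (v r - V r).im * ((((‖v r‖ ^ n : ℝ) : ℂ) * v r - (if r < R1 then (om : ℂ) else 0)) -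
          I * ((1 / n : ℝ) : ℂ) * v r).im
    rw [sub_eq_add_neg (((‖v r‖ ^ n : ℝ) : ℂ) * v r - (if r < R1 then (om : ℂ) else 0)),
      Complex.add_re, Complex.add_im, mul_add, mul_add]
    linarith
  -- pointwise bound away from 0
  have hbig : ∀ r ∈ Icc s ρ, ‖v r - V r‖ ≤ d / 2 := by
    intro r hr
    have hr0 : 0 < r := hs0.trans_le hr.1
    have h1 := hcmp r ⟨hr0.le, hr.2⟩
    have h2 : s ^ 10 * ‖v r - V r‖ ^ 2 ≤ r ^ 10 * ‖v r - V r‖ ^ 2 := by
      have := hr.1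
      gcongr
    have h3 : ρ ^ 10 * ‖v ρ - V ρ‖ ^ 2 ≤ s ^ 10 * d ^ 2 / 9 := by
      have h4 : ρ ^ 10 * ‖v ρ - V ρ‖ ^ 2 ≤ (18 / 5) ^ 10 * δ ^ 2 := by gcongr
      refine h4.trans (le_of_eq ?_)
      rw [hδ]
      field_simp
      ring
    have h5 : 3 / (n : ℝ) * ρ ^ 12 / 72 ≤ s ^ 10 * d ^ 2 / 8 := by
      have h6 : ρ ^ 12 ≤ (18 / 5) ^ 12 := by gcongr
      have h7 : (200000 * 8 / (s ^ 10 * d ^ 2) : ℝ) < n := hn0.trans_le (by exact_mod_cast hnn0)
      have h8 : 200000 * 8 < n * (s ^ 10 * d ^ 2) := by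
        rwa [div_lt_iff₀ (by positivity)] at h7
      have h9 : 3 / (n : ℝ) * ρ ^ 12 / 72 ≤ 200000 / n := by
        have : 3 / (n : ℝ) * ρ ^ 12 / 72 = (3 * ρ ^ 12 / 72) / n := by ring
        rw [this]
        have h10 : 3 * ρ ^ 12 / 72 ≤ 200000 := by
          have h11 : (3 : ℝ) * (18 / 5) ^ 12 / 72 ≤ 200000 := by norm_num
          linarith
        gcongr
      refine h9.trans ?_
      rw [div_le_iff₀ hnpos]
      nlinarith
    have h12 : s ^ 10 * ‖v r - V r‖ ^ 2 ≤ s ^ 10 * (d / 2) ^ 2 := by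
      have : s ^ 10 * (d / 2) ^ 2 = s ^ 10 * d ^ 2 / 4 := by ring
      rw [this]
      have h13 : 0 ≤ s ^ 10 * d ^ 2 := by positivity
      linarith
    have h14 : ‖v r - V r‖ ^ 2 ≤ (d / 2) ^ 2 := le_of_mul_le_mul_left h12 (by positivity)
    exact (abs_le_of_sq_le_sq' h14 (by positivity)).2
  -- bound near 0
  have he1 : ∀ r ∈ Icc 0 ρ, ‖v1 r - V1 r‖ ≤ B := by
    intro r hr
    refine (norm_sub_le _ _).trans ?_
    have h1 := hv1b r hr
    have h2 := hV1b r hr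
    have h3 : r ≤ 18 / 5 := hr.2.trans hρ2
    rw [hB]; linarith
  have hall : ∀ r ∈ Icc 0 ρ, ‖v r - V r‖ ≤ d := by
    intro r hr
    rcases le_total s r with h1 | h1
    · exact (hbig r ⟨h1, hr.2⟩).trans (by linarith)
    · have hsρ : s ≤ ρ := by linarith
      have h2 := mvt_norm (g := fun t => v t - V t) (g' := fun t => v1 t - V1 t) (c := R1) (C := B) h1
        ((hv.sub hV).mono (Icc_subset_Icc hr.1 hsρ))
        (fun x hx hxc => (hN x ⟨hr.1.trans_lt hx.1, hx.2.trans_le hsρ⟩ hxc).1)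
        (fun x hx _ => he1 x ⟨hr.1.trans hx.1.le, hx.2.le.trans hsρ⟩)
      have h3 := hbig s ⟨le_rfl, hsρ⟩
      have h4 : ‖v r - V r‖ ≤ ‖v s - V s‖ + ‖(v s - V s) - (v r - V r)‖ := by
        have := norm_sub_norm_le (v r - V r) (v s - V s)
        rw [norm_sub_rev (v r - V r)] at this
        linarith
      have h5 : B * (s - r) ≤ B * s := by
        have := hr.1
        gcongr
        linarith
      linarith
  -- Lipschitz bound of e1
  have hLip : ∀ x ∈ Icc 0 ρ, ∀ y ∈ Icc 0 ρ,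
      ‖(v1 x - V1 x) - (v1 y - V1 y)‖ ≤ L * |x - y| := by
    have key : ∀ x ∈ Icc 0 ρ, ∀ y ∈ Icc 0 ρ, x ≤ y →
        ‖(v1 y - V1 y) - (v1 x - V1 x)‖ ≤ L * (y - x) := by
      intro x hx y hy hxy
      refine mvt_norm (g := fun t => v1 t - V1 t)
        (g' := fun r => -(11 / (r : ℂ) + I * r / 2) * (v1 r - V1 r) -
        (om : ℂ) * (v r - V r) + ((((‖v r‖ ^ n : ℝ) : ℂ) * v r - (if r < R1 then (om : ℂ) else 0)) -
          I * ((1 / n : ℝ) : ℂ) * v r)) (c := R1) hxy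
        ((hv1.sub hV1).mono (Icc_subset_Icc hx.1 hy.2))
        (fun t ht htc => (hN t ⟨hx.1.trans_lt ht.1, ht.2.trans_le hy.2⟩ htc).2) ?_
      intro t ht htc
      have ht' : t ∈ Ioo 0 ρ := ⟨hx.1.trans_lt ht.1, ht.2.trans_le hy.2⟩
      have ht'' := Ioo_subset_Icc_self ht'
      have ht0 : 0 < t := ht'.1
      have ht2 : t ≤ 18 / 5 := ht'.2.le.trans hρ2
      -- |11/t + i t/2|·|v1| part
      have hA : ‖(11 / (t : ℂ) + I * t / 2)‖ ≤ 11 / t + t / 2 := by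
        refine (norm_add_le _ _).trans (le_of_eq ?_)
        rw [norm_div, norm_div, norm_mul, Complex.norm_I, Complex.norm_real, Real.norm_eq_abs,
          abs_of_pos ht0]
        norm_num
      have hB1 : ‖(11 / (t : ℂ) + I * t / 2) * v1 t‖ ≤ 141 := by
        rw [norm_mul]
        calc ‖(11 / (t : ℂ) + I * t / 2)‖ * ‖v1 t‖ ≤ (11 / t + t / 2) * (8 * t) := by
              gcongr
              exact hv1b t ht''
          _ = 88 + 4 * t ^ 2 := by field_simp; ring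
          _ ≤ 88 + 4 * (18 / 5) ^ 2 := by gcongr
          _ ≤ 141 := by norm_num
      have hB2 : ‖(11 / (t : ℂ) + I * t / 2) * V1 t‖ ≤ 6 * M := by
        rcases le_total t R1 with h1 | h1
        · rw [(hVc t ⟨ht0.le, h1⟩).2, mul_zero, norm_zero]
          positivity
        · have ht3 : 3 ≤ t := hR1.1.trans h1
          rw [norm_mul]
          have h2 : 11 / t + t / 2 ≤ 6 := by
            have h3 : 11 / t ≤ 11 / 3 := by gcongr
            linarith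
          exact mul_le_mul (hA.trans h2) (hV1b t ht'') (norm_nonneg _) (by norm_num)
      have hB3 : ‖(om : ℂ) * (v t - V t)‖ ≤ 5 / 4 := by
        rw [norm_mul, Complex.norm_real, Real.norm_eq_abs, abs_of_nonneg hom.1]
        have h1 : ‖v t - V t‖ ≤ 5 / 2 := (norm_sub_le _ _).trans (by linarith [hvb t ht'', hVb t ht''])
        calc om * ‖v t - V t‖ ≤ (1 / 2) * (5 / 2) := by
              gcongr
              exact hom.2
          _ = 5 / 4 := by norm_num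
      have hB4 : ‖(if t < R1 then (om : ℂ) else 0)‖ ≤ 1 / 2 := by
        split_ifs
        · rw [Complex.norm_real, Real.norm_eq_abs, abs_of_nonneg hom.1]; exact hom.2
        · simp
      have hB5 : ‖I * ((1 / n : ℝ) : ℂ) * v t‖ ≤ 3 / 2 := by
        rw [norm_mul, norm_mul, Complex.norm_I, one_mul, Complex.norm_real, Real.norm_eq_abs,
          abs_of_nonneg (by positivity)]
        have h1 : 1 / (n : ℝ) ≤ 1 := by
          rw [div_le_one hnpos]; exact_mod_cast hn1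
        calc 1 / (n : ℝ) * ‖v t‖ ≤ 1 * (3 / 2) := by
              gcongr
              exact hvb t ht''
          _ = 3 / 2 := by norm_num
      have e1 : -(11 / (t : ℂ) + I * t / 2) * (v1 t - V1 t) - (om : ℂ) * (v t - V t) +
          ((((‖v t‖ ^ n : ℝ) : ℂ) * v t - (if t < R1 then (om : ℂ) else 0)) -
            I * ((1 / n : ℝ) : ℂ) * v t) =
          (11 / (t : ℂ) + I * t / 2) * V1 t - (11 / (t : ℂ) + I * t / 2) * v1 t -
            (om : ℂ) * (v t - V t) + ((((‖v t‖ ^ n : ℝ) : ℂ) * v t -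
              (if t < R1 then (om : ℂ) else 0)) - I * ((1 / n : ℝ) : ℂ) * v t) := by ring
      rw [e1]
      have n1 := norm6 ((11 / (t : ℂ) + I * t / 2) * V1 t) ((11 / (t : ℂ) + I * t / 2) * v1 t)
        ((om : ℂ) * (v t - V t)) (((‖v t‖ ^ n : ℝ) : ℂ) * v t) (if t < R1 then (om : ℂ) else 0)
        (I * ((1 / n : ℝ) : ℂ) * v t)
      have n6 := hv32 t ht''
      rw [hL]
      linarith
    intro x hx y hy
    rcases le_total x y with h1 | h1
    · have := key x hx y hy h1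
      rw [norm_sub_rev, abs_sub_comm, abs_of_nonneg (by linarith)]
      exact this
    · have := key y hy x hx h1
      rw [abs_of_nonneg (by linarith)]
      exact this
  intro r hr
  refine ⟨(hall r hr).trans hdη, ?_⟩
  have h1 := interp (f := fun t => v t - V t) (f1 := fun t => v1 t - V1 t) (a := 0) (b := ρ)
    (c := R1) (L := L) (d := d) (h := h) (hv.sub hV) (fun x hx hxc => (hN x hx hxc).1) hLip hall hh0
    (by linarith) r hr
  linarith

end Crest.Agent.R086.B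
end

-- ▼ part R086/BCont
section

/-!
Row 86, part B, item (I2): `v'(ρ)` of the interior solution depends (uniformly) continuously on
`(om, b)`, `b = v(ρ)` (owner helper548).  From `B.cmp`, `B.interp` (helper392) and `Core.apriori_v1` (helper702).
-/

set_option autoImplicit false

open Complex Set

namespace Crest.Agent.R086.BC

/-- `v1` of any interior solution is `41`-Lipschitz on `[0, ρ]` -/
theorem lip_v1 (n : ℕ) (hn : 2 ≤ n) {ρ om eps : ℝ} (hρ : 0 < ρ) (hρ' : ρ ≤ 18 / 5)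
    (hom : om ∈ Icc (1/5 : ℝ) (1/2)) (heps : eps ∈ Icc (0:ℝ) 1) {v v1 : ℝ → ℂ}
    (hv : ContinuousOn v (Icc 0 ρ)) (hv1 : ContinuousOn v1 (Icc 0 ρ)) (hv10 : v1 0 = 0)
    (hsol : B.IsSol n om eps v v1 (Ioo 0 ρ)) (hb : ‖v ρ‖ ≤ 1) :
    ∀ x ∈ Icc 0 ρ, ∀ y ∈ Icc 0 ρ, ‖v1 x - v1 y‖ ≤ 41 * |x - y| := by
  obtain ⟨hP, h2, h3⟩ := Core.apriori_v1 n hn hρ hρ' hom heps hv hv1 hv10 hsol hb
  have key : ∀ x ∈ Icc 0 ρ, ∀ y ∈ Icc 0 ρ, x ≤ y → ‖v1 y - v1 x‖ ≤ 41 * (y - x) := by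
    intro x hx y hy hxy
    refine B.mvt_norm (c := -1) hxy (hv1.mono (Icc_subset_Icc hx.1 hy.2))
      (fun r hr _ => (hsol r ⟨hx.1.trans_lt hr.1, hr.2.trans_le hy.2⟩).2) ?_
    intro r hr _
    have hr0 : 0 < r := hx.1.trans_lt hr.1
    have hrρ : r ≤ ρ := (hr.2.trans_le hy.2).le
    have hrI : r ∈ Icc 0 ρ := ⟨hr0.le, hrρ⟩
    have a1 : ‖(11 / (r : ℂ) + I * r / 2)‖ ≤ 11 / r + r / 2 := by
      refine (norm_add_le _ _).trans (add_le_add ?_ ?_)
      · rw [norm_div, Complex.norm_real, Real.norm_of_nonneg hr0.le]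
        norm_num
      · rw [norm_div, norm_mul, Complex.norm_I, one_mul, Complex.norm_real,
          Real.norm_of_nonneg hr0.le]
        norm_num
    have a2 : ‖((om : ℂ) + I * eps)‖ ≤ 3 / 2 := by
      refine (norm_add_le _ _).trans ?_
      rw [norm_mul, Complex.norm_I, one_mul, Complex.norm_real, Complex.norm_real,
        Real.norm_of_nonneg heps.1, Real.norm_of_nonneg (by linarith [hom.1])]
      linarith [hom.2, heps.2]
    have a3 : ‖(((‖v r‖ ^ n : ℝ) : ℂ))‖ ≤ 3 / 2 := by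
      rw [Complex.norm_real, Real.norm_of_nonneg (by positivity)]
      exact hP r hrI
    have b1 : ‖-(11 / (r : ℂ) + I * r / 2) * v1 r‖ ≤ (11 / r + r / 2) * (2 * r) := by
      rw [norm_mul, norm_neg]
      exact mul_le_mul a1 (h3 r hrI) (norm_nonneg _) (by positivity)
    have b2 : ‖((om : ℂ) + I * eps) * v r‖ ≤ 3 / 2 * 2 := by
      rw [norm_mul]
      exact mul_le_mul a2 (h2 r hrI) (norm_nonneg _) (by norm_num)
    have b3 : ‖((‖v r‖ ^ n : ℝ) : ℂ) * v r‖ ≤ 3 / 2 * 2 := by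
      rw [norm_mul]
      exact mul_le_mul a3 (h2 r hrI) (norm_nonneg _) (by norm_num)
    have b4 : (11 / r + r / 2) * (2 * r) = 22 + r ^ 2 := by
      field_simp
      ring
    have b5 : r ^ 2 ≤ 13 := by nlinarith
    calc _ ≤ ‖-(11 / (r : ℂ) + I * r / 2) * v1 r - ((om : ℂ) + I * eps) * v r‖ +
          ‖((‖v r‖ ^ n : ℝ) : ℂ) * v r‖ := norm_add_le _ _
      _ ≤ (‖-(11 / (r : ℂ) + I * r / 2) * v1 r‖ + ‖((om : ℂ) + I * eps) * v r‖) +
          ‖((‖v r‖ ^ n : ℝ) : ℂ) * v r‖ := by gcongr; exact norm_sub_le _ _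
      _ ≤ 41 := by linarith
  intro x hx y hy
  rcases le_total x y with h | h
  · rw [norm_sub_rev, abs_sub_comm, abs_of_nonneg (by linarith : 0 ≤ y - x)]
    exact key x hx y hy h
  · rw [abs_of_nonneg (by linarith : 0 ≤ x - y)]
    exact key y hy x hx h

/-- **(I2)**, uniform version: modulus of continuity of `(om, b) ↦ v1(ρ)`, independent of `n`. -/
theorem cont_v1 {ρ eps : ℝ} (hρ : 0 < ρ) (hρ' : ρ ≤ 18 / 5) (heps : eps ∈ Icc (0:ℝ) 1)
    {eta : ℝ} (heta : 0 < eta) : ∃ del : ℝ, 0 < del ∧ ∀ n : ℕ, 2 ≤ n →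
      ∀ om ∈ Icc (1/5 : ℝ) (1/2), ∀ om2 ∈ Icc (1/5 : ℝ) (1/2), ∀ b b2 : ℂ, ‖b‖ ≤ 1 → ‖b2‖ ≤ 1 →
      |om2 - om| ≤ del → ‖b2 - b‖ ≤ del →
      ∀ v v1 w w1 : ℝ → ℂ,
        ContinuousOn v (Icc 0 ρ) → ContinuousOn v1 (Icc 0 ρ) → v1 0 = 0 →
        B.IsSol n om eps v v1 (Ioo 0 ρ) → v ρ = b →
        ContinuousOn w (Icc 0 ρ) → ContinuousOn w1 (Icc 0 ρ) → w1 0 = 0 →
        B.IsSol n om2 eps w w1 (Ioo 0 ρ) → w ρ = b2 →
        ∀ r ∈ Icc (ρ / 2) ρ, ‖w r - v r‖ ≤ eta ∧ ‖w1 r - v1 r‖ ≤ eta := by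
  set h : ℝ := min (ρ / 4) (eta / 200) with hh
  have hh0 : 0 < h := by rw [hh]; positivity
  have hh1 : h ≤ ρ / 4 := min_le_left _ _
  have hh2 : h ≤ eta / 200 := min_le_right _ _
  set d : ℝ := min eta (eta * h / 4) with hd
  have hd0 : 0 < d := by rw [hd]; positivity
  have hd1 : d ≤ eta := min_le_left _ _
  have hd2 : d ≤ eta * h / 4 := min_le_right _ _
  refine ⟨min 1 (d ^ 2 / 2560), by positivity, ?_⟩
  intro n hn om hom om2 hom2 b b2 hb hb2 hdom hdb v v1 w w1 hv hv1 hv10 hs hvb hw hw1 hw10 hS hwb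
  have e1 : |om2 - om| ≤ 1 := hdom.trans (min_le_left _ _)
  have e2 : |om2 - om| ≤ d ^ 2 / 2560 := hdom.trans (min_le_right _ _)
  have e3 : ‖b2 - b‖ ≤ 1 := hdb.trans (min_le_left _ _)
  have e4 : ‖b2 - b‖ ≤ d ^ 2 / 2560 := hdb.trans (min_le_right _ _)
  have hb' : ‖v ρ‖ ≤ 1 := by rw [hvb]; exact hb
  have hb2' : ‖w ρ‖ ≤ 1 := by rw [hwb]; exact hb2
  obtain ⟨_, hv2, _⟩ := Core.apriori_v1 n hn hρ hρ' hom heps hv hv1 hv10 hs hb'
  obtain ⟨_, hw2, _⟩ := Core.apriori_v1 n hn hρ hρ' hom2 heps hw hw1 hw10 hS hb2'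
  have hc := B.cmp (K := 2) hρ hρ' hom2.2 hw hw1 hv hv1 hS hs hw2 hv2
  have hdist : ∀ r ∈ Icc (ρ / 2) ρ, ‖w r - v r‖ ≤ d := by
    intro r hr
    have hr0 : 0 < r := by linarith [hr.1]
    have h1 := hc r ⟨hr0.le, hr.2⟩
    rw [hvb, hwb] at h1
    have h2 : (ρ / 2) ^ 10 ≤ r ^ 10 := pow_le_pow_left₀ (by positivity) hr.1 10
    have h3 : (ρ / 2) ^ 10 * ‖w r - v r‖ ^ 2 ≤ r ^ 10 * ‖w r - v r‖ ^ 2 :=
      mul_le_mul_of_nonneg_right h2 (by positivity)
    have h4 : ‖b2 - b‖ ^ 2 ≤ d ^ 2 / 2560 := by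
      calc ‖b2 - b‖ ^ 2 = ‖b2 - b‖ * ‖b2 - b‖ := sq _
        _ ≤ 1 * (d ^ 2 / 2560) := mul_le_mul e3 e4 (norm_nonneg _) zero_le_one
        _ = _ := one_mul _
    have h5 : ρ ^ 2 ≤ 13 := by nlinarith
    have h6 : 2 * (2:ℝ) ^ 2 * |om2 - om| * ρ ^ 12 / 72 ≤ ρ ^ 10 * (3 / 2 * (d ^ 2 / 2560)) := by
      have : 2 * (2:ℝ) ^ 2 * |om2 - om| * ρ ^ 12 / 72 = ρ ^ 10 * (ρ ^ 2 * |om2 - om| / 9) := by ring
      rw [this]
      refine mul_le_mul_of_nonneg_left ?_ (by positivity)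
      have : ρ ^ 2 * |om2 - om| ≤ 13 * (d ^ 2 / 2560) :=
        mul_le_mul h5 e2 (abs_nonneg _) (by norm_num)
      nlinarith [sq_nonneg d]
    have h7 : ρ ^ 10 * ‖b2 - b‖ ^ 2 ≤ ρ ^ 10 * (d ^ 2 / 2560) :=
      mul_le_mul_of_nonneg_left h4 (by positivity)
    have h8 : (ρ / 2) ^ 10 * ‖w r - v r‖ ^ 2 ≤ (ρ / 2) ^ 10 * d ^ 2 := by
      have : ρ ^ 10 * (d ^ 2 / 2560) + ρ ^ 10 * (3 / 2 * (d ^ 2 / 2560)) =
          (ρ / 2) ^ 10 * d ^ 2 := by ring
      linarith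
    have h9 : ‖w r - v r‖ ^ 2 ≤ d ^ 2 := le_of_mul_le_mul_left h8 (by positivity)
    exact (le_abs_self _).trans (abs_le_of_sq_le_sq h9 hd0.le)
  have hL1 := lip_v1 n hn hρ hρ' hom heps hv hv1 hv10 hs hb'
  have hL2 := lip_v1 n hn hρ hρ' hom2 heps hw hw1 hw10 hS hb2'
  have hI := B.interp (f := fun r => w r - v r) (f1 := fun r => w1 r - v1 r) (a := ρ / 2) (b := ρ)
    (c := -1) (L := 82) (d := d) (h := h)
    ((hw.sub hv).mono (Icc_subset_Icc (by positivity) le_rfl))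
    (fun x hx _ => (hS x ⟨by linarith [hx.1], hx.2⟩).1.sub (hs x ⟨by linarith [hx.1], hx.2⟩).1)
    (fun x hx y hy => by
      have hx' : x ∈ Icc 0 ρ := ⟨by linarith [hx.1], hx.2⟩
      have hy' : y ∈ Icc 0 ρ := ⟨by linarith [hy.1], hy.2⟩
      have : w1 x - v1 x - (w1 y - v1 y) = (w1 x - w1 y) - (v1 x - v1 y) := by ring
      rw [this]
      refine (norm_sub_le _ _).trans ?_
      linarith [hL1 x hx' y hy', hL2 x hx' y hy'])
    hdist hh0 (by linarith)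
  intro r hr
  refine ⟨(hdist r hr).trans hd1, (hI r hr).trans ?_⟩
  have h1 : 2 * d / h ≤ eta / 2 := by
    rw [div_le_iff₀ hh0]
    linarith
  linarith

/-- **(I2)** in the form consumed by `BMatchMain` -/
theorem cont_v1_at {n : ℕ} (hn : 2 ≤ n) {ρ eps om : ℝ} (hρ : 0 < ρ) (hρ' : ρ ≤ 18 / 5)
    (heps : eps ∈ Icc (0:ℝ) 1) (hom : om ∈ Icc (1/5 : ℝ) (1/2)) {b : ℂ} (hb : ‖b‖ ≤ 1)
    {eta : ℝ} (heta : 0 < eta) : ∃ del : ℝ, 0 < del ∧
      ∀ om2 ∈ Icc (1/5 : ℝ) (1/2), ∀ b2 : ℂ, ‖b2‖ ≤ 1 → |om2 - om| ≤ del → ‖b2 - b‖ ≤ del →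
      ∀ v v1 w w1 : ℝ → ℂ,
        ContinuousOn v (Icc 0 ρ) → ContinuousOn v1 (Icc 0 ρ) → v1 0 = 0 →
        B.IsSol n om eps v v1 (Ioo 0 ρ) → v ρ = b →
        ContinuousOn w (Icc 0 ρ) → ContinuousOn w1 (Icc 0 ρ) → w1 0 = 0 →
        B.IsSol n om2 eps w w1 (Ioo 0 ρ) → w ρ = b2 → ‖w1 ρ - v1 ρ‖ ≤ eta := by
  obtain ⟨del, h0, h⟩ := cont_v1 hρ hρ' heps heta
  refine ⟨del, h0, fun om2 hom2 b2 hb2 h1 h2 v v1 w w1 a1 a2 a3 a4 a5 a6 a7 a8 a9 a10 => ?_⟩
  exact (h n hn om hom om2 hom2 b b2 hb hb2 h1 h2 v v1 w w1 a1 a2 a3 a4 a5 a6 a7 a8 a9 a10 ρ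
    ⟨by linarith, le_rfl⟩).2


end Crest.Agent.R086.BC
end

-- ▼ part R086/BMatchS
section

/-! # Row 86, Part B, matching: the output `BSeq` (helper651) -/

set_option autoImplicit false

open Set Filter Topology Complex
open scoped ContDiff

namespace Crest.Agent.R086.BMatch

open Crest.Agent.R086.B

theorem heps {n : ℕ} (h : 2 ≤ n) : (1 / (n : ℝ)) ∈ Icc (0:ℝ) 1 := by
  have hn : (1:ℝ) ≤ n := by exact_mod_cast (le_trans (by norm_num) h)
  exact ⟨by positivity, by rw [div_le_one (by linarith)]; exact hn⟩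

theorem limStmt {rho : ℝ} (hrho0 : 0 < rho) (hrho : rho ≤ 18 / 5) : LimStmt rho := by
  intro η hη M
  obtain ⟨n0, δ, hδ, h⟩ := B.limit (M := max M 0) hrho (le_max_right _ _) hη
  refine ⟨max n0 2, δ, hδ, ?_⟩
  intro n hn _ om hom R1 hR1 V V1 hV hV1 hcore hlin hVle hV1le v v1 hs hb
  obtain ⟨a1, a2, a3, a4, a5⟩ := hs
  have hn2 : 2 ≤ n := (le_max_right _ _).trans hn
  obtain ⟨b1, b2, b3⟩ := Core.apriori_v1 n hn2 hrho0 hrho hom (heps hn2) a1 a2 a3 a4 a5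
  exact h n ((le_max_left _ _).trans hn) om ⟨by linarith [hom.1], hom.2⟩ R1 hR1 V V1 v v1 hV hV1
    hcore hlin hVle (fun r hr => (hV1le r hr).trans (le_max_left _ _)) a1 a2 a4 b1
    (fun r hr => (b3 r hr).trans (by linarith [hr.1])) hb

theorem contStmt {rho : ℝ} (hrho0 : 0 < rho) (hrho : rho ≤ 18 / 5) : ContStmt rho := by
  intro n hn2 _ om hom v v1 hs η hη
  obtain ⟨a1, a2, a3, a4, a5⟩ := hs
  obtain ⟨del, hdel, h⟩ := BC.cont_v1_at (n := n) hn2 hrho0 hrho (heps hn2) hom a5 hη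
  refine ⟨del, hdel, ?_⟩
  intro om2 hom2 hd w w1 hw hwv
  obtain ⟨b1, b2, b3, b4, b5⟩ := hw
  exact h om2 hom2 (w rho) b5 hd hwv v v1 w w1 a1 a2 a3 a4 rfl b1 b2 b3 b4 rfl

theorem symX_congr {C : ℕ → ℝ} {del X : ℝ} {w w' : ℝ → ℂ} (h : SymX C del X w)
    (hw : EqOn w' w (Ioi X)) : SymX C del X w' := by
  refine ⟨h.1.congr hw, fun j x hx => ?_⟩
  have he : w' =ᶠ[𝓝 x] w := by
    filter_upwards [Ioi_mem_nhds hx] with y hy using hw hy
  rw [he.iteratedDeriv_eq]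
  exact h.2 j x hx

theorem farGood_congr {n : ℕ} {q c X : ℝ} {C : ℕ → ℝ} {V V' : ℝ → ℂ} (h : FarGood n q c X C V)
    (hV : EqOn V' V (Ioi X)) : FarGood n q c X C V' := by
  refine ⟨symX_congr h.sym hV, ?_, ?_, ?_, ?_, ?_⟩
  · intro x hx
    rw [hV hx]
    exact h.lower x hx
  · intro x hx
    rw [hV hx]
    exact h.upper x hx
  · exact symX_congr h.symA (fun x hx => by unfold wA; rw [hV hx])
  · exact symX_congr h.symB (fun x hx => by unfold wB; rw [hV hx])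
  · exact symX_congr h.symC (fun x hx => by unfold wC; rw [hV hx])

/-- the limit profile -/
noncomputable def Ulim (Uo : ℝ → ℝ → ℂ) (om0 R : ℝ) (c0 : ℂ) (r : ℝ) : ℂ :=
  if r ≤ R then 1 else c0 * Uo om0 r

/-- its derivative -/
noncomputable def Ulim1 (Uo1 : ℝ → ℝ → ℂ) (om0 R : ℝ) (c0 : ℂ) (r : ℝ) : ℂ :=
  if r ≤ R then 0 else c0 * Uo1 om0 r

/-- uniform convergence of `c * Z om r` on compact `r`-intervals -/
theorem unif_amp {Z : ℝ → ℝ → ℂ} {om0 : ℝ} {c0 : ℂ} (hom0 : om0 ∈ Ioo (1/5 : ℝ) (1/2))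
    (hZ : ContinuousOn (fun p : ℝ × ℝ => Z p.1 p.2) (Icc (1/5 : ℝ) (1/2) ×ˢ Ioi 0))
    {om : ℕ → ℝ} {c : ℕ → ℂ} (hom : Tendsto om atTop (𝓝 om0)) (hc : Tendsto c atTop (𝓝 c0))
    {a b : ℝ} (ha : 0 < a) {e : ℝ} (he : 0 < e) :
    ∃ N : ℕ, ∀ n, N ≤ n → ∀ r ∈ Icc a b, ‖c n * Z (om n) r - c0 * Z om0 r‖ ≤ e := by
  have h1 : ContinuousOn (↿(fun (p : ℝ × ℂ) (r : Icc a b) => p.2 * Z p.1 (r : ℝ)))
      ((Icc (1/5 : ℝ) (1/2) ×ˢ univ) ×ˢ univ) := by
    have h2 : ContinuousOn (fun q : (ℝ × ℂ) × (Icc a b) => Z q.1.1 (q.2 : ℝ))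
        ((Icc (1/5 : ℝ) (1/2) ×ˢ univ) ×ˢ univ) :=
      hZ.comp (f := fun q : (ℝ × ℂ) × (Icc a b) => ((q.1.1, (q.2 : ℝ)) : ℝ × ℝ)) (by fun_prop)
        (fun q hq => ⟨hq.1.1, ha.trans_le q.2.2.1⟩)
    have h3 : ContinuousOn (fun q : (ℝ × ℂ) × (Icc a b) => q.1.2)
        ((Icc (1/5 : ℝ) (1/2) ×ˢ univ) ×ˢ univ) := by fun_prop
    exact h3.mul h2
  have h4 : TendstoUniformly (fun (p : ℝ × ℂ) (r : Icc a b) => p.2 * Z p.1 (r : ℝ))
      (fun r : Icc a b => c0 * Z om0 (r : ℝ)) (𝓝 ((om0, c0) : ℝ × ℂ)) :=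
    ContinuousOn.tendstoUniformly (x := ((om0, c0) : ℝ × ℂ))
      (U := Icc (1/5 : ℝ) (1/2) ×ˢ univ) (prod_mem_nhds (Icc_mem_nhds hom0.1 hom0.2) univ_mem) h1
  rw [Metric.tendstoUniformly_iff] at h4
  have h5 := (hom.prodMk_nhds hc).eventually (h4 e he)
  obtain ⟨N, hN⟩ := eventually_atTop.1 h5
  refine ⟨N, fun n hn r hr => ?_⟩
  have h6 := hN n hn ⟨r, hr⟩
  rw [dist_comm, dist_eq_norm] at h6
  exact h6.le

/-- **output of the matching** -/
theorem exists_bseq {Uo Uo1 : ℝ → ℝ → ℂ} (hO : OutFam Uo Uo1) {om0 R : ℝ} {c0 : ℂ}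
    (hom0 : om0 ∈ Ioo (1/5 : ℝ) (1/2)) (hR : R ∈ Ioo (3 : ℝ) (18/5))
    (hc0 : c0 * Uo om0 R = 1) (hz : Uo1 om0 R = 0)
    (L : (ℝ × ℝ) ≃L[ℝ] ℂ)
    (hL : HasFDerivAt (fun p : ℝ × ℝ => Uo1 p.1 p.2) (L : (ℝ × ℝ) →L[ℝ] ℂ) (om0, R))
    (hExt : ∀ rho : ℝ, R < rho → rho < 18/5 → ExtStmt om0 rho 9 c0 Uo Uo1) :
    Nonempty (BSeq om0 R (Ulim Uo om0 R c0) (Ulim1 Uo1 om0 R c0)) := by
  obtain ⟨d1, hd1, hmain⟩ := match_main hO hom0 hR hc0 hz L hL
  set rho : ℝ := R + d1 with hrho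
  obtain ⟨hr1, hr2, hmain⟩ := hmain rho (by linarith) le_rfl
  have hrR : R < rho := by linarith
  have hrho0 : 0 < rho := by linarith [hR.1]
  obtain ⟨del, q, cl, X, C, n1, v, v1, hdel, hq0, hq1, hcl, hX1, hrX, E1, E2, E3⟩ :=
    hExt rho hrR hr1
  have hX20 : (20.25 : ℝ) ≤ X := by
    refine le_trans ?_ hrX
    norm_num
  have hsX : 9 ≤ 2 * Real.sqrt X := by
    have : (4.5 : ℝ) ≤ Real.sqrt X := Real.le_sqrt_of_sq_le (by norm_num; linarith)
    linarith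
  have hrhoX : rho ≤ 2 * Real.sqrt X + 1 := by linarith
  obtain ⟨N, om, R1, c, u, u1, hom, -, hc, hsol, hconv⟩ := hmain (limStmt hrho0 hr1.le)
    (contStmt hrho0 hr1.le) hdel
    (fun n hn he om hom c hc => by
      obtain ⟨a1, a2, a3, -, -⟩ := E1 n hn he om hom c hc
      exact ⟨a1, a2, a3⟩) E2
    (fun η hη => by
      obtain ⟨N, hN⟩ := E3 η hη
      exact ⟨N, fun n hn he om hom c hc => hN n hn he om hom c hc rho ⟨le_rfl, hrhoX⟩⟩)
  refine ⟨{ om := om, v := u, v1 := u1, n1 := max N (max n1 2), X := X, q := q, cl := cl, C := C,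
            X_ge := by linarith, q_pos := hq0, q_lt := hq1, cl_pos := hcl,
            two_le := (le_max_right _ _).trans (le_max_right _ _), om_lim := hom,
            sol := ?_, om_mem := ?_, v1_le := ?_, pow_le := ?_, conv := ?_, far := ?_ }⟩
  · intro n hn he
    obtain ⟨-, -, -, a1, a2, a3, a4, -, -⟩ := hsol n ((le_max_left _ _).trans hn) he
    exact ⟨a1, a2, a3, a4⟩
  · intro n hn he
    exact (hsol n ((le_max_left _ _).trans hn) he).1
  · intro n hn he r hr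
    have hn2 : 2 ≤ n := ((le_max_right _ _).trans (le_max_right _ _)).trans hn
    obtain ⟨a0, -, -, a1, a2, a3, a4, a5, -⟩ := hsol n ((le_max_left _ _).trans hn) he
    have h1 := (Core.apriori_v1 n hn2 hrho0 hr1.le a0 (heps hn2) (a1.mono Icc_subset_Ici_self)
      (a2.mono Icc_subset_Ici_self) a3 (fun r hr => a4 r hr.1) a5).2.2 r
      ⟨hr.1, by linarith [hr.2, hR.1]⟩
    exact h1.trans (by linarith [hr.1])
  · intro n hn he r hr
    have hn2 : 2 ≤ n := ((le_max_right _ _).trans (le_max_right _ _)).trans hn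
    have hnn1 : n1 ≤ n := ((le_max_left _ _).trans (le_max_right _ _)).trans hn
    obtain ⟨a0, b1, b2, a1, a2, a3, a4, a5, a6⟩ := hsol n ((le_max_left _ _).trans hn) he
    rcases le_total r rho with h | h
    · exact (Core.apriori_v1 n hn2 hrho0 hr1.le a0 (heps hn2) (a1.mono Icc_subset_Ici_self)
        (a2.mono Icc_subset_Ici_self) a3 (fun r hr => a4 r hr.1) a5).1 r ⟨hr, h⟩
    · rw [(a6 r h).1]
      have h1 := (E1 n hnn1 he (om n) b1 (c n) b2).2.2.2.1 r h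
      exact (pow_le_one₀ (norm_nonneg _) (h1.trans hq1.le)).trans (by norm_num)
  · intro e he
    obtain ⟨N1, hN1⟩ := hconv e he
    obtain ⟨N2, hN2⟩ := E3 (e / 2) (by positivity)
    obtain ⟨N3, hN3⟩ := unif_amp (a := rho) (b := 2 * Real.sqrt X + 1) hom0 hO.cont hom hc hrho0
      (half_pos he)
    obtain ⟨N4, hN4⟩ := unif_amp (a := rho) (b := 2 * Real.sqrt X + 1) hom0 hO.cont1 hom hc hrho0
      (half_pos he)
    refine ⟨max (max N (max N1 N2)) (max N3 N4), fun n hn hev r hr => ?_⟩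
    simp only [max_le_iff] at hn
    obtain ⟨⟨hnN, hnN1, hnN2⟩, hnN3, hnN4⟩ := hn
    rcases le_total r rho with h | h
    · exact hN1 n hnN1 hev r ⟨hr.1, h⟩
    · obtain ⟨a0, b1, b2, -, -, -, -, -, a6⟩ := hsol n hnN hev
      have g1 := hN2 n hnN2 hev (om n) b1 (c n) b2 r ⟨h, hr.2⟩
      have g2 := hN3 n hnN3 r ⟨h, hr.2⟩
      have g3 := hN4 n hnN4 r ⟨h, hr.2⟩
      have hnR : ¬ r ≤ R := by
        rw [not_le]; linarith
      have e0 : Ulim Uo om0 R c0 r = c0 * Uo om0 r := if_neg hnR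
      have e1 : Ulim1 Uo1 om0 R c0 r = c0 * Uo1 om0 r := if_neg hnR
      rw [e0, e1, (a6 r h).1, (a6 r h).2]
      refine ⟨?_, ?_⟩
      · calc ‖v n (om n) (c n) r - c0 * Uo om0 r‖
            = ‖(v n (om n) (c n) r - c n * Uo (om n) r) + (c n * Uo (om n) r - c0 * Uo om0 r)‖ := by
              ring_nf
          _ ≤ e / 2 + e / 2 := (norm_add_le _ _).trans (add_le_add g1.1 g2)
          _ = e := by ring
      · calc ‖v1 n (om n) (c n) r - c0 * Uo1 om0 r‖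
            = ‖(v1 n (om n) (c n) r - c n * Uo1 (om n) r) +
                (c n * Uo1 (om n) r - c0 * Uo1 om0 r)‖ := by
              ring_nf
          _ ≤ e / 2 + e / 2 := (norm_add_le _ _).trans (add_le_add g1.2 g3)
          _ = e := by ring
  · intro n hn he
    have hnn1 : n1 ≤ n := ((le_max_left _ _).trans (le_max_right _ _)).trans hn
    obtain ⟨a0, b1, b2, -, -, -, -, -, a6⟩ := hsol n ((le_max_left _ _).trans hn) he
    refine farGood_congr (E1 n hnn1 he (om n) b1 (c n) b2).2.2.2.2 ?_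
    intro x hx
    unfold toX
    refine (a6 _ ?_).1
    have h1 : Real.sqrt X ≤ Real.sqrt x := Real.sqrt_le_sqrt (le_of_lt hx)
    linarith

end Crest.Agent.R086.BMatch
end

-- ▼ part R086/BLimit
section

/-!
Row 86, node BLIM (helper758): growth of `W (-i om) 6`, complex ODE form, and the limit profile
`LimitProfile` from Part A's `AData`.
-/

set_option autoImplicit false

open MeasureTheory Complex Set Filter Topology
open scoped ContDiff

namespace Crest.Agent.R086.BLim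

open Crest.Agent.R086.JCx

/-! ### (1) growth and ODE of `W (-i om) 6` in `Re z ≥ 1` -/



/-! ### (2) the limit profile -/

open Crest.Agent.R086.A

variable (D : AData)

noncomputable def f (r : ℝ) : ℂ := fo 0 (-(I * D.om)) r
noncomputable def f1 (r : ℝ) : ℂ := fo1 0 (-(I * D.om)) r

theorem f_eq (r : ℝ) : f D r = Phi 0 (-(I * D.om)) r := rfl

theorem f1_eq (r : ℝ) : f1 D r = Phi1 0 (-(I * D.om)) r := by
  unfold f1 fo1 Phi1 fo zr
  ring

theorem mu_cond : -1 - ((0:ℕ) : ℝ) / 2 < (-(I * (D.om:ℂ))).re := by simp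

theorem f_hasDerivAt {r : ℝ} (hr : 0 < r) : HasDerivAt (f D) (f1 D r) r := by
  rw [f1_eq]
  exact Phi_hasDerivAt (mu_cond D) hr

theorem f1_hasDerivAt {r : ℝ} (hr : 0 < r) :
    HasDerivAt (f1 D) (-(11 / (r : ℂ) + I * r / 2) * f1 D r - D.om * f D r) r := by
  have h := Phi1_hasDerivAt (mu_cond D) hr
  have e : f1 D = Phi1 0 (-(I * D.om)) := funext fun r => f1_eq D r
  rw [e]
  refine h.congr_deriv ?_
  rw [f_eq]
  have hI : I * I = -1 := Complex.I_mul_I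
  simp only [Nat.cast_zero, zero_mul, zero_div, sub_zero]
  linear_combination (D.om * Phi 0 (-(I * D.om)) r) * hI

/-- the limit profile -/
noncomputable def U (r : ℝ) : ℂ := if r ≤ D.R then 1 else f D r / f D D.R
noncomputable def U1 (r : ℝ) : ℂ := if r ≤ D.R then 0 else f1 D r / f D D.R

theorem U_core {r : ℝ} (hr : r ≤ D.R) : U D r = 1 := if_pos hr
theorem U_out {r : ℝ} (hr : D.R ≤ r) : U D r = f D r / f D D.R := by
  unfold U
  split_ifs with h
  · have : r = D.R := le_antisymm h hr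
    rw [this]
    exact (div_self (show f D D.R ≠ 0 from D.fo_ne)).symm
  · rfl

theorem U_hasDerivAt (r : ℝ) : HasDerivAt (U D) (U1 D r) r := by
  rcases lt_trichotomy r D.R with h | h | h
  · have e : U1 D r = 0 := if_pos h.le
    rw [e]
    refine (hasDerivAt_const r (1:ℂ)).congr_of_eventuallyEq ?_
    filter_upwards [Iio_mem_nhds h] with x hx
    exact U_core D (le_of_lt hx)
  · subst h
    have e : U1 D D.R = 0 := if_pos le_rfl
    rw [e, ← hasDerivWithinAt_univ, ← Iic_union_Ici (a := D.R)]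
    refine HasDerivWithinAt.union ?_ ?_
    · exact (hasDerivWithinAt_const _ _ (1:ℂ)).congr (fun x hx => U_core D hx) (U_core D le_rfl)
    · have h1 := ((f_hasDerivAt D D.R_pos).div_const (f D D.R)).hasDerivWithinAt (s := Ici D.R)
      have h2 : f1 D D.R / f D D.R = 0 := by
        have : f1 D D.R = 0 := D.fo1_zero
        rw [this, zero_div]
      rw [h2] at h1
      exact h1.congr (fun x hx => U_out D hx) (U_out D le_rfl)
  · have e : U1 D r = f1 D r / f D D.R := if_neg (not_le.2 h)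
    rw [e]
    have hr : 0 < r := D.R_pos.trans h
    refine ((f_hasDerivAt D hr).div_const (f D D.R)).congr_of_eventuallyEq ?_
    filter_upwards [Ioi_mem_nhds h] with x hx
    exact U_out D (le_of_lt hx)

theorem deriv_U : deriv (U D) = U1 D := funext fun r => (U_hasDerivAt D r).deriv

theorem U1_continuous : Continuous (U1 D) := by
  have h1 : Continuous (fun r : ℝ => f1 D (max r D.R) / f D D.R) := by
    rw [continuous_iff_continuousAt]
    intro r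
    have hpos : 0 < max r D.R := D.R_pos.trans_le (le_max_right _ _)
    have h2 : ContinuousAt (f1 D) (max r D.R) := (f1_hasDerivAt D hpos).continuousAt
    have h3 : ContinuousAt (fun r : ℝ => max r D.R) r := by fun_prop
    exact (ContinuousAt.comp (g := f1 D) (f := fun r : ℝ => max r D.R) h2 h3).div_const _
  have h2 : U1 D = fun r => if r ≤ D.R then (0:ℂ) else f1 D (max r D.R) / f D D.R := by
    funext r
    unfold U1
    split_ifs with h
    · rfl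
    · rw [max_eq_left (not_le.1 h).le]
  rw [h2]
  refine Continuous.if_le continuous_const h1 continuous_id continuous_const ?_
  intro r hr
  have hr' : r = D.R := hr
  rw [hr', max_self]
  have : f1 D D.R = 0 := D.fo1_zero
  rw [this, zero_div]

theorem U_contDiff : ContDiff ℝ 1 (U D) := by
  rw [contDiff_one_iff_deriv]
  refine ⟨fun r => (U_hasDerivAt D r).differentiableAt, ?_⟩
  rw [deriv_U]
  exact U1_continuous D

theorem U_ode {r : ℝ} (hr : D.R < r) : HasDerivAt (deriv (U D))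
    (-(11 / (r : ℂ) + I * r / 2) * deriv (U D) r - D.om * U D r) r := by
  rw [deriv_U, U_out D hr.le]
  have e : U1 D r = f1 D r / f D D.R := if_neg (not_le.2 hr)
  rw [e]
  have hr0 : 0 < r := D.R_pos.trans hr
  have h1 := (f1_hasDerivAt D hr0).div_const (f D D.R)
  have h2 : HasDerivAt (U1 D) ((-(11 / (r : ℂ) + I * r / 2) * f1 D r - D.om * f D r) / f D D.R) r := by
    refine h1.congr_of_eventuallyEq ?_
    filter_upwards [Ioi_mem_nhds hr] with x hx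
    exact if_neg (not_le.2 hx)
  refine h2.congr_deriv ?_
  ring

theorem fR_pos : 0 < ‖f D D.R‖ := norm_pos_iff.2 D.fo_ne

theorem norm_U_out {r : ℝ} (hr : D.R ≤ r) : ‖U D r‖ = ‖f D r‖ / ‖f D D.R‖ := by
  rw [U_out D hr, norm_div]

theorem U_lt_one {r : ℝ} (hr : D.R < r) : ‖U D r‖ < 1 := by
  rw [norm_U_out D hr.le, div_lt_one (fR_pos D)]
  exact D.anti self_mem_Ici hr.le hr

theorem U_anti : StrictAntiOn (fun r => ‖U D r‖) (Ici D.R) := by
  intro x hx y hy hxy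
  show ‖U D y‖ < ‖U D x‖
  rw [norm_U_out D hx, norm_U_out D hy]
  exact div_lt_div_of_pos_right (D.anti hx hy hxy) (fR_pos D)

theorem U_lower (r : ℝ) : 3 / 5 ≤ ‖U D r‖ := by
  rcases le_total r D.R with h | h
  · rw [U_core D h]; norm_num
  · rw [norm_U_out D h, le_div_iff₀ (fR_pos D)]
    exact D.lower r h

theorem om_lo : 33 / 100 < D.om := by have := D.om_mem.1; norm_num at this ⊢; linarith
theorem om_hi : D.om < 34 / 100 := by have := D.om_mem.2; norm_num at this ⊢; linarith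

theorem R_lo : 328 / 100 < D.R := by
  have h1 := D.rho_mem.1
  have h2 := D.R_pos
  norm_num at h1 ⊢
  nlinarith

theorem R_hi : D.R < 330 / 100 := by
  have h1 := D.rho_mem.2
  have h2 := D.R_pos
  norm_num at h1 ⊢
  nlinarith

/-- THE LIMIT PROFILE. -/
theorem limitProfile : LimitProfile D.om D.R (U D) where
  om_lo := om_lo D
  om_hi := om_hi D
  R_lo := R_lo D
  R_hi := R_hi D
  core := fun _ hr => U_core D hr
  c1 := U_contDiff D
  ode := fun _ hr => U_ode D hr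
  lt_one := fun _ hr => U_lt_one D hr
  anti := U_anti D
  lower := fun r => le_trans (by norm_num) (U_lower D r)

end Crest.Agent.R086.BLim
end

-- ▼ part R086/BMatchA
section

/-! # Row 86, Part B, matching: `BSeq` from the data of Part A and the exterior statement (helper651) -/

set_option autoImplicit false

open Set Filter Topology Complex

namespace Crest.Agent.R086.BMatch

open Crest.Agent.R086.B

theorem bseq_of_A (D : A.AData)
    (hExt : ∀ rho : ℝ, D.R < rho → rho < 18/5 →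
      ExtStmt D.om rho 9 (1 / JCx.Uo D.om D.R) JCx.Uo JCx.Uo1) :
    Nonempty (BSeq D.om D.R (BLim.U D) (BLim.U1 D)) := by
  obtain ⟨L, hL⟩ := D.nondeg
  have hom : D.om ∈ Ioo (1/5 : ℝ) (1/2) := by
    have h1 := BLim.om_lo D
    have h2 := BLim.om_hi D
    constructor <;> linarith
  have hR : D.R ∈ Ioo (3 : ℝ) (18/5) := by
    have h1 := BLim.R_lo D
    have h2 := BLim.R_hi D
    constructor <;> linarith
  have e0 : ∀ om r : ℝ, JCx.Uo om r = A.fo 0 (-(I * om)) r := fun om r => rfl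
  have e1 : ∀ om r : ℝ, JCx.Uo1 om r = A.fo1 0 (-(I * om)) r := by
    intro om r
    unfold JCx.Uo1 JCx.Phi1 A.fo1 A.fo JCx.zr
    ring
  have hne : JCx.Uo D.om D.R ≠ 0 := D.fo_ne
  have hc0 : 1 / JCx.Uo D.om D.R * JCx.Uo D.om D.R = 1 := by field_simp
  have hz : JCx.Uo1 D.om D.R = 0 := by rw [e1]; exact D.fo1_zero
  have hL' : HasFDerivAt (fun p : ℝ × ℝ => JCx.Uo1 p.1 p.2) (L : (ℝ × ℝ) →L[ℝ] ℂ) (D.om, D.R) := by
    have : (fun p : ℝ × ℝ => JCx.Uo1 p.1 p.2) = fun p : ℝ × ℝ => A.fo1 0 (-(I * p.1)) p.2 :=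
      funext fun p => e1 p.1 p.2
    rw [this]
    exact hL.hasFDerivAt
  have h := exists_bseq JCx.outFam hom hR hc0 hz L hL' hExt
  have g0 : Ulim JCx.Uo D.om D.R (1 / JCx.Uo D.om D.R) = BLim.U D := by
    funext r
    unfold Ulim BLim.U
    split_ifs with hr
    · rfl
    · rw [one_div, ← div_eq_inv_mul]
      rfl
  have g1 : Ulim1 JCx.Uo1 D.om D.R (1 / JCx.Uo D.om D.R) = BLim.U1 D := by
    funext r
    unfold Ulim1 BLim.U1
    split_ifs with hr
    · rfl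
    · rw [one_div, ← div_eq_inv_mul, e1]
      rfl
  rw [g0, g1] at h
  exact h

end Crest.Agent.R086.BMatch
end

-- ▼ part R086/BMain

/-! # Row 86, Part B: final assembly `BData` (helper651) -/

set_option autoImplicit false

open MeasureTheory Complex Set Filter Topology
open scoped ContDiff

namespace Crest.Agent.R086.B

variable {om0 R : ℝ} {U U1 : ℝ → ℂ}

/-- the profiles `P` for large even `n` -/
theorem exists_prof (S : BSeq om0 R U U1) (L : LimitProfile om0 R U) :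
    ∃ N : ℕ, S.n1 ≤ N ∧ ∀ n, N ≤ n → Even n → ∃ P : Profile n, BFin.IsProf S P := by
  obtain ⟨N, hN1, hN⟩ := BFin.exists_lower S L
  refine ⟨N, hN1, fun n hn he => ?_⟩
  obtain ⟨h1, h2, h3, h4⟩ := S.sol n (hN1.trans hn) he
  refine BSm0.profile_of_sol n he (S.two_le.trans (hN1.trans hn)) (S.om n) (S.v n) (S.v1 n) h1 h2 h4
    (fun j => ?_) ?_
  · refine ⟨S.C j, ?_⟩
    filter_upwards [eventually_gt_atTop S.X] with x hx
    exact ((S.far n (hN1.trans hn) he).sym.2 j x hx)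
  · have h5 := hN n hn he 0 ⟨le_rfl, by have := BFin.nine_le_len S; linarith⟩
    intro h6
    rw [h6, norm_zero] at h5
    norm_num at h5

theorem t1 : BTailFin.T1Stmt := fun a b M B1 ha hab h0 h1 _ => t1Stmt a b M B1 ha hab h0 h1

/-- **assembly of `BData`** -/
theorem bdata_of_bseq (L : LimitProfile om0 R U) (S : BSeq om0 R U (deriv U))
    (T3 : T3Out S) : Nonempty (BData om0 R U) := by
  obtain ⟨Na, hNa1, hNa⟩ := exists_prof S L
  obtain ⟨Nb, hNb1, hNb⟩ := BFin.q_ne S L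
  set N : ℕ := max Na Nb with hN
  set nn : ℕ → ℕ := fun j => 2 * (N + j) with hnn
  have hnn1 : ∀ j, N ≤ nn j := fun j => by simp only [hnn]; omega
  have hnn2 : ∀ j, Even (nn j) := fun j => even_two_mul _
  have hnnt : Tendsto nn atTop atTop := by
    refine tendsto_atTop_mono (f := fun j => j) (fun j => ?_) tendsto_id
    simp only [hnn]; omega
  have hex : ∀ j, ∃ P : Profile (nn j), BFin.IsProf S P := fun j =>
    hNa (nn j) ((le_max_left _ _).trans (hnn1 j)) (hnn2 j)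
  choose P hP using hex
  have hev : ∀ {Q : ℕ → Prop}, (∃ M : ℕ, ∀ n, M ≤ n → Even n → Q n) → ∀ᶠ j in atTop, Q (nn j) := by
    intro Q hQ
    obtain ⟨M, hM⟩ := hQ
    filter_upwards [hnnt.eventually_ge_atTop M] with j hj
    exact hM (nn j) hj (hnn2 j)
  have hS1 : ∀ j, S.n1 ≤ nn j := fun j => hNa1.trans ((le_max_left _ _).trans (hnn1 j))
  refine ⟨{ nn := nn, P := P, nn_tendsto := hnnt, om_tendsto := ?_, radial := ?_, q_ne := ?_,
            q_der := ?_, decay2 := ?_, conv := ?_, q_lower := ?_, pow_le := ?_, pow_ge := ?_,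
            logder := ?_, pow_tail := ?_, tail := ?_, poly := ?_ }⟩
  · have : (fun j => (P j).om) = fun j => S.om (nn j) := funext fun j => (hP j).1
    rw [this]
    exact S.om_lim.comp hnnt
  · exact fun j y => BFin.radial (hP j) y
  · exact fun j r => hNb (nn j) ((le_max_right _ _).trans (hnn1 j)) (hnn2 j) (P j) (hP j) r
  · obtain ⟨C, M, hM1, hM⟩ := BFin.q_der S L
    refine ⟨C, ?_⟩
    filter_upwards [hnnt.eventually_ge_atTop M] with j hj r hr
    exact hM (nn j) hj (hnn2 j) (P j) (hP j) r hr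
  · obtain ⟨A, hA, M, hM1, hM⟩ := BFin.decay2 S L
    refine ⟨A, hA, ?_⟩
    filter_upwards [hnnt.eventually_ge_atTop M] with j hj r hr
    exact hM (nn j) hj (hnn2 j) (P j) (hP j) r hr
  · intro e he
    obtain ⟨M, hM1, hM⟩ := BFin.conv S L e he
    filter_upwards [hnnt.eventually_ge_atTop M] with j hj r hr
    exact hM (nn j) hj (hnn2 j) (P j) (hP j) r hr
  · obtain ⟨M, hM1, hM⟩ := BFin.q_lower S L
    filter_upwards [hnnt.eventually_ge_atTop M] with j hj r hr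
    exact hM (nn j) hj (hnn2 j) (P j) (hP j) r hr
  · refine ⟨3 / 2, Eventually.of_forall fun j r hr => ?_⟩
    exact BFin.pow_le S (nn j) (hS1 j) (hnn2 j) (P j) (hP j) r hr
  · intro del hdel
    obtain ⟨c, hc, M, hM⟩ := PF.pow_ge_of_BSeq L S del hdel
    refine ⟨c, hc, ?_⟩
    filter_upwards [hnnt.eventually_ge_atTop M] with j hj r hr
    rw [BFin.q_eq_of_nonneg (hP j) hr.1]
    exact hM (nn j) hj (hnn2 j) r hr
  · obtain ⟨del0, hdel0, h⟩ := PF.logder_of_BSeq L S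
    refine ⟨del0, hdel0, fun e he => ?_⟩
    obtain ⟨M, hM⟩ := h e he
    filter_upwards [hnnt.eventually_ge_atTop M] with j hj r hr
    rw [BFin.q_eq_of_nonneg (hP j) hr.1, BFin.deriv_q_nonneg (hP j) (hS1 j) (hnn2 j) hr.1]
    exact hM (nn j) hj (hnn2 j) r hr
  · intro r1 hr1
    obtain ⟨c, hc, M, hM1, hM⟩ := BFin.pow_tail S L r1 hr1
    refine ⟨c, hc, ?_⟩
    filter_upwards [hnnt.eventually_ge_atTop M] with j hj r hr
    exact hM (nn j) hj (hnn2 j) (P j) (hP j) r hr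
  · intro r1 r2 h1 h2 χ hχ
    obtain ⟨c, hc, h⟩ := BTailFin.tail_profile S L t1 r1 r2 h1 h2 χ hχ
    refine ⟨c, hc, ?_⟩
    filter_upwards [hnnt.eventually h] with j hj
    exact hj (hnn2 j) (P j) (hP j).2
  · obtain ⟨K, M, hM1, hM⟩ := BFin.poly S T3
    refine ⟨K, ?_⟩
    filter_upwards [hnnt.eventually_ge_atTop M] with j hj
    exact hM (nn j) hj (hnn2 j) (P j) (hP j)

/-- **Part B**, modulo the exterior statement and T3. -/
theorem partB_of (D : A.AData)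
    (hExt : ∀ rho : ℝ, D.R < rho → ∀ rX : ℝ,
      ExtStmt D.om rho rX (1 / A.fo 0 (-(I * D.om)) D.R) JCx.Uo JCx.Uo1)
    (T3 : ∀ S : BSeq D.om D.R (BLim.U D) (deriv (BLim.U D)), T3Out S) :
    Nonempty (BData D.om D.R (BLim.U D)) := by
  obtain ⟨S⟩ := BMatch.bseq_of_A D (fun rho h1 _ => hExt rho h1 9)
  rw [← BLim.deriv_U D] at S
  exact bdata_of_bseq (BLim.limitProfile D) S (T3 S)

end Crest.Agent.R086.B
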