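import Crest.Agent.R086.CCore2
import Crest.Agent.R086.CExDefs

-- ▼ part R086/CCore4
section

/-!
Row 86 (S0114), Part C, C-core: integrated identities on `(0, R]` (note 12450, C1):
(E1), (E2), (T), (charge), virial (*), equipartition.
-/

set_option autoImplicit false

open Complex ComplexConjugate MeasureTheory Set Filter Topology

namespace Crest.Agent.R086.CCore

/-- continuous and bounded on `(0,R]` -/
def BC {E : Type*} [NormedAddCommGroup E] (R : ℝ) (f : ℝ → E) : Prop :=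
  ContinuousOn f (Ioc 0 R) ∧ ∃ C, ∀ r ∈ Ioc 0 R, ‖f r‖ ≤ C

namespace BC
variable {R : ℝ}

theorem mulC {f g : ℝ → ℂ} (hf : BC R f) (hg : BC R g) : BC R (fun r => f r * g r) := by
  obtain ⟨cf, A, hA⟩ := hf
  obtain ⟨cg, B, hB⟩ := hg
  refine ⟨cf.mul cg, |A| * |B|, fun r hr => ?_⟩
  rw [norm_mul]
  exact mul_le_mul ((hA r hr).trans (le_abs_self A)) ((hB r hr).trans (le_abs_self B))
    (norm_nonneg _) (abs_nonneg _)

theorem mulR {f g : ℝ → ℝ} (hf : BC R f) (hg : BC R g) : BC R (fun r => f r * g r) := by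
  obtain ⟨cf, A, hA⟩ := hf
  obtain ⟨cg, B, hB⟩ := hg
  refine ⟨cf.mul cg, |A| * |B|, fun r hr => ?_⟩
  rw [norm_mul]
  exact mul_le_mul ((hA r hr).trans (le_abs_self A)) ((hB r hr).trans (le_abs_self B))
    (norm_nonneg _) (abs_nonneg _)

theorem add {E : Type*} [NormedAddCommGroup E] {f g : ℝ → E} (hf : BC R f) (hg : BC R g) :
    BC R (fun r => f r + g r) := by
  obtain ⟨cf, A, hA⟩ := hf
  obtain ⟨cg, B, hB⟩ := hg
  exact ⟨cf.add cg, A + B, fun r hr => (norm_add_le _ _).trans (add_le_add (hA r hr) (hB r hr))⟩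

theorem sub {E : Type*} [NormedAddCommGroup E] {f g : ℝ → E} (hf : BC R f) (hg : BC R g) :
    BC R (fun r => f r - g r) := by
  obtain ⟨cf, A, hA⟩ := hf
  obtain ⟨cg, B, hB⟩ := hg
  exact ⟨cf.sub cg, A + B, fun r hr => (norm_sub_le _ _).trans (add_le_add (hA r hr) (hB r hr))⟩

theorem const {E : Type*} [NormedAddCommGroup E] (c : E) : BC R (fun _ => c) :=
  ⟨continuousOn_const, ‖c‖, fun _ _ => le_rfl⟩

theorem cj {f : ℝ → ℂ} (hf : BC R f) : BC R (fun r => (starRingEnd ℂ) (f r)) := by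
  obtain ⟨cf, A, hA⟩ := hf
  refine ⟨Complex.continuous_conj.comp_continuousOn cf, A, fun r hr => ?_⟩
  simpa using hA r hr

theorem ofReal {f : ℝ → ℝ} (hf : BC R f) : BC R (fun r => (f r : ℂ)) := by
  obtain ⟨cf, A, hA⟩ := hf
  refine ⟨Complex.continuous_ofReal.comp_continuousOn cf, A, fun r hr => ?_⟩
  simpa using hA r hr

theorem re {f : ℝ → ℂ} (hf : BC R f) : BC R (fun r => (f r).re) := by
  obtain ⟨cf, A, hA⟩ := hf
  exact ⟨Complex.continuous_re.comp_continuousOn cf, A, fun r hr =>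
    (Complex.abs_re_le_norm _).trans (hA r hr)⟩

theorem im {f : ℝ → ℂ} (hf : BC R f) : BC R (fun r => (f r).im) := by
  obtain ⟨cf, A, hA⟩ := hf
  exact ⟨Complex.continuous_im.comp_continuousOn cf, A, fun r hr =>
    (Complex.abs_im_le_norm _).trans (hA r hr)⟩

theorem normSq {f : ℝ → ℂ} (hf : BC R f) : BC R (fun r => ‖f r‖ ^ 2) := by
  obtain ⟨cf, A, hA⟩ := hf
  refine ⟨(cf.norm).pow 2, A ^ 2, fun r hr => ?_⟩
  rw [Real.norm_of_nonneg (by positivity)]
  exact pow_le_pow_left₀ (norm_nonneg _) (hA r hr) 2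

theorem intble {E : Type*} [NormedAddCommGroup E] [NormedSpace ℝ E] {f : ℝ → E}
    (hf : BC R f) (hR : 0 < R) : IntervalIntegrable f volume 0 R := by
  obtain ⟨hc, C, hC⟩ := hf
  rw [intervalIntegrable_iff_integrableOn_Ioc_of_le hR.le]
  refine Integrable.of_bound (hc.aestronglyMeasurable measurableSet_Ioc) C ?_
  filter_upwards [ae_restrict_mem measurableSet_Ioc] with r hr
  exact hC r hr

/-- product with something tending to zero at `0` -/
theorem tendsto_zero_mulR {f g : ℝ → ℝ} (hR : 0 < R) (hf : BC R f)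
    (hg : Tendsto g (𝓝[>] 0) (𝓝 0)) : Tendsto (fun r => g r * f r) (𝓝[>] 0) (𝓝 0) := by
  obtain ⟨_, C, hC⟩ := hf
  refine squeeze_zero_norm' (a := fun r => |g r| * C) ?_ ?_
  · have : Ioc 0 R ∈ 𝓝[>] (0 : ℝ) := Ioc_mem_nhdsGT hR
    filter_upwards [this] with r hr
    rw [norm_mul]
    exact mul_le_mul_of_nonneg_left (hC r hr) (abs_nonneg _)
  · simpa using (hg.abs).mul_const C

end BC

/-- FTC on `(0,R]` with vanishing limit at `0` -/
theorem ftc0 {E : Type*} [NormedAddCommGroup E] [NormedSpace ℝ E] [CompleteSpace E]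
    {f f' : ℝ → E} {R : ℝ} (hR : 0 < R)
    (hd : ∀ r ∈ Ioc 0 R, HasDerivAt f (f' r) r) (hf' : BC R f')
    (h0 : Tendsto f (𝓝[>] 0) (𝓝 0)) :
    ∫ r in (0)..R, f' r = f R := by
  have h := intervalIntegral.integral_eq_sub_of_hasDerivAt_of_tendsto hR
    (fun x hx => hd x ⟨hx.1, hx.2.le⟩) (hf'.intble hR) h0
    ((hd R ⟨hR, le_rfl⟩).continuousAt.tendsto.mono_left nhdsWithin_le_nhds)
  rw [h, sub_zero]

/-- The eigen-system on `(0,R]`, regular at `0` (sources `sS`, `sD` allowed). -/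
structure SysOn (w b P rho b' P' : ℝ → ℝ) (kap n eps : ℝ) (lam : ℂ) (S S1 D D1 sS sD : ℝ → ℂ)
    (R : ℝ) : Prop where
  Rpos : 0 < R
  sys : ∀ r ∈ Ioc 0 R, Sys w b P rho kap n eps lam S S1 D D1 (sS r) (sD r) r
  hb : ∀ r ∈ Ioc 0 R, HasDerivAt b (b' r) r
  hP : ∀ r ∈ Ioc 0 R, HasDerivAt P (P' r) r
  cb' : ContinuousOn b' (Ioc 0 R)
  cP' : ContinuousOn P' (Ioc 0 R)
  crho : ContinuousOn rho (Ioc 0 R)
  csS : ContinuousOn sS (Ioc 0 R)
  csD : ContinuousOn sD (Ioc 0 R)
  cS1 : ContinuousOn S1 (Ioc 0 R)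
  cD1 : ContinuousOn D1 (Ioc 0 R)
  bdd : ∃ C, ∀ r ∈ Ioc 0 R, ‖S r‖ ≤ C ∧ ‖D r‖ ≤ C ∧ ‖S1 r‖ ≤ C ∧ ‖D1 r‖ ≤ C ∧
    |w r| ≤ C * r ^ 11 ∧ |b r| ≤ C ∧ |P r| ≤ C ∧
    |b' r| ≤ C ∧ |P' r| ≤ C ∧ |rho r| ≤ C ∧ ‖sS r‖ ≤ C ∧ ‖sD r‖ ≤ C

namespace SysOn

variable {w b P rho b' P' : ℝ → ℝ} {kap n eps : ℝ} {lam : ℂ} {S S1 D D1 sS sD : ℝ → ℂ} {R : ℝ}

theorem bcS (h : SysOn w b P rho b' P' kap n eps lam S S1 D D1 sS sD R) : BC R S := by
  obtain ⟨C, hC⟩ := h.bdd
  exact ⟨fun r hr => (h.sys r hr).hS.continuousAt.continuousWithinAt, C, fun r hr => (hC r hr).1⟩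
theorem bcD (h : SysOn w b P rho b' P' kap n eps lam S S1 D D1 sS sD R) : BC R D := by
  obtain ⟨C, hC⟩ := h.bdd
  exact ⟨fun r hr => (h.sys r hr).hD.continuousAt.continuousWithinAt, C, fun r hr => (hC r hr).2.1⟩
theorem bcS1 (h : SysOn w b P rho b' P' kap n eps lam S S1 D D1 sS sD R) : BC R S1 := by
  obtain ⟨C, hC⟩ := h.bdd
  exact ⟨h.cS1, C, fun r hr => (hC r hr).2.2.1⟩
theorem bcD1 (h : SysOn w b P rho b' P' kap n eps lam S S1 D D1 sS sD R) : BC R D1 := by
  obtain ⟨C, hC⟩ := h.bdd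
  exact ⟨h.cD1, C, fun r hr => (hC r hr).2.2.2.1⟩
theorem cw (h : SysOn w b P rho b' P' kap n eps lam S S1 D D1 sS sD R) :
    ContinuousOn w (Ioc 0 R) := fun r hr => (h.sys r hr).hw.continuousAt.continuousWithinAt

/-- `w / r ^ j` is bounded for `j ≤ 11` -/
theorem bcwj (h : SysOn w b P rho b' P' kap n eps lam S S1 D D1 sS sD R) (j : ℕ) (hj : j ≤ 11) :
    BC R (fun r => w r / r ^ j) := by
  obtain ⟨C, hC⟩ := h.bdd
  refine ⟨h.cw.div (by fun_prop) (fun r hr => pow_ne_zero _ hr.1.ne'), |C| * R ^ (11 - j),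
    fun r hr => ?_⟩
  have h1 := (hC r hr).2.2.2.2.1
  have hr0 := hr.1
  rw [norm_div, Real.norm_eq_abs, norm_pow, Real.norm_of_nonneg hr0.le, div_le_iff₀ (by positivity)]
  calc |w r| ≤ C * r ^ 11 := h1
    _ ≤ |C| * r ^ 11 := mul_le_mul_of_nonneg_right (le_abs_self C) (by positivity)
    _ = |C| * r ^ (11 - j) * r ^ j := by rw [mul_assoc, ← pow_add, Nat.sub_add_cancel hj]
    _ ≤ |C| * R ^ (11 - j) * r ^ j := by
      refine mul_le_mul_of_nonneg_right (mul_le_mul_of_nonneg_left ?_ (abs_nonneg _))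
        (by positivity)
      exact pow_le_pow_left₀ hr0.le hr.2 _

theorem bcw (h : SysOn w b P rho b' P' kap n eps lam S S1 D D1 sS sD R) : BC R w := by
  simpa using h.bcwj 0 (by norm_num)
theorem bcb (h : SysOn w b P rho b' P' kap n eps lam S S1 D D1 sS sD R) : BC R b := by
  obtain ⟨C, hC⟩ := h.bdd
  exact ⟨fun r hr => (h.hb r hr).continuousAt.continuousWithinAt, C,
    fun r hr => (hC r hr).2.2.2.2.2.1⟩
theorem bcP (h : SysOn w b P rho b' P' kap n eps lam S S1 D D1 sS sD R) : BC R P := by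
  obtain ⟨C, hC⟩ := h.bdd
  exact ⟨fun r hr => (h.hP r hr).continuousAt.continuousWithinAt, C,
    fun r hr => (hC r hr).2.2.2.2.2.2.1⟩
theorem bcP' (h : SysOn w b P rho b' P' kap n eps lam S S1 D D1 sS sD R) : BC R P' := by
  obtain ⟨C, hC⟩ := h.bdd
  exact ⟨h.cP', C, fun r hr => (hC r hr).2.2.2.2.2.2.2.2.1⟩
theorem bcsS (h : SysOn w b P rho b' P' kap n eps lam S S1 D D1 sS sD R) : BC R sS := by
  obtain ⟨C, hC⟩ := h.bdd
  exact ⟨h.csS, C, fun r hr => (hC r hr).2.2.2.2.2.2.2.2.2.2.1⟩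
theorem bcsD (h : SysOn w b P rho b' P' kap n eps lam S S1 D D1 sS sD R) : BC R sD := by
  obtain ⟨C, hC⟩ := h.bdd
  exact ⟨h.csD, C, fun r hr => (hC r hr).2.2.2.2.2.2.2.2.2.2.2⟩

/-- `w → 0` at `0` -/
theorem w0 (h : SysOn w b P rho b' P' kap n eps lam S S1 D D1 sS sD R) :
    Tendsto w (𝓝[>] 0) (𝓝 0) := by
  obtain ⟨C, hC⟩ := h.bdd
  refine squeeze_zero_norm' (a := fun r => C * r ^ 11) ?_ ?_
  · filter_upwards [Ioc_mem_nhdsGT h.Rpos] with r hr
    exact (hC r hr).2.2.2.2.1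
  · have : Tendsto (fun r : ℝ => C * r ^ 11) (𝓝 0) (𝓝 (C * 0 ^ 11)) := by
      exact (continuous_const.mul (continuous_pow 11)).tendsto 0
    simpa using this.mono_left nhdsWithin_le_nhds

theorem w0C (h : SysOn w b P rho b' P' kap n eps lam S S1 D D1 sS sD R) {f : ℝ → ℂ}
    (hf : BC R f) : Tendsto (fun r => (w r : ℂ) * f r) (𝓝[>] 0) (𝓝 0) := by
  obtain ⟨_, C, hC⟩ := hf
  refine squeeze_zero_norm' (a := fun r => |w r| * C) ?_ ?_
  · filter_upwards [Ioc_mem_nhdsGT h.Rpos] with r hr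
    rw [norm_mul, Complex.norm_real, Real.norm_eq_abs]
    exact mul_le_mul_of_nonneg_left (hC r hr) (abs_nonneg _)
  · simpa using (h.w0.abs).mul_const C

end SysOn

/-- `K_S` (and `K_D` with `D`, `D1`) -/
noncomputable def KK (w : ℝ → ℝ) (kap : ℝ) (S S1 : ℝ → ℂ) (R : ℝ) : ℝ :=
  ∫ r in (0)..R, w r * (‖S1 r‖ ^ 2 + kap / r ^ 2 * ‖S r‖ ^ 2)
/-- `Pot` -/
noncomputable def Pot (w P : ℝ → ℝ) (n : ℝ) (S : ℝ → ℂ) (R : ℝ) : ℝ :=
  ∫ r in (0)..R, n * P r * w r * ‖S r‖ ^ 2
/-- `∫ w conj(S) D` -/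
noncomputable def Nc (w : ℝ → ℝ) (S D : ℝ → ℂ) (R : ℝ) : ℂ :=
  ∫ r in (0)..R, (w r : ℂ) * (conj (S r) * D r)
/-- `A1 = ∫ w b conj(S) D'`, `A2 = AA w b D S1` -/
noncomputable def AA (w b : ℝ → ℝ) (S D1 : ℝ → ℂ) (R : ℝ) : ℂ :=
  ∫ r in (0)..R, (w r : ℂ) * (b r * (conj (S r) * D1 r))

namespace SysOn

variable {w b P rho b' P' : ℝ → ℝ} {kap n eps : ℝ} {lam : ℂ} {S S1 D D1 sS sD : ℝ → ℂ} {R : ℝ}

theorem bcK {w : ℝ → ℝ} {S S1 : ℝ → ℂ} (hw : BC R w) (hw2 : BC R (fun r => w r / r ^ 2))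
    (hS : BC R S) (hS1 : BC R S1) (kap : ℝ) :
    BC R (fun r => w r * (‖S1 r‖ ^ 2 + kap / r ^ 2 * ‖S r‖ ^ 2)) := by
  have h1 := (hw.mulR hS1.normSq).add (((BC.const kap).mulR hw2).mulR hS.normSq)
  have e : (fun r => w r * (‖S1 r‖ ^ 2 + kap / r ^ 2 * ‖S r‖ ^ 2)) =
      fun r => w r * ‖S1 r‖ ^ 2 + kap * (w r / r ^ 2) * ‖S r‖ ^ 2 := by
    funext r
    ring
  rw [e]
  exact h1

theorem cns (z : ℂ) : z * conj z = ((‖z‖ ^ 2 : ℝ) : ℂ) := by
  rw [Complex.mul_conj, Complex.normSq_eq_norm_sq]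

/-- **(E1)** complex form -/
theorem E1 (h : SysOn w b P rho b' P' kap n eps lam S S1 D D1 sS sD R) :
    (w R : ℂ) * (conj (S R) * S1 R) =
      ((KK w kap S S1 R + Pot w P n S R : ℝ) : ℂ)
        - I * (AA w b S D1 R + lam * Nc w S D R + Nc w S sD R) := by
  have hR := h.Rpos
  have bK := bcK h.bcw (h.bcwj 2 (by norm_num)) h.bcS h.bcS1 kap
  have bP : BC R (fun r => n * P r * w r * ‖S r‖ ^ 2) :=
    (((BC.const n).mulR h.bcP).mulR h.bcw).mulR h.bcS.normSq
  have bA : BC R (fun r => (w r : ℂ) * (b r * (conj (S r) * D1 r))) :=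
    h.bcw.ofReal.mulC (h.bcb.ofReal.mulC (h.bcS.cj.mulC h.bcD1))
  have bN : BC R (fun r => (w r : ℂ) * (conj (S r) * D r)) :=
    h.bcw.ofReal.mulC (h.bcS.cj.mulC h.bcD)
  have bs : BC R (fun r => (w r : ℂ) * (conj (S r) * sD r)) :=
    h.bcw.ofReal.mulC (h.bcS.cj.mulC h.bcsD)
  have bKc := bK.ofReal
  have bPc := bP.ofReal
  have key := ftc0 (f := fun r => (w r : ℂ) * (conj (S r) * S1 r))
    (f' := fun r => ((((w r * (‖S1 r‖ ^ 2 + kap / r ^ 2 * ‖S r‖ ^ 2) : ℝ) : ℂ)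
      + ((n * P r * w r * ‖S r‖ ^ 2 : ℝ) : ℂ))
      - I * (((w r : ℂ) * (b r * (conj (S r) * D1 r)) + lam * ((w r : ℂ) * (conj (S r) * D r)))
        + (w r : ℂ) * (conj (S r) * sD r)))) hR
    (fun r hr => by
      have h1 := (h.sys r hr).hS1.mul (hasDerivAt_conj (h.sys r hr).hS)
      have e : (fun r => (w r : ℂ) * (conj (S r) * S1 r)) =
          (fun r => ((w r : ℂ) * S1 r)) * (fun r => conj (S r)) := by
        funext x
        simp only [Pi.mul_apply]
        ring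
      rw [e]
      refine h1.congr_deriv ?_
      push_cast
      simp only [← Complex.ofReal_pow]
      rw [← cns, ← cns]
      push_cast
      ring)
    ((bKc.add bPc).sub ((BC.const I).mulC ((bA.add ((BC.const lam).mulC bN)).add bs)))
    (h.w0C (h.bcS.cj.mulC h.bcS1))
  rw [← key]
  rw [intervalIntegral.integral_sub ((bKc.add bPc).intble hR)
      (((BC.const I).mulC ((bA.add ((BC.const lam).mulC bN)).add bs)).intble hR),
    intervalIntegral.integral_add (bKc.intble hR) (bPc.intble hR),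
    intervalIntegral.integral_const_mul,
    intervalIntegral.integral_add ((bA.add ((BC.const lam).mulC bN)).intble hR) (bs.intble hR),
    intervalIntegral.integral_add (bA.intble hR) (((BC.const lam).mulC bN).intble hR),
    intervalIntegral.integral_const_mul, intervalIntegral.integral_ofReal,
    intervalIntegral.integral_ofReal]
  unfold KK Pot AA Nc
  push_cast
  ring

/-- **(E2)** complex form -/
theorem E2 (h : SysOn w b P rho b' P' kap n eps lam S S1 D D1 sS sD R) :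
    (w R : ℂ) * (conj (D R) * D1 R) =
      ((KK w kap D D1 R : ℝ) : ℂ)
        - I * (AA w b D S1 R + lam * Nc w D S R + Nc w D sS R) := by
  have hR := h.Rpos
  have bK := bcK h.bcw (h.bcwj 2 (by norm_num)) h.bcD h.bcD1 kap
  have bA : BC R (fun r => (w r : ℂ) * (b r * (conj (D r) * S1 r))) :=
    h.bcw.ofReal.mulC (h.bcb.ofReal.mulC (h.bcD.cj.mulC h.bcS1))
  have bN : BC R (fun r => (w r : ℂ) * (conj (D r) * S r)) :=
    h.bcw.ofReal.mulC (h.bcD.cj.mulC h.bcS)
  have bs : BC R (fun r => (w r : ℂ) * (conj (D r) * sS r)) :=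
    h.bcw.ofReal.mulC (h.bcD.cj.mulC h.bcsS)
  have bKc := bK.ofReal
  have key := ftc0 (f := fun r => (w r : ℂ) * (conj (D r) * D1 r))
    (f' := fun r => (((w r * (‖D1 r‖ ^ 2 + kap / r ^ 2 * ‖D r‖ ^ 2) : ℝ) : ℂ))
      - I * (((w r : ℂ) * (b r * (conj (D r) * S1 r)) + lam * ((w r : ℂ) * (conj (D r) * S r)))
        + (w r : ℂ) * (conj (D r) * sS r))) hR
    (fun r hr => by
      have h1 := (h.sys r hr).hD1.mul (hasDerivAt_conj (h.sys r hr).hD)
      have e : (fun r => (w r : ℂ) * (conj (D r) * D1 r)) =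
          (fun r => ((w r : ℂ) * D1 r)) * (fun r => conj (D r)) := by
        funext x
        simp only [Pi.mul_apply]
        ring
      rw [e]
      refine h1.congr_deriv ?_
      push_cast
      simp only [← Complex.ofReal_pow]
      rw [← cns, ← cns]
      push_cast
      ring)
    (bKc.sub ((BC.const I).mulC ((bA.add ((BC.const lam).mulC bN)).add bs)))
    (h.w0C (h.bcD.cj.mulC h.bcD1))
  rw [← key]
  rw [intervalIntegral.integral_sub (bKc.intble hR)
      (((BC.const I).mulC ((bA.add ((BC.const lam).mulC bN)).add bs)).intble hR),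
    intervalIntegral.integral_const_mul,
    intervalIntegral.integral_add ((bA.add ((BC.const lam).mulC bN)).intble hR) (bs.intble hR),
    intervalIntegral.integral_add (bA.intble hR) (((BC.const lam).mulC bN).intble hR),
    intervalIntegral.integral_const_mul, intervalIntegral.integral_ofReal]
  unfold KK AA Nc
  ring

theorem conj_intervalIntegral (f : ℝ → ℂ) (a c : ℝ) :
    conj (∫ r in a..c, f r) = ∫ r in a..c, conj (f r) := by
  simp only [intervalIntegral, map_sub, ← integral_conj]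

theorem conj_Nc (w : ℝ → ℝ) (S D : ℝ → ℂ) (R : ℝ) : conj (Nc w S D R) = Nc w D S R := by
  unfold Nc
  rw [conj_intervalIntegral]
  congr 1
  funext r
  simp only [map_mul, Complex.conj_ofReal, Complex.conj_conj]
  ring

/-- **(T)** transport: `A1 + conj A2 = [w b conj(S) D] - (6 - 2 eps) Nc` -/
theorem T (h : SysOn w b P rho b' P' kap n eps lam S S1 D D1 sS sD R) :
    AA w b S D1 R + conj (AA w b D S1 R) =
      (w R : ℂ) * (b R * (conj (S R) * D R)) - (6 - 2 * eps) * Nc w S D R := by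
  have hR := h.Rpos
  have bA : BC R (fun r => (w r : ℂ) * (b r * (conj (S r) * D1 r))) :=
    h.bcw.ofReal.mulC (h.bcb.ofReal.mulC (h.bcS.cj.mulC h.bcD1))
  have bA2 : BC R (fun r => (w r : ℂ) * (b r * (D r * conj (S1 r)))) :=
    h.bcw.ofReal.mulC (h.bcb.ofReal.mulC (h.bcD.mulC h.bcS1.cj))
  have bN : BC R (fun r => (w r : ℂ) * (conj (S r) * D r)) :=
    h.bcw.ofReal.mulC (h.bcS.cj.mulC h.bcD)
  have key := ftc0 (f := fun r => (w r : ℂ) * (b r * (conj (S r) * D r)))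
    (f' := fun r => ((6 - 2 * eps : ℝ) : ℂ) * ((w r : ℂ) * (conj (S r) * D r))
      + ((w r : ℂ) * (b r * (conj (S r) * D1 r)) + (w r : ℂ) * (b r * (D r * conj (S1 r))))) hR
    (fun r hr => by
      have h1 := (h.sys r hr).hwb.ofReal_comp.mul
        ((hasDerivAt_conj (h.sys r hr).hS).mul (h.sys r hr).hD)
      have e : (fun r => (w r : ℂ) * (b r * (conj (S r) * D r))) =
          (fun r => ((w r * b r : ℝ) : ℂ)) * ((fun r => conj (S r)) * D) := by
        funext x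
        simp only [Pi.mul_apply]
        push_cast
        ring
      rw [e]
      refine h1.congr_deriv ?_
      simp only [Pi.mul_apply]
      push_cast
      ring)
    (((BC.const ((6 - 2 * eps : ℝ) : ℂ)).mulC bN).add (bA.add bA2))
    (h.w0C (h.bcb.ofReal.mulC (h.bcS.cj.mulC h.bcD)))
  have e2 : conj (AA w b D S1 R) = ∫ r in (0)..R, (w r : ℂ) * (b r * (D r * conj (S1 r))) := by
    unfold AA
    rw [conj_intervalIntegral]
    congr 1
    funext r
    simp only [map_mul, Complex.conj_ofReal, Complex.conj_conj]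
  rw [← key, e2,
    intervalIntegral.integral_add (((BC.const ((6 - 2 * eps : ℝ) : ℂ)).mulC bN).intble hR)
      ((bA.add bA2).intble hR),
    intervalIntegral.integral_const_mul,
    intervalIntegral.integral_add (bA.intble hR) (bA2.intble hR)]
  unfold AA Nc
  push_cast
  ring

/-- (E1), real part -/
theorem E1re (h : SysOn w b P rho b' P' kap n eps lam S S1 D D1 sS sD R) :
    KK w kap S S1 R + Pot w P n S R = w R * (conj (S R) * S1 R).re
      - (AA w b S D1 R).im - (lam * Nc w S D R).im - (Nc w S sD R).im := by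
  have h1 := congrArg Complex.re h.E1
  rw [Complex.re_ofReal_mul, Complex.sub_re, Complex.ofReal_re, Complex.I_mul_re,
    Complex.add_im, Complex.add_im] at h1
  linarith

/-- (E2), real part -/
theorem E2re (h : SysOn w b P rho b' P' kap n eps lam S S1 D D1 sS sD R) :
    KK w kap D D1 R = w R * (conj (D R) * D1 R).re
      - (AA w b D S1 R).im - (lam * Nc w D S R).im - (Nc w D sS R).im := by
  have h1 := congrArg Complex.re h.E2
  rw [Complex.re_ofReal_mul, Complex.sub_re, Complex.ofReal_re, Complex.I_mul_re,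
    Complex.add_im, Complex.add_im] at h1
  linarith

/-- **(charge)** `Im[w(conj S S' + conj D D')] + Re[w b conj S D] = 2 (3 - eps - Re lam) Re Nc - Re(sources)` -/
theorem charge (h : SysOn w b P rho b' P' kap n eps lam S S1 D D1 sS sD R) :
    w R * (conj (S R) * S1 R + conj (D R) * D1 R).im + w R * b R * (conj (S R) * D R).re
      = 2 * (3 - eps - lam.re) * (Nc w S D R).re - (Nc w S sD R).re - (Nc w D sS R).re := by
  have h1 := congrArg Complex.im h.E1
  have h2 := congrArg Complex.im h.E2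
  have h3 := congrArg Complex.re h.T
  rw [← conj_Nc w S D R] at h2
  simp only [Complex.im_ofReal_mul, Complex.re_ofReal_mul, Complex.sub_im, Complex.ofReal_im,
    Complex.I_mul_im, Complex.add_re, Complex.mul_re, Complex.conj_re, Complex.conj_im,
    Complex.sub_re, Complex.mul_im, Complex.ofReal_re, Complex.add_im] at h1 h2 h3 ⊢
  norm_num at h1 h2 h3 ⊢
  linarith


end SysOn

end Crest.Agent.R086.CCore
end

-- ▼ part R086/CCore5
section

/-!
Row 86 (S0114), Part C, C-core: the integrated virial identity (*) of note 12450.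
-/

set_option autoImplicit false

open Complex ComplexConjugate MeasureTheory Set Filter Topology

namespace Crest.Agent.R086.CCore

namespace SysOn

variable {w b P rho b' P' : ℝ → ℝ} {kap n eps : ℝ} {lam : ℂ} {S S1 D D1 sS sD : ℝ → ℂ} {R : ℝ}

/-- boundary functional of the virial identity -/
noncomputable def Vir (w P m : ℝ → ℝ) (kap n nu : ℝ) (S S1 D D1 : ℝ → ℂ) (r : ℝ) : ℝ :=
  m r * w r * (‖S1 r‖ ^ 2 + ‖D1 r‖ ^ 2)
        - kap * (m r * w r / r ^ 2) * (‖S r‖ ^ 2 + ‖D r‖ ^ 2)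
        - n * (m r * w r * P r) * ‖S r‖ ^ 2
        - 2 * nu * (m r * w r) * (D r * conj (S r)).re

/-- `X = ∫ m w (D conj S' + S conj D')` -/
noncomputable def XX (w m : ℝ → ℝ) (S S1 D D1 : ℝ → ℂ) (R : ℝ) : ℂ :=
  ∫ r in (0)..R, ((m r * w r : ℝ) : ℂ) * (D r * conj (S1 r) + S r * conj (D1 r))

/-- **(*)**, the virial identity with the multiplier `m`, `(m w)' = 12 w`, plus `6 (E1 + E2)`. -/
theorem star (h : SysOn w b P rho b' P' kap n eps lam S S1 D D1 sS sD R)
    {m m' : ℝ → ℝ} (hm : ∀ r ∈ Ioc 0 R, HasDerivAt m (m' r) r)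
    (hm' : ContinuousOn m' (Ioc 0 R)) (hmb : ∃ C, ∀ r ∈ Ioc 0 R, |m r| ≤ C * r ∧ |m' r| ≤ C)
    (h12 : ∀ r ∈ Ioc 0 R, m' r + m r * (11 / r + 2 * rho r) = 12) :
    (∫ r in (0)..R, w r * m' r * (‖S1 r‖ ^ 2 + ‖D1 r‖ ^ 2))
      + (∫ r in (0)..R, kap * (w r * m r / r ^ 3) * (‖S r‖ ^ 2 + ‖D r‖ ^ 2))
      + (∫ r in (0)..R, n * (-P' r) * (m r * w r) * ‖S r‖ ^ 2) / 2
    = 6 * w R * (conj (S R) * S1 R + conj (D R) * D1 R).re
      + Vir w P m kap n lam.im S S1 D D1 R / 2
      - 6 * (AA w b S D1 R + AA w b D S1 R).im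
      - lam.re * (XX w m S S1 D D1 R).im
      - 6 * ((Nc w S sD R).im + (Nc w D sS R).im)
      - (∫ r in (0)..R, (((m r * w r : ℝ) : ℂ) * (sD r * conj (S1 r) + sS r * conj (D1 r)))).im := by
  have hR := h.Rpos
  have bm' : BC R m' := by
    obtain ⟨C, hC⟩ := hmb
    exact ⟨hm', C, fun r hr => (hC r hr).2⟩
  have cm : ContinuousOn m (Ioc 0 R) := fun r hr => (hm r hr).continuousAt.continuousWithinAt
  have bm : BC R m := by
    obtain ⟨C, hC⟩ := hmb
    refine ⟨cm, |C| * R, fun r hr => ?_⟩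
    calc ‖m r‖ ≤ C * r := (hC r hr).1
      _ ≤ |C| * r := mul_le_mul_of_nonneg_right (le_abs_self C) hr.1.le
      _ ≤ |C| * R := mul_le_mul_of_nonneg_left hr.2 (abs_nonneg C)
  have bmr : BC R (fun r => w r * m r / r ^ 3) := by
    have := (h.bcwj 3 (by norm_num)).mulR bm
    have e : (fun r => w r * m r / r ^ 3) = fun r => w r / r ^ 3 * m r := by
      funext r; ring
    rw [e]; exact this
  -- the integrands
  have b1 : BC R (fun r => w r * m' r * (‖S1 r‖ ^ 2 + ‖D1 r‖ ^ 2)) :=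
    (h.bcw.mulR bm').mulR (h.bcS1.normSq.add h.bcD1.normSq)
  have b1' : BC R (fun r => w r * (‖S1 r‖ ^ 2 + kap / r ^ 2 * ‖S r‖ ^ 2)) :=
    bcK h.bcw (h.bcwj 2 (by norm_num)) h.bcS h.bcS1 kap
  have b1'' : BC R (fun r => w r * (‖D1 r‖ ^ 2 + kap / r ^ 2 * ‖D r‖ ^ 2)) :=
    bcK h.bcw (h.bcwj 2 (by norm_num)) h.bcD h.bcD1 kap
  have b2 : BC R (fun r => kap * (w r * m r / r ^ 3) * (‖S r‖ ^ 2 + ‖D r‖ ^ 2)) :=
    ((BC.const kap).mulR bmr).mulR (h.bcS.normSq.add h.bcD.normSq)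
  have b3 : BC R (fun r => n * (-P' r) * (m r * w r) * ‖S r‖ ^ 2) := by
    have hn : BC R (fun r => -P' r) := by
      have := (BC.const (0 : ℝ) (R := R)).sub h.bcP'
      simpa using this
    exact (((BC.const n).mulR hn).mulR (bm.mulR h.bcw)).mulR h.bcS.normSq
  have bP : BC R (fun r => n * P r * w r * ‖S r‖ ^ 2) :=
    (((BC.const n).mulR h.bcP).mulR h.bcw).mulR h.bcS.normSq
  have b4 : BC R (fun r => ((w r : ℂ) * (conj (S r) * D r)).re) :=
    (h.bcw.ofReal.mulC (h.bcS.cj.mulC h.bcD)).re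
  have b5c : BC R (fun r => ((m r * w r : ℝ) : ℂ) * (D r * conj (S1 r) + S r * conj (D1 r))) :=
    (bm.mulR h.bcw).ofReal.mulC ((h.bcD.mulC h.bcS1.cj).add (h.bcS.mulC h.bcD1.cj))
  have b6c : BC R (fun r => ((m r * w r : ℝ) : ℂ) * (sD r * conj (S1 r) + sS r * conj (D1 r))) :=
    (bm.mulR h.bcw).ofReal.mulC ((h.bcsD.mulC h.bcS1.cj).add (h.bcsS.mulC h.bcD1.cj))
  -- the derivative of `Vir`
  let f' : ℝ → ℝ := fun r =>
    2 * (w r * m' r * (‖S1 r‖ ^ 2 + ‖D1 r‖ ^ 2))
    + 2 * (kap * (w r * m r / r ^ 3) * (‖S r‖ ^ 2 + ‖D r‖ ^ 2))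
    - 12 * (w r * (‖S1 r‖ ^ 2 + kap / r ^ 2 * ‖S r‖ ^ 2))
    - 12 * (w r * (‖D1 r‖ ^ 2 + kap / r ^ 2 * ‖D r‖ ^ 2))
    - 12 * (n * P r * w r * ‖S r‖ ^ 2)
    + n * (-P' r) * (m r * w r) * ‖S r‖ ^ 2
    - 24 * lam.im * ((w r : ℂ) * (conj (S r) * D r)).re
    + 2 * lam.re * (((m r * w r : ℝ) : ℂ) * (D r * conj (S1 r) + S r * conj (D1 r))).im
    + 2 * (((m r * w r : ℝ) : ℂ) * (sD r * conj (S1 r) + sS r * conj (D1 r))).im
  have c2 := fun (c : ℝ) => (BC.const c (R := R))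
  have d1 := (c2 2).mulR b1
  have d2 := (c2 2).mulR b2
  have d3 := (c2 12).mulR b1'
  have d4 := (c2 12).mulR b1''
  have d5 := (c2 12).mulR bP
  have d7 := (c2 (24 * lam.im)).mulR b4
  have d8 := (c2 (2 * lam.re)).mulR b5c.im
  have d9 := (c2 2).mulR b6c.im
  have bf' : BC R f' := ((((((((d1.add d2).sub d3).sub d4).sub d5).add b3).sub d7).add d8).add d9)
  have hd : ∀ r ∈ Ioc 0 R, HasDerivAt (Vir w P m kap n lam.im S S1 D D1) (f' r) r := by
    intro r hr
    refine ((h.sys r hr).virial (hm r hr) (h.hP r hr)).congr_deriv ?_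
    have hr0 : r ≠ 0 := hr.1.ne'
    have e12 := h12 r hr
    have e1 : m r * (11 / r + 2 * rho r) = 12 - m' r := by linarith
    have e2 : m r * (11 / r + 2 * rho r) / r ^ 2 = (12 - m' r) / r ^ 2 := by rw [e1]
    have e3 : m r * (11 / r + 2 * rho r) * P r = (12 - m' r) * P r := by rw [e1]
    rw [e2, e3, e1]
    simp only [f', Complex.im_ofReal_mul, Complex.re_ofReal_mul]
    have e4 : (conj (S r) * D r).re = (D r * conj (S r)).re := by rw [mul_comm]
    rw [e4]
    field_simp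
    ring
  have h0 : Tendsto (Vir w P m kap n lam.im S S1 D D1) (𝓝[>] 0) (𝓝 0) := by
    have w0 := h.w0
    have hw1 : Tendsto (fun r => m r * w r / r ^ 2) (𝓝[>] 0) (𝓝 0) := by
      have hr0 : Tendsto (fun r : ℝ => r) (𝓝[>] 0) (𝓝 0) := nhdsWithin_le_nhds
      have h3 := BC.tendsto_zero_mulR hR bmr hr0
      refine h3.congr' ?_
      filter_upwards [self_mem_nhdsWithin] with r hr
      have hr0 : r ≠ 0 := (mem_Ioi.1 hr).ne'
      field_simp
    have t1 := BC.tendsto_zero_mulR hR (bm.mulR (h.bcS1.normSq.add h.bcD1.normSq)) w0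
    have t2 := BC.tendsto_zero_mulR hR ((BC.const kap).mulR (h.bcS.normSq.add h.bcD.normSq)) hw1
    have t3 := BC.tendsto_zero_mulR hR (((BC.const n).mulR (bm.mulR h.bcP)).mulR h.bcS.normSq) w0
    have t4 := BC.tendsto_zero_mulR hR (((BC.const (2 * lam.im)).mulR bm).mulR
      (h.bcD.mulC h.bcS.cj).re) w0
    have t := ((t1.sub t2).sub t3).sub t4
    simp only [sub_zero] at t
    refine t.congr fun r => ?_
    unfold Vir
    ring
  have key := ftc0 hR hd bf' h0
  have hI : ∫ r in (0)..R, f' r =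
      2 * (∫ r in (0)..R, w r * m' r * (‖S1 r‖ ^ 2 + ‖D1 r‖ ^ 2))
      + 2 * (∫ r in (0)..R, kap * (w r * m r / r ^ 3) * (‖S r‖ ^ 2 + ‖D r‖ ^ 2))
      - 12 * KK w kap S S1 R - 12 * KK w kap D D1 R - 12 * Pot w P n S R
      + (∫ r in (0)..R, n * (-P' r) * (m r * w r) * ‖S r‖ ^ 2)
      - 24 * lam.im * (Nc w S D R).re
      + 2 * lam.re * (XX w m S S1 D D1 R).im
      + 2 * (∫ r in (0)..R, (((m r * w r : ℝ) : ℂ)
          * (sD r * conj (S1 r) + sS r * conj (D1 r)))).im := by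
    have hre : ∀ {f : ℝ → ℂ}, BC R f → ∫ r in (0)..R, (f r).re = (∫ r in (0)..R, f r).re :=
      fun hf => Complex.reCLM.intervalIntegral_comp_comm (hf.intble hR)
    have him : ∀ {f : ℝ → ℂ}, BC R f → ∫ r in (0)..R, (f r).im = (∫ r in (0)..R, f r).im :=
      fun hf => Complex.imCLM.intervalIntegral_comp_comm (hf.intble hR)
    simp only [f']
    rw [intervalIntegral.integral_add
        ((((((((d1.add d2).sub d3).sub d4).sub d5).add b3).sub d7).add d8).intble hR)
        (d9.intble hR),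
      intervalIntegral.integral_add
        (((((((d1.add d2).sub d3).sub d4).sub d5).add b3).sub d7).intble hR) (d8.intble hR),
      intervalIntegral.integral_sub
        ((((((d1.add d2).sub d3).sub d4).sub d5).add b3).intble hR) (d7.intble hR),
      intervalIntegral.integral_add
        (((((d1.add d2).sub d3).sub d4).sub d5).intble hR) (b3.intble hR),
      intervalIntegral.integral_sub ((((d1.add d2).sub d3).sub d4).intble hR) (d5.intble hR),
      intervalIntegral.integral_sub (((d1.add d2).sub d3).intble hR) (d4.intble hR),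
      intervalIntegral.integral_sub ((d1.add d2).intble hR) (d3.intble hR),
      intervalIntegral.integral_add (d1.intble hR) (d2.intble hR)]
    simp only [intervalIntegral.integral_const_mul]
    rw [hre (h.bcw.ofReal.mulC (h.bcS.cj.mulC h.bcD)), him b5c, him b6c]
    rfl
  rw [hI] at key
  have e1 := h.E1re
  have e2 := h.E2re
  have e3 : (lam * Nc w S D R).im + (lam * Nc w D S R).im = 2 * lam.im * (Nc w S D R).re := by
    rw [← conj_Nc w S D R]
    simp only [Complex.mul_im, Complex.conj_re, Complex.conj_im]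
    ring
  rw [Complex.add_re, Complex.add_im]
  linarith

/-- `Im X = Im ([m w conj S D] - 12 Nc - 2 ∫ m w conj S D')` when `(m w)' = 12 w` -/
theorem im_X (h : SysOn w b P rho b' P' kap n eps lam S S1 D D1 sS sD R)
    {m m' : ℝ → ℝ} (hm : ∀ r ∈ Ioc 0 R, HasDerivAt m (m' r) r)
    (hmb : ∃ C, ∀ r ∈ Ioc 0 R, |m r| ≤ C * r)
    (h12 : ∀ r ∈ Ioc 0 R, m' r + m r * (11 / r + 2 * rho r) = 12) :
    (XX w m S S1 D D1 R).im = (((m R * w R : ℝ) : ℂ) * (conj (S R) * D R)
      - 12 * Nc w S D R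
      - 2 * ∫ r in (0)..R, ((m r * w r : ℝ) : ℂ) * (conj (S r) * D1 r)).im := by
  have hR := h.Rpos
  have cm : ContinuousOn m (Ioc 0 R) := fun r hr => (hm r hr).continuousAt.continuousWithinAt
  have bm : BC R m := by
    obtain ⟨C, hC⟩ := hmb
    refine ⟨cm, |C| * R, fun r hr => ?_⟩
    calc ‖m r‖ ≤ C * r := hC r hr
      _ ≤ |C| * r := mul_le_mul_of_nonneg_right (le_abs_self C) hr.1.le
      _ ≤ |C| * R := mul_le_mul_of_nonneg_left hr.2 (abs_nonneg C)
  have bN : BC R (fun r => (w r : ℂ) * (conj (S r) * D r)) :=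
    h.bcw.ofReal.mulC (h.bcS.cj.mulC h.bcD)
  have bY : BC R (fun r => ((m r * w r : ℝ) : ℂ) * (conj (S r) * D1 r)) :=
    (bm.mulR h.bcw).ofReal.mulC (h.bcS.cj.mulC h.bcD1)
  have bZ : BC R (fun r => ((m r * w r : ℝ) : ℂ) * (D r * conj (S1 r))) :=
    (bm.mulR h.bcw).ofReal.mulC (h.bcD.mulC h.bcS1.cj)
  have bY2 : BC R (fun r => ((m r * w r : ℝ) : ℂ) * (S r * conj (D1 r))) :=
    (bm.mulR h.bcw).ofReal.mulC (h.bcS.mulC h.bcD1.cj)
  have key := ftc0 (f := fun r => (w r : ℂ) * ((m r : ℂ) * (conj (S r) * D r)))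
    (f' := fun r => 12 * ((w r : ℂ) * (conj (S r) * D r))
      + (((m r * w r : ℝ) : ℂ) * (conj (S r) * D1 r)
        + ((m r * w r : ℝ) : ℂ) * (D r * conj (S1 r)))) hR
    (fun r hr => by
      have h1 := (h.sys r hr).hw.ofReal_comp.mul ((hm r hr).ofReal_comp.mul
        ((hasDerivAt_conj (h.sys r hr).hS).mul (h.sys r hr).hD))
      refine h1.congr_deriv ?_
      have e12 : ((m' r + m r * (11 / r + 2 * rho r) : ℝ) : ℂ) = 12 := by
        rw [h12 r hr]; norm_num
      simp only [Pi.mul_apply]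
      push_cast at e12 ⊢
      linear_combination (w r : ℂ) * (conj (S r) * D r) * e12)
    (((BC.const (12 : ℂ)).mulC bN).add (bY.add bZ))
    (h.w0C (bm.ofReal.mulC (h.bcS.cj.mulC h.bcD)))
  have hI := key
  rw [intervalIntegral.integral_add (((BC.const (12 : ℂ)).mulC bN).intble hR)
      ((bY.add bZ).intble hR), intervalIntegral.integral_const_mul,
    intervalIntegral.integral_add (bY.intble hR) (bZ.intble hR)] at hI
  have hX : XX w m S S1 D D1 R = (∫ r in (0)..R, ((m r * w r : ℝ) : ℂ) * (D r * conj (S1 r)))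
      + conj (∫ r in (0)..R, ((m r * w r : ℝ) : ℂ) * (conj (S r) * D1 r)) := by
    rw [conj_intervalIntegral, ← intervalIntegral.integral_add (bZ.intble hR)]
    · unfold XX
      congr 1
      funext r
      simp only [map_mul, Complex.conj_ofReal, Complex.conj_conj]
      ring
    · have := bY.cj.intble hR
      exact this
  have hN : (∫ r in (0)..R, (w r : ℂ) * (conj (S r) * D r)) = Nc w S D R := rfl
  rw [hN] at hI
  have h5 := congrArg Complex.im hI
  rw [hX]
  have e : (((m R * w R : ℝ) : ℂ) * (conj (S R) * D R)) =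
      (w R : ℂ) * ((m R : ℂ) * (conj (S R) * D R)) := by
    push_cast; ring
  rw [e]
  simp only [Complex.add_im, Complex.sub_im, Complex.conj_im, Complex.mul_im (12 : ℂ),
    Complex.mul_im (2 : ℂ)] at h5 ⊢
  norm_num at h5 ⊢
  linarith

end SysOn

end Crest.Agent.R086.CCore
end

-- ▼ part R086/CExId

/-!
Row 86 (S0114), Part C: the integrated identities of `CExDefs` (`CEx.IdStmt`), from `CCore4/5`
(helper310).
-/

set_option autoImplicit false

open Complex ComplexConjugate MeasureTheory Set Filter Topology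

namespace Crest.Agent.R086.CEx

open CCore

variable {w b P P1 rho m : ℝ → ℝ} {C0 e n rb Lam eps : ℝ} {lam : ℂ} {S S1 D D1 : ℝ → ℂ}

/-- derivative of `b` -/
theorem hb_of {r : ℝ} {kap : ℝ} {sS sD : ℂ}
    (h : Sys w b P rho kap n eps lam S S1 D D1 sS sD r) :
    HasDerivAt b ((6 - 2 * eps) - b r * (11 / r + 2 * rho r)) r := by
  have h2 := h.hwb.div h.hw h.wne
  have hev : b =ᶠ[nhds r] (fun r => w r * b r) / w := by
    have hne : ∀ᶠ x in nhds r, w x ≠ 0 := h.hw.continuousAt.eventually_ne h.wne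
    filter_upwards [hne] with x hx
    simp only [Pi.div_apply]
    rw [mul_comm, mul_div_assoc, div_self hx, mul_one]
  refine (h2.congr_of_eventuallyEq hev).congr_deriv ?_
  have := h.wne
  field_simp

theorem cont_of_mul {w : ℝ → ℝ} {f : ℝ → ℂ} {s : Set ℝ} (hw : ContinuousOn w s)
    (h0 : ∀ r ∈ s, w r ≠ 0) (h : ContinuousOn (fun r => (w r : ℂ) * f r) s) :
    ContinuousOn f s := by
  have h1 : ContinuousOn (fun r => (w r : ℂ) * f r / (w r : ℂ)) s :=
    h.div (Complex.continuous_ofReal.comp_continuousOn hw)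
      (fun r hr => by exact_mod_cast h0 r hr)
  refine h1.congr fun r hr => ?_
  have : (w r : ℂ) ≠ 0 := by exact_mod_cast h0 r hr
  field_simp

/-- `SysOn` from `Coef` and `Sol`. -/
theorem sysOn (hc : Coef w b P P1 rho m C0 e n rb) (hs : Sol w b P rho Lam n eps lam S S1 D D1 rb) :
    SysOn w b P rho (fun r => (6 - 2 * eps) - b r * (11 / r + 2 * rho r)) P1 Lam n eps lam
      S S1 D D1 (fun _ => 0) (fun _ => 0) rb where
  Rpos := lt_of_lt_of_le one_pos hc.rb_lo
  sys := hs.sys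
  hb := fun r hr => hb_of (hs.sys r hr)
  hP := hc.P_der
  cb' := by
    have h1 : ContinuousOn (fun r : ℝ => 11 / r) (Ioc 0 rb) :=
      continuousOn_const.div continuousOn_id (fun r hr => hr.1.ne')
    exact continuousOn_const.sub (hc.bcont.mul (h1.add (continuousOn_const.mul hc.rhocont)))
  cP' := hc.P1_cont
  crho := hc.rhocont
  csS := continuousOn_const
  csD := continuousOn_const
  cS1 := cont_of_mul hc.wcont (fun r hr => (hs.sys r hr).wne)
    (fun r hr => (hs.sys r hr).hS1.continuousAt.continuousWithinAt)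
  cD1 := cont_of_mul hc.wcont (fun r hr => (hs.sys r hr).wne)
    (fun r hr => (hs.sys r hr).hD1.continuousAt.continuousWithinAt)
  bdd := by
    obtain ⟨B, hB⟩ := hs.bdd
    obtain ⟨B1, hB1⟩ := hc.P1_bd
    have C0p : 0 ≤ C0 := le_trans zero_le_one hc.C0_one
    refine ⟨|B| + |B1| + C0 + C0 * C0 + (8 + C0 * (11 + 2 * C0 * C0)), fun r hr => ?_⟩
    obtain ⟨h1, h2, h3, h4, -⟩ := hB r hr
    have hr0 := hr.1
    have hrC : r ≤ C0 := hr.2.trans hc.rb_hi
    have pB := le_abs_self B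
    have pB1 := le_abs_self B1
    have nB := abs_nonneg B
    have nB1 := abs_nonneg B1
    have q1 : 0 ≤ C0 * C0 := mul_nonneg C0p C0p
    have q2 : 0 ≤ C0 * (11 + 2 * C0 * C0) := by positivity
    have bb : |b r| ≤ C0 * C0 := (hc.bhi r hr).trans (mul_le_mul_of_nonneg_left hrC C0p)
    refine ⟨by linarith, by linarith, by linarith, by linarith, ?_, by linarith, ?_, ?_, ?_, ?_,
      ?_, ?_⟩
    · have h5 := hc.whi r hr
      have h6 := hc.wlo r hr
      have h7 : 0 ≤ w r := le_trans (by positivity) h6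
      rw [abs_of_nonneg h7]
      refine h5.trans (mul_le_mul_of_nonneg_right (by linarith) (by positivity))
    · rw [abs_of_nonneg (hc.P_nonneg r hr)]
      have := hc.P_le r hr
      linarith
    · have e1 : b r * (11 / r + 2 * rho r) = 11 * (b r / r) + 2 * (b r * rho r) := by
        field_simp
      have e2 : |b r / r| ≤ C0 := by
        rw [abs_div, abs_of_pos hr0, div_le_iff₀ hr0]
        exact hc.bhi r hr
      have e3 : |b r * rho r| ≤ C0 * C0 * C0 := by
        rw [abs_mul]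
        exact mul_le_mul bb (hc.rhohi r hr) (abs_nonneg _) q1
      have e4 : |(6 - 2 * eps) - b r * (11 / r + 2 * rho r)| ≤ 6 + 11 * C0 + 2 * (C0 * C0 * C0) := by
        rw [e1]
        have e5 := abs_le.1 e2
        have e6 := abs_le.1 e3
        have e7 := hs.eps_nonneg
        have e8 := hs.eps_le
        rw [abs_le]
        constructor <;> linarith [e5.1, e5.2, e6.1, e6.2]
      have e9 : C0 * (11 + 2 * C0 * C0) = 11 * C0 + 2 * (C0 * C0 * C0) := by ring
      rw [e9] at q2 ⊢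
      linarith
    · have := hB1 r hr
      linarith
    · have := hc.rhohi r hr
      linarith
    · simp only [norm_zero]
      linarith
    · simp only [norm_zero]
      linarith

theorem Nc_zero_right (w : ℝ → ℝ) (S : ℝ → ℂ) (R : ℝ) :
    CCore.Nc w S (fun _ => 0) R = 0 := by
  unfold CCore.Nc
  simp

theorem AA_eq (w b : ℝ → ℝ) (f g : ℝ → ℂ) (R : ℝ) : AA w b f g R = CCore.AA w b f g R := by
  unfold AA CCore.AA
  congr 1
  funext r
  push_cast
  ring

/-- the frozen statement `IdStmt` -/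
theorem idStmt : IdStmt := by
  intro w b P P1 rho m C0 e n rb Lam eps lam S S1 D D1 hc hs
  have h := sysOn hc hs
  have hR := h.Rpos
  have C0p : 0 ≤ C0 := le_trans zero_le_one hc.C0_one
  have e1 := h.E1re
  have e2 := h.E2re
  have eT := h.T
  have eC := h.charge
  have cm' : ContinuousOn (fun r => 12 - m r * (11 / r + 2 * rho r)) (Ioc 0 rb) := by
    have h1 : ContinuousOn (fun r : ℝ => 11 / r) (Ioc 0 rb) :=
      continuousOn_const.div continuousOn_id (fun r hr => hr.1.ne')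
    have cm : ContinuousOn m (Ioc 0 rb) := fun r hr =>
      (hc.m_der r hr).continuousAt.continuousWithinAt
    exact continuousOn_const.sub (cm.mul (h1.add (continuousOn_const.mul hc.rhocont)))
  have hmb : ∀ r ∈ Ioc 0 rb, |m r| ≤ C0 * r := fun r hr => by
    have h1 := hc.m_lo r hr
    have h2 : 0 ≤ m r := le_trans (div_nonneg hr.1.le C0p) h1
    rw [abs_of_nonneg h2]
    exact hc.m_hi r hr
  have hm'b : ∀ r ∈ Ioc 0 rb, |12 - m r * (11 / r + 2 * rho r)| ≤ C0 := fun r hr => by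
    have h1 := hc.m1_lo r hr
    have h2 : 0 ≤ 12 - m r * (11 / r + 2 * rho r) := le_trans (by positivity) h1
    rw [abs_of_nonneg h2]
    exact hc.m1_hi r hr
  have h12 : ∀ r ∈ Ioc 0 rb,
      (12 - m r * (11 / r + 2 * rho r)) + m r * (11 / r + 2 * rho r) = 12 := fun r _ => by ring
  have eS := h.star hc.m_der cm' ⟨C0, fun r hr => ⟨hmb r hr, hm'b r hr⟩⟩ h12
  have eX := h.im_X hc.m_der ⟨C0, hmb⟩ h12
  simp only [Nc_zero_right, Complex.zero_im, Complex.zero_re, sub_zero] at e1 e2 eC eS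
  have cj := SysOn.conj_Nc w S D rb
  rw [← cj] at e2
  simp only [AA_eq]
  refine ⟨e1, e2, ?_, ?_, ?_, ?_⟩
  · rw [show CCore.Nc w S D rb = Nc w S D rb from rfl] at eT
    rw [eT]
    push_cast
    ring
  · rw [show CCore.Nc w S D rb = Nc w S D rb from rfl] at eC
    rw [eC]
    ring
  · -- virial
    have bw := h.bcw
    have bm : BC rb m := by
      refine ⟨fun r hr => (hc.m_der r hr).continuousAt.continuousWithinAt, C0 * rb,
        fun r hr => (hmb r hr).trans (mul_le_mul_of_nonneg_left hr.2 C0p)⟩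
    have bm' : BC rb (fun r => 12 - m r * (11 / r + 2 * rho r)) := ⟨cm', C0, hm'b⟩
    have b1 : BC rb (fun r => w r * (12 - m r * (11 / r + 2 * rho r)) *
        (‖S1 r‖ ^ 2 + ‖D1 r‖ ^ 2)) :=
      (h.bcw.mulR bm').mulR (h.bcS1.normSq.add h.bcD1.normSq)
    have bmr : BC rb (fun r => w r * m r / r ^ 3) := by
      have := (h.bcwj 3 (by norm_num)).mulR bm
      have e : (fun r => w r * m r / r ^ 3) = fun r => w r / r ^ 3 * m r := by
        funext r; ring
      rw [e]; exact this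
    have b2 : BC rb (fun r => Lam * (w r * m r / r ^ 3) * (‖S r‖ ^ 2 + ‖D r‖ ^ 2)) :=
      ((BC.const Lam).mulR bmr).mulR (h.bcS.normSq.add h.bcD.normSq)
    have i1 : (∫ r in (0 : ℝ)..rb, w r * ((12 - m r * (11 / r + 2 * rho r)) *
        (‖S1 r‖ ^ 2 + ‖D1 r‖ ^ 2) + Lam * (m r / r) / r ^ 2 * (‖S r‖ ^ 2 + ‖D r‖ ^ 2))) =
        (∫ r in (0)..rb, w r * (12 - m r * (11 / r + 2 * rho r)) * (‖S1 r‖ ^ 2 + ‖D1 r‖ ^ 2))
        + (∫ r in (0)..rb, Lam * (w r * m r / r ^ 3) * (‖S r‖ ^ 2 + ‖D r‖ ^ 2)) := by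
      rw [← intervalIntegral.integral_add (b1.intble hR) (b2.intble hR)]
      congr 1
      funext r
      rcases eq_or_ne r 0 with rfl | hr
      · simp
        ring
      · field_simp
    have i2 : (∫ r in (0)..rb, n * (-P1 r) * (m r * w r) * ‖S r‖ ^ 2) =
        - ∫ r in (0 : ℝ)..rb, n * P1 r * (m r * w r) * ‖S r‖ ^ 2 := by
      rw [← intervalIntegral.integral_neg]
      congr 1
      funext r
      ring
    have z0 : (∫ r in (0)..rb, (((m r * w r : ℝ) : ℂ) * ((0 : ℂ) * conj (S1 r) +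
        (0 : ℂ) * conj (D1 r)))).im = 0 := by
      simp
    rw [z0] at eS
    unfold Vir Vb Xm
    unfold SysOn.Vir SysOn.XX at eS
    rw [i1]
    rw [i2] at eS
    linarith
  · -- X
    have i3 : (∫ r in (0 : ℝ)..rb, ((m r * w r : ℝ) : ℂ) * (S r * conj (D1 r))) =
        conj (∫ r in (0 : ℝ)..rb, ((m r * w r : ℝ) : ℂ) * (conj (S r) * D1 r)) := by
      rw [SysOn.conj_intervalIntegral]
      congr 1
      funext r
      simp only [map_mul, Complex.conj_ofReal, Complex.conj_conj]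
    rw [i3, Complex.conj_im]
    unfold Xm
    unfold SysOn.XX at eX
    rw [eX]
    have i4 : (((m rb * w rb : ℝ) : ℂ) * (conj (S rb) * D rb)).im =
        m rb * w rb * (conj (S rb) * D rb).im := Complex.im_ofReal_mul _ _
    have i5 : (12 * CCore.Nc w S D rb).im = 12 * (Nc w S D rb).im := by
      rw [show (12 : ℂ) = ((12 : ℝ) : ℂ) by norm_num, Complex.im_ofReal_mul]
      rfl
    have i6 : (2 * ∫ r in (0)..rb, ((m r * w r : ℝ) : ℂ) * (conj (S r) * D1 r)).im =
        2 * (∫ r in (0)..rb, ((m r * w r : ℝ) : ℂ) * (conj (S r) * D1 r)).im := by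
      rw [show (2 : ℂ) = ((2 : ℝ) : ℂ) by norm_num, Complex.im_ofReal_mul]
    rw [Complex.sub_im, Complex.sub_im, i4, i5, i6]
    ring

end Crest.Agent.R086.CEx
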