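import Crest.Agent.R086.SHFinal
import Crest.Agent.R086.CTopDefs
import Crest.Agent.R086.CExId

/-!
Row 86 (S0114), Part C (helper310): the exact system `CCore.Sys` / `CEx.Sol` / `CCore.SysOn` of a
mode pair of a profile `P : Profile n` (node SYSPROD).

`w = |q|² r¹¹`, `b = 2 Im(q'/q) + r/2`, `rho = Re(q'/q)`, `P = |q|ⁿ`, `kap = l (l + 10)`, `eps = 1/n`,
`S = (F/q + G/conj q)/2`, `D = (F/q - G/conj q)/2`.
-/

set_option autoImplicit false

open MeasureTheory Complex ComplexConjugate Set Filter Topology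
open scoped ContDiff

namespace Crest.Agent.R086.CInst

open CCore

variable {n : ℕ} (P : Profile n)

/-! ### the profile equation -/

theorem q_contDiff2 : ContDiff ℝ 2 P.q := (SH.q_contDiff P).of_le (WithTop.coe_le_coe.2 le_top)

theorem cd_q : Continuous (deriv P.q) := (SH.q_contDiff P).continuous_deriv (by simp)


theorem hd_of {f : ℝ → ℂ} (hf : ContDiff ℝ 2 f) (r : ℝ) : HasDerivAt f (deriv f r) r :=
  (hf.differentiable (by norm_num) r).hasDerivAt

theorem hd2_of {f : ℝ → ℂ} (hf : ContDiff ℝ 2 f) (r : ℝ) :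
    HasDerivAt (deriv f) (deriv (deriv f) r) r := by
  have h2 : ContDiff ℝ ((1 : WithTop ℕ∞) + 1) f := by
    rw [show ((1 : WithTop ℕ∞) + 1) = 2 by norm_num]; exact hf
  have h3 : ContDiff ℝ 1 (deriv f) := (contDiff_succ_iff_deriv.1 h2).2.2
  exact (h3.differentiable (by norm_num) r).hasDerivAt

theorem hd_q (r : ℝ) : HasDerivAt P.q (deriv P.q r) r := hd_of (q_contDiff2 P) r
theorem hd2_q (r : ℝ) : HasDerivAt (deriv P.q) (deriv (deriv P.q) r) r := hd2_of (q_contDiff2 P) r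

/-- second order form of the radial equation -/
theorem q_ode' {r : ℝ} (hr : 0 < r) :
    deriv (deriv P.q) r = -((11 : ℂ) / r + I * r / 2) * deriv P.q r
      - ((P.om : ℂ) + I * ((1 / n : ℝ) : ℂ)) * P.q r + ((‖P.q r‖ ^ n : ℝ) : ℂ) * P.q r := by
  have hQ2 : ContDiff ℝ 2 P.Q := P.smooth.of_le (WithTop.coe_le_coe.2 le_top)
  have h1 : comp (fun _ => 1) (lap P.Q) r =
      (((‖P.q r‖ ^ n : ℝ) : ℂ) * P.q r - (I / 2) * ((r : ℂ) * deriv P.q r)
        - ((P.om : ℂ) + I / n) * P.q r) * SH.m0 (fun _ => 1) := by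
    refine SH.comp_of_const fun w => ?_
    have e := P.eqn (r • (w : R12))
    rw [SH.Q_smul P hr.le, SH.eul_Q_smul P hr] at e
    linear_combination e
  have h2 := (SH.facts 2).comp_lap 0 (fun _ => 1) P.Q (SHarm.const 1) hQ2 r hr
  have hc : ∀ s : ℝ, 0 ≤ s → comp (fun _ => 1) P.Q s = P.q s * SH.m0 (fun _ => 1) := fun s hs =>
    SH.comp_of_const fun w => SH.Q_smul P hs w
  have ev : comp (fun _ => 1) P.Q =ᶠ[𝓝 r] fun s => P.q s * SH.m0 (fun _ => 1) := by
    filter_upwards [lt_mem_nhds hr] with s hs using hc s hs.le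
  have d1 : deriv (comp (fun _ => 1) P.Q) =ᶠ[𝓝 r]
      fun s => deriv P.q s * SH.m0 (fun _ => 1) := by
    refine ev.deriv.trans (Eventually.of_forall fun s => ?_)
    exact ((hd_q P s).mul_const _).deriv
  have d2 : deriv (deriv (comp (fun _ => 1) P.Q)) r =
      deriv (deriv P.q) r * SH.m0 (fun _ => 1) := by
    rw [d1.deriv_eq]
    exact ((hd2_q P r).mul_const _).deriv
  unfold rlap at h2
  rw [h1, d2, d1.self_of_nhds] at h2
  have hm : SH.m0 (fun _ => 1) ≠ 0 := by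
    rw [SH.m0_one]
    exact_mod_cast SH.A0_pos.ne'
  have h3 : ((‖P.q r‖ ^ n : ℝ) : ℂ) * P.q r - (I / 2) * ((r : ℂ) * deriv P.q r)
        - ((P.om : ℂ) + I / n) * P.q r = deriv (deriv P.q) r + 11 / (r : ℂ) * deriv P.q r := by
    apply mul_right_cancel₀ hm
    rw [h2]
    simp only [Nat.cast_zero, zero_mul, zero_div, sub_zero]
    ring
  push_cast at h3 ⊢
  linear_combination -h3

/-- the radial equation, first order form -/
theorem q_ode {r : ℝ} (hr : 0 < r) :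
    HasDerivAt (deriv P.q) (-((11 : ℂ) / r + I * r / 2) * deriv P.q r
      - ((P.om : ℂ) + I * ((1 / n : ℝ) : ℂ)) * P.q r + ((‖P.q r‖ ^ n : ℝ) : ℂ) * P.q r) r := by
  rw [← q_ode' P hr]
  exact hd2_q P r

theorem q_even (r : ℝ) : P.q (-r) = P.q r := by
  have h : ∀ s : ℝ, P.q s = P.q |s| := fun s => by
    have e := SH.Q_eq P (s • ei 0)
    rw [norm_smul, SH.norm_ei, mul_one, Real.norm_eq_abs] at e
    exact e
  rw [h (-r), h r, abs_neg]


/-! ### `S`, `D` of a mode pair -/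

noncomputable def Sf (F G : ℝ → ℂ) (r : ℝ) : ℂ := (F r / P.q r + G r / conj (P.q r)) / 2
noncomputable def Df (F G : ℝ → ℂ) (r : ℝ) : ℂ := (F r / P.q r - G r / conj (P.q r)) / 2
noncomputable def S1f (F G : ℝ → ℂ) (r : ℝ) : ℂ :=
  (quo1 P.q (deriv P.q) F (deriv F) r + quo1c P.q (deriv P.q) G (deriv G) r) / 2
noncomputable def D1f (F G : ℝ → ℂ) (r : ℝ) : ℂ :=
  (quo1 P.q (deriv P.q) F (deriv F) r - quo1c P.q (deriv P.q) G (deriv G) r) / 2
/-- the coefficient functions (definitionally those of `CV`) -/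
noncomputable abbrev wf : ℝ → ℝ := CCore.w P.q
noncomputable abbrev bf : ℝ → ℝ := CCore.b P.q (deriv P.q)
noncomputable abbrev rhof : ℝ → ℝ := CCore.rho P.q (deriv P.q)
noncomputable abbrev Pf (r : ℝ) : ℝ := ‖P.q r‖ ^ n
noncomputable abbrev P1f (r : ℝ) : ℝ := n * ‖P.q r‖ ^ n * rhof P r
/-- `l (l + 10)` -/
noncomputable abbrev kapf (l : ℕ) : ℝ := (l : ℝ) * (l + 10)

theorem pow_split {z : ℂ} (hz : z ≠ 0) (hn : 2 ≤ n) :
    ((‖z‖ ^ (n - 2) : ℝ) : ℂ) * z ^ 2 = ((‖z‖ ^ n : ℝ) : ℂ) * (z / conj z) := by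
  obtain ⟨k, rfl⟩ := Nat.exists_eq_add_of_le hn
  rw [Nat.add_sub_cancel_left, pow_add]
  have hc : conj z ≠ 0 := by simpa using hz
  have h1 : ((‖z‖ ^ 2 : ℝ) : ℂ) = z * conj z := by
    rw [Complex.mul_conj, Complex.normSq_eq_norm_sq]
  push_cast at h1 ⊢
  rw [h1]
  field_simp

/-- the general statement: a pair with sources `a`, `c` -/
theorem sys {l : ℕ} {F G : ℝ → ℂ} {lam a c : ℂ} {r : ℝ} (hr : 0 < r) (h0 : P.q r ≠ 0)
    (hF : ContDiff ℝ 2 F) (hG : ContDiff ℝ 2 G)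
    (e1 : P.rgen1 l F G r - lam * F r = a) (e2 : P.rgen2 l F G r - lam * G r = c) :
    Sys (wf P) (bf P) (Pf P) (rhof P) (kapf l) n (1 / n) lam (Sf P F G) (S1f P F G)
      (Df P F G) (D1f P F G) ((a / P.q r + c / conj (P.q r)) / 2)
      ((a / P.q r - c / conj (P.q r)) / 2) r := by
  have hc0 : conj (P.q r) ≠ 0 := by simpa using h0
  have hs := pow_split h0 P.two_le
  have hs2 : ((‖P.q r‖ ^ (n - 2) : ℝ) : ℂ) * (conj (P.q r)) ^ 2 =
      ((‖P.q r‖ ^ n : ℝ) : ℂ) * (conj (P.q r) / P.q r) := by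
    have := pow_split (n := n) hc0 P.two_le
    simpa using this
  have hode := q_ode P hr
  refine sys_of_eqs (om := P.om) hr.ne' h0 (hd_q P r) ?_ (hd_of hF r) (hd2_of hF r)
    (hd_of hG r) (hd2_of hG r) ?_ ?_
  · exact hode
  · unfold Profile.rgen1 rlap Profile.rV1 Profile.rV2 at e1
    rw [mul_assoc ((n : ℂ) / 2) _ _, hs] at e1
    push_cast at e1 ⊢
    linear_combination e1
  · unfold Profile.rgen2 rlap Profile.rV1 Profile.rV2c at e2
    rw [mul_assoc ((n : ℂ) / 2) _ _, hs2] at e2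
    push_cast at e2 ⊢
    linear_combination e2

/-- source-free -/
theorem sys0 {l : ℕ} {F G : ℝ → ℂ} {lam : ℂ} {r : ℝ} (hr : 0 < r) (h0 : P.q r ≠ 0)
    (hF : ContDiff ℝ 2 F) (hG : ContDiff ℝ 2 G)
    (e1 : P.rgen1 l F G r = lam * F r) (e2 : P.rgen2 l F G r = lam * G r) :
    Sys (wf P) (bf P) (Pf P) (rhof P) (kapf l) n (1 / n) lam (Sf P F G) (S1f P F G)
      (Df P F G) (D1f P F G) 0 0 r := by
  have h := sys P hr h0 hF hG (a := 0) (c := 0) (lam := lam) (by rw [e1, sub_self])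
    (by rw [e2, sub_self])
  simpa using h


/-! ### continuity up to `0` -/

theorem cq : Continuous P.q := (SH.q_contDiff P).continuous

theorem cF1 {F : ℝ → ℂ} (hF : ContDiff ℝ 2 F) : Continuous (deriv F) :=
  hF.continuous_deriv (by norm_num)

section cont

variable {F G : ℝ → ℂ} {s : Set ℝ}


theorem c_cq : Continuous (fun r => conj (P.q r)) := Complex.continuous_conj.comp (cq P)
theorem c_cdq : Continuous (fun r => conj (deriv P.q r)) := Complex.continuous_conj.comp (cd_q P)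

theorem cc0 (h0 : ∀ r ∈ s, P.q r ≠ 0) : ∀ r ∈ s, conj (P.q r) ≠ 0 := fun r hr => by
  simpa using h0 r hr

theorem c_P : Continuous (Pf P) := (cq P).norm.pow n

theorem c_quo1 (h0 : ∀ r ∈ s, P.q r ≠ 0) (hF : ContDiff ℝ 2 F) :
    ContinuousOn (quo1 P.q (deriv P.q) F (deriv F)) s := by
  unfold quo1
  exact (((cF1 hF).continuousOn).sub ((hF.continuous.continuousOn.div (cq P).continuousOn h0).mul
    (cd_q P).continuousOn)).div (cq P).continuousOn h0
theorem c_quo1c (h0 : ∀ r ∈ s, P.q r ≠ 0) (hG : ContDiff ℝ 2 G) :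
    ContinuousOn (quo1c P.q (deriv P.q) G (deriv G)) s := by
  unfold quo1c
  exact (((cF1 hG).continuousOn).sub ((hG.continuous.continuousOn.div (c_cq P).continuousOn
    (cc0 P h0)).mul (c_cdq P).continuousOn)).div (c_cq P).continuousOn (cc0 P h0)

theorem c_S (h0 : ∀ r ∈ s, P.q r ≠ 0) (hF : ContDiff ℝ 2 F) (hG : ContDiff ℝ 2 G) :
    ContinuousOn (Sf P F G) s :=
  ((hF.continuous.continuousOn.div (cq P).continuousOn h0).add
    (hG.continuous.continuousOn.div (c_cq P).continuousOn (cc0 P h0))).div_const 2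
theorem c_D (h0 : ∀ r ∈ s, P.q r ≠ 0) (hF : ContDiff ℝ 2 F) (hG : ContDiff ℝ 2 G) :
    ContinuousOn (Df P F G) s :=
  ((hF.continuous.continuousOn.div (cq P).continuousOn h0).sub
    (hG.continuous.continuousOn.div (c_cq P).continuousOn (cc0 P h0))).div_const 2
theorem c_S1 (h0 : ∀ r ∈ s, P.q r ≠ 0) (hF : ContDiff ℝ 2 F) (hG : ContDiff ℝ 2 G) :
    ContinuousOn (S1f P F G) s := ((c_quo1 P h0 hF).add (c_quo1c P h0 hG)).div_const 2
theorem c_D1 (h0 : ∀ r ∈ s, P.q r ≠ 0) (hF : ContDiff ℝ 2 F) (hG : ContDiff ℝ 2 G) :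
    ContinuousOn (D1f P F G) s := ((c_quo1 P h0 hF).sub (c_quo1c P h0 hG)).div_const 2

end cont

/-- `S' = S1`, `D' = D1` at EVERY `r` with `q r ≠ 0` (also `r = 0`) -/
theorem hS {F G : ℝ → ℂ} {r : ℝ} (h0 : P.q r ≠ 0) (hF : ContDiff ℝ 2 F) (hG : ContDiff ℝ 2 G) :
    HasDerivAt (Sf P F G) (S1f P F G r) r :=
  ((hasDerivAt_quo (hd_q P r) h0 (hd_of hF r)).add
    (hasDerivAt_quoc (hd_q P r) h0 (hd_of hG r))).div_const 2
theorem hD {F G : ℝ → ℂ} {r : ℝ} (h0 : P.q r ≠ 0) (hF : ContDiff ℝ 2 F) (hG : ContDiff ℝ 2 G) :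
    HasDerivAt (Df P F G) (D1f P F G r) r :=
  ((hasDerivAt_quo (hd_q P r) h0 (hd_of hF r)).sub
    (hasDerivAt_quoc (hd_q P r) h0 (hd_of hG r))).div_const 2

/-- `P' = n P rho` -/
theorem hP {r : ℝ} (h0 : P.q r ≠ 0) : HasDerivAt (Pf P) (P1f P r) r := by
  have hn : P.q r ≠ 0 := h0
  have hpos : 0 < ‖P.q r‖ := norm_pos_iff.2 hn
  have h1 : HasDerivAt (fun r => ‖P.q r‖ ^ 2) (2 * (deriv P.q r * conj (P.q r)).re) r :=
    hasDerivAt_normSq (hd_q P r)
  have h2 : HasDerivAt (fun r => Real.sqrt (‖P.q r‖ ^ 2))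
      ((2 * (deriv P.q r * conj (P.q r)).re) / (2 * Real.sqrt (‖P.q r‖ ^ 2))) r :=
    h1.sqrt (by positivity)
  have e : (fun r => Real.sqrt (‖P.q r‖ ^ 2)) = fun r => ‖P.q r‖ := by
    funext x
    exact Real.sqrt_sq (norm_nonneg _)
  rw [e, Real.sqrt_sq hpos.le] at h2
  have h3 := h2.pow n
  have e3 : ((fun r => ‖P.q r‖) ^ n) = Pf P := rfl
  rw [e3] at h3
  refine h3.congr_deriv ?_
  unfold P1f rhof CCore.rho
  have e4 : (deriv P.q r * conj (P.q r)).re = ‖P.q r‖ ^ 2 * (deriv P.q r / P.q r).re := by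
    rw [← Complex.normSq_eq_norm_sq]
    have hnn : Complex.normSq (P.q r) ≠ 0 := by simpa [Complex.normSq_eq_zero] using h0
    rw [Complex.div_re]
    simp only [Complex.mul_re, Complex.conj_re, Complex.conj_im]
    field_simp
    ring
  rw [e4]
  have hn2 := P.two_le
  obtain ⟨k, rfl⟩ : ∃ k, n = k + 1 := ⟨n - 1, by omega⟩
  simp only [Nat.add_sub_cancel]
  field_simp
  try ring

/-- boundedness on `[0, R]` -/
theorem bdd_of {f : ℝ → ℂ} {R : ℝ} (hf : ContinuousOn f (Icc 0 R)) :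
    ∃ C, ∀ r ∈ Ioc 0 R, ‖f r‖ ≤ C := by
  obtain ⟨C, hC⟩ := isCompact_Icc.exists_bound_of_continuousOn hf
  exact ⟨C, fun r hr => hC r ⟨hr.1.le, hr.2⟩⟩



/-! ### behaviour at `0` for `l ≥ 1` -/

/-- an odd function vanishes at `0`; an even `C²` solution of the degree `l ≥ 1` equation too -/
theorem zero_of_bdd {l : ℕ} (hl : 1 ≤ l) {F : ℝ → ℂ} (hF : ContDiff ℝ 2 F)
    (pF : ∀ r, F (-r) = (-1) ^ l * F r)
    (hb : ∃ C, ∀ r ∈ Ioc (0 : ℝ) 1, ‖rlap l F r‖ ≤ C) : F 0 = 0 := by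
  rcases Nat.even_or_odd l with he | ho
  · -- even: `F'(0) = 0`
    have pe : ∀ r, F (-r) = F r := fun r => by rw [pF r, he.neg_one_pow, one_mul]
    have h := hd_of hF 0
    have h1 : HasDerivAt (fun r : ℝ => F (-r)) (-deriv F 0) 0 := by
      have h0 : HasDerivAt F (deriv F 0) (-0) := by simpa using h
      have h5 := h0.scomp (0 : ℝ) (hasDerivAt_neg (0 : ℝ))
      rw [neg_one_smul] at h5
      exact h5
    have e : (fun r : ℝ => F (-r)) = F := funext pe
    rw [e] at h1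
    have h2 := h.unique h1
    have dz : deriv F 0 = 0 := by
      have h3 : (2 : ℂ) * deriv F 0 = 0 := by linear_combination h2
      simpa using h3
    obtain ⟨C, hC⟩ := hb
    have c2 : Continuous (deriv (deriv F)) := by
      have h := hF.continuous_iteratedDeriv 2 le_rfl
      simpa [iteratedDeriv_succ, iteratedDeriv_zero] using h
    obtain ⟨A, hA⟩ := isCompact_Icc.exists_bound_of_continuousOn (c2.continuousOn (s := Icc 0 1))
    have hA0 : 0 ≤ A := (norm_nonneg _).trans (hA 0 ⟨le_rfl, zero_le_one⟩)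
    have hl1 : (1 : ℝ) ≤ l := by exact_mod_cast hl
    -- `|F r| ≤ K r²`
    have hK : ∀ r ∈ Ioc (0 : ℝ) 1, ‖F r‖ ≤ (C + 12 * A) * r ^ 2 := fun r hr => by
      have h5 : ‖deriv F r - deriv F 0‖ ≤ A * ‖r - 0‖ :=
        (convex_Icc (0 : ℝ) 1).norm_image_sub_le_of_norm_hasDerivWithin_le
          (f' := deriv (deriv F)) (fun x hx => (hd2_of hF x).hasDerivWithinAt) hA
          ⟨le_rfl, zero_le_one⟩ ⟨hr.1.le, hr.2⟩
      rw [dz, sub_zero, sub_zero, Real.norm_of_nonneg hr.1.le] at h5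
      have h6 := hC r hr
      have h7 := hA r ⟨hr.1.le, hr.2⟩
      have hrc : (r : ℂ) ≠ 0 := by exact_mod_cast hr.1.ne'
      have e7 : ((l : ℂ) * (l + 10) / (r : ℂ) ^ 2) * F r =
          deriv (deriv F) r + (11 / (r : ℂ)) * deriv F r - rlap l F r := by
        unfold rlap; ring
      have e8 : ‖((l : ℂ) * (l + 10) / (r : ℂ) ^ 2) * F r‖ = (l * (l + 10) / r ^ 2 : ℝ) * ‖F r‖ := by
        rw [norm_mul]
        congr 1
        have : ((l : ℂ) * (l + 10) / (r : ℂ) ^ 2) = ((l * (l + 10) / r ^ 2 : ℝ) : ℂ) := by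
          push_cast; rfl
        rw [this, Complex.norm_real, Real.norm_of_nonneg (by positivity)]
      have e9 : ‖(11 / (r : ℂ)) * deriv F r‖ ≤ 11 * A := by
        have : ((11 : ℂ) / (r : ℂ)) = ((11 / r : ℝ) : ℂ) := by push_cast; rfl
        have hr1 := hr.1
        rw [this, norm_mul, Complex.norm_real, Real.norm_of_nonneg (by positivity)]
        calc 11 / r * ‖deriv F r‖ ≤ 11 / r * (A * r) :=
              mul_le_mul_of_nonneg_left h5 (by positivity)
          _ = 11 * A := by field_simp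
      have e10 : (l * (l + 10) / r ^ 2 : ℝ) * ‖F r‖ ≤ C + 12 * A := by
        rw [← e8, e7]
        calc _ ≤ ‖deriv (deriv F) r + (11 / (r : ℂ)) * deriv F r‖ + ‖rlap l F r‖ := norm_sub_le _ _
          _ ≤ (‖deriv (deriv F) r‖ + ‖(11 / (r : ℂ)) * deriv F r‖) + ‖rlap l F r‖ := by
            gcongr; exact norm_add_le _ _
          _ ≤ _ := by linarith
      have hr2 : 0 < r ^ 2 := pow_pos hr.1 2
      have e11 : ‖F r‖ ≤ l * (l + 10) * ‖F r‖ := by
        have : (1 : ℝ) ≤ l * (l + 10) := by nlinarith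
        nlinarith [norm_nonneg (F r)]
      calc ‖F r‖ ≤ l * (l + 10) * ‖F r‖ := e11
        _ = ((l * (l + 10) / r ^ 2 : ℝ) * ‖F r‖) * r ^ 2 := by
          have := hr2.ne'
          rw [div_mul_eq_mul_div, div_mul_cancel₀ _ this]
        _ ≤ (C + 12 * A) * r ^ 2 := mul_le_mul_of_nonneg_right e10 hr2.le
    have t1 : Tendsto (fun r : ℝ => (C + 12 * A) * r ^ 2) (𝓝[>] 0) (𝓝 0) := by
      have : Tendsto (fun r : ℝ => (C + 12 * A) * r ^ 2) (𝓝 0) (𝓝 ((C + 12 * A) * 0 ^ 2)) :=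
        (continuous_const.mul (continuous_pow 2)).tendsto 0
      simpa using this.mono_left nhdsWithin_le_nhds
    have t2 : Tendsto F (𝓝[>] 0) (𝓝 0) := by
      refine squeeze_zero_norm' ?_ t1
      filter_upwards [Ioc_mem_nhdsGT (zero_lt_one' ℝ)] with r hr using hK r hr
    exact tendsto_nhds_unique (hF.continuous.continuousAt.tendsto.mono_left nhdsWithin_le_nhds) t2
  · have h := pF 0
    rw [neg_zero, ho.neg_one_pow] at h
    have h3 : (2 : ℂ) * F 0 = 0 := by linear_combination h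
    simpa using h3

theorem rb_cont {F G dF e V1 V2 : ℝ → ℂ} {s : Set ℝ} (c z lam : ℂ) (hF : Continuous F)
    (hG : Continuous G) (hd : Continuous dF) (he : ContinuousOn e s) (h1 : Continuous V1)
    (h2 : Continuous V2) :
    ContinuousOn (fun r : ℝ => z * (e r + lam * F r + (1 / 2) * ((r : ℂ) * dF r) - c * F r)
      + (V1 r * F r + V2 r * G r)) s := by
  fun_prop

theorem c_rV1 : Continuous P.rV1 := by
  unfold Profile.rV1
  exact continuous_const.mul (Complex.continuous_ofReal.comp ((cq P).norm.pow n))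
theorem c_rV2 : Continuous P.rV2 := by
  unfold Profile.rV2
  exact (continuous_const.mul (Complex.continuous_ofReal.comp ((cq P).norm.pow (n - 2)))).mul
    ((cq P).pow 2)
theorem c_rV2c : Continuous P.rV2c := by
  unfold Profile.rV2c
  exact (continuous_const.mul (Complex.continuous_ofReal.comp ((cq P).norm.pow (n - 2)))).mul
    ((c_cq P).pow 2)

/-- for a pair solving the equations with continuous sources, `rlap` is bounded near `0` -/
theorem rlap_bdd {l : ℕ} {F G : ℝ → ℂ} {lam : ℂ} {e1 e2 : ℝ → ℂ}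
    (hF : ContDiff ℝ 2 F) (hG : ContDiff ℝ 2 G)
    (c1 : ContinuousOn e1 (Icc 0 1)) (c2 : ContinuousOn e2 (Icc 0 1))
    (h1 : ∀ r, 0 < r → P.rgen1 l F G r - lam * F r = e1 r)
    (h2 : ∀ r, 0 < r → P.rgen2 l F G r - lam * G r = e2 r) :
    (∃ C, ∀ r ∈ Ioc (0 : ℝ) 1, ‖rlap l F r‖ ≤ C) ∧ (∃ C, ∀ r ∈ Ioc (0 : ℝ) 1, ‖rlap l G r‖ ≤ C) := by
  constructor
  · obtain ⟨C, hC⟩ := bdd_of (rb_cont (I * P.om - 1 / n) (-I) lam hF.continuous hG.continuous
      (cF1 hF) c1 (c_rV1 P) (c_rV2 P))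
    refine ⟨C, fun r hr => ?_⟩
    have e := h1 r hr.1
    unfold Profile.rgen1 at e
    have e3 : rlap l F r = -I * (e1 r + lam * F r + (1 / 2) * ((r : ℂ) * deriv F r)
        - (I * P.om - 1 / n) * F r) + (P.rV1 r * F r + P.rV2 r * G r) := by
      rw [← e]
      linear_combination (rlap l F r - (P.rV1 r * F r + P.rV2 r * G r)) * Complex.I_mul_I
    rw [e3]
    exact hC r hr
  · obtain ⟨C, hC⟩ := bdd_of (rb_cont (-I * P.om - 1 / n) I lam hG.continuous hF.continuous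
      (cF1 hG) c2 (c_rV1 P) (c_rV2c P))
    refine ⟨C, fun r hr => ?_⟩
    have e := h2 r hr.1
    unfold Profile.rgen2 at e
    have e3 : rlap l G r = I * (e2 r + lam * G r + (1 / 2) * ((r : ℂ) * deriv G r)
        - (-I * P.om - 1 / n) * G r) + (P.rV1 r * G r + P.rV2c r * F r) := by
      rw [← e]
      linear_combination (rlap l G r - (P.rV1 r * G r + P.rV2c r * F r)) * Complex.I_mul_I
    rw [e3]
    exact hC r hr

/-- the components vanish at `0` if `l ≥ 1` -/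
theorem zero_at_zero {l : ℕ} (hl : 1 ≤ l) {F G : ℝ → ℂ} {lam : ℂ} {e1 e2 : ℝ → ℂ}
    (hF : ContDiff ℝ 2 F) (hG : ContDiff ℝ 2 G)
    (pF : ∀ r, F (-r) = (-1) ^ l * F r) (pG : ∀ r, G (-r) = (-1) ^ l * G r)
    (c1 : ContinuousOn e1 (Icc 0 1)) (c2 : ContinuousOn e2 (Icc 0 1))
    (h1 : ∀ r, 0 < r → P.rgen1 l F G r - lam * F r = e1 r)
    (h2 : ∀ r, 0 < r → P.rgen2 l F G r - lam * G r = e2 r) : F 0 = 0 ∧ G 0 = 0 := by
  have h := rlap_bdd P hF hG c1 c2 h1 h2
  exact ⟨zero_of_bdd hl hF pF h.1, zero_of_bdd hl hG pG h.2⟩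

/-! ### `Sol` and sources of symmetry modes -/

theorem lip_of {f f1 : ℝ → ℂ} {R : ℝ} (h0 : f 0 = 0)
    (hd : ∀ r ∈ Icc (0 : ℝ) R, HasDerivAt f (f1 r) r) {C : ℝ}
    (hC : ∀ r ∈ Icc (0 : ℝ) R, ‖f1 r‖ ≤ C) : ∀ r ∈ Icc (0 : ℝ) R, ‖f r‖ ≤ C * r := by
  intro r hr
  have h5 : ‖f r - f 0‖ ≤ C * ‖r - 0‖ :=
    (convex_Icc (0 : ℝ) R).norm_image_sub_le_of_norm_hasDerivWithin_le
      (f' := f1) (fun x hx => (hd x hx).hasDerivWithinAt) hC ⟨le_rfl, hr.1.trans hr.2⟩ hr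
  rwa [h0, sub_zero, sub_zero, Real.norm_of_nonneg hr.1] at h5

theorem n_ge_one (P : Profile n) : (1 : ℝ) ≤ n := by
  have := P.two_le
  exact_mod_cast (by omega : 1 ≤ n)

/-- **SYSPROD, source-free**: `Sol` of `CExDefs` -/
theorem sol {l : ℕ} {H : R12 → ℝ} {F G : ℝ → ℂ} {lam : ℂ} {R : ℝ}
    (h0 : ∀ r ∈ Icc 0 R, P.q r ≠ 0) (hE : P.Eig lam l H F G) :
    CEx.Sol (wf P) (bf P) (Pf P) (rhof P) (kapf l) n (1 / n) lam (Sf P F G) (S1f P F G)
      (Df P F G) (D1f P F G) R := by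
  have hF : ContDiff ℝ 2 F := hE.mode.cF.of_le (by norm_num)
  have hG : ContDiff ℝ 2 G := hE.mode.cG.of_le (by norm_num)
  have hn := n_ge_one P
  refine
    { Lam_nonneg := by positivity
      eps_nonneg := by positivity
      eps_le := by
        rw [div_le_one (by linarith)]
        exact hn
      sys := fun r hr => sys0 P hr.1 (h0 r ⟨hr.1.le, hr.2⟩) hF hG (hE.eq1 r hr.1) (hE.eq2 r hr.1)
      bdd := ?_ }
  rcases le_or_gt R 0 with hR | hR
  · exact ⟨0, fun r hr => absurd (hr.1.trans_le hr.2) (not_lt.2 hR)⟩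
  obtain ⟨a1, h1⟩ := isCompact_Icc.exists_bound_of_continuousOn (c_S P h0 hF hG)
  obtain ⟨a2, h2⟩ := isCompact_Icc.exists_bound_of_continuousOn (c_D P h0 hF hG)
  obtain ⟨a3, h3⟩ := isCompact_Icc.exists_bound_of_continuousOn (c_S1 P h0 hF hG)
  obtain ⟨a4, h4⟩ := isCompact_Icc.exists_bound_of_continuousOn (c_D1 P h0 hF hG)
  refine ⟨|a1| + |a2| + |a3| + |a4|, fun r hr => ?_⟩
  have hr' : r ∈ Icc 0 R := ⟨hr.1.le, hr.2⟩
  have g1 := (h1 r hr').trans (le_abs_self _)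
  have g2 := (h2 r hr').trans (le_abs_self _)
  have g3 := (h3 r hr').trans (le_abs_self _)
  have g4 := (h4 r hr').trans (le_abs_self _)
  have p1 := abs_nonneg a1
  have p2 := abs_nonneg a2
  have p3 := abs_nonneg a3
  have p4 := abs_nonneg a4
  refine ⟨by linarith, by linarith, by linarith, by linarith, fun hL => ?_⟩
  have hl : 1 ≤ l := by
    by_contra h
    have : l = 0 := by omega
    subst this
    exact hL (by simp [kapf])
  have hz := zero_at_zero P hl hF hG hE.mode.pF hE.mode.pG (e1 := fun _ => 0) (e2 := fun _ => 0)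
    (lam := lam) continuousOn_const continuousOn_const
    (fun r hr => by rw [hE.eq1 r hr, sub_self]) (fun r hr => by rw [hE.eq2 r hr, sub_self])
  have zS : Sf P F G 0 = 0 := by simp [Sf, hz.1, hz.2]
  have zD : Df P F G 0 = 0 := by simp [Df, hz.1, hz.2]
  have k1 := lip_of zS (fun r hr => hS P (h0 r hr) hF hG) h3 r hr'
  have k2 := lip_of zD (fun r hr => hD P (h0 r hr) hF hG) h4 r hr'
  have hr0 := hr.1.le
  constructor
  · exact k1.trans (mul_le_mul_of_nonneg_right (by linarith [le_abs_self a3]) hr0)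
  · exact k2.trans (mul_le_mul_of_nonneg_right (by linarith [le_abs_self a4]) hr0)


theorem c_rtime : Continuous P.rtime := by
  unfold Profile.rtime
  exact (continuous_const.mul (cq P)).add
    (continuous_const.mul (Complex.continuous_ofReal.mul (cd_q P)))



end Crest.Agent.R086.CInst
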