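import Crest.Agent.R086.C4Defs
import Crest.Agent.R086.CInst

/-!
Row 86, Part C, C4: node C4Inst (helper310): `InstStmt` and the `NB²` identity.
-/

set_option autoImplicit false

open MeasureTheory Complex ComplexConjugate Set Filter Topology
open scoped ContDiff

namespace Crest.Agent.R086.C4

open Crest.Agent.R086.CCore

variable {n : ℕ} (P : Profile n)

/-- symmetry modes are continuous -/
theorem cont_sym {l : ℕ} {ls : ℝ} {e : ℝ → ℂ} (h : P.IsSym l ls e) : Continuous e := by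
  rcases h with ⟨_, _, h1⟩ | ⟨_, _, h1⟩ | ⟨_, _, h1⟩
  · rw [h1]; exact continuous_const.mul (CInst.cq P)
  · rw [h1]; exact CInst.c_rtime P
  · rw [h1]; exact CInst.cd_q P

theorem cont_src {al : ℂ} {e : ℝ → ℂ}
    (h : (al = 0 ∧ e = fun _ => 0) ∨ ∃ l : ℕ, ∃ ls : ℝ, P.IsSym l ls e) : Continuous e := by
  rcases h with ⟨_, h1⟩ | ⟨l, ls, h⟩
  · rw [h1]; exact continuous_const
  · exact cont_sym P h

/-- general radius -/
theorem hyp_of_pair {l : ℕ} {H : R12 → ℝ} {lam al : ℂ} {e F G : ℝ → ℂ} {rb : ℝ} (hrb : 0 < rb)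
    (hl : ∀ r ∈ Icc (0 : ℝ) rb, 1 / 2 ≤ ‖P.q r‖) (hu : ∀ r ∈ Icc (0 : ℝ) rb, ‖P.q r‖ ≤ 2)
    (hp : P.Pair l H lam al e F G) (he : Continuous e) :
    Hyp rb P.q (deriv P.q) (fun r => ‖P.q r‖ ^ n) ((l : ℝ) * (l + 10)) n (1 / n) lam
      (uS P.q F G) (uS1 P.q F G) (uD P.q F G) (uD1 P.q F G)
      (oS P.q al e) (oD P.q al e) := by
  have h0 : ∀ r ∈ Icc (0 : ℝ) rb, P.q r ≠ 0 := fun r hr h => by
    have := hl r hr
    rw [h, norm_zero] at this
    linarith
  have hF : ContDiff ℝ 2 F := hp.cF.of_le (by norm_num)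
  have hG : ContDiff ℝ 2 G := hp.cG.of_le (by norm_num)
  have c1 : ContinuousOn (fun r => al * e r / P.q r) (Icc 0 rb) :=
    (continuous_const.mul he).continuousOn.div (CInst.cq P).continuousOn h0
  have c2 : ContinuousOn (fun r => al * conj (e r) / conj (P.q r)) (Icc 0 rb) :=
    (continuous_const.mul (Complex.continuous_conj.comp he)).continuousOn.div
      (CInst.c_cq P).continuousOn (CInst.cc0 P h0)
  exact
    { rb0 := hrb
      sys := fun r hr => CInst.sys P hr.1 (h0 r ⟨hr.1.le, hr.2.le⟩) hF hG (hp.eqF r hr.1)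
        (hp.eqG r hr.1)
      cQ := (CInst.cq P).continuousOn
      cQ1 := (CInst.cd_q P).continuousOn
      cP := (CInst.c_P P).continuousOn
      cS := CInst.c_S P h0 hF hG
      cS1 := CInst.c_S1 P h0 hF hG
      cD := CInst.c_D P h0 hF hG
      cD1 := CInst.c_D1 P h0 hF hG
      csS := (c1.add c2).div_const 2
      csD := (c1.sub c2).div_const 2
      ql := hl
      qu := hu
      P0 := fun r _ => by positivity
      kap0 := by positivity
      n0 := by positivity }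

/-- **node C4Inst** -/
theorem instStmt : InstStmt := by
  intro n P l H lam al e F G _ hl hu hp he
  refine hyp_of_pair P (by norm_num) hl hu hp ?_
  rcases he with h | ⟨ls, h⟩
  · exact cont_src P (Or.inl h)
  · exact cont_sym P h

/-- pointwise `w (|S|² + |D|²) = r¹¹ (|F|² + |G|²)/2` -/
theorem nd_eq {q F G : ℝ → ℂ} {r : ℝ} (h0 : q r ≠ 0) :
    Hyp.nd q (uS q F G) (uD q F G) r = r ^ 11 * (‖F r‖ ^ 2 + ‖G r‖ ^ 2) / 2 := by
  have hq : ‖q r‖ ≠ 0 := by simpa using h0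
  have hp : ∀ a b : ℂ, ‖(a + b) / 2‖ ^ 2 + ‖(a - b) / 2‖ ^ 2 = (‖a‖ ^ 2 + ‖b‖ ^ 2) / 2 := by
    intro a b
    have e : ∀ z : ℂ, ‖z‖ ^ 2 = z.re ^ 2 + z.im ^ 2 := fun z => by
      rw [← Complex.normSq_eq_norm_sq, Complex.normSq_apply]; ring
    simp only [e, Complex.div_ofNat_re, Complex.div_ofNat_im, Complex.add_re, Complex.add_im,
      Complex.sub_re, Complex.sub_im]
    ring
  unfold Hyp.nd uS uD w
  rw [hp, norm_div, norm_div, RCLike.norm_conj, div_pow, div_pow]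
  field_simp

theorem nd_int {q F G : ℝ → ℂ} {rb : ℝ} (hrb : 0 ≤ rb) (h0 : ∀ r ∈ Icc (0 : ℝ) rb, q r ≠ 0) :
    ∫ r in (0 : ℝ)..rb, Hyp.nd q (uS q F G) (uD q F G) r = (NB rb F G) ^ 2 / 2 := by
  have h1 : ∫ r in (0 : ℝ)..rb, Hyp.nd q (uS q F G) (uD q F G) r =
      ∫ r in (0 : ℝ)..rb, r ^ 11 * (‖F r‖ ^ 2 + ‖G r‖ ^ 2) / 2 := by
    refine intervalIntegral.integral_congr fun r hr => ?_
    rw [uIcc_of_le hrb] at hr
    exact nd_eq (h0 r hr)
  have h2 : 0 ≤ ∫ r in (0 : ℝ)..rb, r ^ 11 * (‖F r‖ ^ 2 + ‖G r‖ ^ 2) :=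
    intervalIntegral.integral_nonneg hrb fun r hr => by
      have := hr.1
      positivity
  rw [h1, intervalIntegral.integral_div]
  unfold NB
  rw [Real.sq_sqrt h2]


end Crest.Agent.R086.C4
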