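import Crest.Agent.R086.C4g
import Crest.Agent.R086.C4Inst

/-!
Row 86 (S0114), Part C, C4: `BData.C4BC` (helper426).
-/

set_option autoImplicit false

open MeasureTheory Complex Set Filter Topology
open scoped ContDiff

namespace Crest.Agent.R086

local notation "conj" => starRingEnd ℂ

namespace C4

open Crest.Agent.R086.CCore

theorem F_eq {q F G : ℝ → ℂ} {r : ℝ} (h : q r ≠ 0) : F r = q r * (uS q F G r + uD q F G r) := by
  unfold uS uD
  field_simp
  ring

theorem G_eq {q F G : ℝ → ℂ} {r : ℝ} (h : q r ≠ 0) :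
    G r = conj (q r) * (uS q F G r - uD q F G r) := by
  have hc : conj (q r) ≠ 0 := by simpa using h
  unfold uS uD
  field_simp
  ring

theorem F1_eq {q F G : ℝ → ℂ} {r : ℝ} (h : q r ≠ 0) :
    deriv F r = q r * (uS1 q F G r + uD1 q F G r) + deriv q r * (uS q F G r + uD q F G r) := by
  unfold uS1 uD1 uS uD quo1
  field_simp
  ring

theorem G1_eq {q F G : ℝ → ℂ} {r : ℝ} (h : q r ≠ 0) :
    deriv G r = conj (q r) * (uS1 q F G r - uD1 q F G r)
      + conj (deriv q r) * (uS q F G r - uD q F G r) := by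
  have hc : conj (q r) ≠ 0 := by simpa using h
  unfold uS1 uD1 uS uD quo1c
  field_simp
  ring

theorem oS_le_bc {q e : ℝ → ℂ} {al : ℂ} {r t : ℝ} (hal : ‖al‖ ≤ 1) (h : |(e r / q r).re| ≤ t) :
    ‖oS q al e r‖ ≤ t := by
  have e1 : oS q al e r = al * ((e r / q r).re : ℂ) := by
    unfold oS
    have h1 : al * e r / q r + al * conj (e r) / conj (q r) =
        al * (e r / q r + conj (e r / q r)) := by
      rw [map_div₀]; ring
    rw [h1, Complex.add_conj]
    push_cast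
    ring
  rw [e1, norm_mul, Complex.norm_real, Real.norm_eq_abs]
  calc ‖al‖ * |(e r / q r).re| ≤ 1 * |(e r / q r).re| :=
        mul_le_mul_of_nonneg_right hal (abs_nonneg _)
    _ ≤ t := by linarith

theorem oSD_le {q e : ℝ → ℂ} {al : ℂ} {r t : ℝ} (hal : ‖al‖ ≤ 1) (h : ‖e r / q r‖ ≤ t) :
    ‖oS q al e r‖ ≤ t ∧ ‖oD q al e r‖ ≤ t := by
  have h1 : ‖al * e r / q r‖ ≤ t := by
    rw [mul_div_assoc, norm_mul]
    calc ‖al‖ * ‖e r / q r‖ ≤ 1 * ‖e r / q r‖ := mul_le_mul_of_nonneg_right hal (norm_nonneg _)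
      _ ≤ t := by linarith
  have h2 : ‖al * conj (e r) / conj (q r)‖ ≤ t := by
    have e1 : al * conj (e r) / conj (q r) = al * conj (e r / q r) := by
      rw [map_div₀]; ring
    rw [e1, norm_mul, Complex.norm_conj]
    calc ‖al‖ * ‖e r / q r‖ ≤ 1 * ‖e r / q r‖ := mul_le_mul_of_nonneg_right hal (norm_nonneg _)
      _ ≤ t := by linarith
  have h3 : ‖(2:ℂ)‖ = 2 := by norm_num
  unfold oS oD
  constructor
  · rw [norm_div, h3]
    have := norm_add_le (al * e r / q r) (al * conj (e r) / conj (q r))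
    linarith
  · rw [norm_div, h3]
    have := norm_sub_le (al * e r / q r) (al * conj (e r) / conj (q r))
    linarith

/-- source condition -/
def SrcOK {n : ℕ} (P : Profile n) (l : ℕ) (al : ℂ) (e : ℝ → ℂ) : Prop :=
  (al = 0 ∧ e = fun _ => 0) ∨ ∃ ls : ℝ, P.IsSym l ls e

section

variable {om0 R : ℝ} {U : ℝ → ℂ}

/-- all uniform constants -/
theorem ctx (L : LimitProfile om0 R U) (B : BData om0 R U) (hI : InstStmt) (hF : C4Facts B)
    (La : ℝ) (l : ℕ) : ∃ Bc Mc Br : ℝ, 0 ≤ Bc ∧ 0 ≤ Mc ∧ 0 ≤ Br ∧ ∀ᶠ j in atTop,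
      (∀ r ∈ Icc (0:ℝ) 8, |rho (B.P j).q (deriv (B.P j).q) r| ≤ Br) ∧
      ∀ (H : R12 → ℝ) (lam al : ℂ) (e F G : ℝ → ℂ), ‖lam‖ ≤ La → ‖al‖ ≤ 1 →
      (B.P j).Pair l H lam al e F G → SrcOK (B.P j) l al e → NB 8 F G ≤ 1 →
      Hyp 8 (B.P j).q (deriv (B.P j).q) (fun r => ‖(B.P j).q r‖ ^ (B.nn j))
        ((l : ℝ) * (l + 10)) (B.nn j) (1 / (B.nn j)) lam
        (uS (B.P j).q F G) (uS1 (B.P j).q F G) (uD (B.P j).q F G) (uD1 (B.P j).q F G)
        (oS (B.P j).q al e) (oD (B.P j).q al e) ∧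
      Bds (B.P j).q (deriv (B.P j).q) (1 / (B.nn j)) lam (uS (B.P j).q F G) (uD (B.P j).q F G)
        (oS (B.P j).q al e) (oD (B.P j).q al e) Bc |La| Mc := by
  obtain ⟨Cb, hCb⟩ := hF.bb
  obtain ⟨Cs, hCs⟩ := hF.src
  obtain ⟨Cq, hCq⟩ := B.q_der
  refine ⟨|Cb|, 1 / 2 + 8 * (W8 * (2 * |Cs| ^ 2)), |Cq|, abs_nonneg _, ?_, abs_nonneg _, ?_⟩
  · have := W8_pos
    positivity
  filter_upwards [hCb, hCs, hCq, B.q_lower, hF.qu] with j h1 h2 h3 h4 h5
  refine ⟨?_, ?_⟩
  · intro r hr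
    have hq : (B.P j).q r ≠ 0 := B.q_ne j r
    have hq0 : 0 < ‖(B.P j).q r‖ := norm_pos_iff.2 hq
    have g1 := (h3 r hr.1).1
    unfold rho
    refine (Complex.abs_re_le_norm _).trans ?_
    rw [norm_div, div_le_iff₀ hq0]
    refine g1.trans ?_
    refine mul_le_mul_of_nonneg_right ?_ hq0.le
    have g2 : r / (1 + r ^ 2) ≤ 1 := by
      rw [div_le_one (by positivity)]
      nlinarith [sq_nonneg (r - 1), hr.1]
    have g3 : 0 ≤ r / (1 + r ^ 2) := div_nonneg hr.1 (by positivity)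
    calc Cq * (r / (1 + r ^ 2)) ≤ |Cq| * (r / (1 + r ^ 2)) :=
          mul_le_mul_of_nonneg_right (le_abs_self _) g3
      _ ≤ |Cq| * 1 := mul_le_mul_of_nonneg_left g2 (abs_nonneg _)
      _ = |Cq| := mul_one _
  · intro H lam al e F G hlam hal hp hs hN
    have hq : ∀ r, (B.P j).q r ≠ 0 := B.q_ne j
    have hyp := hI (B.nn j) (B.P j) l H lam al e F G hq h4 h5 hp hs
    refine ⟨hyp, ?_⟩
    refine ⟨fun r hr => (h1 r hr).trans (le_abs_self _), hlam.trans (le_abs_self _), ?_, ?_⟩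
    · have hn : (1:ℝ) ≤ (B.nn j : ℝ) := by
        have := (B.P j).two_le
        exact_mod_cast (by omega : 1 ≤ B.nn j)
      rw [abs_of_nonneg (by positivity)]
      rw [div_le_one (by linarith)]
      exact hn
    · have c1 := hyp.c_nd
      have c2 := hyp.c_nds
      have i1 : IntervalIntegrable (Hyp.nd (B.P j).q (uS (B.P j).q F G) (uD (B.P j).q F G))
          volume 0 8 := ContinuousOn.intervalIntegrable (by rw [uIcc_of_le (by norm_num)]; exact c1)
      have i2 : IntervalIntegrable (Hyp.nd (B.P j).q (oS (B.P j).q al e) (oD (B.P j).q al e))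
          volume 0 8 := ContinuousOn.intervalIntegrable (by rw [uIcc_of_le (by norm_num)]; exact c2)
      rw [intervalIntegral.integral_add i1 i2]
      have g1 := C4.nd_int (q := (B.P j).q) (F := F) (G := G) (rb := 8) (by norm_num)
        (fun r _ => hq r)
      have g2 : (NB 8 F G) ^ 2 / 2 ≤ 1 / 2 := by
        have : 0 ≤ NB 8 F G := Real.sqrt_nonneg _
        have : NB 8 F G ^ 2 ≤ 1 := by nlinarith
        linarith
      have g3 : ∫ r in (0:ℝ)..8, Hyp.nd (B.P j).q (oS (B.P j).q al e) (oD (B.P j).q al e) r ≤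
          8 * (W8 * (2 * |Cs| ^ 2)) := by
        have ic : IntervalIntegrable (fun _ : ℝ => W8 * (2 * |Cs| ^ 2)) volume 0 8 :=
          intervalIntegrable_const
        have hm := intervalIntegral.integral_mono_on (by norm_num) i2 ic (fun r hr => by
          have hw0 := Hyp.w_nonneg (B.P j).q hr.1
          have hw8 := hyp.w_le8 hr
          have hb : ‖oS (B.P j).q al e r‖ ≤ |Cs| ∧ ‖oD (B.P j).q al e r‖ ≤ |Cs| := by
            rcases hs with ⟨ha, he⟩ | ⟨ls, hls⟩
            · subst ha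
              subst he
              simp [oS, oD]
            · exact oSD_le hal ((h2 l ls e hls r hr).trans (le_abs_self _))
          have g4 : ‖oS (B.P j).q al e r‖ ^ 2 ≤ |Cs| ^ 2 :=
            pow_le_pow_left₀ (norm_nonneg _) hb.1 2
          have g5 : ‖oD (B.P j).q al e r‖ ^ 2 ≤ |Cs| ^ 2 :=
            pow_le_pow_left₀ (norm_nonneg _) hb.2 2
          show Hyp.nd (B.P j).q (oS (B.P j).q al e) (oD (B.P j).q al e) r ≤ W8 * (2 * |Cs| ^ 2)
          unfold Hyp.nd
          exact mul_le_mul hw8 (by linarith) (by positivity) W8_pos.le)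
        rw [intervalIntegral.integral_const] at hm
        simpa using hm
      rw [g1]
      linarith

/-- the smallness conditions hold eventually -/
theorem sm_ev (L : LimitProfile om0 R U) (B : BData om0 R U) (hF : C4Facts B) {Br : ℝ}
    (hBr : ∀ᶠ j in atTop, ∀ r ∈ Icc (0:ℝ) 8, |rho (B.P j).q (deriv (B.P j).q) r| ≤ Br)
    {d : ℝ} (hd : 0 < d) (hd2 : d ≤ 1 / 2) :
    ∃ c : ℝ, ∀ᶠ j in atTop, ∀ (l : ℕ) (al : ℂ) (e : ℝ → ℂ), ‖al‖ ≤ 1 → SrcOK (B.P j) l al e →
      Sm R d c (B.P j).q (deriv (B.P j).q) (fun r => ‖(B.P j).q r‖ ^ (B.nn j)) (B.nn j)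
        (oS (B.P j).q al e) Br := by
  obtain ⟨c, hc, hP⟩ := B.pow_ge d hd
  have hn : ∀ᶠ j in atTop, 8 / (c * d ^ 2) ≤ (B.nn j : ℝ) :=
    (tendsto_natCast_atTop_atTop.comp B.nn_tendsto).eventually_ge_atTop _
  refine ⟨c, ?_⟩
  filter_upwards [hP, hn, hF.rho0 d hd, hF.src0 d hd, hF.nP (d / 2) (by linarith), hBr] with
    j h1 h2 h3 h4 h5 h6 l al e hal hs
  refine
    { R3 := by linarith [L.R_lo]
      R4 := by linarith [L.R_hi]
      d0 := hd
      d2 := hd2
      c0 := hc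
      n0 := ?_
      P_lo := h1
      nc := ?_
      sg := ?_
      rh := h3
      rB := h6
      nP := h5 }
  · have := (B.P j).two_le
    exact_mod_cast (by omega : 0 < B.nn j)
  · rw [div_le_iff₀ (by positivity)] at h2
    linarith
  · intro r hr
    rcases hs with ⟨ha, he⟩ | ⟨ls, hls⟩
    · subst ha
      simp [oS, hd.le]
    · exact oS_le_bc hal (h4 l ls e hls r hr)

end

end C4

open C4 in
theorem BData.c4bc {om0 R : ℝ} {U : ℝ → ℂ} (L : LimitProfile om0 R U) (B : BData om0 R U)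
    (hI : InstStmt) (hF : C4Facts B) : B.C4BC := by
  intro La l
  obtain ⟨Bc, Mc, Br, hBc, hMc, hBr, hctx⟩ := ctx L B hI hF La l
  obtain ⟨CU, hCU⟩ := hF.U1
  set E := Ec Bc |La| Mc with hE
  have hE0 : 0 ≤ E := by
    rw [hE]
    unfold Ec
    positivity
  set A : ℝ := 1 + |CU| with hA
  have hA0 : 0 ≤ A := by positivity
  set K1 := Real.sqrt (8 * (E + Mc)) with hK1
  set KS := Real.sqrt (17 * E) + Real.sqrt (4 * E) with hKS
  set KD := Hyp.K2 Bc |La| Mc Br l with hKD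
  set KT := Hyp.K3 Bc |La| Mc l with hKT
  have hK10 : 0 ≤ K1 := Real.sqrt_nonneg _
  have hKS0 : 0 ≤ KS := by positivity
  have hKD0 : 0 ≤ KD := by
    rw [hKD]
    unfold Hyp.K2
    have := W8_pos
    positivity
  have hKT0 : 0 ≤ KT := by
    rw [hKT]
    unfold Hyp.K3
    positivity
  have hl0 : (0:ℝ) ≤ l := Nat.cast_nonneg l
  refine ⟨4 * KS + 2 * A * K1 + 4 * KD + 2 * A * KT + 2 * A * (l * K1) + 4 * A * K1 + 4 * K1,
    1 / 2, by norm_num, ?_⟩
  intro d hd hd2
  obtain ⟨c, hsm⟩ := sm_ev L B hF (hctx.mono fun j h => h.1) hd hd2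
  filter_upwards [hctx, hsm, B.conv d hd, hF.qu] with j h1 h2 h3 h4
  intro H lam al e F G _ hlam hal hp hs hN
  obtain ⟨hyp, hb⟩ := h1.2 H lam al e F G hlam hal hp hs hN
  have sm := h2 l al e hal hs
  have hR3 : 3 ≤ R := sm.R3
  have hR4 : R ≤ 4 := sm.R4
  have hr8 : R + d ∈ Icc (0:ℝ) 8 := ⟨by linarith, by linarith⟩
  have hq : (B.P j).q (R + d) ≠ 0 := B.q_ne j _
  set q := (B.P j).q with hqdef
  -- bounds of q at R + d
  obtain ⟨u1, u2⟩ := hCU d ⟨hd.le, by linarith⟩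
  obtain ⟨v1, v2⟩ := h3 (R + d) hr8
  have hCUd : CU * d ≤ |CU| * d := mul_le_mul_of_nonneg_right (le_abs_self _) hd.le
  have q1 : ‖q (R + d) - 1‖ ≤ A * d := by
    calc ‖q (R + d) - 1‖ = ‖(q (R + d) - U (R + d)) + (U (R + d) - 1)‖ := by ring_nf
      _ ≤ ‖q (R + d) - U (R + d)‖ + ‖U (R + d) - 1‖ := norm_add_le _ _
      _ ≤ A * d := by rw [hA, add_mul]; linarith
  have q2 : ‖deriv q (R + d)‖ ≤ A * d := by
    calc ‖deriv q (R + d)‖ = ‖(deriv q (R + d) - deriv U (R + d)) + deriv U (R + d)‖ := by ring_nf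
      _ ≤ _ := norm_add_le _ _
      _ ≤ A * d := by rw [hA, add_mul]; linarith
  have q3 : ‖q (R + d)‖ ≤ 2 := h4 _ hr8
  have q4 : ‖q (R + d) - conj (q (R + d))‖ ≤ 2 * (A * d) := by
    have e1 : q (R + d) - conj (q (R + d)) = (q (R + d) - 1) - conj (q (R + d) - 1) := by
      simp
    rw [e1]
    refine (norm_sub_le _ _).trans ?_
    rw [Complex.norm_conj]
    linarith
  have q5 : ‖q (R + d) + conj (q (R + d))‖ ≤ 4 := by
    refine (norm_add_le _ _).trans ?_
    rw [Complex.norm_conj]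
    linarith
  -- bounds of S, D
  have hRd6 : R + d ≤ 6 := by linarith
  have s1 : ‖uS q F G (R + d)‖ ≤ KS * Real.sqrt d := hyp.SRd_le hb sm
  have s2 := hyp.D1_le hb sm rfl
  have s3 := hyp.S1_le hb sm rfl
  have s4 := hyp.pt hb (by linarith : 2 ≤ R + d) hRd6
  have s5 : ‖uS q F G (R + d)‖ ≤ K1 := Real.le_sqrt_of_sq_le s4.1
  have s6 : ‖uD q F G (R + d)‖ ≤ K1 := Real.le_sqrt_of_sq_le s4.2
  have hsd0 : 0 ≤ Real.sqrt d := Real.sqrt_nonneg d
  have hdd : d ≤ Real.sqrt d := by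
    refine Real.le_sqrt_of_sq_le ?_
    nlinarith
  have s7 : d * ‖uS1 q F G (R + d)‖ ≤ KT * Real.sqrt d := by
    have e1 : (Real.sqrt d * ‖uS1 q F G (R + d)‖) ^ 2 ≤ KT ^ 2 := by
      rw [mul_pow, Real.sq_sqrt hd.le]
      exact s3
    have e2 : Real.sqrt d * ‖uS1 q F G (R + d)‖ ≤ KT :=
      abs_le_of_sq_le_sq' e1 hKT0 |>.2
    calc d * ‖uS1 q F G (R + d)‖ = Real.sqrt d * (Real.sqrt d * ‖uS1 q F G (R + d)‖) := by
          rw [← mul_assoc, Real.mul_self_sqrt hd.le]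
      _ ≤ Real.sqrt d * KT := mul_le_mul_of_nonneg_left e2 hsd0
      _ = _ := mul_comm _ _
  have hlR : ‖(l : ℂ) / (R : ℂ)‖ ≤ l := by
    rw [norm_div, Complex.norm_natCast, Complex.norm_real, Real.norm_eq_abs,
      abs_of_pos (by linarith)]
    exact div_le_self hl0 (by linarith)
  have f0 := F_eq (q := q) (F := F) (G := G) hq
  have g0 := G_eq (q := q) (F := F) (G := G) hq
  have f1 := F1_eq (q := q) (F := F) (G := G) hq
  have g1 := G1_eq (q := q) (F := F) (G := G) hq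
  have nn1 : 0 ≤ 2 * A * K1 := by positivity
  have nn2 : 0 ≤ 4 * KD + 2 * A * KT + 2 * A * (l * K1) + 4 * A * K1 := by positivity
  have nn3 : 0 ≤ 4 * KS := by positivity
  have nn4 : 0 ≤ 4 * K1 := by positivity
  refine ⟨?_, ?_, ?_⟩
  · have e1 : F (R + d) + G (R + d) = (q (R + d) + conj (q (R + d))) * uS q F G (R + d)
        + (q (R + d) - conj (q (R + d))) * uD q F G (R + d) := by
      linear_combination f0 + g0
    rw [e1]
    have b1 : ‖(q (R + d) + conj (q (R + d))) * uS q F G (R + d)‖ ≤ 4 * KS * Real.sqrt d := by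
      rw [norm_mul]
      calc _ ≤ 4 * (KS * Real.sqrt d) := mul_le_mul q5 s1 (norm_nonneg _) (by norm_num)
        _ = _ := by ring
    have b2 : ‖(q (R + d) - conj (q (R + d))) * uD q F G (R + d)‖ ≤
        2 * A * K1 * Real.sqrt d := by
      rw [norm_mul]
      calc _ ≤ (2 * (A * d)) * K1 := mul_le_mul q4 s6 (norm_nonneg _) (by positivity)
        _ = 2 * A * K1 * d := by ring
        _ ≤ _ := mul_le_mul_of_nonneg_left hdd nn1
    refine (norm_add_le _ _).trans ?_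
    have b3 := mul_nonneg nn2 hsd0
    have b4 := mul_nonneg nn4 hsd0
    linarith
  · have e1 : deriv F (R + d) - deriv G (R + d) - (l : ℂ) / (R : ℂ) * (F (R + d) - G (R + d)) =
        (q (R + d) + conj (q (R + d))) *
          (uD1 q F G (R + d) - (l : ℂ) / (R : ℂ) * uD q F G (R + d))
        + (q (R + d) - conj (q (R + d))) * uS1 q F G (R + d)
        - (q (R + d) - conj (q (R + d))) * ((l : ℂ) / (R : ℂ) * uS q F G (R + d))
        + (deriv q (R + d) * (uS q F G (R + d) + uD q F G (R + d))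
          - conj (deriv q (R + d)) * (uS q F G (R + d) - uD q F G (R + d))) := by
      linear_combination f1 - g1 - (l : ℂ) / (R : ℂ) * (f0 - g0)
    rw [e1]
    have b1 : ‖(q (R + d) + conj (q (R + d))) *
          (uD1 q F G (R + d) - (l : ℂ) / (R : ℂ) * uD q F G (R + d))‖ ≤
        4 * KD * Real.sqrt d := by
      rw [norm_mul]
      calc _ ≤ 4 * (KD * Real.sqrt d) := mul_le_mul q5 s2 (norm_nonneg _) (by norm_num)
        _ = _ := by ring
    have b2 : ‖(q (R + d) - conj (q (R + d))) * uS1 q F G (R + d)‖ ≤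
        2 * A * KT * Real.sqrt d := by
      rw [norm_mul]
      calc _ ≤ (2 * (A * d)) * ‖uS1 q F G (R + d)‖ :=
            mul_le_mul_of_nonneg_right q4 (norm_nonneg _)
        _ = 2 * A * (d * ‖uS1 q F G (R + d)‖) := by ring
        _ ≤ 2 * A * (KT * Real.sqrt d) := mul_le_mul_of_nonneg_left s7 (by positivity)
        _ = _ := by ring
    have b3 : ‖(q (R + d) - conj (q (R + d))) * ((l : ℂ) / (R : ℂ) * uS q F G (R + d))‖ ≤
        2 * A * (l * K1) * Real.sqrt d := by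
      rw [norm_mul, norm_mul]
      calc _ ≤ (2 * (A * d)) * (l * K1) := by
            refine mul_le_mul q4 (mul_le_mul hlR s5 (norm_nonneg _) hl0) ?_ (by positivity)
            positivity
        _ = 2 * A * (l * K1) * d := by ring
        _ ≤ _ := mul_le_mul_of_nonneg_left hdd (by positivity)
    have b4 : ‖deriv q (R + d) * (uS q F G (R + d) + uD q F G (R + d))
          - conj (deriv q (R + d)) * (uS q F G (R + d) - uD q F G (R + d))‖ ≤
        4 * A * K1 * Real.sqrt d := by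
      refine (norm_sub_le _ _).trans ?_
      rw [norm_mul, norm_mul, Complex.norm_conj]
      have c1 : ‖uS q F G (R + d) + uD q F G (R + d)‖ ≤ 2 * K1 :=
        (norm_add_le _ _).trans (by linarith)
      have c2 : ‖uS q F G (R + d) - uD q F G (R + d)‖ ≤ 2 * K1 :=
        (norm_sub_le _ _).trans (by linarith)
      have c3 : ‖deriv q (R + d)‖ * ‖uS q F G (R + d) + uD q F G (R + d)‖ ≤
          (A * d) * (2 * K1) := mul_le_mul q2 c1 (norm_nonneg _) (by positivity)
      have c4 : ‖deriv q (R + d)‖ * ‖uS q F G (R + d) - uD q F G (R + d)‖ ≤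
          (A * d) * (2 * K1) := mul_le_mul q2 c2 (norm_nonneg _) (by positivity)
      have c5 : (A * d) * (2 * K1) + (A * d) * (2 * K1) = 4 * A * K1 * d := by ring
      have c6 : 4 * A * K1 * d ≤ 4 * A * K1 * Real.sqrt d :=
        mul_le_mul_of_nonneg_left hdd (by positivity)
      linarith
    refine (norm_add_le _ _).trans ?_
    refine (add_le_add (norm_sub_le _ _) le_rfl).trans ?_
    refine (add_le_add (add_le_add (norm_add_le _ _) le_rfl) le_rfl).trans ?_
    have b5 := mul_nonneg nn3 hsd0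
    have b6 := mul_nonneg nn1 hsd0
    have b7 := mul_nonneg nn4 hsd0
    linarith
  · intro r hr
    have hr2 : 2 ≤ r := by linarith [hr.1]
    have hr8' : r ∈ Icc (0:ℝ) 8 := ⟨by linarith, by linarith [hr.2]⟩
    have hqr : q r ≠ 0 := B.q_ne j _
    have t4 := hyp.pt hb hr2 hr.2
    have t5 : ‖uS q F G r‖ ≤ K1 := Real.le_sqrt_of_sq_le t4.1
    have t6 : ‖uD q F G r‖ ≤ K1 := Real.le_sqrt_of_sq_le t4.2
    have t7 : ‖q r‖ ≤ 2 := h4 _ hr8'
    have c1 : ‖uS q F G r + uD q F G r‖ ≤ 2 * K1 := (norm_add_le _ _).trans (by linarith)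
    have c2 : ‖uS q F G r - uD q F G r‖ ≤ 2 * K1 := (norm_sub_le _ _).trans (by linarith)
    constructor
    · rw [F_eq (q := q) (F := F) (G := G) hqr, norm_mul]
      have : ‖q r‖ * ‖uS q F G r + uD q F G r‖ ≤ 2 * (2 * K1) :=
        mul_le_mul t7 c1 (norm_nonneg _) (by norm_num)
      linarith
    · rw [G_eq (q := q) (F := F) (G := G) hqr, norm_mul, Complex.norm_conj]
      have : ‖q r‖ * ‖uS q F G r - uD q F G r‖ ≤ 2 * (2 * K1) :=
        mul_le_mul t7 c2 (norm_nonneg _) (by norm_num)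
      linarith

end Crest.Agent.R086
-- keep-prune
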