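import Crest.Agent.R086.CCore2

-- ▼ part R086/C4a
section

/-!
Row 86 (S0114), Part C, C4: quantitative estimates for one radial eigen-system on `(0, rb)`
(energy estimate with the multiplier `(rb - r)^2`, boundary relations at `R`).
-/

set_option autoImplicit false

open Complex ComplexConjugate Set MeasureTheory

namespace Crest.Agent.R086.C4

open Crest.Agent.R086.CCore

/-- One radial eigen-system on `(0, rb)` with continuous data on `[0, rb]`. -/
structure Hyp (rb : ℝ) (Q Q1 : ℝ → ℂ) (P : ℝ → ℝ) (kap n eps : ℝ) (lam : ℂ)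
    (S S1 D D1 sS sD : ℝ → ℂ) : Prop where
  rb0 : 0 < rb
  sys : ∀ r ∈ Ioo 0 rb, Sys (w Q) (b Q Q1) P (rho Q Q1) kap n eps lam S S1 D D1 (sS r) (sD r) r
  cQ : ContinuousOn Q (Icc 0 rb)
  cQ1 : ContinuousOn Q1 (Icc 0 rb)
  cP : ContinuousOn P (Icc 0 rb)
  cS : ContinuousOn S (Icc 0 rb)
  cS1 : ContinuousOn S1 (Icc 0 rb)
  cD : ContinuousOn D (Icc 0 rb)
  cD1 : ContinuousOn D1 (Icc 0 rb)
  csS : ContinuousOn sS (Icc 0 rb)
  csD : ContinuousOn sD (Icc 0 rb)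
  ql : ∀ r ∈ Icc 0 rb, 1 / 2 ≤ ‖Q r‖
  qu : ∀ r ∈ Icc 0 rb, ‖Q r‖ ≤ 2
  P0 : ∀ r ∈ Icc 0 rb, 0 ≤ P r
  kap0 : 0 ≤ kap
  n0 : 0 ≤ n

namespace Hyp

variable {rb : ℝ} {Q Q1 : ℝ → ℂ} {P : ℝ → ℝ} {kap n eps : ℝ} {lam : ℂ}
  {S S1 D D1 sS sD : ℝ → ℂ}

theorem cw (h : Hyp rb Q Q1 P kap n eps lam S S1 D D1 sS sD) :
    ContinuousOn (w Q) (Icc 0 rb) := by
  have := h.cQ
  unfold w
  fun_prop

theorem cb (h : Hyp rb Q Q1 P kap n eps lam S S1 D D1 sS sD) :
    ContinuousOn (b Q Q1) (Icc 0 rb) := by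
  have h1 : ContinuousOn (fun r => Q1 r / Q r) (Icc 0 rb) := by
    refine h.cQ1.div h.cQ ?_
    intro r hr h0
    have := h.ql r hr
    rw [h0, norm_zero] at this
    linarith
  unfold b
  have h2 : ContinuousOn (fun r => (Q1 r / Q r).im) (Icc 0 rb) :=
    Complex.continuous_im.comp_continuousOn h1
  fun_prop

/-- `w r / r^2`, continuous version -/
theorem w_div (Q : ℝ → ℂ) {r : ℝ} (hr : r ≠ 0) : w Q r / r ^ 2 = ‖Q r‖ ^ 2 * r ^ 9 := by
  unfold w
  field_simp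

theorem w_nonneg (Q : ℝ → ℂ) {r : ℝ} (hr : 0 ≤ r) : 0 ≤ w Q r := by
  unfold w
  positivity

theorem wl (h : Hyp rb Q Q1 P kap n eps lam S S1 D D1 sS sD) {r : ℝ} (hr : r ∈ Icc 0 rb) :
    r ^ 11 / 4 ≤ w Q r := by
  have h1 := h.ql r hr
  have h2 : (1 / 2 : ℝ) ^ 2 ≤ ‖Q r‖ ^ 2 := pow_le_pow_left₀ (by norm_num) h1 2
  have h3 : (0 : ℝ) ≤ r ^ 11 := pow_nonneg hr.1 11
  unfold w
  nlinarith

theorem wu (h : Hyp rb Q Q1 P kap n eps lam S S1 D D1 sS sD) {r : ℝ} (hr : r ∈ Icc 0 rb) :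
    w Q r ≤ 4 * r ^ 11 := by
  have h1 := h.qu r hr
  have h2 : ‖Q r‖ ^ 2 ≤ (2 : ℝ) ^ 2 := pow_le_pow_left₀ (norm_nonneg _) h1 2
  have h3 : (0 : ℝ) ≤ r ^ 11 := pow_nonneg hr.1 11
  unfold w
  nlinarith

/-- energy density -/
noncomputable def ed (Q : ℝ → ℂ) (P : ℝ → ℝ) (kap n : ℝ) (S S1 D D1 : ℝ → ℂ) (r : ℝ) : ℝ :=
  w Q r * (‖S1 r‖ ^ 2 + ‖D1 r‖ ^ 2) + kap * (‖Q r‖ ^ 2 * r ^ 9) * (‖S r‖ ^ 2 + ‖D r‖ ^ 2)
    + n * P r * w Q r * ‖S r‖ ^ 2

theorem ed_nonneg (h : Hyp rb Q Q1 P kap n eps lam S S1 D D1 sS sD) {r : ℝ}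
    (hr : r ∈ Icc 0 rb) : 0 ≤ ed Q P kap n S S1 D D1 r := by
  have h1 := w_nonneg Q hr.1
  have h2 := h.P0 r hr
  have h3 := h.kap0
  have h4 := h.n0
  have h5 := hr.1
  unfold ed
  positivity

theorem c_ed (h : Hyp rb Q Q1 P kap n eps lam S S1 D D1 sS sD) :
    ContinuousOn (ed Q P kap n S S1 D D1) (Icc 0 rb) := by
  have h1 := h.cw
  have h2 := h.cQ
  have h3 := h.cP
  have h4 := h.cS
  have h5 := h.cS1
  have h6 := h.cD
  have h7 := h.cD1
  unfold ed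
  fun_prop

/-- `L²(w)` density of `(S, D)` -/
noncomputable def nd (Q : ℝ → ℂ) (S D : ℝ → ℂ) (r : ℝ) : ℝ := w Q r * (‖S r‖ ^ 2 + ‖D r‖ ^ 2)

theorem c_nd (h : Hyp rb Q Q1 P kap n eps lam S S1 D D1 sS sD) :
    ContinuousOn (nd Q S D) (Icc 0 rb) := by
  have h1 := h.cw
  have h4 := h.cS
  have h6 := h.cD
  unfold nd
  fun_prop

theorem c_nds (h : Hyp rb Q Q1 P kap n eps lam S S1 D D1 sS sD) :
    ContinuousOn (nd Q sS sD) (Icc 0 rb) := by
  have h1 := h.cw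
  have h4 := h.csS
  have h6 := h.csD
  unfold nd
  fun_prop

theorem re_le_mul (z u : ℂ) : |(z * conj u).re| ≤ ‖z‖ * ‖u‖ := by
  calc |(z * conj u).re| ≤ ‖z * conj u‖ := Complex.abs_re_le_norm _
    _ = ‖z‖ * ‖u‖ := by rw [norm_mul, Complex.norm_conj]

theorem key_real {X W s s1 d d1 ss sd B L p1 p2 q e : ℝ} (hW : 0 ≤ W) (hX0 : 0 ≤ X)
    (hX8 : X ^ 2 ≤ 64) (hB0 : 0 ≤ B) (hL0 : 0 ≤ L)
    (hp1 : p1 ≤ s1 * s) (hp2 : p2 ≤ d1 * d)
    (hq : q ≤ (B * d1 + L * d + sd) * s + (B * s1 + L * s + ss) * d)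
    (he : W * (s1 ^ 2 + d1 ^ 2) ≤ e) :
    1 / 2 * (X ^ 2 * e) - (100 * (1 + B ^ 2 + L)) * (W * (s ^ 2 + d ^ 2) + W * (ss ^ 2 + sd ^ 2)) ≤
      -(2 * X) * (W * p1 + W * p2) + X ^ 2 * e - X ^ 2 * W * q := by
  have hx2 : 0 ≤ X ^ 2 := sq_nonneg _
  have t1 : 2 * X * (W * p1 + W * p2) ≤
      X ^ 2 * W * (1 / 4 * (s1 ^ 2 + d1 ^ 2)) + 4 * (W * (s ^ 2 + d ^ 2)) := by
    have u1 : p1 + p2 ≤ s1 * s + d1 * d := by linarith
    have u2 : 2 * X * (s1 * s + d1 * d) ≤ X ^ 2 / 4 * (s1 ^ 2 + d1 ^ 2) + 4 * (s ^ 2 + d ^ 2) := by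
      linarith [sq_nonneg (X / 2 * s1 - 2 * s), sq_nonneg (X / 2 * d1 - 2 * d)]
    have u3 : 2 * X * (p1 + p2) ≤ X ^ 2 / 4 * (s1 ^ 2 + d1 ^ 2) + 4 * (s ^ 2 + d ^ 2) :=
      (mul_le_mul_of_nonneg_left u1 (by positivity)).trans u2
    have u4 := mul_le_mul_of_nonneg_left u3 hW
    linarith
  have t3 : q ≤ 1 / 4 * (s1 ^ 2 + d1 ^ 2) + (B ^ 2 + L + 1 / 2) * (s ^ 2 + d ^ 2)
        + 1 / 2 * (ss ^ 2 + sd ^ 2) := by
    linarith [sq_nonneg (d1 / 2 - B * s), sq_nonneg (s1 / 2 - B * d), sq_nonneg (s - sd),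
      sq_nonneg (d - ss), mul_nonneg hL0 (sq_nonneg (s - d))]
  have t3' : X ^ 2 * W * q ≤ X ^ 2 * W * (1 / 4 * (s1 ^ 2 + d1 ^ 2))
      + 64 * (W * ((B ^ 2 + L + 1 / 2) * (s ^ 2 + d ^ 2) + 1 / 2 * (ss ^ 2 + sd ^ 2))) := by
    have u1 := mul_le_mul_of_nonneg_left t3 (mul_nonneg hx2 hW)
    have u2 : X ^ 2 * (W * ((B ^ 2 + L + 1 / 2) * (s ^ 2 + d ^ 2)
        + 1 / 2 * (ss ^ 2 + sd ^ 2))) ≤ 64 * (W * ((B ^ 2 + L + 1 / 2) * (s ^ 2 + d ^ 2)
        + 1 / 2 * (ss ^ 2 + sd ^ 2))) := by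
      refine mul_le_mul_of_nonneg_right hX8 ?_
      positivity
    linarith
  have hedX := mul_le_mul_of_nonneg_left he hx2
  have p1' : 0 ≤ W * (s ^ 2 + d ^ 2) := by positivity
  have p2' : 0 ≤ W * (ss ^ 2 + sd ^ 2) := by positivity
  have q1 : (4 + 64 * (B ^ 2 + L + 1 / 2)) ≤ (100 * (1 + B ^ 2 + L)) := by
    linarith [sq_nonneg B]
  have q2 : (32 : ℝ) ≤ (100 * (1 + B ^ 2 + L)) := by linarith [sq_nonneg B]
  have r1 := mul_le_mul_of_nonneg_right q1 p1'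
  have r2 := mul_le_mul_of_nonneg_right q2 p2'
  linarith

/-- **Energy estimate** with the multiplier `(rb - r)^2`. -/
theorem energy (h : Hyp rb Q Q1 P kap n eps lam S S1 D D1 sS sD) {B L : ℝ} (hrb : rb ≤ 8)
    (hB : ∀ r ∈ Icc 0 rb, |b Q Q1 r| ≤ B) (hL : ‖lam‖ ≤ L) :
    ∫ r in (0:ℝ)..rb, (rb - r) ^ 2 * ed Q P kap n S S1 D D1 r ≤
      (200 * (1 + B ^ 2 + L)) * ∫ r in (0:ℝ)..rb, (nd Q S D r + nd Q sS sD r) := by
  have hB0 : 0 ≤ B := (abs_nonneg _).trans (hB 0 ⟨le_rfl, h.rb0.le⟩)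
  have hL0 : 0 ≤ L := (norm_nonneg _).trans hL
  set Φ : ℝ → ℝ := fun r => ((((rb - r) ^ 2 : ℝ) : ℂ) * (((w Q r : ℂ) * S1 r) * conj (S r))
    + (((rb - r) ^ 2 : ℝ) : ℂ) * (((w Q r : ℂ) * D1 r) * conj (D r))).re with hΦ
  -- derivative
  set f : ℝ → ℝ := fun r => (-(2 * (rb - r))) * (w Q r * (S1 r * conj (S r)).re
      + w Q r * (D1 r * conj (D r)).re)
      + (rb - r) ^ 2 * ed Q P kap n S S1 D D1 r
      - (rb - r) ^ 2 * w Q r * ((I * ((b Q Q1 r * D1 r + lam * D r + sD r) * conj (S r))).re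
        + (I * ((b Q Q1 r * S1 r + lam * S r + sS r) * conj (D r))).re) with hf
  have hd : ∀ r ∈ Ioo 0 rb, HasDerivAt Φ (f r) r := by
    intro r hr
    have hs := h.sys r hr
    have hc : HasDerivAt (fun r : ℝ => (rb - r) ^ 2) (-(2 * (rb - r))) r := by
      have := ((hasDerivAt_id r).const_sub rb).pow 2
      refine this.congr_deriv ?_
      simp
    have h1 := (hs.flux_SS hc).add (hs.flux_DD hc)
    have h2 := Complex.reCLM.hasFDerivAt.comp_hasDerivAt r h1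
    have h3 : HasDerivAt Φ _ r := h2
    refine h3.congr_deriv ?_
    have hr0 : r ≠ 0 := hr.1.ne'
    have e1 : ((kap : ℂ) / (r : ℂ) ^ 2) = ((kap / r ^ 2 : ℝ) : ℂ) := by push_cast; rfl
    have e2 : kap / r ^ 2 * w Q r = kap * (‖Q r‖ ^ 2 * r ^ 9) := by
      rw [← w_div Q hr0]; ring
    simp only [hf, ed, Complex.reCLM_apply, e1]
    have e : ∀ z : ℂ, ‖z‖ ^ 2 = z.re ^ 2 + z.im ^ 2 := by
      intro z
      rw [← Complex.normSq_eq_norm_sq, Complex.normSq_apply]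
      ring
    rw [← e2]
    simp only [e (S1 r), e (D1 r), e (S r), e (D r), Complex.mul_re, Complex.mul_im,
      Complex.add_re, Complex.add_im, Complex.sub_re,
      Complex.sub_im, Complex.conj_re, Complex.conj_im, Complex.ofReal_re, Complex.ofReal_im,
      Complex.I_re, Complex.I_im]
    ring
  have hcf : ContinuousOn f (Icc 0 rb) := by
    have h1 := h.cw
    have h2 := h.c_ed
    have h3 := h.cb
    have h4 := h.cS
    have h5 := h.cS1
    have h6 := h.cD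
    have h7 := h.cD1
    have h8 := h.csS
    have h9 := h.csD
    have k1 : ContinuousOn (fun r => (S1 r * conj (S r)).re) (Icc 0 rb) := by
      refine Complex.continuous_re.comp_continuousOn ?_
      exact h5.mul (Complex.continuous_conj.comp_continuousOn h4)
    have k2 : ContinuousOn (fun r => (D1 r * conj (D r)).re) (Icc 0 rb) := by
      refine Complex.continuous_re.comp_continuousOn ?_
      exact h7.mul (Complex.continuous_conj.comp_continuousOn h6)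
    have k3 : ContinuousOn (fun r => (I * ((b Q Q1 r * D1 r + lam * D r + sD r) * conj (S r))).re)
        (Icc 0 rb) := by
      refine Complex.continuous_re.comp_continuousOn ?_
      refine continuousOn_const.mul (ContinuousOn.mul ?_
        (Complex.continuous_conj.comp_continuousOn h4))
      have : ContinuousOn (fun r => ((b Q Q1 r : ℝ) : ℂ)) (Icc 0 rb) :=
        Complex.continuous_ofReal.comp_continuousOn h3
      fun_prop
    have k4 : ContinuousOn (fun r => (I * ((b Q Q1 r * S1 r + lam * S r + sS r) * conj (D r))).re)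
        (Icc 0 rb) := by
      refine Complex.continuous_re.comp_continuousOn ?_
      refine continuousOn_const.mul (ContinuousOn.mul ?_
        (Complex.continuous_conj.comp_continuousOn h6))
      have : ContinuousOn (fun r => ((b Q Q1 r : ℝ) : ℂ)) (Icc 0 rb) :=
        Complex.continuous_ofReal.comp_continuousOn h3
      fun_prop
    simp only [hf]
    fun_prop
  have hcΦ : ContinuousOn Φ (Icc 0 rb) := by
    have h1 := h.cw
    have h4 := h.cS
    have h5 := h.cS1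
    have h6 := h.cD
    have h7 := h.cD1
    refine Complex.continuous_re.comp_continuousOn ?_
    have hw : ContinuousOn (fun r => ((w Q r : ℝ) : ℂ)) (Icc 0 rb) :=
        Complex.continuous_ofReal.comp_continuousOn h1
    have hx : ContinuousOn (fun r : ℝ => (((rb - r) ^ 2 : ℝ) : ℂ)) (Icc 0 rb) :=
        Complex.continuous_ofReal.comp_continuousOn (by fun_prop)
    exact (hx.mul ((hw.mul h5).mul (Complex.continuous_conj.comp_continuousOn h4))).add
      (hx.mul ((hw.mul h7).mul (Complex.continuous_conj.comp_continuousOn h6)))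
  have hint : IntervalIntegrable f volume 0 rb :=
    (hcf.mono (by rw [uIcc_of_le h.rb0.le])).intervalIntegrable
  have hftc : ∫ r in (0:ℝ)..rb, f r = 0 := by
    rw [intervalIntegral.integral_eq_sub_of_hasDerivAt_of_le h.rb0.le hcΦ hd hint]
    simp [hΦ, w]
  have key : ∀ r ∈ Icc 0 rb, (1 / 2) * ((rb - r) ^ 2 * ed Q P kap n S S1 D D1 r)
      - (100 * (1 + B ^ 2 + L)) * (nd Q S D r + nd Q sS sD r) ≤ f r := by
    intro r hr
    have hw0 := w_nonneg Q hr.1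
    have hed : w Q r * (‖S1 r‖ ^ 2 + ‖D1 r‖ ^ 2) ≤ ed Q P kap n S S1 D D1 r := by
      have h2 := h.P0 r hr
      have h3 := h.kap0
      have h4 := h.n0
      have h5 := hr.1
      unfold ed
      have : 0 ≤ kap * (‖Q r‖ ^ 2 * r ^ 9) * (‖S r‖ ^ 2 + ‖D r‖ ^ 2)
        + n * P r * w Q r * ‖S r‖ ^ 2 := by positivity
      linarith
    have hx0 : 0 ≤ rb - r := by linarith [hr.2]
    have hx8 : (rb - r) ^ 2 ≤ 64 := by
      have : rb - r ≤ 8 := by linarith [hr.1]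
      nlinarith
    have hx2 : 0 ≤ (rb - r) ^ 2 := sq_nonneg _
    have a1 := abs_le.1 (re_le_mul (S1 r) (S r))
    have a2 := abs_le.1 (re_le_mul (D1 r) (D r))
    have bnd : ∀ (u v x y : ℂ), |(I * ((b Q Q1 r * u + lam * v + x) * conj y)).re| ≤
        (B * ‖u‖ + L * ‖v‖ + ‖x‖) * ‖y‖ := by
      intro u v x y
      calc |(I * ((b Q Q1 r * u + lam * v + x) * conj y)).re|
          ≤ ‖I * ((b Q Q1 r * u + lam * v + x) * conj y)‖ := Complex.abs_re_le_norm _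
        _ = ‖(b Q Q1 r : ℂ) * u + lam * v + x‖ * ‖y‖ := by
            rw [norm_mul, norm_mul, Complex.norm_conj, Complex.norm_I, one_mul]
        _ ≤ (B * ‖u‖ + L * ‖v‖ + ‖x‖) * ‖y‖ := by
            refine mul_le_mul_of_nonneg_right ?_ (norm_nonneg _)
            calc ‖(b Q Q1 r : ℂ) * u + lam * v + x‖
                ≤ ‖(b Q Q1 r : ℂ) * u‖ + ‖lam * v‖ + ‖x‖ := norm_add₃_le
              _ ≤ _ := by
                  rw [norm_mul, norm_mul, Complex.norm_real, Real.norm_eq_abs]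
                  have := hB r hr
                  gcongr
    have a3 := abs_le.1 (bnd (D1 r) (D r) (sD r) (S r))
    have a4 := abs_le.1 (bnd (S1 r) (S r) (sS r) (D r))
    have hk := key_real (X := rb - r) (W := w Q r) hw0 hx0 hx8 hB0 hL0 a1.2 a2.2
      (q := (I * ((b Q Q1 r * D1 r + lam * D r + sD r) * conj (S r))).re
        + (I * ((b Q Q1 r * S1 r + lam * S r + sS r) * conj (D r))).re)
      (add_le_add a3.2 a4.2) hed
    simp only [hf, nd]
    exact hk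
  have hI1 : IntervalIntegrable (fun r => (1 / 2) * ((rb - r) ^ 2 * ed Q P kap n S S1 D D1 r)
      - (100 * (1 + B ^ 2 + L)) * (nd Q S D r + nd Q sS sD r)) volume 0 rb := by
    refine ContinuousOn.intervalIntegrable ?_
    rw [uIcc_of_le h.rb0.le]
    have h2 := h.c_ed
    have h3 := h.c_nd
    have h4 := h.c_nds
    fun_prop
  have hle := intervalIntegral.integral_mono_on h.rb0.le hI1 hint key
  have hI2 : IntervalIntegrable (fun r => (1 / 2) * ((rb - r) ^ 2 * ed Q P kap n S S1 D D1 r))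
      volume 0 rb := by
    refine ContinuousOn.intervalIntegrable ?_
    rw [uIcc_of_le h.rb0.le]
    have h2 := h.c_ed
    fun_prop
  have hI3 : IntervalIntegrable (fun r => (100 * (1 + B ^ 2 + L)) * (nd Q S D r + nd Q sS sD r))
      volume 0 rb := by
    refine ContinuousOn.intervalIntegrable ?_
    rw [uIcc_of_le h.rb0.le]
    have h3 := h.c_nd
    have h4 := h.c_nds
    fun_prop
  rw [hftc, intervalIntegral.integral_sub hI2 hI3, intervalIntegral.integral_const_mul,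
    intervalIntegral.integral_const_mul] at hle
  linarith

end Hyp

end Crest.Agent.R086.C4
end

-- ▼ part R086/C4b
section

/-!
Row 86 (S0114), Part C, C4: boundary relations at `R`, control of `D` inside, transport across
a short interval.
-/

set_option autoImplicit false

open Complex ComplexConjugate Set MeasureTheory

namespace Crest.Agent.R086.C4

open Crest.Agent.R086.CCore

theorem cs {a c : ℝ} (hac : a ≤ c) {f g : ℝ → ℝ} (hf : ContinuousOn f (Icc a c))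
    (hg : ContinuousOn g (Icc a c)) :
    (∫ r in a..c, f r * g r) ^ 2 ≤ (∫ r in a..c, f r ^ 2) * ∫ r in a..c, g r ^ 2 := by
  have i1 : IntervalIntegrable (fun r => f r ^ 2) volume a c :=
    ContinuousOn.intervalIntegrable (by rw [uIcc_of_le hac]; fun_prop)
  have i2 : IntervalIntegrable (fun r => f r * g r) volume a c :=
    ContinuousOn.intervalIntegrable (by rw [uIcc_of_le hac]; fun_prop)
  have i3 : IntervalIntegrable (fun r => g r ^ 2) volume a c :=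
    ContinuousOn.intervalIntegrable (by rw [uIcc_of_le hac]; fun_prop)
  have key : ∀ t : ℝ, 0 ≤ (∫ r in a..c, g r ^ 2) * (t * t) + (-2 * ∫ r in a..c, f r * g r) * t
      + ∫ r in a..c, f r ^ 2 := by
    intro t
    have h0 : 0 ≤ ∫ r in a..c, (f r - t * g r) ^ 2 :=
      intervalIntegral.integral_nonneg hac (fun r _ => sq_nonneg _)
    have h1 : ∫ r in a..c, (f r - t * g r) ^ 2 =
        (∫ r in a..c, f r ^ 2) - (2 * t) * (∫ r in a..c, f r * g r)
          + t ^ 2 * ∫ r in a..c, g r ^ 2 := by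
      rw [← intervalIntegral.integral_const_mul, ← intervalIntegral.integral_const_mul,
        ← intervalIntegral.integral_sub i1 (i2.const_mul _),
        ← intervalIntegral.integral_add (i1.sub (i2.const_mul _)) (i3.const_mul _)]
      congr 1
      funext r
      ring
    rw [h1] at h0
    nlinarith
  have h2 := discrim_le_zero key
  unfold discrim at h2
  nlinarith

/-- `∫ f ≤ sqrt(..)` form with a weight. -/
theorem cs_w {a c : ℝ} (hac : a ≤ c) {W f : ℝ → ℝ} (hW : ContinuousOn W (Icc a c))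
    (hf : ContinuousOn f (Icc a c)) (hW0 : ∀ r ∈ Icc a c, 0 ≤ W r) :
    (∫ r in a..c, W r * f r) ≤ Real.sqrt (∫ r in a..c, W r)
      * Real.sqrt (∫ r in a..c, W r * f r ^ 2) := by
  have h1 := cs hac (f := fun r => Real.sqrt (W r)) (g := fun r => Real.sqrt (W r) * f r)
    (Real.continuous_sqrt.comp_continuousOn hW)
    ((Real.continuous_sqrt.comp_continuousOn hW).mul hf)
  have e1 : ∫ r in a..c, Real.sqrt (W r) * (Real.sqrt (W r) * f r) = ∫ r in a..c, W r * f r := by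
    refine intervalIntegral.integral_congr ?_
    intro r hr
    rw [uIcc_of_le hac] at hr
    simp only
    rw [← mul_assoc, Real.mul_self_sqrt (hW0 r hr)]
  have e2 : ∫ r in a..c, Real.sqrt (W r) ^ 2 = ∫ r in a..c, W r := by
    refine intervalIntegral.integral_congr ?_
    intro r hr
    rw [uIcc_of_le hac] at hr
    simp only
    rw [Real.sq_sqrt (hW0 r hr)]
  have e3 : ∫ r in a..c, (Real.sqrt (W r) * f r) ^ 2 = ∫ r in a..c, W r * f r ^ 2 := by
    refine intervalIntegral.integral_congr ?_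
    intro r hr
    rw [uIcc_of_le hac] at hr
    simp only
    rw [mul_pow, Real.sq_sqrt (hW0 r hr)]
  rw [e1, e2, e3] at h1
  have hA : 0 ≤ ∫ r in a..c, W r :=
    intervalIntegral.integral_nonneg hac hW0
  have h3 := Real.le_sqrt_of_sq_le h1
  rwa [Real.sqrt_mul hA] at h3

namespace Hyp

variable {rb : ℝ} {Q Q1 : ℝ → ℂ} {P : ℝ → ℝ} {kap n eps : ℝ} {lam : ℂ}
  {S S1 D D1 sS sD : ℝ → ℂ}

/-- FTC bound: `‖u c - u a‖^2 ≤ (c-a) ∫ ‖u1‖^2`. -/
theorem diff_sq {a c : ℝ} (hac : a ≤ c) {u u1 : ℝ → ℂ} (hu : ContinuousOn u (Icc a c))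
    (hu1 : ContinuousOn u1 (Icc a c)) (hd : ∀ r ∈ Ioo a c, HasDerivAt u (u1 r) r) :
    ‖u c - u a‖ ^ 2 ≤ (c - a) * ∫ r in a..c, ‖u1 r‖ ^ 2 := by
  have i1 : IntervalIntegrable u1 volume a c :=
    ContinuousOn.intervalIntegrable (by rw [uIcc_of_le hac]; exact hu1)
  have h1 := intervalIntegral.integral_eq_sub_of_hasDerivAt_of_le hac hu hd i1
  have h2 : ‖u c - u a‖ ≤ ∫ r in a..c, ‖u1 r‖ := by
    rw [← h1]
    exact intervalIntegral.norm_integral_le_integral_norm hac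
  have h3 := cs hac (f := fun _ => (1:ℝ)) (g := fun r => ‖u1 r‖) continuousOn_const hu1.norm
  simp only [one_mul, one_pow, intervalIntegral.integral_const, smul_eq_mul, mul_one] at h3
  calc ‖u c - u a‖ ^ 2 ≤ (∫ r in a..c, ‖u1 r‖) ^ 2 :=
        pow_le_pow_left₀ (norm_nonneg _) h2 2
    _ ≤ _ := h3

/-- value of `u` at `R` controlled by `∫ ‖u'‖²` on `[a,R]` and the `L²` norm on `[a,c]`. -/
theorem at_bound {a c R : ℝ} (hac : a < c) (hcR : c ≤ R) {u u1 : ℝ → ℂ}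
    (hu : ContinuousOn u (Icc a R)) (hu1 : ContinuousOn u1 (Icc a R))
    (hd : ∀ r ∈ Ioo a R, HasDerivAt u (u1 r) r) :
    ‖u R‖ ^ 2 ≤ 2 * (R - a) * (∫ r in a..R, ‖u1 r‖ ^ 2)
      + (2 / (c - a)) * ∫ r in a..c, ‖u r‖ ^ 2 := by
  have haR : a ≤ R := by linarith
  set J := ∫ r in a..R, ‖u1 r‖ ^ 2 with hJ
  have hJ0 : 0 ≤ J := intervalIntegral.integral_nonneg haR (fun r _ => sq_nonneg _)
  have hpt : ∀ r ∈ Icc a c, ‖u R‖ ^ 2 ≤ 2 * (R - a) * J + 2 * ‖u r‖ ^ 2 := by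
    intro r hr
    have hrR : r ≤ R := hr.2.trans hcR
    have hsub2 : Icc r R ⊆ Icc a R := Icc_subset_Icc hr.1 le_rfl
    have h1 := diff_sq hrR (hu.mono hsub2) (hu1.mono hsub2) (fun x hx =>
      hd x ⟨by linarith [hx.1, hr.1], hx.2⟩)
    have h2 : ∫ x in r..R, ‖u1 x‖ ^ 2 ≤ J := by
      rw [hJ]
      refine intervalIntegral.integral_mono_interval hr.1 hrR le_rfl ?_ ?_
      · exact Filter.Eventually.of_forall (fun x => sq_nonneg _)
      · exact ContinuousOn.intervalIntegrable (by rw [uIcc_of_le haR]; fun_prop)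
    have h3 : ‖u R‖ ≤ ‖u R - u r‖ + ‖u r‖ := by
      calc ‖u R‖ = ‖(u R - u r) + u r‖ := by ring_nf
        _ ≤ _ := norm_add_le _ _
    have h4 : ‖u R‖ ^ 2 ≤ 2 * ‖u R - u r‖ ^ 2 + 2 * ‖u r‖ ^ 2 := by
      nlinarith [sq_nonneg (‖u R - u r‖ - ‖u r‖), norm_nonneg (u R), norm_nonneg (u r),
        norm_nonneg (u R - u r)]
    have h5 : ‖u R - u r‖ ^ 2 ≤ (R - a) * J := by
      refine h1.trans ?_
      have : 0 ≤ ∫ x in r..R, ‖u1 x‖ ^ 2 :=
        intervalIntegral.integral_nonneg hrR (fun x _ => sq_nonneg _)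
      exact mul_le_mul (by linarith [hr.1]) h2 this (by linarith)
    linarith
  have hsc : Icc a c ⊆ Icc a R := Icc_subset_Icc le_rfl hcR
  have hcw : ContinuousOn (fun r => ‖u r‖ ^ 2) (Icc a c) := by
    have h2 := hu.mono hsc
    fun_prop
  have icw : IntervalIntegrable (fun r => ‖u r‖ ^ 2) volume a c :=
    ContinuousOn.intervalIntegrable (by rw [uIcc_of_le hac.le]; exact hcw)
  have ic0 : IntervalIntegrable (fun _ : ℝ => 2 * (R - a) * J) volume a c :=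
    intervalIntegrable_const
  have ic1 : IntervalIntegrable (fun _ : ℝ => ‖u R‖ ^ 2) volume a c :=
    intervalIntegrable_const
  have hint := intervalIntegral.integral_mono_on hac.le ic1 (ic0.add (icw.const_mul 2)) hpt
  rw [intervalIntegral.integral_const, intervalIntegral.integral_add ic0 (icw.const_mul _),
    intervalIntegral.integral_const, intervalIntegral.integral_const_mul] at hint
  simp only [smul_eq_mul] at hint
  have hca : 0 < c - a := by linarith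
  rw [div_mul_eq_mul_div, ← sub_le_iff_le_add']
  rw [le_div_iff₀ hca]
  nlinarith

/-- pointwise: `‖S1‖², ‖D1‖² ≤ 4 ed`, `r ≥ 1` -/
theorem s1_le (h : Hyp rb Q Q1 P kap n eps lam S S1 D D1 sS sD) {r : ℝ} (h1 : 1 ≤ r)
    (hr : r ≤ rb) : ‖S1 r‖ ^ 2 + ‖D1 r‖ ^ 2 ≤ 4 * ed Q P kap n S S1 D D1 r := by
  have hr' : r ∈ Icc 0 rb := ⟨by linarith, hr⟩
  have h3 : w Q r * (‖S1 r‖ ^ 2 + ‖D1 r‖ ^ 2) ≤ ed Q P kap n S S1 D D1 r := by
    have h2 := h.P0 r hr'
    have h3 := h.kap0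
    have h4 := h.n0
    have h5 := hr'.1
    have h6 := w_nonneg Q h5
    unfold ed
    have : 0 ≤ kap * (‖Q r‖ ^ 2 * r ^ 9) * (‖S r‖ ^ 2 + ‖D r‖ ^ 2)
      + n * P r * w Q r * ‖S r‖ ^ 2 := by positivity
    linarith
  have h4 := h.wl hr'
  have h5 : (1 : ℝ) ≤ r ^ 11 := one_le_pow₀ h1
  have h6 : 0 ≤ ‖S1 r‖ ^ 2 + ‖D1 r‖ ^ 2 := by positivity
  nlinarith

theorem s_le (h : Hyp rb Q Q1 P kap n eps lam S S1 D D1 sS sD) {r : ℝ} (h1 : 1 ≤ r)
    (hr : r ≤ rb) : ‖S r‖ ^ 2 + ‖D r‖ ^ 2 ≤ 4 * nd Q S D r := by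
  have hr' : r ∈ Icc 0 rb := ⟨by linarith, hr⟩
  have h4 := h.wl hr'
  have h5 : (1 : ℝ) ≤ r ^ 11 := one_le_pow₀ h1
  have h6 : 0 ≤ ‖S r‖ ^ 2 + ‖D r‖ ^ 2 := by positivity
  unfold nd
  nlinarith

end Hyp

end Crest.Agent.R086.C4
end

-- ▼ part R086/C4c

/-!
Row 86 (S0114), Part C, C4: uniform bounds for one eigen-system on `[0, 8]`.
-/

set_option autoImplicit false

open Complex ComplexConjugate Set MeasureTheory

namespace Crest.Agent.R086.C4

open Crest.Agent.R086.CCore Hyp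

/-- the uniform bounds used below -/
structure Bds (Q Q1 : ℝ → ℂ) (eps : ℝ) (lam : ℂ) (S D sS sD : ℝ → ℂ) (B L M : ℝ) : Prop where
  hB : ∀ r ∈ Icc (0 : ℝ) 8, |b Q Q1 r| ≤ B
  hL : ‖lam‖ ≤ L
  he : |eps| ≤ 1
  hM : ∫ r in (0:ℝ)..8, (nd Q S D r + nd Q sS sD r) ≤ M

/-- energy constant -/
noncomputable def Ec (B L M : ℝ) : ℝ := 50 * (1 + B ^ 2 + L) * M

theorem sub_int {f : ℝ → ℝ} {a c a' c' : ℝ} (hf : ContinuousOn f (Icc a' c'))
    (h0 : ∀ r ∈ Icc a' c', 0 ≤ f r) (h1 : a' ≤ a) (h2 : a ≤ c) (h3 : c ≤ c') :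
    ∫ r in a..c, f r ≤ ∫ r in a'..c', f r := by
  refine intervalIntegral.integral_mono_interval h1 h2 h3 ?_ ?_
  · rw [Filter.EventuallyLE, ae_restrict_iff' measurableSet_Ioc]
    exact Filter.Eventually.of_forall (fun x hx => h0 x ⟨hx.1.le, hx.2⟩)
  · exact ContinuousOn.intervalIntegrable (by rw [uIcc_of_le (h1.trans (h2.trans h3))]; exact hf)

theorem nd_nonneg (Q S D : ℝ → ℂ) {r : ℝ} (hr : 0 ≤ r) : 0 ≤ nd Q S D r := by
  have := Hyp.w_nonneg Q hr
  unfold nd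
  positivity

namespace Hyp

variable {Q Q1 : ℝ → ℂ} {P : ℝ → ℝ} {kap n eps : ℝ} {lam : ℂ}
  {S S1 D D1 sS sD : ℝ → ℂ} {B L M : ℝ}

theorem B0 (hb : Bds Q Q1 eps lam S D sS sD B L M) : 0 ≤ B :=
  (abs_nonneg _).trans (hb.hB 0 (by norm_num))

theorem L0 (hb : Bds Q Q1 eps lam S D sS sD B L M) : 0 ≤ L := (norm_nonneg _).trans hb.hL

theorem M0 (_h : Hyp 8 Q Q1 P kap n eps lam S S1 D D1 sS sD)
    (hb : Bds Q Q1 eps lam S D sS sD B L M) : 0 ≤ M := by
  refine le_trans ?_ hb.hM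
  refine intervalIntegral.integral_nonneg (by norm_num) (fun r hr => ?_)
  exact add_nonneg (nd_nonneg Q S D hr.1) (nd_nonneg Q sS sD hr.1)

theorem E0 (h : Hyp 8 Q Q1 P kap n eps lam S S1 D D1 sS sD)
    (hb : Bds Q Q1 eps lam S D sS sD B L M) : 0 ≤ Ec B L M := by
  have h1 := h.M0 hb
  have h2 := L0 hb
  unfold Ec
  positivity

theorem nd_int (h : Hyp 8 Q Q1 P kap n eps lam S S1 D D1 sS sD)
    (hb : Bds Q Q1 eps lam S D sS sD B L M) {a c : ℝ} (ha : 0 ≤ a) (hac : a ≤ c) (hc : c ≤ 8) :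
    ∫ r in a..c, nd Q S D r ≤ M := by
  refine le_trans ?_ hb.hM
  have i1 : IntervalIntegrable (nd Q S D) volume 0 8 :=
    ContinuousOn.intervalIntegrable (by rw [uIcc_of_le (by norm_num)]; exact h.c_nd)
  have i2 : IntervalIntegrable (nd Q sS sD) volume 0 8 :=
    ContinuousOn.intervalIntegrable (by rw [uIcc_of_le (by norm_num)]; exact h.c_nds)
  rw [intervalIntegral.integral_add i1 i2]
  have h1 := sub_int h.c_nd (fun r hr => nd_nonneg Q S D hr.1) ha hac hc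
  have h2 : 0 ≤ ∫ r in (0:ℝ)..8, nd Q sS sD r :=
    intervalIntegral.integral_nonneg (by norm_num) (fun r hr => nd_nonneg Q sS sD hr.1)
  linarith

theorem nds_int (h : Hyp 8 Q Q1 P kap n eps lam S S1 D D1 sS sD)
    (hb : Bds Q Q1 eps lam S D sS sD B L M) {a c : ℝ} (ha : 0 ≤ a) (hac : a ≤ c) (hc : c ≤ 8) :
    ∫ r in a..c, nd Q sS sD r ≤ M := by
  refine le_trans ?_ hb.hM
  have i1 : IntervalIntegrable (nd Q S D) volume 0 8 :=
    ContinuousOn.intervalIntegrable (by rw [uIcc_of_le (by norm_num)]; exact h.c_nd)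
  have i2 : IntervalIntegrable (nd Q sS sD) volume 0 8 :=
    ContinuousOn.intervalIntegrable (by rw [uIcc_of_le (by norm_num)]; exact h.c_nds)
  rw [intervalIntegral.integral_add i1 i2]
  have h1 := sub_int h.c_nds (fun r hr => nd_nonneg Q sS sD hr.1) ha hac hc
  have h2 : 0 ≤ ∫ r in (0:ℝ)..8, nd Q S D r :=
    intervalIntegral.integral_nonneg (by norm_num) (fun r hr => nd_nonneg Q S D hr.1)
  linarith

/-- energy on `[a,c] ⊆ [0,6]` -/
theorem e6 (h : Hyp 8 Q Q1 P kap n eps lam S S1 D D1 sS sD)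
    (hb : Bds Q Q1 eps lam S D sS sD B L M) {a c : ℝ} (ha : 0 ≤ a) (hac : a ≤ c) (hc : c ≤ 6) :
    ∫ r in a..c, ed Q P kap n S S1 D D1 r ≤ Ec B L M := by
  have h1 := h.energy (le_refl 8) hb.hB hb.hL
  have hsub : Icc (0:ℝ) 6 ⊆ Icc 0 8 := Icc_subset_Icc le_rfl (by norm_num)
  have hed0 : ∀ r ∈ Icc (0:ℝ) 6, 0 ≤ ed Q P kap n S S1 D D1 r := fun r hr =>
    h.ed_nonneg (hsub hr)
  have h2 := sub_int (h.c_ed.mono hsub) hed0 ha hac hc
  have c1 : ContinuousOn (fun r : ℝ => (8 - r) ^ 2 * ed Q P kap n S S1 D D1 r) (Icc 0 8) := by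
    have := h.c_ed
    fun_prop
  have h3 : ∫ r in (0:ℝ)..6, (8 - r) ^ 2 * ed Q P kap n S S1 D D1 r ≤
      ∫ r in (0:ℝ)..8, (8 - r) ^ 2 * ed Q P kap n S S1 D D1 r :=
    sub_int c1 (fun r hr => mul_nonneg (sq_nonneg _) (h.ed_nonneg hr)) le_rfl (by norm_num)
      (by norm_num)
  have h4 : 4 * ∫ r in (0:ℝ)..6, ed Q P kap n S S1 D D1 r ≤
      ∫ r in (0:ℝ)..6, (8 - r) ^ 2 * ed Q P kap n S S1 D D1 r := by
    rw [← intervalIntegral.integral_const_mul]
    refine intervalIntegral.integral_mono_on (by norm_num) ?_ ?_ ?_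
    · exact ContinuousOn.intervalIntegrable (by
        rw [uIcc_of_le (by norm_num)]; exact continuousOn_const.mul (h.c_ed.mono hsub))
    · exact ContinuousOn.intervalIntegrable (by
        rw [uIcc_of_le (by norm_num)]; exact c1.mono hsub)
    · intro r hr
      have h5 := hed0 r hr
      have h6 : 4 ≤ (8 - r) ^ 2 := by nlinarith [hr.2]
      exact mul_le_mul_of_nonneg_right h6 h5
  have h7 : (200 * (1 + B ^ 2 + L)) * (∫ r in (0:ℝ)..8, (nd Q S D r + nd Q sS sD r)) ≤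
      (200 * (1 + B ^ 2 + L)) * M := by
    refine mul_le_mul_of_nonneg_left hb.hM ?_
    have := L0 hb
    positivity
  unfold Ec
  linarith

/-- `∫ ‖S1‖² + ‖D1‖² ≤ 4 E` on `[a,c] ⊆ [1,6]` -/
theorem d_int (h : Hyp 8 Q Q1 P kap n eps lam S S1 D D1 sS sD)
    (hb : Bds Q Q1 eps lam S D sS sD B L M) {a c : ℝ} (ha : 1 ≤ a) (hac : a ≤ c) (hc : c ≤ 6) :
    (∫ r in a..c, ‖S1 r‖ ^ 2) ≤ 4 * Ec B L M ∧ (∫ r in a..c, ‖D1 r‖ ^ 2) ≤ 4 * Ec B L M := by
  have h0 := h.e6 hb (by linarith : (0:ℝ) ≤ a) hac hc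
  have hsub : Icc a c ⊆ Icc (0:ℝ) 8 := Icc_subset_Icc (by linarith) (by linarith)
  have cS1 := h.cS1.mono hsub
  have cD1 := h.cD1.mono hsub
  have ie : IntervalIntegrable (fun r => 4 * ed Q P kap n S S1 D D1 r) volume a c :=
    ContinuousOn.intervalIntegrable (by
      rw [uIcc_of_le hac]; exact continuousOn_const.mul (h.c_ed.mono hsub))
  have key : ∫ r in a..c, 4 * ed Q P kap n S S1 D D1 r ≤ 4 * Ec B L M := by
    rw [intervalIntegral.integral_const_mul]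
    linarith
  refine ⟨le_trans (intervalIntegral.integral_mono_on hac ?_ ie ?_) key,
    le_trans (intervalIntegral.integral_mono_on hac ?_ ie ?_) key⟩
  · exact ContinuousOn.intervalIntegrable (by rw [uIcc_of_le hac]; fun_prop)
  · intro r hr
    have := h.s1_le (ha.trans hr.1) (by linarith [hr.2] : r ≤ 8)
    nlinarith [sq_nonneg ‖D1 r‖]
  · exact ContinuousOn.intervalIntegrable (by rw [uIcc_of_le hac]; fun_prop)
  · intro r hr
    have := h.s1_le (ha.trans hr.1) (by linarith [hr.2] : r ≤ 8)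
    nlinarith [sq_nonneg ‖S1 r‖]

/-- `∫ ‖S‖² , ∫ ‖D‖² ≤ 4 M` on `[a,c] ⊆ [1,8]` -/
theorem l_int (h : Hyp 8 Q Q1 P kap n eps lam S S1 D D1 sS sD)
    (hb : Bds Q Q1 eps lam S D sS sD B L M) {a c : ℝ} (ha : 1 ≤ a) (hac : a ≤ c) (hc : c ≤ 8) :
    (∫ r in a..c, ‖S r‖ ^ 2) ≤ 4 * M ∧ (∫ r in a..c, ‖D r‖ ^ 2) ≤ 4 * M := by
  have h0 := h.nd_int hb (by linarith : (0:ℝ) ≤ a) hac hc
  have hsub : Icc a c ⊆ Icc (0:ℝ) 8 := Icc_subset_Icc (by linarith) (by linarith)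
  have cS := h.cS.mono hsub
  have cD := h.cD.mono hsub
  have ie : IntervalIntegrable (fun r => 4 * nd Q S D r) volume a c :=
    ContinuousOn.intervalIntegrable (by
      rw [uIcc_of_le hac]; exact continuousOn_const.mul (h.c_nd.mono hsub))
  have key : ∫ r in a..c, 4 * nd Q S D r ≤ 4 * M := by
    rw [intervalIntegral.integral_const_mul]
    linarith
  refine ⟨le_trans (intervalIntegral.integral_mono_on hac ?_ ie ?_) key,
    le_trans (intervalIntegral.integral_mono_on hac ?_ ie ?_) key⟩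
  · exact ContinuousOn.intervalIntegrable (by rw [uIcc_of_le hac]; fun_prop)
  · intro r hr
    have := h.s_le (ha.trans hr.1) (by linarith [hr.2] : r ≤ 8)
    nlinarith [sq_nonneg ‖D r‖]
  · exact ContinuousOn.intervalIntegrable (by rw [uIcc_of_le hac]; fun_prop)
  · intro r hr
    have := h.s_le (ha.trans hr.1) (by linarith [hr.2] : r ≤ 8)
    nlinarith [sq_nonneg ‖S r‖]

/-- Hölder continuity of `S`, `D` on `[1,6]`. -/
theorem hold (h : Hyp 8 Q Q1 P kap n eps lam S S1 D D1 sS sD)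
    (hb : Bds Q Q1 eps lam S D sS sD B L M) {a c : ℝ} (ha : 1 ≤ a) (hac : a ≤ c) (hc : c ≤ 6) :
    ‖S c - S a‖ ^ 2 ≤ (c - a) * (4 * Ec B L M) ∧ ‖D c - D a‖ ^ 2 ≤ (c - a) * (4 * Ec B L M) := by
  have h0 := h.d_int hb ha hac hc
  have hsub : Icc a c ⊆ Icc (0:ℝ) 8 := Icc_subset_Icc (by linarith) (by linarith)
  have hs : ∀ r ∈ Ioo a c, r ∈ Ioo (0:ℝ) 8 := fun r hr =>
    ⟨by linarith [hr.1], by linarith [hr.2]⟩
  have hca : 0 ≤ c - a := by linarith
  exact ⟨(diff_sq hac (h.cS.mono hsub) (h.cS1.mono hsub) (fun r hr => (h.sys r (hs r hr)).hS)).trans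
      (mul_le_mul_of_nonneg_left h0.1 hca),
    (diff_sq hac (h.cD.mono hsub) (h.cD1.mono hsub) (fun r hr => (h.sys r (hs r hr)).hD)).trans
      (mul_le_mul_of_nonneg_left h0.2 hca)⟩

/-- pointwise bound of `S`, `D` on `[2,6]`. -/
theorem pt (h : Hyp 8 Q Q1 P kap n eps lam S S1 D D1 sS sD)
    (hb : Bds Q Q1 eps lam S D sS sD B L M) {r : ℝ} (hr2 : 2 ≤ r) (hr6 : r ≤ 6) :
    ‖S r‖ ^ 2 ≤ 8 * (Ec B L M + M) ∧ ‖D r‖ ^ 2 ≤ 8 * (Ec B L M + M) := by
  have hsub : Icc (r - 1) r ⊆ Icc (0:ℝ) 8 := Icc_subset_Icc (by linarith) (by linarith)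
  have hs : ∀ x ∈ Ioo (r - 1) r, x ∈ Ioo (0:ℝ) 8 := fun x hx =>
    ⟨by linarith [hx.1], by linarith [hx.2]⟩
  have h1 := h.d_int hb (by linarith : 1 ≤ r - 1) (by linarith) hr6
  have h2 := h.l_int hb (by linarith : 1 ≤ r - 1) (by linarith) (by linarith : r ≤ 8)
  have a1 := at_bound (a := r - 1) (c := r) (R := r) (by linarith) le_rfl
    (h.cS.mono hsub) (h.cS1.mono hsub) (fun x hx => (h.sys x (hs x hx)).hS)
  have a2 := at_bound (a := r - 1) (c := r) (R := r) (by linarith) le_rfl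
    (h.cD.mono hsub) (h.cD1.mono hsub) (fun x hx => (h.sys x (hs x hx)).hD)
  have e : r - (r - 1) = 1 := by ring
  rw [e] at a1 a2
  constructor
  · linarith [h1.1, h2.1]
  · linarith [h1.2, h2.2]

/-- `S(R)` is small when `P ≥ c` inside. -/
theorem S_R (h : Hyp 8 Q Q1 P kap n eps lam S S1 D D1 sS sD)
    (hb : Bds Q Q1 eps lam S D sS sD B L M) {R d c : ℝ} (hR : 2 ≤ R) (hR6 : R ≤ 6) (hd : 0 < d)
    (hd2 : d ≤ 1 / 2) (hc : 0 < c) (hn : 0 < n) (hP : ∀ r ∈ Icc 0 (R - d), c ≤ P r) :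
    ‖S R‖ ^ 2 ≤ 16 * d * Ec B L M + 8 / (d * (n * c)) * Ec B L M := by
  have hsub : Icc (R - 2 * d) R ⊆ Icc (0:ℝ) 8 := Icc_subset_Icc (by linarith) (by linarith)
  have hs : ∀ x ∈ Ioo (R - 2 * d) R, x ∈ Ioo (0:ℝ) 8 := fun x hx =>
    ⟨by linarith [hx.1], by linarith [hx.2]⟩
  have h1 := h.d_int hb (by linarith : 1 ≤ R - 2 * d) (by linarith) hR6
  have a1 := at_bound (a := R - 2 * d) (c := R - d) (R := R) (by linarith) (by linarith)
    (h.cS.mono hsub) (h.cS1.mono hsub) (fun x hx => (h.sys x (hs x hx)).hS)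
  have e : R - (R - 2 * d) = 2 * d := by ring
  have e' : R - d - (R - 2 * d) = d := by ring
  rw [e, e'] at a1
  have h2 : ∫ r in (R - 2 * d)..(R - d), ‖S r‖ ^ 2 ≤ 4 / (n * c) * Ec B L M := by
    have h0 := h.e6 hb (by linarith : (0:ℝ) ≤ R - 2 * d) (by linarith : R - 2 * d ≤ R - d)
      (by linarith)
    have hsub' : Icc (R - 2 * d) (R - d) ⊆ Icc (0:ℝ) 8 :=
      Icc_subset_Icc (by linarith) (by linarith)
    have hle : R - 2 * d ≤ R - d := by linarith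
    have cS := h.cS.mono hsub'
    have key : ∫ r in (R - 2 * d)..(R - d), ‖S r‖ ^ 2 ≤
        ∫ r in (R - 2 * d)..(R - d), 4 / (n * c) * ed Q P kap n S S1 D D1 r := by
      refine intervalIntegral.integral_mono_on hle ?_ ?_ ?_
      · exact ContinuousOn.intervalIntegrable (by rw [uIcc_of_le hle]; fun_prop)
      · exact ContinuousOn.intervalIntegrable (by
          rw [uIcc_of_le hle]; exact continuousOn_const.mul (h.c_ed.mono hsub'))
      · intro r hr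
        have hr1 : 1 ≤ r := by linarith [hr.1]
        have hr' : r ∈ Icc (0:ℝ) 8 := hsub' hr
        have h5 : (1 : ℝ) ≤ r ^ 11 := one_le_pow₀ hr1
        have hw1 : 1 / 4 ≤ w Q r := by linarith [h.wl hr']
        have hPr : c ≤ P r := hP r ⟨by linarith, hr.2⟩
        have h6 : n * P r * w Q r * ‖S r‖ ^ 2 ≤ ed Q P kap n S S1 D D1 r := by
          have h3 := h.kap0
          have h5 := hr'.1
          have h6 := w_nonneg Q h5
          unfold ed
          have : 0 ≤ w Q r * (‖S1 r‖ ^ 2 + ‖D1 r‖ ^ 2)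
            + kap * (‖Q r‖ ^ 2 * r ^ 9) * (‖S r‖ ^ 2 + ‖D r‖ ^ 2) := by positivity
          linarith
        have h7 : n * c / 4 * ‖S r‖ ^ 2 ≤ n * P r * w Q r * ‖S r‖ ^ 2 := by
          refine mul_le_mul_of_nonneg_right ?_ (sq_nonneg _)
          have : n * c ≤ n * P r := mul_le_mul_of_nonneg_left hPr hn.le
          have h8 : 0 ≤ n * P r := le_trans (by positivity) this
          nlinarith
        have h8 : ‖S r‖ ^ 2 = 4 / (n * c) * (n * c / 4 * ‖S r‖ ^ 2) := by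
          field_simp
        rw [h8]
        exact mul_le_mul_of_nonneg_left (h7.trans h6) (by positivity)
    refine key.trans ?_
    rw [intervalIntegral.integral_const_mul]
    exact mul_le_mul_of_nonneg_left h0 (by positivity)
  have h3 : 2 / d * ∫ r in (R - 2 * d)..(R - d), ‖S r‖ ^ 2 ≤ 2 / d * (4 / (n * c) * Ec B L M) :=
    mul_le_mul_of_nonneg_left h2 (by positivity)
  have h4 : 2 / d * (4 / (n * c) * Ec B L M) = 8 / (d * (n * c)) * Ec B L M := by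
    field_simp
    ring
  have h5 : 2 * (2 * d) * (∫ r in (R - 2 * d)..R, ‖S1 r‖ ^ 2) ≤ 2 * (2 * d) * (4 * Ec B L M) :=
    mul_le_mul_of_nonneg_left h1.1 (by positivity)
  linarith

/-- `∫_0^R w ‖S‖²` is small when `P ≥ c` inside. -/
theorem S_L2 (h : Hyp 8 Q Q1 P kap n eps lam S S1 D D1 sS sD)
    (hb : Bds Q Q1 eps lam S D sS sD B L M) {R d c : ℝ} (hR : 3 ≤ R) (hR6 : R ≤ 6) (hd : 0 < d)
    (hd2 : d ≤ 1 / 2) (hc : 0 < c) (hn : 0 < n) (hP : ∀ r ∈ Icc 0 (R - d), c ≤ P r) :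
    ∫ r in (0:ℝ)..R, w Q r * ‖S r‖ ^ 2 ≤
      1 / (n * c) * Ec B L M + d * (4 * 8 ^ 11 * (8 * (Ec B L M + M))) := by
  have c0 : ContinuousOn (fun r => w Q r * ‖S r‖ ^ 2) (Icc (0:ℝ) 8) := by
    have h1 := h.cw
    have h2 := h.cS
    fun_prop
  have i1 : IntervalIntegrable (fun r => w Q r * ‖S r‖ ^ 2) volume 0 (R - d) :=
    ContinuousOn.intervalIntegrable (by
      rw [uIcc_of_le (by linarith)]; exact c0.mono (Icc_subset_Icc le_rfl (by linarith)))
  have i2 : IntervalIntegrable (fun r => w Q r * ‖S r‖ ^ 2) volume (R - d) R :=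
    ContinuousOn.intervalIntegrable (by
      rw [uIcc_of_le (by linarith)]; exact c0.mono (Icc_subset_Icc (by linarith) (by linarith)))
  rw [← intervalIntegral.integral_add_adjacent_intervals i1 i2]
  have h1 : ∫ r in (0:ℝ)..(R - d), w Q r * ‖S r‖ ^ 2 ≤ 1 / (n * c) * Ec B L M := by
    have h0 := h.e6 hb (le_refl (0:ℝ)) (by linarith : 0 ≤ R - d) (by linarith)
    have hsub' : Icc 0 (R - d) ⊆ Icc (0:ℝ) 8 := Icc_subset_Icc le_rfl (by linarith)
    have key : ∫ r in (0:ℝ)..(R - d), w Q r * ‖S r‖ ^ 2 ≤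
        ∫ r in (0:ℝ)..(R - d), 1 / (n * c) * ed Q P kap n S S1 D D1 r := by
      refine intervalIntegral.integral_mono_on (by linarith) i1 ?_ ?_
      · exact ContinuousOn.intervalIntegrable (by
          rw [uIcc_of_le (by linarith)]; exact continuousOn_const.mul (h.c_ed.mono hsub'))
      · intro r hr
        have hr' : r ∈ Icc (0:ℝ) 8 := hsub' hr
        have hPr : c ≤ P r := hP r hr
        have hw0 := w_nonneg Q hr'.1
        have h6 : n * P r * w Q r * ‖S r‖ ^ 2 ≤ ed Q P kap n S S1 D D1 r := by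
          have h3 := h.kap0
          have h5 := hr'.1
          unfold ed
          have : 0 ≤ w Q r * (‖S1 r‖ ^ 2 + ‖D1 r‖ ^ 2)
            + kap * (‖Q r‖ ^ 2 * r ^ 9) * (‖S r‖ ^ 2 + ‖D r‖ ^ 2) := by positivity
          linarith
        have h7 : n * c * (w Q r * ‖S r‖ ^ 2) ≤ n * P r * w Q r * ‖S r‖ ^ 2 := by
          have : n * c ≤ n * P r := mul_le_mul_of_nonneg_left hPr hn.le
          have h8 : 0 ≤ w Q r * ‖S r‖ ^ 2 := by positivity
          nlinarith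
        have h8 : w Q r * ‖S r‖ ^ 2 = 1 / (n * c) * (n * c * (w Q r * ‖S r‖ ^ 2)) := by
          field_simp
        rw [h8]
        exact mul_le_mul_of_nonneg_left (h7.trans h6) (by positivity)
    refine key.trans ?_
    rw [intervalIntegral.integral_const_mul]
    exact mul_le_mul_of_nonneg_left h0 (by positivity)
  have h2 : ∫ r in (R - d)..R, w Q r * ‖S r‖ ^ 2 ≤ d * (4 * 8 ^ 11 * (8 * (Ec B L M + M))) := by
    have ic : IntervalIntegrable (fun _ : ℝ => (4 * 8 ^ 11 * (8 * (Ec B L M + M)) : ℝ)) volume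
      (R - d) R := intervalIntegrable_const
    have key := intervalIntegral.integral_mono_on (by linarith : R - d ≤ R) i2 ic (fun r hr => by
      have hr' : r ∈ Icc (0:ℝ) 8 := ⟨by linarith [hr.1], by linarith [hr.2]⟩
      have hp := (h.pt hb (by linarith [hr.1] : 2 ≤ r) (by linarith [hr.2])).1
      have hw1 : w Q r ≤ 4 * 8 ^ 11 := by
        refine (h.wu hr').trans ?_
        have : r ^ 11 ≤ 8 ^ 11 := pow_le_pow_left₀ hr'.1 hr'.2 11
        linarith
      exact mul_le_mul hw1 hp (sq_nonneg _) (by positivity))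
    rw [intervalIntegral.integral_const] at key
    simp only [smul_eq_mul] at key
    have e : R - (R - d) = d := by ring
    rw [e] at key
    exact key
  linarith

end Hyp

end Crest.Agent.R086.C4
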