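import Crest.Agent.R086.C4c

-- ▼ part R086/C4d
section

/-!
Row 86 (S0114), Part C, C4: the boundary relation for `D'` at `R`, control of `D` inside, transport of
`w D'` across a short interval.
-/

set_option autoImplicit false

open Complex ComplexConjugate Set MeasureTheory

namespace Crest.Agent.R086.C4

open Crest.Agent.R086.CCore Hyp

theorem cs_abs {a c : ℝ} (hac : a ≤ c) {W f g : ℝ → ℝ} (hW : ContinuousOn W (Icc a c))
    (hf : ContinuousOn f (Icc a c)) (hg : ContinuousOn g (Icc a c))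
    (hW0 : ∀ r ∈ Icc a c, 0 ≤ W r) :
    (∫ r in a..c, W r * (f r * g r)) ≤ Real.sqrt (∫ r in a..c, W r * f r ^ 2)
      * Real.sqrt (∫ r in a..c, W r * g r ^ 2) := by
  have h1 := cs hac (f := fun r => Real.sqrt (W r) * f r) (g := fun r => Real.sqrt (W r) * g r)
    ((Real.continuous_sqrt.comp_continuousOn hW).mul hf)
    ((Real.continuous_sqrt.comp_continuousOn hW).mul hg)
  have e1 : ∫ r in a..c, Real.sqrt (W r) * f r * (Real.sqrt (W r) * g r) =
      ∫ r in a..c, W r * (f r * g r) := by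
    refine intervalIntegral.integral_congr ?_
    intro r hr
    rw [uIcc_of_le hac] at hr
    have := Real.mul_self_sqrt (hW0 r hr)
    simp only
    calc Real.sqrt (W r) * f r * (Real.sqrt (W r) * g r)
        = (Real.sqrt (W r) * Real.sqrt (W r)) * (f r * g r) := by ring
      _ = _ := by rw [this]
  have e2 : ∀ u : ℝ → ℝ, ∫ r in a..c, (Real.sqrt (W r) * u r) ^ 2 = ∫ r in a..c, W r * u r ^ 2 := by
    intro u
    refine intervalIntegral.integral_congr ?_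
    intro r hr
    rw [uIcc_of_le hac] at hr
    simp only
    rw [mul_pow, Real.sq_sqrt (hW0 r hr)]
  rw [e1, e2 f, e2 g] at h1
  have hA : 0 ≤ ∫ r in a..c, W r * f r ^ 2 :=
    intervalIntegral.integral_nonneg hac (fun r hr => mul_nonneg (hW0 r hr) (sq_nonneg _))
  have h3 := Real.le_sqrt_of_sq_le h1
  rwa [Real.sqrt_mul hA] at h3

theorem pow_aux1 (l : ℕ) {r : ℝ} (hr : r ≠ 0) : (l : ℝ) * r ^ (l - 1) = l * r ^ l / r := by
  rcases l with _ | m
  · simp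
  · simp only [Nat.add_sub_cancel]
    field_simp
    rw [pow_succ]

theorem pow_aux2 (l : ℕ) {r : ℝ} (hr : r ≠ 0) :
    HasDerivAt (fun r : ℝ => (l : ℝ) * r ^ (l - 1)) (l * (l - 1) * r ^ l / r ^ 2) r := by
  rcases l with _ | _ | k
  · simpa using hasDerivAt_const r (0 : ℝ)
  · simpa using hasDerivAt_const r (1 : ℝ)
  · have h := (hasDerivAt_pow (k + 1) r).const_mul (((k + 2 : ℕ) : ℝ))
    have e : k + 1 + 1 - 1 = k + 1 := by omega
    simp only [e]
    refine h.congr_deriv ?_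
    have e2 : k + 1 - 1 = k := by omega
    rw [e2]
    push_cast
    field_simp
    ring

namespace Hyp

variable {Q Q1 : ℝ → ℂ} {P : ℝ → ℝ} {kap n eps : ℝ} {lam : ℂ}
  {S S1 D D1 sS sD : ℝ → ℂ} {B L M : ℝ}

theorem w_le8 (h : Hyp 8 Q Q1 P kap n eps lam S S1 D D1 sS sD) {r : ℝ} (hr : r ∈ Icc (0:ℝ) 8) :
    w Q r ≤ 4 * 8 ^ 11 := by
  refine (h.wu hr).trans ?_
  have : r ^ 11 ≤ 8 ^ 11 := pow_le_pow_left₀ hr.1 hr.2 11
  linarith

theorem ofReal_w_cont (h : Hyp 8 Q Q1 P kap n eps lam S S1 D D1 sS sD) :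
    ContinuousOn (fun r => (w Q r : ℂ)) (Icc (0:ℝ) 8) :=
  Complex.continuous_ofReal.comp_continuousOn h.cw

theorem ofReal_b_cont (h : Hyp 8 Q Q1 P kap n eps lam S S1 D D1 sS sD) :
    ContinuousOn (fun r => (b Q Q1 r : ℂ)) (Icc (0:ℝ) 8) :=
  Complex.continuous_ofReal.comp_continuousOn h.cb

/-- Hölder continuity of `w D'` on `[2,6]`. -/
theorem holdw (h : Hyp 8 Q Q1 P kap n eps lam S S1 D D1 sS sD)
    (hb : Bds Q Q1 eps lam S D sS sD B L M) {a c : ℝ} (ha : 1 ≤ a) (hac : a ≤ c) (hc : c ≤ 6) :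
    ‖(w Q c : ℂ) * D1 c - (w Q a : ℂ) * D1 a‖ ^ 2 ≤
      (c - a) * (4 * (4 * 8 ^ 11) * ((kap ^ 2 + L ^ 2 + 1) * M + B ^ 2 * Ec B L M)) := by
  have hsub : Icc a c ⊆ Icc (0:ℝ) 8 := Icc_subset_Icc (by linarith) (by linarith)
  have hs : ∀ r ∈ Ioo a c, r ∈ Ioo (0:ℝ) 8 := fun r hr =>
    ⟨by linarith [hr.1], by linarith [hr.2]⟩
  have hB0 := B0 hb
  have hL0 := L0 hb
  have cw' := h.ofReal_w_cont.mono hsub
  have cb' := h.ofReal_b_cont.mono hsub
  have cS := h.cS.mono hsub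
  have cS1 := h.cS1.mono hsub
  have cD := h.cD.mono hsub
  have cD1 := h.cD1.mono hsub
  have csS := h.csS.mono hsub
  set g : ℝ → ℂ := fun r =>
    (w Q r : ℂ) * (kap / (r : ℂ) ^ 2 * D r - I * (b Q Q1 r * S1 r + lam * S r + sS r)) with hg
  have cg : ContinuousOn g (Icc a c) := by
    have hk : ContinuousOn (fun r : ℝ => (kap : ℂ) / (r : ℂ) ^ 2) (Icc a c) := by
      refine ContinuousOn.div continuousOn_const (by fun_prop) ?_
      intro r hr
      have : (r : ℂ) ≠ 0 := by exact_mod_cast (by linarith [hr.1] : (0:ℝ) < r).ne'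
      exact pow_ne_zero 2 this
    simp only [hg]
    fun_prop
  have h1 := diff_sq hac (u := fun r => (w Q r : ℂ) * D1 r) (u1 := g) (cw'.mul cD1) cg
    (fun r hr => (h.sys r (hs r hr)).hD1)
  have hca : 0 ≤ c - a := by linarith
  refine h1.trans (mul_le_mul_of_nonneg_left ?_ hca)
  have ce := h.c_ed.mono hsub
  have cn := h.c_nd.mono hsub
  have cns := h.c_nds.mono hsub
  have key : ∫ r in a..c, ‖g r‖ ^ 2 ≤ ∫ r in a..c, (4 * (4 * 8 ^ 11)) *
      ((kap ^ 2 + L ^ 2) * nd Q S D r + B ^ 2 * ed Q P kap n S S1 D D1 r + nd Q sS sD r) := by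
    refine intervalIntegral.integral_mono_on hac ?_ ?_ ?_
    · exact ContinuousOn.intervalIntegrable (by rw [uIcc_of_le hac]; fun_prop)
    · exact ContinuousOn.intervalIntegrable (by rw [uIcc_of_le hac]; fun_prop)
    · intro r hr
      have hr' := hsub hr
      have hr1 : 1 ≤ r := ha.trans hr.1
      have hw0 := w_nonneg Q hr'.1
      have hw8 := h.w_le8 hr'
      have n1 : ‖g r‖ ≤ w Q r * (kap * ‖D r‖ + B * ‖S1 r‖ + L * ‖S r‖ + ‖sS r‖) := by
        simp only [hg]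
        rw [norm_mul, Complex.norm_real, Real.norm_eq_abs, abs_of_nonneg hw0]
        refine mul_le_mul_of_nonneg_left ?_ hw0
        have e1 : ‖(kap : ℂ) / (r : ℂ) ^ 2 * D r‖ ≤ kap * ‖D r‖ := by
          rw [norm_mul]
          refine mul_le_mul_of_nonneg_right ?_ (norm_nonneg _)
          rw [norm_div, norm_pow, Complex.norm_real, Complex.norm_real, Real.norm_eq_abs,
            Real.norm_eq_abs, abs_of_nonneg h.kap0, abs_of_nonneg hr'.1]
          exact div_le_self h.kap0 (one_le_pow₀ hr1)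
        have e2 : ‖I * ((b Q Q1 r : ℂ) * S1 r + lam * S r + sS r)‖ ≤
            B * ‖S1 r‖ + L * ‖S r‖ + ‖sS r‖ := by
          rw [norm_mul, Complex.norm_I, one_mul]
          refine norm_add₃_le.trans ?_
          rw [norm_mul, norm_mul, Complex.norm_real, Real.norm_eq_abs]
          have := hb.hB r hr'
          have := hb.hL
          gcongr
        calc ‖(kap : ℂ) / (r : ℂ) ^ 2 * D r - I * ((b Q Q1 r : ℂ) * S1 r + lam * S r + sS r)‖
            ≤ ‖(kap : ℂ) / (r : ℂ) ^ 2 * D r‖ + ‖I * ((b Q Q1 r : ℂ) * S1 r + lam * S r + sS r)‖ :=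
              norm_sub_le _ _
          _ ≤ _ := by linarith
      have n2 : ‖g r‖ ^ 2 ≤ (w Q r * (kap * ‖D r‖ + B * ‖S1 r‖ + L * ‖S r‖ + ‖sS r‖)) ^ 2 :=
        pow_le_pow_left₀ (norm_nonneg _) n1 2
      have n3 : (kap * ‖D r‖ + B * ‖S1 r‖ + L * ‖S r‖ + ‖sS r‖) ^ 2 ≤
          4 * (kap ^ 2 * ‖D r‖ ^ 2 + B ^ 2 * ‖S1 r‖ ^ 2 + L ^ 2 * ‖S r‖ ^ 2 + ‖sS r‖ ^ 2) := by
        linarith [sq_nonneg (kap * ‖D r‖ - B * ‖S1 r‖), sq_nonneg (kap * ‖D r‖ - L * ‖S r‖),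
          sq_nonneg (kap * ‖D r‖ - ‖sS r‖), sq_nonneg (B * ‖S1 r‖ - L * ‖S r‖),
          sq_nonneg (B * ‖S1 r‖ - ‖sS r‖), sq_nonneg (L * ‖S r‖ - ‖sS r‖)]
      have hed : w Q r * (‖S1 r‖ ^ 2 + ‖D1 r‖ ^ 2) ≤ ed Q P kap n S S1 D D1 r := by
        have h2 := h.P0 r hr'
        have h3 := h.kap0
        have h4 := h.n0
        have h5 := hr'.1
        unfold ed
        have : 0 ≤ kap * (‖Q r‖ ^ 2 * r ^ 9) * (‖S r‖ ^ 2 + ‖D r‖ ^ 2)
          + n * P r * w Q r * ‖S r‖ ^ 2 := by positivity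
        linarith
      calc ‖g r‖ ^ 2 ≤ (w Q r * (kap * ‖D r‖ + B * ‖S1 r‖ + L * ‖S r‖ + ‖sS r‖)) ^ 2 := n2
        _ = w Q r * (w Q r * (kap * ‖D r‖ + B * ‖S1 r‖ + L * ‖S r‖ + ‖sS r‖) ^ 2) := by ring
        _ ≤ (4 * 8 ^ 11) * (w Q r * (4 * (kap ^ 2 * ‖D r‖ ^ 2 + B ^ 2 * ‖S1 r‖ ^ 2
              + L ^ 2 * ‖S r‖ ^ 2 + ‖sS r‖ ^ 2))) := by
            refine mul_le_mul hw8 (mul_le_mul_of_nonneg_left n3 hw0) ?_ (by norm_num)
            positivity
        _ ≤ _ := by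
            have m1 : w Q r * ‖S1 r‖ ^ 2 ≤ ed Q P kap n S S1 D D1 r := by
              have : 0 ≤ w Q r * ‖D1 r‖ ^ 2 := by positivity
              linarith
            have m2 : B ^ 2 * (w Q r * ‖S1 r‖ ^ 2) ≤ B ^ 2 * ed Q P kap n S S1 D D1 r :=
              mul_le_mul_of_nonneg_left m1 (sq_nonneg _)
            have m3 : 0 ≤ kap ^ 2 * (w Q r * ‖S r‖ ^ 2) := by positivity
            have m4 : 0 ≤ L ^ 2 * (w Q r * ‖D r‖ ^ 2) := by positivity
            have m5 : 0 ≤ w Q r * ‖sD r‖ ^ 2 := by positivity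
            have e : (4 * 8 ^ 11 : ℝ) * (w Q r * (4 * (kap ^ 2 * ‖D r‖ ^ 2 + B ^ 2 * ‖S1 r‖ ^ 2
              + L ^ 2 * ‖S r‖ ^ 2 + ‖sS r‖ ^ 2))) = (4 * (4 * 8 ^ 11)) *
              (kap ^ 2 * (w Q r * ‖D r‖ ^ 2) + B ^ 2 * (w Q r * ‖S1 r‖ ^ 2)
              + L ^ 2 * (w Q r * ‖S r‖ ^ 2) + w Q r * ‖sS r‖ ^ 2) := by ring
            rw [e]
            refine mul_le_mul_of_nonneg_left ?_ (by norm_num)
            unfold nd
            linarith
  refine key.trans ?_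
  have i1 : IntervalIntegrable (fun r => (kap ^ 2 + L ^ 2) * nd Q S D r) volume a c :=
    ContinuousOn.intervalIntegrable (by rw [uIcc_of_le hac]; fun_prop)
  have i2 : IntervalIntegrable (fun r => B ^ 2 * ed Q P kap n S S1 D D1 r) volume a c :=
    ContinuousOn.intervalIntegrable (by rw [uIcc_of_le hac]; fun_prop)
  have i3 : IntervalIntegrable (fun r => nd Q sS sD r) volume a c :=
    ContinuousOn.intervalIntegrable (by rw [uIcc_of_le hac]; fun_prop)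
  rw [intervalIntegral.integral_const_mul, intervalIntegral.integral_add (i1.add i2) i3,
    intervalIntegral.integral_add i1 i2, intervalIntegral.integral_const_mul,
    intervalIntegral.integral_const_mul]
  refine mul_le_mul_of_nonneg_left ?_ (by norm_num)
  have a1 := h.nd_int hb (by linarith : 0 ≤ a) hac (by linarith : c ≤ 8)
  have a2 := h.e6 hb (by linarith : 0 ≤ a) hac hc
  have a3 := h.nds_int hb (by linarith : 0 ≤ a) hac (by linarith : c ≤ 8)
  have b1 := mul_le_mul_of_nonneg_left a1 (by positivity : 0 ≤ kap ^ 2 + L ^ 2)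
  have b2 := mul_le_mul_of_nonneg_left a2 (sq_nonneg B)
  linarith

/-- `∫_0^R w f ≤ √(8·4·8^11) √(∫ w f²)` -/
theorem w_f (h : Hyp 8 Q Q1 P kap n eps lam S S1 D D1 sS sD) {R : ℝ} (hR : 0 ≤ R) (hR8 : R ≤ 8)
    {f : ℝ → ℝ} (hf : ContinuousOn f (Icc 0 R)) {X : ℝ}
    (hX : ∫ r in (0:ℝ)..R, w Q r * f r ^ 2 ≤ X) :
    ∫ r in (0:ℝ)..R, w Q r * f r ≤ Real.sqrt (8 * (4 * 8 ^ 11)) * Real.sqrt X := by
  have hsub : Icc 0 R ⊆ Icc (0:ℝ) 8 := Icc_subset_Icc le_rfl hR8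
  have h1 := cs_w hR (h.cw.mono hsub) hf (fun r hr => w_nonneg Q hr.1)
  refine h1.trans ?_
  have h2 : ∫ r in (0:ℝ)..R, w Q r ≤ 8 * (4 * 8 ^ 11) := by
    have iw : IntervalIntegrable (w Q) volume 0 R :=
      ContinuousOn.intervalIntegrable (by rw [uIcc_of_le hR]; exact h.cw.mono hsub)
    have ic : IntervalIntegrable (fun _ : ℝ => (4 * 8 ^ 11 : ℝ)) volume 0 R :=
      intervalIntegrable_const
    have := intervalIntegral.integral_mono_on hR iw ic (fun r hr => h.w_le8 (hsub hr))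
    rw [intervalIntegral.integral_const] at this
    simp only [smul_eq_mul, sub_zero] at this
    refine this.trans ?_
    exact mul_le_mul_of_nonneg_right hR8 (by norm_num)
  exact mul_le_mul (Real.sqrt_le_sqrt h2) (Real.sqrt_le_sqrt hX) (Real.sqrt_nonneg _)
    (Real.sqrt_nonneg _)

/-- **(L2)** the boundary relation for `D'` at `R`. -/
theorem L2 (h : Hyp 8 Q Q1 P kap n eps lam S S1 D D1 sS sD)
    (hb : Bds Q Q1 eps lam S D sS sD B L M) {l : ℕ} (hkap : kap = (l : ℝ) * (l + 10))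
    {R sg rh s2 : ℝ} (hR : 0 < R) (hR6 : R ≤ 6)
    (hsg : ∀ r ∈ Icc 0 R, ‖sS r‖ ≤ sg) (hrh : ∀ r ∈ Icc 0 R, |rho Q Q1 r| ≤ rh)
    (hs2 : ∫ r in (0:ℝ)..R, w Q r * ‖S r‖ ^ 2 ≤ s2) :
    ‖(((R ^ l : ℝ) : ℂ) * ((w Q R : ℂ) * D1 R) - (((l : ℝ) * R ^ (l - 1) : ℝ) : ℂ) *
        ((w Q R : ℂ) * D R)) + I * (((R ^ l : ℝ) : ℂ) * (((w Q R * b Q Q1 R : ℝ) : ℂ) * S R))‖ ≤
      8 ^ l * ((8 + L + l * B) * (Real.sqrt (8 * (4 * 8 ^ 11)) * Real.sqrt s2)
        + 8 * (4 * 8 ^ 11) * sg + 2 * l * rh * (Real.sqrt (8 * (4 * 8 ^ 11)) * Real.sqrt M)) := by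
  have hB0 := B0 hb
  have hL0 := L0 hb
  have hR8 : R ≤ 8 := by linarith
  have hsub : Icc 0 R ⊆ Icc (0:ℝ) 8 := Icc_subset_Icc le_rfl hR8
  have hs : ∀ r ∈ Ioo 0 R, r ∈ Ioo (0:ℝ) 8 := fun r hr => ⟨hr.1, by linarith [hr.2]⟩
  have cw' := h.ofReal_w_cont.mono hsub
  have cw0 := h.cw.mono hsub
  have cb' := h.ofReal_b_cont.mono hsub
  have cS := h.cS.mono hsub
  have cS1 := h.cS1.mono hsub
  have cD := h.cD.mono hsub
  have cD1 := h.cD1.mono hsub
  have csS := h.csS.mono hsub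
  set Φ : ℝ → ℂ := fun r => (((r ^ l : ℝ) : ℂ) * ((w Q r : ℂ) * D1 r)
    - (((l : ℝ) * r ^ (l - 1) : ℝ) : ℂ) * ((w Q r : ℂ) * D r))
    + I * (((r ^ l : ℝ) : ℂ) * (((w Q r * b Q Q1 r : ℝ) : ℂ) * S r)) with hΦ
  -- derivative
  set g : ℝ → ℂ := fun r => (w Q r : ℂ) * (I * (((6 - 2 * eps : ℝ) : ℂ) - lam) * ((r ^ l : ℝ) : ℂ)
      * S r + I * (((l : ℝ) * r ^ (l - 1) : ℝ) : ℂ) * (b Q Q1 r : ℂ) * S r
      - I * ((r ^ l : ℝ) : ℂ) * sS r
      - 2 * (rho Q Q1 r : ℂ) * (((l : ℝ) * r ^ (l - 1) : ℝ) : ℂ) * D r) with hg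
  have hd : ∀ r ∈ Ioo 0 R, HasDerivAt Φ (g r) r := by
    intro r hr
    have hs' := h.sys r (hs r hr)
    have hr0 : r ≠ 0 := hr.1.ne'
    have hrc : (r : ℂ) ≠ 0 := by exact_mod_cast hr0
    have d1 : HasDerivAt (fun r : ℝ => ((r ^ l : ℝ) : ℂ)) (((l : ℝ) * r ^ (l - 1) : ℝ) : ℂ) r :=
      (hasDerivAt_pow l r).ofReal_comp
    have d2 : HasDerivAt (fun r : ℝ => (((l : ℝ) * r ^ (l - 1) : ℝ) : ℂ))
      ((l * (l - 1) * r ^ l / r ^ 2 : ℝ) : ℂ) r := (pow_aux2 l hr0).ofReal_comp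
    have dw : HasDerivAt (fun r : ℝ => (w Q r : ℂ))
      ((w Q r * (11 / r + 2 * rho Q Q1 r) : ℝ) : ℂ) r := hs'.hw.ofReal_comp
    have dwb : HasDerivAt (fun r : ℝ => ((w Q r * b Q Q1 r : ℝ) : ℂ))
      (((6 - 2 * eps) * w Q r : ℝ) : ℂ) r := hs'.hwb.ofReal_comp
    have t1 := d1.mul hs'.hD1
    have t2 := d2.mul (dw.mul hs'.hD)
    have t3 := (d1.mul (dwb.mul hs'.hS)).const_mul I
    have t := (t1.sub t2).add t3
    have t' : HasDerivAt Φ _ r := t
    refine t'.congr_deriv ?_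
    simp only [hg, pow_aux1 l hr0, hkap, Pi.mul_apply]
    push_cast
    field_simp
    ring
  have crho : ∀ r ∈ Ioo (0:ℝ) R, w Q r * rho Q Q1 r = ‖Q r‖ ^ 2 * r ^ 11 * (Q1 r / Q r).re := by
    intro r _
    rfl
  have cg : ContinuousOn g (Icc 0 R) := by
    have hq : ContinuousOn (fun r => Q1 r / Q r) (Icc 0 R) := by
      refine (h.cQ1.mono hsub).div (h.cQ.mono hsub) ?_
      intro r hr h0
      have := h.ql r (hsub hr)
      rw [h0, norm_zero] at this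
      linarith
    have hrho : ContinuousOn (fun r => (rho Q Q1 r : ℂ)) (Icc 0 R) :=
      Complex.continuous_ofReal.comp_continuousOn (Complex.continuous_re.comp_continuousOn hq)
    have k1 : Continuous (fun r : ℝ => ((r ^ l : ℝ) : ℂ)) :=
      Complex.continuous_ofReal.comp (by fun_prop)
    have k2 : Continuous (fun r : ℝ => (((l : ℝ) * r ^ (l - 1) : ℝ) : ℂ)) :=
      Complex.continuous_ofReal.comp (by fun_prop)
    have k1' := k1.continuousOn (s := Icc 0 R)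
    have k2' := k2.continuousOn (s := Icc 0 R)
    simp only [hg]
    exact cw'.mul ((((((continuousOn_const.mul k1').mul cS).add
      (((continuousOn_const.mul k2').mul cb').mul cS))).sub
      ((continuousOn_const.mul k1').mul csS)).sub
      (((continuousOn_const.mul hrho).mul k2').mul cD))
  have cΦ : ContinuousOn Φ (Icc 0 R) := by
    have k1 : Continuous (fun r : ℝ => ((r ^ l : ℝ) : ℂ)) :=
      Complex.continuous_ofReal.comp (by fun_prop)
    have k2 : Continuous (fun r : ℝ => (((l : ℝ) * r ^ (l - 1) : ℝ) : ℂ)) :=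
      Complex.continuous_ofReal.comp (by fun_prop)
    have k1' := k1.continuousOn (s := Icc 0 R)
    have k2' := k2.continuousOn (s := Icc 0 R)
    have kwb : ContinuousOn (fun r => ((w Q r * b Q Q1 r : ℝ) : ℂ)) (Icc 0 R) :=
      Complex.continuous_ofReal.comp_continuousOn ((h.cw.mul h.cb).mono hsub)
    exact ((k1'.mul (cw'.mul cD1)).sub (k2'.mul (cw'.mul cD))).add
      (continuousOn_const.mul (k1'.mul (kwb.mul cS)))
  have ig : IntervalIntegrable g volume 0 R :=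
    ContinuousOn.intervalIntegrable (by rw [uIcc_of_le hR.le]; exact cg)
  have hftc := intervalIntegral.integral_eq_sub_of_hasDerivAt_of_le hR.le cΦ hd ig
  have hΦ0 : Φ 0 = 0 := by simp [hΦ, w]
  rw [hΦ0, sub_zero] at hftc
  have hΦR : ‖Φ R‖ ≤ ∫ r in (0:ℝ)..R, ‖g r‖ := by
    rw [← hftc]
    exact intervalIntegral.norm_integral_le_integral_norm hR.le
  refine hΦR.trans ?_
  have hpl : ∀ r ∈ Icc 0 R, r ^ l ≤ 8 ^ l := fun r hr =>
    pow_le_pow_left₀ hr.1 (hr.2.trans hR8) l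
  have hpl1 : ∀ r ∈ Icc 0 R, r ^ (l - 1) ≤ 8 ^ l := fun r hr =>
    (pow_le_pow_left₀ hr.1 (hr.2.trans hR8) (l - 1)).trans
      (pow_le_pow_right₀ (by norm_num) (Nat.sub_le l 1))
  have hbd : ∀ r ∈ Icc 0 R, ‖g r‖ ≤ 8 ^ l * (8 + L + l * B) * (w Q r * ‖S r‖)
      + 8 ^ l * (4 * 8 ^ 11) * sg + 8 ^ l * (2 * l * rh) * (w Q r * ‖D r‖) := by
    intro r hr
    have hr' := hsub hr
    have hw0 := w_nonneg Q hr'.1
    have hw8 := h.w_le8 hr'
    have hp := hpl r hr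
    have hp1 := hpl1 r hr
    have hp0 : 0 ≤ r ^ l := pow_nonneg hr.1 l
    have hp10 : 0 ≤ r ^ (l - 1) := pow_nonneg hr.1 (l - 1)
    have hl0 : (0:ℝ) ≤ l := Nat.cast_nonneg l
    have hrh0 : 0 ≤ rh := (abs_nonneg _).trans (hrh r hr)
    have hsg0 : 0 ≤ sg := (norm_nonneg _).trans (hsg r hr)
    have e1 : ‖I * (((6 - 2 * eps : ℝ) : ℂ) - lam) * ((r ^ l : ℝ) : ℂ) * S r‖ ≤
        (8 + L) * 8 ^ l * ‖S r‖ := by
      rw [norm_mul, norm_mul, norm_mul, Complex.norm_I, one_mul, Complex.norm_real,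
        Real.norm_eq_abs, abs_of_nonneg hp0]
      have : ‖((6 - 2 * eps : ℝ) : ℂ) - lam‖ ≤ 8 + L := by
        refine (norm_sub_le _ _).trans ?_
        rw [Complex.norm_real, Real.norm_eq_abs]
        have h1 := abs_le.1 hb.he
        have h2 : |6 - 2 * eps| ≤ 8 := by rw [abs_le]; constructor <;> linarith [h1.1, h1.2]
        linarith [hb.hL]
      gcongr
    have e2 : ‖I * (((l : ℝ) * r ^ (l - 1) : ℝ) : ℂ) * (b Q Q1 r : ℂ) * S r‖ ≤
        l * 8 ^ l * B * ‖S r‖ := by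
      rw [norm_mul, norm_mul, norm_mul, Complex.norm_I, one_mul, Complex.norm_real,
        Complex.norm_real, Real.norm_eq_abs, Real.norm_eq_abs,
        abs_of_nonneg (by positivity : 0 ≤ (l : ℝ) * r ^ (l - 1))]
      have := hb.hB r hr'
      gcongr
    have e3 : ‖I * ((r ^ l : ℝ) : ℂ) * sS r‖ ≤ 8 ^ l * sg := by
      rw [norm_mul, norm_mul, Complex.norm_I, one_mul, Complex.norm_real,
        Real.norm_eq_abs, abs_of_nonneg hp0]
      have := hsg r hr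
      gcongr
    have e4 : ‖2 * (rho Q Q1 r : ℂ) * (((l : ℝ) * r ^ (l - 1) : ℝ) : ℂ) * D r‖ ≤
        2 * rh * (l * 8 ^ l) * ‖D r‖ := by
      rw [norm_mul, norm_mul, norm_mul, Complex.norm_real,
        Complex.norm_real, Real.norm_eq_abs, Real.norm_eq_abs,
        abs_of_nonneg (by positivity : 0 ≤ (l : ℝ) * r ^ (l - 1))]
      have := hrh r hr
      have h2 : ‖(2:ℂ)‖ = 2 := by norm_num
      rw [h2]
      gcongr
    calc ‖g r‖ ≤ w Q r * ((8 + L) * 8 ^ l * ‖S r‖ + l * 8 ^ l * B * ‖S r‖ + 8 ^ l * sg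
          + 2 * rh * (l * 8 ^ l) * ‖D r‖) := by
          simp only [hg]
          rw [norm_mul, Complex.norm_real, Real.norm_eq_abs, abs_of_nonneg hw0]
          refine mul_le_mul_of_nonneg_left ?_ hw0
          refine (norm_sub_le _ _).trans (add_le_add ?_ e4)
          refine (norm_sub_le _ _).trans (add_le_add ?_ e3)
          exact (norm_add_le _ _).trans (add_le_add e1 e2)
      _ ≤ _ := by
          have : w Q r * (8 ^ l * sg) ≤ 8 ^ l * (4 * 8 ^ 11) * sg := by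
            have := mul_le_mul_of_nonneg_right hw8 (by positivity : (0:ℝ) ≤ 8 ^ l * sg)
            linarith
          linarith
  have cnS := cS.norm
  have cnD := cD.norm
  have i1 : IntervalIntegrable (fun r => 8 ^ l * (8 + L + l * B) * (w Q r * ‖S r‖)) volume 0 R :=
    ContinuousOn.intervalIntegrable (by rw [uIcc_of_le hR.le]; fun_prop)
  have i2 : IntervalIntegrable (fun _ : ℝ => (8 ^ l * (4 * 8 ^ 11) * sg : ℝ)) volume 0 R :=
    intervalIntegrable_const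
  have i3 : IntervalIntegrable (fun r => 8 ^ l * (2 * l * rh) * (w Q r * ‖D r‖)) volume 0 R :=
    ContinuousOn.intervalIntegrable (by rw [uIcc_of_le hR.le]; fun_prop)
  have hm := intervalIntegral.integral_mono_on hR.le ig.norm ((i1.add i2).add i3) hbd
  refine hm.trans ?_
  have q1 : ∫ r in (0:ℝ)..R, 8 ^ l * (8 + L + l * B) * (w Q r * ‖S r‖) =
      8 ^ l * (8 + L + l * B) * ∫ r in (0:ℝ)..R, w Q r * ‖S r‖ :=
    intervalIntegral.integral_const_mul _ _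
  have q2 : ∫ _r in (0:ℝ)..R, (8 ^ l * (4 * 8 ^ 11) * sg : ℝ) = R * (8 ^ l * (4 * 8 ^ 11) * sg) := by
    rw [intervalIntegral.integral_const, smul_eq_mul, sub_zero]
  have q3 : ∫ r in (0:ℝ)..R, 8 ^ l * (2 * l * rh) * (w Q r * ‖D r‖) =
      8 ^ l * (2 * l * rh) * ∫ r in (0:ℝ)..R, w Q r * ‖D r‖ :=
    intervalIntegral.integral_const_mul _ _
  rw [intervalIntegral.integral_add (i1.add i2) i3, intervalIntegral.integral_add i1 i2,
    q1, q2, q3]
  have a1 := h.w_f hR.le hR8 cnS hs2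
  have hM : ∫ r in (0:ℝ)..R, w Q r * ‖D r‖ ^ 2 ≤ M := by
    refine le_trans ?_ (h.nd_int hb le_rfl hR.le hR8)
    refine intervalIntegral.integral_mono_on hR.le ?_ ?_ ?_
    · exact ContinuousOn.intervalIntegrable (by rw [uIcc_of_le hR.le]; fun_prop)
    · exact ContinuousOn.intervalIntegrable (by rw [uIcc_of_le hR.le]; exact h.c_nd.mono hsub)
    · intro r hr
      have := w_nonneg Q hr.1
      have : 0 ≤ w Q r * ‖S r‖ ^ 2 := by positivity
      unfold nd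
      linarith
  have a2 := h.w_f hR.le hR8 cnD hM
  have hl0 : (0:ℝ) ≤ l := Nat.cast_nonneg l
  have hrh0 : 0 ≤ rh := (abs_nonneg _).trans (hrh 0 ⟨le_rfl, hR.le⟩)
  have hsg0 : 0 ≤ sg := (norm_nonneg _).trans (hsg 0 ⟨le_rfl, hR.le⟩)
  have b1 := mul_le_mul_of_nonneg_left a1 (by positivity : (0:ℝ) ≤ 8 ^ l * (8 + L + l * B))
  have b2 := mul_le_mul_of_nonneg_left a2 (by positivity : (0:ℝ) ≤ 8 ^ l * (2 * l * rh))
  have b3 := mul_le_mul_of_nonneg_right hR8 (by positivity : (0:ℝ) ≤ 8 ^ l * (4 * 8 ^ 11) * sg)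
  linarith

end Hyp

end Crest.Agent.R086.C4
end

-- ▼ part R086/C4e

/-!
Row 86 (S0114), Part C, C4: `∫_0^R w |D|²` is controlled by the boundary values and by small quantities.
-/

set_option autoImplicit false

open Complex ComplexConjugate Set MeasureTheory

namespace Crest.Agent.R086.C4

open Crest.Agent.R086.CCore Hyp

namespace Hyp

variable {Q Q1 : ℝ → ℂ} {P : ℝ → ℝ} {kap n eps : ℝ} {lam : ℂ}
  {S S1 D D1 sS sD : ℝ → ℂ} {B L M : ℝ}

/-- density of the kinetic energy of `D` -/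
noncomputable def kD (Q : ℝ → ℂ) (kap : ℝ) (D D1 : ℝ → ℂ) (r : ℝ) : ℝ :=
  w Q r * ‖D1 r‖ ^ 2 + kap * (‖Q r‖ ^ 2 * r ^ 9) * ‖D r‖ ^ 2

theorem im_le_mul (z u : ℂ) : |(z * conj u).im| ≤ ‖z‖ * ‖u‖ := by
  calc |(z * conj u).im| ≤ ‖z * conj u‖ := Complex.abs_im_le_norm _
    _ = ‖z‖ * ‖u‖ := by rw [norm_mul, Complex.norm_conj]

/-- **(L3)** kinetic energy of `D` on `[0,R]`. -/
theorem KD (h : Hyp 8 Q Q1 P kap n eps lam S S1 D D1 sS sD)
    (hb : Bds Q Q1 eps lam S D sS sD B L M)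
    {R sg s2 : ℝ} (hR : 0 < R) (hR6 : R ≤ 6)
    (hsg : ∀ r ∈ Icc 0 R, ‖sS r‖ ≤ sg)
    (hs2 : ∫ r in (0:ℝ)..R, w Q r * ‖S r‖ ^ 2 ≤ s2) :
    ∫ r in (0:ℝ)..R, kD Q kap D D1 r ≤
      w Q R * (‖D1 R‖ * ‖D R‖ + B * (‖S R‖ * ‖D R‖))
        + ((8 + L) * (Real.sqrt s2 * Real.sqrt M) + B * (Real.sqrt s2 * Real.sqrt (Ec B L M))
          + sg * (Real.sqrt (8 * (4 * 8 ^ 11)) * Real.sqrt M)) := by
  have hB0 := B0 hb
  have hL0 := L0 hb
  have hR8 : R ≤ 8 := by linarith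
  have hsub : Icc 0 R ⊆ Icc (0:ℝ) 8 := Icc_subset_Icc le_rfl hR8
  have hs : ∀ r ∈ Ioo 0 R, r ∈ Ioo (0:ℝ) 8 := fun r hr => ⟨hr.1, by linarith [hr.2]⟩
  have hsg0 : 0 ≤ sg := (norm_nonneg _).trans (hsg 0 ⟨le_rfl, hR.le⟩)
  have cw' := h.ofReal_w_cont.mono hsub
  have cw0 := h.cw.mono hsub
  have cb0 := h.cb.mono hsub
  have cb' := h.ofReal_b_cont.mono hsub
  have cQ := h.cQ.mono hsub
  have cS := h.cS.mono hsub
  have cS1 := h.cS1.mono hsub
  have cD := h.cD.mono hsub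
  have cD1 := h.cD1.mono hsub
  have csS := h.csS.mono hsub
  set Ψ : ℝ → ℝ := fun r => (((w Q r : ℂ) * D1 r) * conj (D r)).re
    - ((((w Q r * b Q Q1 r : ℝ) : ℂ) * S r) * conj (D r)).im with hΨ
  set f : ℝ → ℝ := fun r => w Q r * ‖D1 r‖ ^ 2 + kap * (‖Q r‖ ^ 2 * r ^ 9) * ‖D r‖ ^ 2
    + w Q r * ((lam * S r + sS r) * conj (D r)).im
    - (6 - 2 * eps) * w Q r * (S r * conj (D r)).im
    - w Q r * b Q Q1 r * (S r * conj (D1 r)).im with hf
  have hd : ∀ r ∈ Ioo 0 R, HasDerivAt Ψ (f r) r := by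
    intro r hr
    have hs' := h.sys r (hs r hr)
    have hr0 : r ≠ 0 := hr.1.ne'
    have hDc : HasDerivAt (fun r => conj (D r)) (conj (D1 r)) r := CCore.hasDerivAt_conj hs'.hD
    have dwb : HasDerivAt (fun r : ℝ => ((w Q r * b Q Q1 r : ℝ) : ℂ))
      (((6 - 2 * eps) * w Q r : ℝ) : ℂ) r := hs'.hwb.ofReal_comp
    have t1 := Complex.reCLM.hasFDerivAt.comp_hasDerivAt r (hs'.hD1.mul hDc)
    have t2 := Complex.imCLM.hasFDerivAt.comp_hasDerivAt r ((dwb.mul hs'.hS).mul hDc)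
    have t : HasDerivAt Ψ _ r := t1.sub t2
    refine t.congr_deriv ?_
    have e1 : ((kap : ℂ) / (r : ℂ) ^ 2) = ((kap / r ^ 2 : ℝ) : ℂ) := by push_cast; rfl
    have e2 : kap / r ^ 2 * w Q r = kap * (‖Q r‖ ^ 2 * r ^ 9) := by
      rw [← w_div Q hr0]; ring
    have e : ∀ z : ℂ, ‖z‖ ^ 2 = z.re ^ 2 + z.im ^ 2 := by
      intro z
      rw [← Complex.normSq_eq_norm_sq, Complex.normSq_apply]
      ring
    simp only [hf, Complex.reCLM_apply, Complex.imCLM_apply, e1]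
    rw [← e2]
    simp only [e (D1 r), e (D r), Pi.mul_apply, Complex.mul_re, Complex.mul_im,
      Complex.add_re, Complex.add_im, Complex.sub_re,
      Complex.sub_im, Complex.conj_re, Complex.conj_im, Complex.ofReal_re, Complex.ofReal_im,
      Complex.I_re, Complex.I_im]
    ring
  have cconj : ∀ u : ℝ → ℂ, ContinuousOn u (Icc 0 R) → ContinuousOn (fun r => conj (u r))
      (Icc 0 R) := fun u hu => Complex.continuous_conj.comp_continuousOn hu
  have k1 : ContinuousOn (fun r => ((lam * S r + sS r) * conj (D r)).im) (Icc 0 R) :=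
    Complex.continuous_im.comp_continuousOn
      (((continuousOn_const.mul cS).add csS).mul (cconj D cD))
  have k2 : ContinuousOn (fun r => (S r * conj (D r)).im) (Icc 0 R) :=
    Complex.continuous_im.comp_continuousOn (cS.mul (cconj D cD))
  have k3 : ContinuousOn (fun r => (S r * conj (D1 r)).im) (Icc 0 R) :=
    Complex.continuous_im.comp_continuousOn (cS.mul (cconj D1 cD1))
  have cf : ContinuousOn f (Icc 0 R) := by
    simp only [hf]
    fun_prop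
  have cΨ : ContinuousOn Ψ (Icc 0 R) := by
    have kwb : ContinuousOn (fun r => ((w Q r * b Q Q1 r : ℝ) : ℂ)) (Icc 0 R) :=
      Complex.continuous_ofReal.comp_continuousOn (cw0.mul cb0)
    exact (Complex.continuous_re.comp_continuousOn ((cw'.mul cD1).mul (cconj D cD))).sub
      (Complex.continuous_im.comp_continuousOn ((kwb.mul cS).mul (cconj D cD)))
  have iff' : IntervalIntegrable f volume 0 R :=
    ContinuousOn.intervalIntegrable (by rw [uIcc_of_le hR.le]; exact cf)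
  have hftc := intervalIntegral.integral_eq_sub_of_hasDerivAt_of_le hR.le cΨ hd iff'
  have hΨ0 : Ψ 0 = 0 := by simp [hΨ, w]
  rw [hΨ0, sub_zero] at hftc
  -- boundary term
  have hw0R := w_nonneg Q hR.le
  have hΨR : Ψ R ≤ w Q R * (‖D1 R‖ * ‖D R‖ + B * (‖S R‖ * ‖D R‖)) := by
    simp only [hΨ]
    have e1 : (((w Q R : ℂ) * D1 R) * conj (D R)).re ≤ w Q R * (‖D1 R‖ * ‖D R‖) := by
      rw [mul_assoc, Complex.re_ofReal_mul]
      exact mul_le_mul_of_nonneg_left ((le_abs_self _).trans (re_le_mul _ _)) hw0R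
    have e2 : -((((w Q R * b Q Q1 R : ℝ) : ℂ) * S R) * conj (D R)).im ≤
        w Q R * (B * (‖S R‖ * ‖D R‖)) := by
      rw [mul_assoc, Complex.im_ofReal_mul]
      have a1 := hb.hB R ⟨hR.le, hR8⟩
      have a2 := im_le_mul (S R) (D R)
      calc -(w Q R * b Q Q1 R * (S R * conj (D R)).im)
          ≤ |w Q R * b Q Q1 R * (S R * conj (D R)).im| := neg_le_abs _
        _ = w Q R * (|b Q Q1 R| * |(S R * conj (D R)).im|) := by
            rw [abs_mul, abs_mul, abs_of_nonneg hw0R]; ring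
        _ ≤ _ := by gcongr
    linarith
  -- lower bound of f
  have hbd : ∀ r ∈ Icc 0 R, kD Q kap D D1 r ≤ f r + ((8 + L) * (w Q r * (‖S r‖ * ‖D r‖))
      + B * (w Q r * (‖S r‖ * ‖D1 r‖)) + sg * (w Q r * ‖D r‖)) := by
    intro r hr
    have hr' := hsub hr
    have hw0 := w_nonneg Q hr'.1
    have a1 : -(((lam * S r + sS r) * conj (D r)).im) ≤ (L * ‖S r‖ + sg) * ‖D r‖ := by
      refine (neg_le_abs _).trans ((im_le_mul _ _).trans ?_)
      refine mul_le_mul_of_nonneg_right ?_ (norm_nonneg _)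
      refine (norm_add_le _ _).trans ?_
      rw [norm_mul]
      have := hb.hL
      have := hsg r hr
      gcongr
    have a2 : (6 - 2 * eps) * (S r * conj (D r)).im ≤ 8 * (‖S r‖ * ‖D r‖) := by
      have h1 := abs_le.1 hb.he
      have h2 : |6 - 2 * eps| ≤ 8 := by rw [abs_le]; constructor <;> linarith [h1.1, h1.2]
      calc (6 - 2 * eps) * (S r * conj (D r)).im ≤ |(6 - 2 * eps) * (S r * conj (D r)).im| :=
            le_abs_self _
        _ = |6 - 2 * eps| * |(S r * conj (D r)).im| := abs_mul _ _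
        _ ≤ _ := by
            have := im_le_mul (S r) (D r)
            gcongr
    have a3 : b Q Q1 r * (S r * conj (D1 r)).im ≤ B * (‖S r‖ * ‖D1 r‖) := by
      calc b Q Q1 r * (S r * conj (D1 r)).im ≤ |b Q Q1 r * (S r * conj (D1 r)).im| :=
            le_abs_self _
        _ = |b Q Q1 r| * |(S r * conj (D1 r)).im| := abs_mul _ _
        _ ≤ _ := by
            have := im_le_mul (S r) (D1 r)
            have := hb.hB r hr'
            gcongr
    have b1 := mul_le_mul_of_nonneg_left a1 hw0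
    have b2 := mul_le_mul_of_nonneg_left a2 hw0
    have b3 := mul_le_mul_of_nonneg_left a3 hw0
    simp only [hf, kD]
    linarith
  have ckD : ContinuousOn (kD Q kap D D1) (Icc 0 R) := by
    unfold kD
    fun_prop
  have cnS := cS.norm
  have cnD := cD.norm
  have cnD1 := cD1.norm
  have j1 : IntervalIntegrable (fun r => (8 + L) * (w Q r * (‖S r‖ * ‖D r‖))) volume 0 R :=
    ContinuousOn.intervalIntegrable (by rw [uIcc_of_le hR.le]; fun_prop)
  have j2 : IntervalIntegrable (fun r => B * (w Q r * (‖S r‖ * ‖D1 r‖))) volume 0 R :=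
    ContinuousOn.intervalIntegrable (by rw [uIcc_of_le hR.le]; fun_prop)
  have j3 : IntervalIntegrable (fun r => sg * (w Q r * ‖D r‖)) volume 0 R :=
    ContinuousOn.intervalIntegrable (by rw [uIcc_of_le hR.le]; fun_prop)
  have jk : IntervalIntegrable (kD Q kap D D1) volume 0 R :=
    ContinuousOn.intervalIntegrable (by rw [uIcc_of_le hR.le]; exact ckD)
  have hm := intervalIntegral.integral_mono_on hR.le jk (iff'.add ((j1.add j2).add j3)) hbd
  have q1 : ∫ r in (0:ℝ)..R, (8 + L) * (w Q r * (‖S r‖ * ‖D r‖)) =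
      (8 + L) * ∫ r in (0:ℝ)..R, (w Q r * (‖S r‖ * ‖D r‖)) :=
    intervalIntegral.integral_const_mul _ _
  have q2 : ∫ r in (0:ℝ)..R, B * (w Q r * (‖S r‖ * ‖D1 r‖)) =
      B * ∫ r in (0:ℝ)..R, (w Q r * (‖S r‖ * ‖D1 r‖)) :=
    intervalIntegral.integral_const_mul _ _
  have q3 : ∫ r in (0:ℝ)..R, sg * (w Q r * ‖D r‖) =
      sg * ∫ r in (0:ℝ)..R, (w Q r * ‖D r‖) :=
    intervalIntegral.integral_const_mul _ _
  rw [intervalIntegral.integral_add iff' ((j1.add j2).add j3),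
    intervalIntegral.integral_add (j1.add j2) j3, intervalIntegral.integral_add j1 j2,
    q1, q2, q3, hftc] at hm
  -- the three integrals
  have hMD : ∫ r in (0:ℝ)..R, w Q r * ‖D r‖ ^ 2 ≤ M := by
    refine le_trans ?_ (h.nd_int hb le_rfl hR.le hR8)
    refine intervalIntegral.integral_mono_on hR.le ?_ ?_ ?_
    · exact ContinuousOn.intervalIntegrable (by rw [uIcc_of_le hR.le]; fun_prop)
    · exact ContinuousOn.intervalIntegrable (by rw [uIcc_of_le hR.le]; exact h.c_nd.mono hsub)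
    · intro r hr
      have := w_nonneg Q hr.1
      have : 0 ≤ w Q r * ‖S r‖ ^ 2 := by positivity
      unfold nd
      linarith
  have hED : ∫ r in (0:ℝ)..R, w Q r * ‖D1 r‖ ^ 2 ≤ Ec B L M := by
    refine le_trans ?_ (h.e6 hb le_rfl hR.le hR6)
    refine intervalIntegral.integral_mono_on hR.le ?_ ?_ ?_
    · exact ContinuousOn.intervalIntegrable (by rw [uIcc_of_le hR.le]; fun_prop)
    · exact ContinuousOn.intervalIntegrable (by rw [uIcc_of_le hR.le]; exact h.c_ed.mono hsub)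
    · intro r hr
      have hr' := hsub hr
      have h0 := w_nonneg Q hr.1
      have h2 := h.P0 r hr'
      have h3 := h.kap0
      have h4 := h.n0
      have h5 := hr'.1
      unfold ed
      have h6 : 0 ≤ kap * (‖Q r‖ ^ 2 * r ^ 9) * (‖S r‖ ^ 2 + ‖D r‖ ^ 2)
        + n * P r * w Q r * ‖S r‖ ^ 2 := by positivity
      have h7 : 0 ≤ w Q r * ‖S1 r‖ ^ 2 := by positivity
      linarith
  have c1 := cs_abs hR.le cw0 cnS cnD (fun r hr => w_nonneg Q hr.1)
  have c2 := cs_abs hR.le cw0 cnS cnD1 (fun r hr => w_nonneg Q hr.1)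
  have c3 := h.w_f hR.le hR8 cnD hMD
  have c1' : ∫ r in (0:ℝ)..R, w Q r * (‖S r‖ * ‖D r‖) ≤ Real.sqrt s2 * Real.sqrt M :=
    c1.trans (mul_le_mul (Real.sqrt_le_sqrt hs2) (Real.sqrt_le_sqrt hMD) (Real.sqrt_nonneg _)
      (Real.sqrt_nonneg _))
  have c2' : ∫ r in (0:ℝ)..R, w Q r * (‖S r‖ * ‖D1 r‖) ≤ Real.sqrt s2 * Real.sqrt (Ec B L M) :=
    c2.trans (mul_le_mul (Real.sqrt_le_sqrt hs2) (Real.sqrt_le_sqrt hED) (Real.sqrt_nonneg _)
      (Real.sqrt_nonneg _))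
  have d1 := mul_le_mul_of_nonneg_left c1' (by positivity : 0 ≤ 8 + L)
  have d2 := mul_le_mul_of_nonneg_left c2' hB0
  have d3 := mul_le_mul_of_nonneg_left c3 hsg0
  linarith

/-- `∫_0^R w ‖D‖²` by the boundary value and the kinetic energy. -/
theorem D_L2 (h : Hyp 8 Q Q1 P kap n eps lam S S1 D D1 sS sD)
    {R K : ℝ} (hR : 0 < R) (hR6 : R ≤ 6)
    (hK : ∫ r in (0:ℝ)..R, kD Q kap D D1 r ≤ K) :
    ∫ r in (0:ℝ)..R, w Q r * ‖D r‖ ^ 2 ≤ 8 * (8 * 8 ^ 11 * ‖D R‖ ^ 2 + 256 * K) := by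
  have hR8 : R ≤ 8 := by linarith
  have hsub : Icc 0 R ⊆ Icc (0:ℝ) 8 := Icc_subset_Icc le_rfl hR8
  have hs : ∀ r ∈ Ioo 0 R, r ∈ Ioo (0:ℝ) 8 := fun r hr => ⟨hr.1, by linarith [hr.2]⟩
  have cw0 := h.cw.mono hsub
  have cQ := h.cQ.mono hsub
  have cD := h.cD.mono hsub
  have cD1 := h.cD1.mono hsub
  have ckD : ContinuousOn (kD Q kap D D1) (Icc 0 R) := by
    unfold kD
    fun_prop
  have hk0 : ∀ r ∈ Icc 0 R, 0 ≤ kD Q kap D D1 r := by
    intro r hr
    have := w_nonneg Q hr.1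
    have := h.kap0
    have := hr.1
    unfold kD
    positivity
  have hK0 : 0 ≤ K := le_trans (intervalIntegral.integral_nonneg hR.le hk0) hK
  have key : ∀ r ∈ Icc 0 R, w Q r * ‖D r‖ ^ 2 ≤ 8 * 8 ^ 11 * ‖D R‖ ^ 2 + 256 * K := by
    intro r hr
    have hr' := hsub hr
    have hsr : Icc r R ⊆ Icc 0 R := Icc_subset_Icc hr.1 le_rfl
    have h1 := diff_sq hr.2 (cD.mono hsr) (cD1.mono hsr) (fun x hx =>
      (h.sys x (hs x ⟨by linarith [hx.1, hr.1], hx.2⟩)).hD)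
    have h2 : r ^ 11 / 4 * (∫ x in r..R, ‖D1 x‖ ^ 2) ≤ K := by
      have ckr := ckD.mono hsr
      have cD1r := cD1.mono hsr
      rw [← intervalIntegral.integral_const_mul]
      refine le_trans (intervalIntegral.integral_mono_on hr.2 ?_ ?_ ?_)
        ((sub_int ckD hk0 hr.1 hr.2 le_rfl).trans hK)
      · exact ContinuousOn.intervalIntegrable (by rw [uIcc_of_le hr.2]; fun_prop)
      · exact ContinuousOn.intervalIntegrable (by rw [uIcc_of_le hr.2]; exact ckr)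
      · intro x hx
        have hx' := hsub (hsr hx)
        have h5 := h.wl hx'
        have h6 : r ^ 11 ≤ x ^ 11 := pow_le_pow_left₀ hr.1 hx.1 11
        have h7 : r ^ 11 / 4 * ‖D1 x‖ ^ 2 ≤ w Q x * ‖D1 x‖ ^ 2 :=
          mul_le_mul_of_nonneg_right (by linarith) (sq_nonneg _)
        have h8 : 0 ≤ kap * (‖Q x‖ ^ 2 * x ^ 9) * ‖D x‖ ^ 2 := by
          have := h.kap0
          have := hx'.1
          positivity
        unfold kD
        linarith
    have hJ0 : 0 ≤ ∫ x in r..R, ‖D1 x‖ ^ 2 :=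
      intervalIntegral.integral_nonneg hr.2 (fun x _ => sq_nonneg _)
    have h3 : r ^ 11 * ‖D R - D r‖ ^ 2 ≤ 32 * K := by
      have hr11 : 0 ≤ r ^ 11 := pow_nonneg hr.1 11
      have g1 : ‖D R - D r‖ ^ 2 ≤ 8 * ∫ x in r..R, ‖D1 x‖ ^ 2 :=
        h1.trans (mul_le_mul_of_nonneg_right (by linarith [hr.1]) hJ0)
      have g2 := mul_le_mul_of_nonneg_left g1 hr11
      linarith
    have h4 : ‖D r‖ ^ 2 ≤ 2 * ‖D R‖ ^ 2 + 2 * ‖D R - D r‖ ^ 2 := by
      have g0 : ‖D r‖ ≤ ‖D R‖ + ‖D R - D r‖ := by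
        calc ‖D r‖ = ‖D R - (D R - D r)‖ := by ring_nf
          _ ≤ _ := norm_sub_le _ _
      nlinarith [sq_nonneg (‖D R‖ - ‖D R - D r‖), norm_nonneg (D r), norm_nonneg (D R),
        norm_nonneg (D R - D r)]
    have h5 := h.wu hr'
    have h6 : r ^ 11 ≤ 8 ^ 11 := pow_le_pow_left₀ hr'.1 hr'.2 11
    have hr11 : 0 ≤ r ^ 11 := pow_nonneg hr.1 11
    calc w Q r * ‖D r‖ ^ 2 ≤ (4 * r ^ 11) * (2 * ‖D R‖ ^ 2 + 2 * ‖D R - D r‖ ^ 2) :=
          mul_le_mul h5 h4 (sq_nonneg _) (by positivity)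
      _ = 8 * (r ^ 11 * ‖D R‖ ^ 2) + 8 * (r ^ 11 * ‖D R - D r‖ ^ 2) := by ring
      _ ≤ 8 * (8 ^ 11 * ‖D R‖ ^ 2) + 8 * (32 * K) := by
          have := mul_le_mul_of_nonneg_right h6 (sq_nonneg ‖D R‖)
          linarith
      _ = _ := by ring
  have i1 : IntervalIntegrable (fun r => w Q r * ‖D r‖ ^ 2) volume 0 R :=
    ContinuousOn.intervalIntegrable (by rw [uIcc_of_le hR.le]; fun_prop)
  have i2 : IntervalIntegrable (fun _ : ℝ => (8 * 8 ^ 11 * ‖D R‖ ^ 2 + 256 * K : ℝ)) volume 0 R :=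
    intervalIntegrable_const
  have hm := intervalIntegral.integral_mono_on hR.le i1 i2 key
  rw [intervalIntegral.integral_const, smul_eq_mul, sub_zero] at hm
  refine hm.trans (mul_le_mul_of_nonneg_right hR8 ?_)
  positivity

end Hyp

end Crest.Agent.R086.C4
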