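import Crest.Agent.R086.C4e

-- ▼ part R086/C4f
section

/-!
Row 86 (S0114), Part C, C4: boundary relations at `R + d` with error `O(√d)`, one system.
-/

set_option autoImplicit false

open Complex ComplexConjugate Set MeasureTheory

namespace Crest.Agent.R086.C4

open Crest.Agent.R086.CCore Hyp

theorem nsq {x : ℂ} {a d : ℝ} (h : ‖x‖ ^ 2 ≤ a * d) (ha : 0 ≤ a) :
    ‖x‖ ≤ Real.sqrt a * Real.sqrt d := by
  rw [← Real.sqrt_mul ha]
  exact Real.le_sqrt_of_sq_le h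

/-- `4 · 8^11` -/
noncomputable def W8 : ℝ := 4 * 8 ^ 11

theorem W8_pos : 0 < W8 := by unfold W8; norm_num

/-- conditions on one system: smallness parameter `d`. -/
structure Sm (R d c : ℝ) (Q Q1 : ℝ → ℂ) (P : ℝ → ℝ) (n : ℝ) (sS : ℝ → ℂ) (Br : ℝ) : Prop where
  R3 : 3 ≤ R
  R4 : R ≤ 4
  d0 : 0 < d
  d2 : d ≤ 1 / 2
  c0 : 0 < c
  n0 : 0 < n
  P_lo : ∀ r ∈ Icc 0 (R - d), c ≤ P r
  nc : 8 ≤ n * c * d ^ 2
  sg : ∀ r ∈ Icc 0 R, ‖sS r‖ ≤ d
  rh : ∀ r ∈ Icc 0 R, |rho Q Q1 r| ≤ d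
  rB : ∀ r ∈ Icc (0:ℝ) 8, |rho Q Q1 r| ≤ Br
  nP : ∀ r ∈ Icc (R + d / 2) 8, n * P r ≤ 1

namespace Hyp

variable {Q Q1 : ℝ → ℂ} {P : ℝ → ℝ} {kap n eps : ℝ} {lam : ℂ}
  {S S1 D D1 sS sD : ℝ → ℂ} {B L M Br R d c : ℝ}

theorem SR_le (h : Hyp 8 Q Q1 P kap n eps lam S S1 D D1 sS sD)
    (hb : Bds Q Q1 eps lam S D sS sD B L M) (hs : Sm R d c Q Q1 P n sS Br) :
    ‖S R‖ ≤ Real.sqrt (17 * Ec B L M) * Real.sqrt d := by
  have hE := h.E0 hb
  have h1 := h.S_R hb (by linarith [hs.R3]) (by linarith [hs.R4]) hs.d0 hs.d2 hs.c0 hs.n0 hs.P_lo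
  refine nsq ?_ (by positivity)
  have hd := hs.d0
  have hnc : 0 < n * c := mul_pos hs.n0 hs.c0
  have h2 : 8 / (d * (n * c)) ≤ d := by
    rw [div_le_iff₀ (by positivity)]
    linarith [hs.nc]
  have h3 := mul_le_mul_of_nonneg_right h2 hE
  linarith

theorem SRd_le (h : Hyp 8 Q Q1 P kap n eps lam S S1 D D1 sS sD)
    (hb : Bds Q Q1 eps lam S D sS sD B L M) (hs : Sm R d c Q Q1 P n sS Br) :
    ‖S (R + d)‖ ≤ (Real.sqrt (17 * Ec B L M) + Real.sqrt (4 * Ec B L M)) * Real.sqrt d := by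
  have hE := h.E0 hb
  have h1 := h.SR_le hb hs
  have h2 := (h.hold hb (by linarith [hs.R3]) (by linarith [hs.d0]) (by linarith [hs.R4, hs.d2]) :
    ‖S (R + d) - S R‖ ^ 2 ≤ (R + d - R) * (4 * Ec B L M) ∧ _).1
  have h3 : ‖S (R + d) - S R‖ ≤ Real.sqrt (4 * Ec B L M) * Real.sqrt d := by
    refine nsq ?_ (by positivity)
    have e : R + d - R = d := by ring
    rw [e] at h2
    linarith
  calc ‖S (R + d)‖ = ‖(S (R + d) - S R) + S R‖ := by ring_nf
    _ ≤ ‖S (R + d) - S R‖ + ‖S R‖ := norm_add_le _ _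
    _ ≤ _ := by rw [add_mul]; linarith

theorem s2_le (h : Hyp 8 Q Q1 P kap n eps lam S S1 D D1 sS sD)
    (hb : Bds Q Q1 eps lam S D sS sD B L M) (hs : Sm R d c Q Q1 P n sS Br) :
    ∫ r in (0:ℝ)..R, w Q r * ‖S r‖ ^ 2 ≤ (Ec B L M + W8 * (8 * (Ec B L M + M))) * d := by
  have hE := h.E0 hb
  have h1 := h.S_L2 hb hs.R3 (by linarith [hs.R4]) hs.d0 hs.d2 hs.c0 hs.n0 hs.P_lo
  refine h1.trans ?_
  have hd := hs.d0
  have hnc : 0 < n * c := mul_pos hs.n0 hs.c0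
  have h2 : 1 / (n * c) ≤ d := by
    rw [div_le_iff₀ hnc]
    have h3 : d ≤ 1 := by linarith [hs.d2]
    have h4 : n * c * d ^ 2 ≤ n * c * d := by
      refine mul_le_mul_of_nonneg_left ?_ hnc.le
      nlinarith
    linarith [hs.nc]
  have h3 := mul_le_mul_of_nonneg_right h2 hE
  unfold W8
  linarith

theorem w_lip (h : Hyp 8 Q Q1 P kap n eps lam S S1 D D1 sS sD)
    (hs : Sm R d c Q Q1 P n sS Br) {a e : ℝ} (ha : 1 ≤ a) (hae : a ≤ e) (he : e ≤ 6) :
    |w Q e - w Q a| ≤ (e - a) * (W8 * (11 + 2 * Br)) := by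
  have hsub : Icc a e ⊆ Icc (0:ℝ) 8 := Icc_subset_Icc (by linarith) (by linarith)
  have hd : ∀ r ∈ Icc a e, HasDerivWithinAt (w Q) (w Q r * (11 / r + 2 * rho Q Q1 r)) (Icc a e) r := by
    intro r hr
    exact (h.sys r ⟨by linarith [hr.1], by linarith [hr.2]⟩).hw.hasDerivWithinAt
  have hbd : ∀ r ∈ Ico a e, ‖w Q r * (11 / r + 2 * rho Q Q1 r)‖ ≤ W8 * (11 + 2 * Br) := by
    intro r hr
    have hr' := hsub (Ico_subset_Icc_self hr)
    have hr1 : 1 ≤ r := ha.trans hr.1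
    have hw0 := w_nonneg Q hr'.1
    have hw8 := h.w_le8 hr'
    rw [norm_mul, Real.norm_eq_abs, Real.norm_eq_abs, abs_of_nonneg hw0]
    have h1 : |11 / r + 2 * rho Q Q1 r| ≤ 11 + 2 * Br := by
      refine (abs_add_le _ _).trans ?_
      have h2 : |11 / r| ≤ 11 := by
        rw [abs_of_nonneg (by positivity)]
        exact div_le_self (by norm_num) hr1
      have h3 : |2 * rho Q Q1 r| ≤ 2 * Br := by
        rw [abs_mul, abs_of_pos (by norm_num : (0:ℝ) < 2)]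
        have := hs.rB r hr'
        linarith
      linarith
    exact mul_le_mul hw8 h1 (abs_nonneg _) (by unfold W8; norm_num)
  have h1 := norm_image_sub_le_of_norm_deriv_le_segment' hd hbd e ⟨hae, le_rfl⟩
  rw [Real.norm_eq_abs] at h1
  linarith

/-- the constant of `D1_le` -/
noncomputable def K2 (B L M Br : ℝ) (l : ℕ) : ℝ :=
  4 * (Real.sqrt (4 * (4 * 8 ^ 11) * ((((l : ℝ) * (l + 10)) ^ 2 + L ^ 2 + 1) * M
        + B ^ 2 * Ec B L M))
    + 8 ^ l * ((8 + L + l * B) * (Real.sqrt (8 * (4 * 8 ^ 11)) *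
        Real.sqrt (Ec B L M + W8 * (8 * (Ec B L M + M)))) + 8 * (4 * 8 ^ 11)
        + 2 * l * (Real.sqrt (8 * (4 * 8 ^ 11)) * Real.sqrt M))
    + W8 * B * Real.sqrt (17 * Ec B L M)
    + l * (W8 * Real.sqrt (4 * Ec B L M))
    + l * ((W8 * (11 + 2 * Br)) * Real.sqrt (8 * (Ec B L M + M))))

theorem D1_le (h : Hyp 8 Q Q1 P kap n eps lam S S1 D D1 sS sD)
    (hb : Bds Q Q1 eps lam S D sS sD B L M) (hs : Sm R d c Q Q1 P n sS Br) {l : ℕ}
    (hkap : kap = (l : ℝ) * (l + 10)) :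
    ‖D1 (R + d) - (l : ℂ) / (R : ℂ) * D (R + d)‖ ≤ K2 B L M Br l * Real.sqrt d := by
  have hE := h.E0 hb
  have hM := h.M0 hb
  have hB0 := B0 hb
  have hL0 := L0 hb
  have hd := hs.d0
  have hR0 : 0 < R := by linarith [hs.R3]
  have hR6 : R ≤ 6 := by linarith [hs.R4]
  have hRd6 : R + d ≤ 6 := by linarith [hs.R4, hs.d2]
  have hl0 : (0:ℝ) ≤ l := Nat.cast_nonneg l
  have hdd : d ≤ Real.sqrt d := by
    refine Real.le_sqrt_of_sq_le ?_
    nlinarith [hs.d2]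
  have hsd0 : 0 ≤ Real.sqrt d := Real.sqrt_nonneg d
  have hRc : (R : ℂ) ≠ 0 := by exact_mod_cast hR0.ne'
  have hBr : 0 ≤ Br := (abs_nonneg _).trans (hs.rB 0 (by norm_num))
  -- step 1 : value at R
  have t1 := h.L2 hb hkap hR0 hR6 hs.sg hs.rh (h.s2_le hb hs)
  have hpos : 0 ≤ Ec B L M + W8 * (8 * (Ec B L M + M)) := by
    have := W8_pos
    positivity
  rw [Real.sqrt_mul hpos] at t1
  set c8 := Real.sqrt (8 * (4 * 8 ^ 11)) with hc8
  set A1 := Real.sqrt (Ec B L M + W8 * (8 * (Ec B L M + M))) with hA1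
  have hc80 : 0 ≤ c8 := Real.sqrt_nonneg _
  have hA10 : 0 ≤ A1 := Real.sqrt_nonneg _
  set X : ℂ := (w Q R : ℂ) * D1 R - (l : ℂ) / (R : ℂ) * ((w Q R : ℂ) * D R) with hX
  have e1 : (((R ^ l : ℝ) : ℂ) * ((w Q R : ℂ) * D1 R) - (((l : ℝ) * R ^ (l - 1) : ℝ) : ℂ) *
        ((w Q R : ℂ) * D R)) + I * (((R ^ l : ℝ) : ℂ) * (((w Q R * b Q Q1 R : ℝ) : ℂ) * S R)) =
      ((R ^ l : ℝ) : ℂ) * (X + I * (((w Q R * b Q Q1 R : ℝ) : ℂ) * S R)) := by
    rw [pow_aux1 l hR0.ne', hX]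
    push_cast
    field_simp
  rw [e1, norm_mul, Complex.norm_real, Real.norm_eq_abs,
    abs_of_nonneg (by positivity : (0:ℝ) ≤ R ^ l)] at t1
  have hRl : 1 ≤ R ^ l := one_le_pow₀ (by linarith [hs.R3])
  set T := 8 ^ l * ((8 + L + l * B) * (c8 * A1) + 8 * (4 * 8 ^ 11) + 2 * l * (c8 * Real.sqrt M))
    with hT
  have t2 : ‖X + I * (((w Q R * b Q Q1 R : ℝ) : ℂ) * S R)‖ ≤ T * Real.sqrt d := by
    have h1 : ‖X + I * (((w Q R * b Q Q1 R : ℝ) : ℂ) * S R)‖ ≤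
        R ^ l * ‖X + I * (((w Q R * b Q Q1 R : ℝ) : ℂ) * S R)‖ :=
      le_mul_of_one_le_left (norm_nonneg _) hRl
    refine h1.trans (t1.trans ?_)
    have h2 : 8 * (4 * 8 ^ 11) * d ≤ 8 * (4 * 8 ^ 11) * Real.sqrt d :=
      mul_le_mul_of_nonneg_left hdd (by norm_num)
    have h3 : 2 * l * d * (c8 * Real.sqrt M) ≤ 2 * l * Real.sqrt d * (c8 * Real.sqrt M) := by
      have := Real.sqrt_nonneg M
      gcongr
    have h4 : (0:ℝ) ≤ 8 ^ l := by positivity
    calc 8 ^ l * ((8 + L + l * B) * (c8 * (A1 * Real.sqrt d)) + 8 * (4 * 8 ^ 11) * d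
          + 2 * l * d * (c8 * Real.sqrt M))
        ≤ 8 ^ l * ((8 + L + l * B) * (c8 * (A1 * Real.sqrt d)) + 8 * (4 * 8 ^ 11) * Real.sqrt d
          + 2 * l * Real.sqrt d * (c8 * Real.sqrt M)) :=
          mul_le_mul_of_nonneg_left (by linarith) h4
      _ = _ := by rw [hT]; ring
  have hw0R := w_nonneg Q hR0.le
  have hw8R := h.w_le8 (⟨hR0.le, by linarith⟩ : R ∈ Icc (0:ℝ) 8)
  have t3 : ‖X‖ ≤ (T + W8 * B * Real.sqrt (17 * Ec B L M)) * Real.sqrt d := by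
    have h1 : ‖I * (((w Q R * b Q Q1 R : ℝ) : ℂ) * S R)‖ ≤
        W8 * B * Real.sqrt (17 * Ec B L M) * Real.sqrt d := by
      rw [norm_mul, norm_mul, Complex.norm_I, one_mul, Complex.norm_real, Real.norm_eq_abs,
        abs_mul, abs_of_nonneg hw0R]
      have h2 := hb.hB R ⟨hR0.le, by linarith⟩
      have h3 := h.SR_le hb hs
      have h4 : w Q R * |b Q Q1 R| ≤ W8 * B :=
        mul_le_mul hw8R h2 (abs_nonneg _) W8_pos.le
      calc w Q R * |b Q Q1 R| * ‖S R‖ ≤ (W8 * B) * (Real.sqrt (17 * Ec B L M) * Real.sqrt d) :=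
            mul_le_mul h4 h3 (norm_nonneg _) (mul_nonneg W8_pos.le hB0)
        _ = _ := by ring
    calc ‖X‖ = ‖(X + I * (((w Q R * b Q Q1 R : ℝ) : ℂ) * S R))
          - I * (((w Q R * b Q Q1 R : ℝ) : ℂ) * S R)‖ := by ring_nf
      _ ≤ _ := norm_sub_le _ _
      _ ≤ _ := by rw [add_mul]; linarith
  -- step 2 : transport
  have t4 := h.holdw hb (by linarith [hs.R3] : 1 ≤ R) (by linarith : R ≤ R + d) hRd6
  have e2 : R + d - R = d := by ring
  rw [e2] at t4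
  set HW := 4 * (4 * 8 ^ 11) * ((kap ^ 2 + L ^ 2 + 1) * M + B ^ 2 * Ec B L M) with hHW
  have hHW0 : 0 ≤ HW := by positivity
  have t5 : ‖(w Q (R + d) : ℂ) * D1 (R + d) - (w Q R : ℂ) * D1 R‖ ≤
      Real.sqrt HW * Real.sqrt d := nsq (by linarith) hHW0
  have t6 : ‖D (R + d) - D R‖ ≤ Real.sqrt (4 * Ec B L M) * Real.sqrt d := by
    have h2 := (h.hold hb (by linarith [hs.R3]) (by linarith [hs.d0]) hRd6 :
      _ ∧ ‖D (R + d) - D R‖ ^ 2 ≤ (R + d - R) * (4 * Ec B L M)).2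
    rw [e2] at h2
    exact nsq (by linarith) (by positivity)
  have t7 : ‖D (R + d)‖ ≤ Real.sqrt (8 * (Ec B L M + M)) :=
    Real.le_sqrt_of_sq_le (h.pt hb (by linarith [hs.R3] : 2 ≤ R + d) hRd6).2
  have t8 := h.w_lip hs (by linarith [hs.R3] : 1 ≤ R) (by linarith : R ≤ R + d) hRd6
  rw [e2] at t8
  -- combine
  have hlR : ‖(l : ℂ) / (R : ℂ)‖ ≤ l := by
    rw [norm_div, Complex.norm_natCast, Complex.norm_real, Real.norm_eq_abs, abs_of_pos hR0]
    exact div_le_self hl0 (by linarith [hs.R3])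
  have hwpos : 1 / 4 ≤ w Q (R + d) := by
    have h1 := h.wl (⟨by linarith, by linarith⟩ : R + d ∈ Icc (0:ℝ) 8)
    have h2 : (1 : ℝ) ≤ (R + d) ^ 11 := one_le_pow₀ (by linarith [hs.R3])
    linarith
  have e3 : (w Q (R + d) : ℂ) * (D1 (R + d) - (l : ℂ) / (R : ℂ) * D (R + d)) =
      ((w Q (R + d) : ℂ) * D1 (R + d) - (w Q R : ℂ) * D1 R) + X
      + (l : ℂ) / (R : ℂ) * ((w Q R : ℂ) * (-(D (R + d) - D R)))
      + (l : ℂ) / (R : ℂ) * (-((w Q (R + d) - w Q R : ℝ) : ℂ) * D (R + d)) := by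
    rw [hX]
    push_cast
    ring
  have t9 : ‖(w Q (R + d) : ℂ) * (D1 (R + d) - (l : ℂ) / (R : ℂ) * D (R + d))‖ ≤
      (Real.sqrt HW + T + W8 * B * Real.sqrt (17 * Ec B L M)
        + l * (W8 * Real.sqrt (4 * Ec B L M))
        + l * ((W8 * (11 + 2 * Br)) * Real.sqrt (8 * (Ec B L M + M)))) * Real.sqrt d := by
    rw [e3]
    refine (norm_add_le _ _).trans ?_
    refine (add_le_add (norm_add_le _ _) le_rfl).trans ?_
    refine (add_le_add (add_le_add (norm_add_le _ _) le_rfl) le_rfl).trans ?_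
    have u1 : ‖(l : ℂ) / (R : ℂ) * ((w Q R : ℂ) * (-(D (R + d) - D R)))‖ ≤
        l * (W8 * Real.sqrt (4 * Ec B L M)) * Real.sqrt d := by
      rw [norm_mul, norm_mul, norm_neg, Complex.norm_real, Real.norm_eq_abs, abs_of_nonneg hw0R]
      calc ‖(l : ℂ) / (R : ℂ)‖ * (w Q R * ‖D (R + d) - D R‖)
          ≤ l * (W8 * (Real.sqrt (4 * Ec B L M) * Real.sqrt d)) := by
            refine mul_le_mul hlR (mul_le_mul hw8R t6 (norm_nonneg _) W8_pos.le) ?_ hl0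
            positivity
        _ = _ := by ring
    have u2 : ‖(l : ℂ) / (R : ℂ) * (-((w Q (R + d) - w Q R : ℝ) : ℂ) * D (R + d))‖ ≤
        l * ((W8 * (11 + 2 * Br)) * Real.sqrt (8 * (Ec B L M + M))) * Real.sqrt d := by
      rw [norm_mul, norm_mul, norm_neg, Complex.norm_real, Real.norm_eq_abs]
      have v1 : |w Q (R + d) - w Q R| ≤ (W8 * (11 + 2 * Br)) * Real.sqrt d := by
        refine t8.trans ?_
        have := W8_pos
        rw [mul_comm]
        exact mul_le_mul_of_nonneg_left hdd (by positivity)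
      calc ‖(l : ℂ) / (R : ℂ)‖ * (|w Q (R + d) - w Q R| * ‖D (R + d)‖)
          ≤ l * (((W8 * (11 + 2 * Br)) * Real.sqrt d) * Real.sqrt (8 * (Ec B L M + M))) := by
            have := W8_pos
            refine mul_le_mul hlR (mul_le_mul v1 t7 (norm_nonneg _) (by positivity)) ?_ hl0
            positivity
        _ = _ := by ring
    have e4 : (Real.sqrt HW + T + W8 * B * Real.sqrt (17 * Ec B L M)
        + l * (W8 * Real.sqrt (4 * Ec B L M))
        + l * ((W8 * (11 + 2 * Br)) * Real.sqrt (8 * (Ec B L M + M)))) * Real.sqrt d =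
        Real.sqrt HW * Real.sqrt d + (T + W8 * B * Real.sqrt (17 * Ec B L M)) * Real.sqrt d
        + l * (W8 * Real.sqrt (4 * Ec B L M)) * Real.sqrt d
        + l * ((W8 * (11 + 2 * Br)) * Real.sqrt (8 * (Ec B L M + M))) * Real.sqrt d := by ring
    rw [e4]
    linarith
  rw [norm_mul, Complex.norm_real, Real.norm_eq_abs, abs_of_nonneg (by linarith)] at t9
  have t10 : 1 / 4 * ‖D1 (R + d) - (l : ℂ) / (R : ℂ) * D (R + d)‖ ≤
      w Q (R + d) * ‖D1 (R + d) - (l : ℂ) / (R : ℂ) * D (R + d)‖ :=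
    mul_le_mul_of_nonneg_right hwpos (norm_nonneg _)
  have e5 : K2 B L M Br l * Real.sqrt d = 4 * ((Real.sqrt HW + T
        + W8 * B * Real.sqrt (17 * Ec B L M)
        + l * (W8 * Real.sqrt (4 * Ec B L M))
        + l * ((W8 * (11 + 2 * Br)) * Real.sqrt (8 * (Ec B L M + M)))) * Real.sqrt d) := by
    unfold K2
    rw [hHW, hT, hkap]
    ring
  rw [e5]
  linarith

end Hyp

end Crest.Agent.R086.C4
end

-- ▼ part R086/C4g

/-!
Row 86 (S0114), Part C, C4: pointwise bound of `S'` at `R + d`.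
-/

set_option autoImplicit false

open Complex ComplexConjugate Set MeasureTheory

namespace Crest.Agent.R086.C4

open Crest.Agent.R086.CCore Hyp

namespace Hyp

variable {Q Q1 : ℝ → ℂ} {P : ℝ → ℝ} {kap n eps : ℝ} {lam : ℂ}
  {S S1 D D1 sS sD : ℝ → ℂ} {B L M Br R d c : ℝ}

/-- constant of `S1_le` -/
noncomputable def K3 (B L M : ℝ) (l : ℕ) : ℝ :=
  4 * Real.sqrt (4 * (4 * 8 ^ 11) * ((((l : ℝ) * (l + 10) + 1) ^ 2 + L ^ 2 + 1) * M
        + B ^ 2 * Ec B L M) + 4 * (W8 * Ec B L M))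

set_option maxHeartbeats 800000 in
theorem S1_le (h : Hyp 8 Q Q1 P kap n eps lam S S1 D D1 sS sD)
    (hb : Bds Q Q1 eps lam S D sS sD B L M) (hs : Sm R d c Q Q1 P n sS Br) {l : ℕ}
    (hkap : kap = (l : ℝ) * (l + 10)) :
    d * ‖S1 (R + d)‖ ^ 2 ≤ K3 B L M l ^ 2 := by
  have hE := h.E0 hb
  have hM := h.M0 hb
  have hB0 := B0 hb
  have hL0 := L0 hb
  have hd := hs.d0
  have hRd6 : R + d ≤ 6 := by linarith [hs.R4, hs.d2]
  have hl0 : (0:ℝ) ≤ l := Nat.cast_nonneg l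
  set a := R + d / 2 with ha
  set e := R + d with he
  have hae : a < e := by rw [ha, he]; linarith
  have ha1 : 1 ≤ a := by rw [ha]; linarith [hs.R3]
  have hsub : Icc a e ⊆ Icc (0:ℝ) 8 := Icc_subset_Icc (by linarith) (by linarith)
  have hss : ∀ r ∈ Ioo a e, r ∈ Ioo (0:ℝ) 8 := fun r hr =>
    ⟨by linarith [hr.1], by linarith [hr.2]⟩
  have cw' := h.ofReal_w_cont.mono hsub
  have cb' := h.ofReal_b_cont.mono hsub
  have cS := h.cS.mono hsub
  have cS1 := h.cS1.mono hsub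
  have cD := h.cD.mono hsub
  have cD1 := h.cD1.mono hsub
  have csD := h.csD.mono hsub
  have cP := h.cP.mono hsub
  have cw0 := h.cw.mono hsub
  set g : ℝ → ℂ := fun r =>
    (w Q r : ℂ) * ((kap / (r : ℂ) ^ 2 + n * P r) * S r - I * (b Q Q1 r * D1 r + lam * D r + sD r))
    with hg
  have cg : ContinuousOn g (Icc a e) := by
    have hk : ContinuousOn (fun r : ℝ => (kap : ℂ) / (r : ℂ) ^ 2) (Icc a e) := by
      refine ContinuousOn.div continuousOn_const (by fun_prop) ?_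
      intro r hr
      have : (r : ℂ) ≠ 0 := by exact_mod_cast (by linarith [hr.1] : (0:ℝ) < r).ne'
      exact pow_ne_zero 2 this
    have hP' : ContinuousOn (fun r => ((P r : ℝ) : ℂ)) (Icc a e) :=
      Complex.continuous_ofReal.comp_continuousOn cP
    simp only [hg]
    fun_prop
  have h1 := at_bound (a := a) (c := e) (R := e) hae le_rfl (u := fun r => (w Q r : ℂ) * S1 r)
    (u1 := g) (cw'.mul cS1) cg (fun r hr => (h.sys r (hss r hr)).hS1)
  have e2 : e - a = d / 2 := by rw [ha, he]; ring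
  rw [e2] at h1
  have ce := h.c_ed.mono hsub
  have cn := h.c_nd.mono hsub
  have cns := h.c_nds.mono hsub
  -- the integral of `‖g‖²`
  have key : ∫ r in a..e, ‖g r‖ ^ 2 ≤ ∫ r in a..e, (4 * (4 * 8 ^ 11)) *
      (((kap + 1) ^ 2 + L ^ 2) * nd Q S D r + B ^ 2 * ed Q P kap n S S1 D D1 r
        + nd Q sS sD r) := by
    refine intervalIntegral.integral_mono_on hae.le ?_ ?_ ?_
    · exact ContinuousOn.intervalIntegrable (by rw [uIcc_of_le hae.le]; fun_prop)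
    · exact ContinuousOn.intervalIntegrable (by rw [uIcc_of_le hae.le]; fun_prop)
    · intro r hr
      have hr' := hsub hr
      have hr1 : 1 ≤ r := ha1.trans hr.1
      have hw0 := w_nonneg Q hr'.1
      have hw8 := h.w_le8 hr'
      have hk0 := h.kap0
      have hnP0 : 0 ≤ n * P r := mul_nonneg h.n0 (h.P0 r hr')
      have hnP1 : n * P r ≤ 1 := hs.nP r ⟨hr.1, hr'.2⟩
      have n1 : ‖g r‖ ≤ w Q r * ((kap + 1) * ‖S r‖ + B * ‖D1 r‖ + L * ‖D r‖ + ‖sD r‖) := by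
        simp only [hg]
        rw [norm_mul, Complex.norm_real, Real.norm_eq_abs, abs_of_nonneg hw0]
        refine mul_le_mul_of_nonneg_left ?_ hw0
        have e1 : ‖((kap : ℂ) / (r : ℂ) ^ 2 + n * P r) * S r‖ ≤ (kap + 1) * ‖S r‖ := by
          rw [norm_mul]
          refine mul_le_mul_of_nonneg_right ?_ (norm_nonneg _)
          refine (norm_add_le _ _).trans (add_le_add ?_ ?_)
          · rw [norm_div, norm_pow, Complex.norm_real, Complex.norm_real, Real.norm_eq_abs,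
              Real.norm_eq_abs, abs_of_nonneg h.kap0, abs_of_nonneg hr'.1]
            exact div_le_self h.kap0 (one_le_pow₀ hr1)
          · rw [← Complex.ofReal_mul, Complex.norm_real, Real.norm_eq_abs, abs_of_nonneg hnP0]
            exact hnP1
        have e2 : ‖I * ((b Q Q1 r : ℂ) * D1 r + lam * D r + sD r)‖ ≤
            B * ‖D1 r‖ + L * ‖D r‖ + ‖sD r‖ := by
          rw [norm_mul, Complex.norm_I, one_mul]
          refine norm_add₃_le.trans ?_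
          rw [norm_mul, norm_mul, Complex.norm_real, Real.norm_eq_abs]
          have := hb.hB r hr'
          have := hb.hL
          gcongr
        calc _ ≤ ‖((kap : ℂ) / (r : ℂ) ^ 2 + n * P r) * S r‖
              + ‖I * ((b Q Q1 r : ℂ) * D1 r + lam * D r + sD r)‖ := norm_sub_le _ _
          _ ≤ _ := by linarith
      have n2 : ‖g r‖ ^ 2 ≤
          (w Q r * ((kap + 1) * ‖S r‖ + B * ‖D1 r‖ + L * ‖D r‖ + ‖sD r‖)) ^ 2 :=
        pow_le_pow_left₀ (norm_nonneg _) n1 2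
      have n3 : ((kap + 1) * ‖S r‖ + B * ‖D1 r‖ + L * ‖D r‖ + ‖sD r‖) ^ 2 ≤
          4 * ((kap + 1) ^ 2 * ‖S r‖ ^ 2 + B ^ 2 * ‖D1 r‖ ^ 2 + L ^ 2 * ‖D r‖ ^ 2
            + ‖sD r‖ ^ 2) := by
        linarith [sq_nonneg ((kap + 1) * ‖S r‖ - B * ‖D1 r‖),
          sq_nonneg ((kap + 1) * ‖S r‖ - L * ‖D r‖),
          sq_nonneg ((kap + 1) * ‖S r‖ - ‖sD r‖), sq_nonneg (B * ‖D1 r‖ - L * ‖D r‖),
          sq_nonneg (B * ‖D1 r‖ - ‖sD r‖), sq_nonneg (L * ‖D r‖ - ‖sD r‖)]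
      have hed : w Q r * (‖S1 r‖ ^ 2 + ‖D1 r‖ ^ 2) ≤ ed Q P kap n S S1 D D1 r := by
        have h2 := h.P0 r hr'
        have h3 := h.kap0
        have h4 := h.n0
        have h5 := hr'.1
        unfold ed
        have : 0 ≤ kap * (‖Q r‖ ^ 2 * r ^ 9) * (‖S r‖ ^ 2 + ‖D r‖ ^ 2)
          + n * P r * w Q r * ‖S r‖ ^ 2 := by positivity
        linarith
      calc ‖g r‖ ^ 2 ≤ (w Q r * ((kap + 1) * ‖S r‖ + B * ‖D1 r‖ + L * ‖D r‖ + ‖sD r‖)) ^ 2 := n2
        _ = w Q r * (w Q r * ((kap + 1) * ‖S r‖ + B * ‖D1 r‖ + L * ‖D r‖ + ‖sD r‖) ^ 2) := by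
            ring
        _ ≤ (4 * 8 ^ 11) * (w Q r * (4 * ((kap + 1) ^ 2 * ‖S r‖ ^ 2 + B ^ 2 * ‖D1 r‖ ^ 2
              + L ^ 2 * ‖D r‖ ^ 2 + ‖sD r‖ ^ 2))) := by
            refine mul_le_mul hw8 (mul_le_mul_of_nonneg_left n3 hw0) ?_ (by norm_num)
            positivity
        _ ≤ _ := by
            have m1 : w Q r * ‖D1 r‖ ^ 2 ≤ ed Q P kap n S S1 D D1 r := by
              have : 0 ≤ w Q r * ‖S1 r‖ ^ 2 := by positivity
              linarith
            have m2 : B ^ 2 * (w Q r * ‖D1 r‖ ^ 2) ≤ B ^ 2 * ed Q P kap n S S1 D D1 r :=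
              mul_le_mul_of_nonneg_left m1 (sq_nonneg _)
            have m3 : 0 ≤ (kap + 1) ^ 2 * (w Q r * ‖D r‖ ^ 2) := by positivity
            have m4 : 0 ≤ L ^ 2 * (w Q r * ‖S r‖ ^ 2) := by positivity
            have m5 : 0 ≤ w Q r * ‖sS r‖ ^ 2 := by positivity
            have e : (4 * 8 ^ 11 : ℝ) * (w Q r * (4 * ((kap + 1) ^ 2 * ‖S r‖ ^ 2
              + B ^ 2 * ‖D1 r‖ ^ 2
              + L ^ 2 * ‖D r‖ ^ 2 + ‖sD r‖ ^ 2))) = (4 * (4 * 8 ^ 11)) *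
              ((kap + 1) ^ 2 * (w Q r * ‖S r‖ ^ 2) + B ^ 2 * (w Q r * ‖D1 r‖ ^ 2)
              + L ^ 2 * (w Q r * ‖D r‖ ^ 2) + w Q r * ‖sD r‖ ^ 2) := by ring
            rw [e]
            refine mul_le_mul_of_nonneg_left ?_ (by norm_num)
            unfold nd
            linarith
  have i1 : IntervalIntegrable (fun r => ((kap + 1) ^ 2 + L ^ 2) * nd Q S D r) volume a e :=
    ContinuousOn.intervalIntegrable (by rw [uIcc_of_le hae.le]; fun_prop)
  have i2 : IntervalIntegrable (fun r => B ^ 2 * ed Q P kap n S S1 D D1 r) volume a e :=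
    ContinuousOn.intervalIntegrable (by rw [uIcc_of_le hae.le]; fun_prop)
  have i3 : IntervalIntegrable (fun r => nd Q sS sD r) volume a e :=
    ContinuousOn.intervalIntegrable (by rw [uIcc_of_le hae.le]; fun_prop)
  rw [intervalIntegral.integral_const_mul, intervalIntegral.integral_add (i1.add i2) i3,
    intervalIntegral.integral_add i1 i2, intervalIntegral.integral_const_mul,
    intervalIntegral.integral_const_mul] at key
  have a1 := h.nd_int hb (by linarith : 0 ≤ a) hae.le (by linarith : e ≤ 8)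
  have a2 := h.e6 hb (by linarith : 0 ≤ a) hae.le hRd6
  have a3 := h.nds_int hb (by linarith : 0 ≤ a) hae.le (by linarith : e ≤ 8)
  have b1 := mul_le_mul_of_nonneg_left a1 (by positivity : 0 ≤ (kap + 1) ^ 2 + L ^ 2)
  have b2 := mul_le_mul_of_nonneg_left a2 (sq_nonneg B)
  have key2 : ∫ r in a..e, ‖g r‖ ^ 2 ≤ (4 * (4 * 8 ^ 11)) *
      (((kap + 1) ^ 2 + L ^ 2 + 1) * M + B ^ 2 * Ec B L M) := by
    refine key.trans (mul_le_mul_of_nonneg_left ?_ (by norm_num))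
    linarith
  -- the integral of `‖w S1‖²`
  have key3 : ∫ r in a..e, ‖(w Q r : ℂ) * S1 r‖ ^ 2 ≤ W8 * Ec B L M := by
    have h2 : ∫ r in a..e, ‖(w Q r : ℂ) * S1 r‖ ^ 2 ≤
        ∫ r in a..e, W8 * ed Q P kap n S S1 D D1 r := by
      refine intervalIntegral.integral_mono_on hae.le ?_ ?_ ?_
      · exact ContinuousOn.intervalIntegrable (by rw [uIcc_of_le hae.le]; fun_prop)
      · exact ContinuousOn.intervalIntegrable (by rw [uIcc_of_le hae.le]; fun_prop)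
      · intro r hr
        have hr' := hsub hr
        have hw0 := w_nonneg Q hr'.1
        have hw8 := h.w_le8 hr'
        have hed : w Q r * (‖S1 r‖ ^ 2 + ‖D1 r‖ ^ 2) ≤ ed Q P kap n S S1 D D1 r := by
          have h2 := h.P0 r hr'
          have h3 := h.kap0
          have h4 := h.n0
          have h5 := hr'.1
          unfold ed
          have : 0 ≤ kap * (‖Q r‖ ^ 2 * r ^ 9) * (‖S r‖ ^ 2 + ‖D r‖ ^ 2)
            + n * P r * w Q r * ‖S r‖ ^ 2 := by positivity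
          linarith
        rw [norm_mul, Complex.norm_real, Real.norm_eq_abs, abs_of_nonneg hw0]
        calc (w Q r * ‖S1 r‖) ^ 2 = w Q r * (w Q r * ‖S1 r‖ ^ 2) := by ring
          _ ≤ W8 * (w Q r * ‖S1 r‖ ^ 2) :=
              mul_le_mul_of_nonneg_right hw8 (by positivity)
          _ ≤ _ := by
              refine mul_le_mul_of_nonneg_left ?_ W8_pos.le
              have : 0 ≤ w Q r * ‖D1 r‖ ^ 2 := by positivity
              linarith
    refine h2.trans ?_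
    rw [intervalIntegral.integral_const_mul]
    exact mul_le_mul_of_nonneg_left a2 W8_pos.le
  -- combine
  set HS := (4 * (4 * 8 ^ 11)) * (((kap + 1) ^ 2 + L ^ 2 + 1) * M + B ^ 2 * Ec B L M) with hHS
  have hHS0 : 0 ≤ HS := by positivity
  have hWE0 : 0 ≤ W8 * Ec B L M := mul_nonneg W8_pos.le hE
  have h3 : ‖(w Q e : ℂ) * S1 e‖ ^ 2 ≤ d * HS + 4 / d * (W8 * Ec B L M) := by
    refine h1.trans ?_
    have u1 : 2 * (d / 2) * ∫ r in a..e, ‖g r‖ ^ 2 ≤ 2 * (d / 2) * HS :=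
      mul_le_mul_of_nonneg_left key2 (by positivity)
    have u2 : 2 / (d / 2) * ∫ r in a..e, ‖(w Q r : ℂ) * S1 r‖ ^ 2 ≤
        2 / (d / 2) * (W8 * Ec B L M) :=
      mul_le_mul_of_nonneg_left key3 (by positivity)
    have u3 : 2 / (d / 2) = 4 / d := by field_simp; norm_num
    rw [u3] at u2
    rw [u3]
    linarith
  have hwpos : 1 / 4 ≤ w Q e := by
    have h1 := h.wl (⟨by linarith, by linarith⟩ : e ∈ Icc (0:ℝ) 8)
    have h2 : (1 : ℝ) ≤ e ^ 11 := one_le_pow₀ (by linarith)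
    linarith
  rw [norm_mul, Complex.norm_real, Real.norm_eq_abs, abs_of_nonneg (by linarith)] at h3
  have h4 : d * ((w Q e * ‖S1 e‖) ^ 2) ≤ HS + 4 * (W8 * Ec B L M) := by
    have u1 := mul_le_mul_of_nonneg_left h3 hd.le
    have u2 : d * (4 / d * (W8 * Ec B L M)) = 4 * (W8 * Ec B L M) := by field_simp
    have u3 : d * (d * HS) ≤ HS := by
      have v1 : d * d ≤ 1 / 2 * (1 / 2) := mul_le_mul hs.d2 hs.d2 hd.le (by norm_num)
      have v2 : d * d ≤ 1 := by linarith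
      have v3 := mul_le_mul_of_nonneg_right v2 hHS0
      linarith
    linarith
  have h5 : d * ‖S1 e‖ ^ 2 ≤ 16 * (HS + 4 * (W8 * Ec B L M)) := by
    have u1 : ‖S1 e‖ ^ 2 ≤ 16 * (w Q e * ‖S1 e‖) ^ 2 := by
      have v1 : ‖S1 e‖ ≤ 4 * (w Q e * ‖S1 e‖) := by
        have := mul_le_mul_of_nonneg_right hwpos (norm_nonneg (S1 e))
        linarith
      have v2 := pow_le_pow_left₀ (norm_nonneg _) v1 2
      linarith
    have u2 := mul_le_mul_of_nonneg_left u1 hd.le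
    linarith
  have e5 : K3 B L M l ^ 2 = 16 * (HS + 4 * (W8 * Ec B L M)) := by
    unfold K3
    rw [mul_pow, ← hkap, Real.sq_sqrt (by positivity), hHS]
    ring
  rw [e5]
  exact h5

end Hyp

end Crest.Agent.R086.C4
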