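import Mathlib
import Crest.Agent.R086.CH2

-- ▼ part R086/CDecay
section

/-!
Row 86 (S0114), Part C, node C-H (helper362): decay of solutions of
`(r/2) F' + mu F = O(F'' + F'/r + F/r²)` with 20 bounded derivatives, by Landau interpolation.
-/

set_option autoImplicit false

open Complex Filter Topology Set

namespace Crest.Agent.R086.CDecay

/-- Landau's inequality on a half line (crude constant). -/
theorem landau {g g1 g2 : ℝ → ℂ} {a A B : ℝ} (hA : 0 < A) (hB : 0 < B)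
    (h1 : ∀ s, a ≤ s → HasDerivAt g (g1 s) s) (h2 : ∀ s, a ≤ s → HasDerivAt g1 (g2 s) s)
    (b0 : ∀ s, a ≤ s → ‖g s‖ ≤ A) (b2 : ∀ s, a ≤ s → ‖g2 s‖ ≤ B) :
    ∀ s, a ≤ s → ‖g1 s‖ ^ 2 ≤ 8 * A * B := by
  intro s hs
  set h : ℝ := Real.sqrt (2 * A / B) with hh
  have hpos : 0 < h := Real.sqrt_pos.2 (by positivity)
  have hsq : h ^ 2 = 2 * A / B := Real.sq_sqrt (by positivity)
  -- g1 is B-Lipschitz
  have hlip : ∀ t ∈ Icc s (s + h), ‖g1 t - g1 s‖ ≤ B * (t - s) := by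
    intro t ht
    apply norm_image_sub_le_of_norm_deriv_le_segment' (f' := g2)
      (fun x hx => (h2 x (le_trans hs hx.1)).hasDerivWithinAt)
      (fun x hx => b2 x (le_trans hs hx.1)) t ht
  have hder : ∀ t ∈ Icc s (s + h), HasDerivWithinAt (fun t => g t - ((t - s : ℝ) : ℂ) * g1 s)
      (g1 t - g1 s) (Icc s (s + h)) t := by
    intro t ht
    have e1 : HasDerivAt (fun t : ℝ => ((t - s : ℝ) : ℂ) * g1 s) (1 * g1 s) t := by
      have : HasDerivAt (fun t : ℝ => ((t - s : ℝ) : ℂ)) ((1 : ℝ) : ℂ) t :=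
        ((hasDerivAt_id t).sub_const s).ofReal_comp
      simpa using this.mul_const (g1 s)
    have := (h1 t (le_trans hs ht.1)).sub e1
    rw [one_mul] at this
    exact this.hasDerivWithinAt
  have hb : ∀ t ∈ Ico s (s + h), ‖g1 t - g1 s‖ ≤ B * h := by
    intro t ht
    refine le_trans (hlip t ⟨ht.1, ht.2.le⟩) ?_
    apply mul_le_mul_of_nonneg_left _ hB.le
    linarith [ht.2]
  have hfin := norm_image_sub_le_of_norm_deriv_le_segment' hder hb (s + h)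
    ⟨by linarith, le_refl _⟩
  have e2 : g (s + h) - ((s + h - s : ℝ) : ℂ) * g1 s - (g s - ((s - s : ℝ) : ℂ) * g1 s)
      = (g (s + h) - g s) - (h : ℂ) * g1 s := by
    push_cast; ring
  rw [e2] at hfin
  have e3 : ‖(h : ℂ) * g1 s‖ = h * ‖g1 s‖ := by
    rw [norm_mul, Complex.norm_real, Real.norm_of_nonneg hpos.le]
  have e4 : ‖(h : ℂ) * g1 s‖ ≤ ‖g (s + h) - g s‖ + ‖(g (s + h) - g s) - (h : ℂ) * g1 s‖ := by
    have := norm_sub_le (g (s + h) - g s) ((g (s + h) - g s) - (h : ℂ) * g1 s)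
    rwa [sub_sub_cancel] at this
  have e5 : ‖g (s + h) - g s‖ ≤ 2 * A := by
    have := norm_sub_le (g (s + h)) (g s)
    have := b0 (s + h) (by linarith)
    have := b0 s hs
    linarith
  have e6 : h * ‖g1 s‖ ≤ 2 * A + B * h ^ 2 := by
    rw [e3] at e4
    have : B * h * (s + h - s) = B * h ^ 2 := by ring
    linarith
  have e7 : B * h ^ 2 = 2 * A := by rw [hsq]; field_simp
  rw [e7] at e6
  have e8 : (h * ‖g1 s‖) ^ 2 ≤ (4 * A) ^ 2 := by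
    apply pow_le_pow_left₀ (by positivity)
    linarith
  have e9 : (h * ‖g1 s‖) ^ 2 = 2 * A / B * ‖g1 s‖ ^ 2 := by rw [mul_pow, hsq]
  rw [e9] at e8
  have e10 : ‖g1 s‖ ^ 2 = (2 * A / B * ‖g1 s‖ ^ 2) * (B / (2 * A)) := by field_simp
  rw [e10]
  calc (2 * A / B * ‖g1 s‖ ^ 2) * (B / (2 * A)) ≤ (4 * A) ^ 2 * (B / (2 * A)) :=
        mul_le_mul_of_nonneg_right e8 (by positivity)
    _ = 8 * A * B := by field_simp; ring

/-- log-convexity algebra -/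
theorem logconv {L : ℕ → ℝ} {c : ℝ} {N : ℕ} (hc : 0 < c) (hL : ∀ i, i ≤ N → 0 < L i)
    (h : ∀ i, i + 2 ≤ N → L (i + 1) ^ 2 ≤ c * (L i * L (i + 2))) :
    ∀ k, k + 1 ≤ N → L 1 * L k ≤ c ^ k * (L 0 * L (k + 1)) ∧
      L 1 ^ (k + 1) ≤ c ^ (k * (k + 1)) * (max 1 (c⁻¹)) ^ (k * (k + 1)) * (L 0 ^ k * L (k + 1)) := by
  intro k
  induction k with
  | zero =>
    intro hk
    constructor
    · simp [mul_comm]
    · simp
  | succ k ih =>
    intro hk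
    obtain ⟨h1, h2⟩ := ih (by omega)
    have p0 := hL 0 (by omega)
    have p1 := hL 1 (by omega)
    have pk := hL k (by omega)
    have pk1 := hL (k + 1) (by omega)
    have pk2 := hL (k + 1 + 1) (by omega)
    have hR : L 1 * L (k + 1) ≤ c ^ (k + 1) * (L 0 * L (k + 1 + 1)) := by
      have i1 : L 1 * L (k + 1) * L (k + 1) ≤ c ^ (k + 1) * (L 0 * L (k + 1 + 1)) * L (k + 1) := by
        calc L 1 * L (k + 1) * L (k + 1) = L 1 * L (k + 1) ^ 2 := by ring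
          _ ≤ L 1 * (c * (L k * L (k + 2))) := mul_le_mul_of_nonneg_left (h k (by omega)) p1.le
          _ = c * L (k + 2) * (L 1 * L k) := by ring
          _ ≤ c * L (k + 2) * (c ^ k * (L 0 * L (k + 1))) :=
              mul_le_mul_of_nonneg_left h1 (mul_nonneg hc.le pk2.le)
          _ = c ^ (k + 1) * (L 0 * L (k + 1 + 1)) * L (k + 1) := by ring
      exact le_of_mul_le_mul_right i1 pk1
    refine ⟨hR, ?_⟩
    set m : ℝ := max 1 c⁻¹ with hm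
    have hm1 : 1 ≤ m := le_max_left _ _
    have hmc : 1 ≤ c * m := by
      have : c * c⁻¹ ≤ c * m := mul_le_mul_of_nonneg_left (le_max_right _ _) hc.le
      rwa [mul_inv_cancel₀ hc.ne'] at this
    have hcm : 0 < c * m := by linarith
    calc L 1 ^ (k + 1 + 1) = L 1 ^ (k + 1) * L 1 := by ring
      _ ≤ (c ^ (k * (k + 1)) * m ^ (k * (k + 1)) * (L 0 ^ k * L (k + 1))) * L 1 :=
          mul_le_mul_of_nonneg_right h2 p1.le
      _ = (c * m) ^ (k * (k + 1)) * L 0 ^ k * (L 1 * L (k + 1)) := by rw [mul_pow]; ring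
      _ ≤ (c * m) ^ (k * (k + 1)) * L 0 ^ k * (c ^ (k + 1) * (L 0 * L (k + 1 + 1))) :=
          mul_le_mul_of_nonneg_left hR (by positivity)
      _ ≤ (c * m) ^ (k * (k + 1)) * L 0 ^ k * ((c * m) ^ (k + 1) * (c * m) ^ (k + 1) *
            (L 0 * L (k + 1 + 1))) := by
          apply mul_le_mul_of_nonneg_left _ (by positivity)
          apply mul_le_mul_of_nonneg_right _ (by positivity)
          have a1 : c ^ (k + 1) ≤ (c * m) ^ (k + 1) := by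
            apply pow_le_pow_left₀ hc.le
            nlinarith
          have a2 : 1 ≤ (c * m) ^ (k + 1) := one_le_pow₀ hmc
          calc c ^ (k + 1) ≤ (c * m) ^ (k + 1) := a1
            _ = (c * m) ^ (k + 1) * 1 := (mul_one _).symm
            _ ≤ _ := mul_le_mul_of_nonneg_left a2 (by positivity)
      _ = c ^ ((k + 1) * (k + 1 + 1)) * m ^ ((k + 1) * (k + 1 + 1)) *
            (L 0 ^ (k + 1) * L (k + 1 + 1)) := by
          rw [← mul_pow c m ((k + 1) * (k + 1 + 1))]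
          have : (k + 1) * (k + 1 + 1) = k * (k + 1) + (k + 1) + (k + 1) := by ring
          rw [this, pow_add, pow_add]
          ring

/-- Interpolation of decay: `f 1 = O(r^(-al))`, all `f j` bounded (`j ≤ 20`) implies
`f 2 = O(r^(-18 al/19))`. -/
theorem interp {f : ℕ → ℝ → ℂ} {M C1 al : ℝ} (hal : 0 ≤ al) (hM : 0 ≤ M) (hC1 : 0 ≤ C1)
    (hd : ∀ j, j < 20 → ∀ s, 1 ≤ s → HasDerivAt (f j) (f (j + 1) s) s)
    (hb : ∀ j, j ≤ 20 → ∀ s, 1 ≤ s → ‖f j s‖ ≤ M)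
    (h1 : ∀ s, 1 ≤ s → ‖f 1 s‖ ≤ C1 * s ^ (-al)) :
    ∃ C : ℝ, 0 ≤ C ∧ ∀ s, 1 ≤ s → ‖f 2 s‖ ≤ C * s ^ (-(18 / 19 * al)) := by
  set K : ℝ := (16 : ℝ) ^ (18 * (18 + 1)) * (max 1 (16 : ℝ)⁻¹) ^ (18 * (18 + 1)) with hK
  have hKpos : 0 < K := by positivity
  set C' : ℝ := 1 + K * (C1 + 1) ^ 18 * (M + 1) with hC'
  have hC'1 : 1 ≤ C' := by
    have : 0 ≤ K * (C1 + 1) ^ 18 * (M + 1) := by positivity
    linarith
  refine ⟨C', by linarith, ?_⟩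
  intro a ha
  have hapos : 0 < a := by linarith
  set δ : ℝ := a ^ (-al) with hδ
  have hδ0 : 0 < δ := Real.rpow_pos_of_pos hapos _
  have hδ1 : δ ≤ 1 := Real.rpow_le_one_of_one_le_of_nonpos ha (by linarith)
  set S : ℕ → ℝ := fun j => sSup ((fun s => ‖f j s‖) '' Ici a) with hS
  have hbdd : ∀ j, j ≤ 20 → BddAbove ((fun s => ‖f j s‖) '' Ici a) := by
    intro j hj
    refine ⟨M, ?_⟩
    rintro _ ⟨s, hs, rfl⟩
    exact hb j hj s (le_trans ha hs)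
  have hle : ∀ j, j ≤ 20 → ∀ s, a ≤ s → ‖f j s‖ ≤ S j := fun j hj s hs =>
    le_csSup (hbdd j hj) ⟨s, hs, rfl⟩
  have hS0 : ∀ j, j ≤ 20 → 0 ≤ S j := fun j hj =>
    le_trans (norm_nonneg _) (hle j hj a (le_refl a))
  have hsup : ∀ j, ∀ x : ℝ, (∀ s, a ≤ s → ‖f j s‖ ≤ x) → S j ≤ x := by
    intro j x hx
    apply csSup_le (Set.Nonempty.image _ (⟨a, le_refl a⟩ : (Ici a).Nonempty))
    rintro _ ⟨s, hs, rfl⟩
    exact hx s hs
  set L : ℕ → ℝ := fun i => S (i + 1) + δ with hL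
  have hLpos : ∀ i, i ≤ 19 → 0 < L i := by
    intro i hi
    have := hS0 (i + 1) (by omega)
    simp only [hL]
    linarith
  have hLδ : ∀ i, i ≤ 19 → δ ≤ L i := by
    intro i hi
    have := hS0 (i + 1) (by omega)
    simp only [hL]
    linarith
  have hconv : ∀ i, i + 2 ≤ 19 → L (i + 1) ^ 2 ≤ 16 * (L i * L (i + 2)) := by
    intro i hi
    have pi := hLpos i (by omega)
    have pi2 := hLpos (i + 2) (by omega)
    have hlan : ∀ s, a ≤ s → ‖f (i + 2) s‖ ^ 2 ≤ 8 * L i * L (i + 2) := by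
      apply landau pi pi2 (g := f (i + 1)) (g2 := f (i + 2 + 1))
      · intro s hs
        exact hd (i + 1) (by omega) s (le_trans ha hs)
      · intro s hs
        exact hd (i + 2) (by omega) s (le_trans ha hs)
      · intro s hs
        have := hle (i + 1) (by omega) s hs
        simp only [hL]
        linarith
      · intro s hs
        have := hle (i + 2 + 1) (by omega) s hs
        simp only [hL]
        linarith
    set q : ℝ := Real.sqrt (L i * L (i + 2)) with hq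
    have hq0 : 0 ≤ q := Real.sqrt_nonneg _
    have hq2 : q ^ 2 = L i * L (i + 2) := Real.sq_sqrt (by positivity)
    have hs1 : S (i + 2) ≤ 3 * q := by
      apply hsup
      intro s hs
      refine le_of_pow_le_pow_left₀ two_ne_zero (by positivity) ?_
      calc ‖f (i + 2) s‖ ^ 2 ≤ 8 * L i * L (i + 2) := hlan s hs
        _ = 8 * q ^ 2 := by rw [hq2]; ring
        _ ≤ (3 * q) ^ 2 := by nlinarith [sq_nonneg q]
    have hs2 : δ ≤ q := by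
      refine le_of_pow_le_pow_left₀ two_ne_zero hq0 ?_
      rw [hq2, sq]
      exact mul_le_mul (hLδ i (by omega)) (hLδ (i + 2) (by omega)) hδ0.le pi.le
    have hs3 : L (i + 1) ≤ 4 * q := by
      simp only [hL]
      have : i + 1 + 1 = i + 2 := by ring
      rw [this]
      linarith
    calc L (i + 1) ^ 2 ≤ (4 * q) ^ 2 :=
          pow_le_pow_left₀ (hLpos (i + 1) (by omega)).le hs3 2
      _ = 16 * (L i * L (i + 2)) := by rw [mul_pow, hq2]; norm_num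
  have hfin := (logconv (c := 16) (N := 19) (by norm_num) hLpos hconv 18 (by norm_num)).2
  have hL0 : L 0 ≤ (C1 + 1) * δ := by
    have : S 1 ≤ C1 * δ := by
      apply hsup
      intro s hs
      refine le_trans (h1 s (le_trans ha hs)) ?_
      apply mul_le_mul_of_nonneg_left _ hC1
      exact Real.rpow_le_rpow_of_nonpos hapos hs (by linarith)
    simp only [hL]
    linarith
  have hL19 : L 19 ≤ M + 1 := by
    have : S 20 ≤ M := hsup 20 M (fun s hs => hb 20 (le_refl _) s (le_trans ha hs))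
    simp only [hL]
    linarith
  have hf2 : ‖f 2 a‖ ≤ L 1 := by
    have := hle 2 (by norm_num) a (le_refl a)
    simp only [hL]
    linarith
  have p0 := hLpos 0 (by norm_num)
  have p1 := hLpos 1 (by norm_num)
  have p19 := hLpos 19 (by norm_num)
  have hbig : ‖f 2 a‖ ^ 19 ≤ (C' * a ^ (-(18 / 19 * al))) ^ 19 := by
    calc ‖f 2 a‖ ^ 19 ≤ L 1 ^ 19 := pow_le_pow_left₀ (norm_nonneg _) hf2 19
      _ ≤ K * (L 0 ^ 18 * L 19) := hfin
      _ ≤ K * (((C1 + 1) * δ) ^ 18 * (M + 1)) := by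
          apply mul_le_mul_of_nonneg_left _ hKpos.le
          apply mul_le_mul (pow_le_pow_left₀ p0.le hL0 18) hL19 p19.le (by positivity)
      _ = (K * (C1 + 1) ^ 18 * (M + 1)) * δ ^ 18 := by ring
      _ ≤ C' ^ 19 * δ ^ 18 := by
          apply mul_le_mul_of_nonneg_right _ (by positivity)
          calc K * (C1 + 1) ^ 18 * (M + 1) ≤ C' := by rw [hC']; linarith
            _ = C' ^ 1 := (pow_one _).symm
            _ ≤ C' ^ 19 := pow_le_pow_right₀ hC'1 (by norm_num)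
      _ = (C' * a ^ (-(18 / 19 * al))) ^ 19 := by
          rw [mul_pow]
          congr 1
          rw [hδ, ← Real.rpow_natCast, ← Real.rpow_natCast, ← Real.rpow_mul hapos.le,
            ← Real.rpow_mul hapos.le]
          congr 1
          push_cast
          ring
  exact le_of_pow_le_pow_left₀ (by norm_num) (by positivity) hbig

/-- integration of `(r/2) F' + mu F = O(r^(-a))` for `0 ≤ a < 2 Re mu`. -/
theorem integrate {F F1 : ℝ → ℂ} {mu : ℂ} {a C : ℝ} (hC : 0 ≤ C) (ha : a < 2 * mu.re)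
    (hF : ∀ r : ℝ, 1 ≤ r → HasDerivAt F (F1 r) r)
    (hE : ∀ r : ℝ, 1 ≤ r → ‖(r / 2 : ℂ) * F1 r + mu * F r‖ ≤ C * r ^ (-a)) :
    ∃ C' : ℝ, 0 ≤ C' ∧ ∀ r, 1 ≤ r → ‖F r‖ ≤ C' * r ^ (-a) := by
  set g : ℝ := 2 * mu.re - a with hg
  have hgpos : 0 < g := by linarith
  set ψ : ℝ → ℂ := fun r => Complex.exp (2 * mu * (Real.log r : ℂ)) * F r with hψ
  set ψ' : ℝ → ℂ := fun r => (2 / (r : ℂ)) * Complex.exp (2 * mu * (Real.log r : ℂ)) *
    ((r / 2 : ℂ) * F1 r + mu * F r) with hψ'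
  have hnorm : ∀ r, 1 ≤ r → ‖Complex.exp (2 * mu * (Real.log r : ℂ))‖ = r ^ (2 * mu.re) := by
    intro r hr
    have hr0 : 0 < r := by linarith
    rw [Complex.norm_exp]
    have : (2 * mu * (Real.log r : ℂ)).re = Real.log r * (2 * mu.re) := by
      simp only [Complex.mul_re, Complex.ofReal_re, Complex.ofReal_im, Complex.mul_im]
      norm_num
      ring
    rw [this, Real.rpow_def_of_pos hr0]
  have hder : ∀ r, 1 ≤ r → HasDerivAt ψ (ψ' r) r := by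
    intro r hr
    have hr0 : 0 < r := by linarith
    have hl : HasDerivAt (fun r : ℝ => (Real.log r : ℂ)) ((r⁻¹ : ℝ) : ℂ) r :=
      (Real.hasDerivAt_log hr0.ne').ofReal_comp
    have he := ((hl.const_mul (2 * mu)).cexp).mul (hF r hr)
    refine he.congr_deriv ?_
    have hr' : (r : ℂ) ≠ 0 := by exact_mod_cast hr0.ne'
    simp only [hψ']
    push_cast
    field_simp
    ring
  have hbound : ∀ r, 1 ≤ r → ‖ψ' r‖ ≤ 2 * C * r ^ (g - 1) := by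
    intro r hr
    have hr0 : 0 < r := by linarith
    simp only [hψ']
    rw [norm_mul, norm_mul, hnorm r hr]
    have e1 : ‖(2 / (r : ℂ))‖ = 2 / r := by
      rw [norm_div, Complex.norm_real, Real.norm_of_nonneg hr0.le]
      norm_num
    rw [e1]
    calc 2 / r * r ^ (2 * mu.re) * ‖(r / 2 : ℂ) * F1 r + mu * F r‖
        ≤ 2 / r * r ^ (2 * mu.re) * (C * r ^ (-a)) :=
          mul_le_mul_of_nonneg_left (hE r hr) (by positivity)
      _ = 2 * C * (r ^ (2 * mu.re) * r ^ (-a) * r ^ (-1 : ℝ)) := by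
          rw [Real.rpow_neg_one]; ring
      _ = 2 * C * r ^ (g - 1) := by
          rw [← Real.rpow_add hr0, ← Real.rpow_add hr0]
          congr 2
  set Bf : ℝ → ℝ := fun r => ‖F 1‖ + 2 * C / g * r ^ g with hBf
  have hBd : ∀ r, 1 ≤ r → HasDerivAt Bf (2 * C * r ^ (g - 1)) r := by
    intro r hr
    have hr0 : 0 < r := by linarith
    have := ((Real.hasDerivAt_rpow_const (x := r) (p := g) (Or.inl hr0.ne')).const_mul
      (2 * C / g)).const_add ‖F 1‖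
    refine this.congr_deriv ?_
    field_simp
  have hkey : ∀ r, 1 ≤ r → ‖ψ r‖ ≤ Bf r := by
    intro r hr
    have hc : ContinuousOn ψ (Icc 1 r) := fun x hx => (hder x hx.1).continuousAt.continuousWithinAt
    have hcB : ContinuousOn Bf (Icc 1 r) := fun x hx => (hBd x hx.1).continuousAt.continuousWithinAt
    refine image_norm_le_of_norm_deriv_right_le_deriv_boundary' hc
      (fun x hx => (hder x hx.1).hasDerivWithinAt) ?_ hcB
      (fun x hx => (hBd x hx.1).hasDerivWithinAt) (fun x hx => hbound x hx.1)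
      (⟨hr, le_refl r⟩ : r ∈ Icc 1 r)
    simp only [hψ, hBf, Real.log_one, Complex.ofReal_zero, mul_zero, Complex.exp_zero, one_mul,
      Real.one_rpow, mul_one]
    have : 0 ≤ 2 * C / g := by positivity
    linarith
  refine ⟨‖F 1‖ + 2 * C / g, by positivity, ?_⟩
  intro r hr
  have hr0 : 0 < r := by linarith
  have h1 := hkey r hr
  simp only [hψ, norm_mul, hnorm r hr, hBf] at h1
  have hrg : 1 ≤ r ^ g := Real.one_le_rpow hr hgpos.le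
  have h2 : r ^ (2 * mu.re) * ‖F r‖ ≤ (‖F 1‖ + 2 * C / g) * r ^ g := by
    calc r ^ (2 * mu.re) * ‖F r‖ ≤ ‖F 1‖ + 2 * C / g * r ^ g := h1
      _ ≤ ‖F 1‖ * r ^ g + 2 * C / g * r ^ g := by
          have : ‖F 1‖ * 1 ≤ ‖F 1‖ * r ^ g := mul_le_mul_of_nonneg_left hrg (norm_nonneg _)
          linarith
      _ = _ := by ring
  have h3 : ‖F r‖ = r ^ (-(2 * mu.re)) * (r ^ (2 * mu.re) * ‖F r‖) := by
    rw [← mul_assoc, ← Real.rpow_add hr0]
    simp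
  rw [h3]
  calc r ^ (-(2 * mu.re)) * (r ^ (2 * mu.re) * ‖F r‖)
      ≤ r ^ (-(2 * mu.re)) * ((‖F 1‖ + 2 * C / g) * r ^ g) :=
        mul_le_mul_of_nonneg_left h2 (by positivity)
    _ = (‖F 1‖ + 2 * C / g) * (r ^ (-(2 * mu.re)) * r ^ g) := by ring
    _ = (‖F 1‖ + 2 * C / g) * r ^ (-a) := by
        rw [← Real.rpow_add hr0]
        congr 2
        rw [hg]; ring

end Crest.Agent.R086.CDecay
end

-- ▼ part R086/CDecay2
section

/-!
Row 86 (S0114), Part C, node C-H (helper362): decay of mode pairs.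
-/

set_option autoImplicit false

open Complex Filter Topology Set

namespace Crest.Agent.R086.CDecay

/-- `f = O(r^(-a))` on `[1,∞)` -/
def Dk (f : ℝ → ℂ) (a : ℝ) : Prop := ∃ C : ℝ, 0 ≤ C ∧ ∀ r : ℝ, 1 ≤ r → ‖f r‖ ≤ C * r ^ (-a)

theorem Dk.mono {f : ℝ → ℂ} {a b : ℝ} (h : Dk f a) (hab : b ≤ a) : Dk f b := by
  obtain ⟨C, hC, h⟩ := h
  refine ⟨C, hC, fun r hr => (h r hr).trans ?_⟩
  apply mul_le_mul_of_nonneg_left _ hC
  exact Real.rpow_le_rpow_of_exponent_le hr (by linarith)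

theorem Dk.of_bdd {f : ℝ → ℂ} {M : ℝ} (hM : 0 ≤ M) (h : ∀ r : ℝ, 1 ≤ r → ‖f r‖ ≤ M) : Dk f 0 :=
  ⟨M, hM, fun r hr => by simpa using h r hr⟩

/-- step (E): the equation gives one more power for `F'`. -/
theorem stepE {F F1 F2 G : ℝ → ℂ} {mu : ℂ} {K a : ℝ} (hK : 0 ≤ K)
    (hE : ∀ r : ℝ, 1 ≤ r → ‖(r / 2 : ℂ) * F1 r + mu * F r‖ ≤
      K * (‖F2 r‖ + ‖F1 r‖ / r + (‖F r‖ + ‖G r‖) / r ^ 2))
    (h0 : Dk F a) (h1 : Dk F1 a) (h2 : Dk F2 a) (hG : Dk G a) : Dk F1 (1 + a) := by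
  obtain ⟨A0, a0, h0⟩ := h0
  obtain ⟨A1, a1, h1⟩ := h1
  obtain ⟨A2, a2, h2⟩ := h2
  obtain ⟨A3, a3, hG⟩ := hG
  refine ⟨2 * (K * (A2 + A1 + (A0 + A3)) + ‖mu‖ * A0), by positivity, ?_⟩
  intro r hr
  have hr0 : 0 < r := by linarith
  have g0 := h0 r hr
  have g1 := h1 r hr
  have g2 := h2 r hr
  have g3 := hG r hr
  have gE := hE r hr
  set x : ℝ := r ^ (-a) with hx
  have hx0 : 0 < x := Real.rpow_pos_of_pos hr0 _
  have e1 : ‖F1 r‖ / r ≤ A1 * x := by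
    rw [div_le_iff₀ hr0]
    nlinarith [mul_nonneg a1 hx0.le]
  have e2 : (‖F r‖ + ‖G r‖) / r ^ 2 ≤ (A0 + A3) * x := by
    rw [div_le_iff₀ (by positivity)]
    have : 1 ≤ r ^ 2 := one_le_pow₀ hr
    nlinarith [mul_nonneg (add_nonneg a0 a3) hx0.le]
  have e3 : ‖(r / 2 : ℂ) * F1 r + mu * F r‖ ≤ K * (A2 + A1 + (A0 + A3)) * x := by
    refine gE.trans ?_
    have : ‖F2 r‖ + ‖F1 r‖ / r + (‖F r‖ + ‖G r‖) / r ^ 2 ≤ (A2 + A1 + (A0 + A3)) * x := by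
      linarith
    calc K * (‖F2 r‖ + ‖F1 r‖ / r + (‖F r‖ + ‖G r‖) / r ^ 2) ≤ K * ((A2 + A1 + (A0 + A3)) * x) :=
          mul_le_mul_of_nonneg_left this hK
      _ = _ := by ring
  have e4 : ‖(r / 2 : ℂ) * F1 r‖ = r / 2 * ‖F1 r‖ := by
    rw [norm_mul, norm_div, Complex.norm_real, Real.norm_of_nonneg hr0.le]
    norm_num
  have e5 : r / 2 * ‖F1 r‖ ≤ (K * (A2 + A1 + (A0 + A3)) + ‖mu‖ * A0) * x := by
    rw [← e4]
    have := norm_sub_le ((r / 2 : ℂ) * F1 r + mu * F r) (mu * F r)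
    rw [add_sub_cancel_right] at this
    have h6 : ‖mu * F r‖ ≤ ‖mu‖ * A0 * x := by
      rw [norm_mul, mul_assoc]
      exact mul_le_mul_of_nonneg_left g0 (norm_nonneg _)
    linarith
  have e6 : r ^ (-(1 + a)) = r⁻¹ * x := by
    rw [neg_add, Real.rpow_add hr0, Real.rpow_neg_one]
  rw [e6]
  have e7 : ‖F1 r‖ = (r / 2 * ‖F1 r‖) * (2 * r⁻¹) := by field_simp
  rw [e7]
  calc (r / 2 * ‖F1 r‖) * (2 * r⁻¹) ≤ ((K * (A2 + A1 + (A0 + A3)) + ‖mu‖ * A0) * x) * (2 * r⁻¹) :=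
        mul_le_mul_of_nonneg_right e5 (by positivity)
    _ = _ := by ring

/-- step (I): integration. -/
theorem stepI {F F1 F2 G : ℝ → ℂ} {mu : ℂ} {K a b : ℝ} (hK : 0 ≤ K) (hb : b < 2 * mu.re)
    (hba : b ≤ a + 2) (hF : ∀ r : ℝ, 1 ≤ r → HasDerivAt F (F1 r) r)
    (hE : ∀ r : ℝ, 1 ≤ r → ‖(r / 2 : ℂ) * F1 r + mu * F r‖ ≤
      K * (‖F2 r‖ + ‖F1 r‖ / r + (‖F r‖ + ‖G r‖) / r ^ 2))
    (h0 : Dk F a) (h1 : Dk F1 (1 + a)) (h2 : Dk F2 b) (hG : Dk G a) : Dk F b := by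
  obtain ⟨A0, a0, h0⟩ := h0
  obtain ⟨A1, a1, h1⟩ := h1
  obtain ⟨A2, a2, h2⟩ := h2
  obtain ⟨A3, a3, hG⟩ := hG
  apply integrate (mu := mu) (C := K * (A2 + A1 + (A0 + A3))) (by positivity) hb hF
  intro r hr
  have hr0 : 0 < r := by linarith
  have g0 := h0 r hr
  have g1 := h1 r hr
  have g2 := h2 r hr
  have g3 := hG r hr
  refine (hE r hr).trans ?_
  have p1 : r ^ (-(1 + a)) / r ≤ r ^ (-b) := by
    have : r ^ (-(1 + a)) / r = r ^ (-(a + 2)) := by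
      rw [div_eq_mul_inv, ← Real.rpow_neg_one, ← Real.rpow_add hr0]
      congr 1; ring
    rw [this]
    exact Real.rpow_le_rpow_of_exponent_le hr (by linarith)
  have p2 : r ^ (-a) / r ^ 2 ≤ r ^ (-b) := by
    have : r ^ (-a) / r ^ 2 = r ^ (-(a + 2)) := by
      have e : (r ^ 2 : ℝ) = r ^ (2 : ℝ) := by norm_cast
      rw [e, ← Real.rpow_sub hr0]
      congr 1; ring
    rw [this]
    exact Real.rpow_le_rpow_of_exponent_le hr (by linarith)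
  have e1 : ‖F1 r‖ / r ≤ A1 * r ^ (-b) := by
    calc ‖F1 r‖ / r ≤ (A1 * r ^ (-(1 + a))) / r := div_le_div_of_nonneg_right g1 hr0.le
      _ = A1 * (r ^ (-(1 + a)) / r) := by ring
      _ ≤ _ := mul_le_mul_of_nonneg_left p1 a1
  have e2 : (‖F r‖ + ‖G r‖) / r ^ 2 ≤ (A0 + A3) * r ^ (-b) := by
    calc (‖F r‖ + ‖G r‖) / r ^ 2 ≤ ((A0 + A3) * r ^ (-a)) / r ^ 2 :=
          div_le_div_of_nonneg_right (by linarith) (by positivity)
      _ = (A0 + A3) * (r ^ (-a) / r ^ 2) := by ring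
      _ ≤ _ := mul_le_mul_of_nonneg_left p2 (by positivity)
  calc K * (‖F2 r‖ + ‖F1 r‖ / r + (‖F r‖ + ‖G r‖) / r ^ 2)
      ≤ K * (A2 * r ^ (-b) + A1 * r ^ (-b) + (A0 + A3) * r ^ (-b)) :=
        mul_le_mul_of_nonneg_left (by linarith) hK
    _ = _ := by ring

/-- **decay of pairs.** -/
theorem pair {F G : ℕ → ℝ → ℂ} {mu nu : ℂ} {K M : ℝ} (hK : 0 ≤ K) (hM : 0 ≤ M)
    (hdF : ∀ j, j < 20 → ∀ s : ℝ, 1 ≤ s → HasDerivAt (F j) (F (j + 1) s) s)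
    (hdG : ∀ j, j < 20 → ∀ s : ℝ, 1 ≤ s → HasDerivAt (G j) (G (j + 1) s) s)
    (hbF : ∀ j, j ≤ 20 → ∀ s : ℝ, 1 ≤ s → ‖F j s‖ ≤ M)
    (hbG : ∀ j, j ≤ 20 → ∀ s : ℝ, 1 ≤ s → ‖G j s‖ ≤ M)
    (hEF : ∀ r : ℝ, 1 ≤ r → ‖(r / 2 : ℂ) * F 1 r + mu * F 0 r‖ ≤
      K * (‖F 2 r‖ + ‖F 1 r‖ / r + (‖F 0 r‖ + ‖G 0 r‖) / r ^ 2))
    (hEG : ∀ r : ℝ, 1 ≤ r → ‖(r / 2 : ℂ) * G 1 r + nu * G 0 r‖ ≤
      K * (‖G 2 r‖ + ‖G 1 r‖ / r + (‖G 0 r‖ + ‖F 0 r‖) / r ^ 2)) :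
    ∀ m : ℕ, m ≤ 18 → (m : ℝ) / 2 < 2 * mu.re → (m : ℝ) / 2 < 2 * nu.re →
      (Dk (F 0) (m / 2) ∧ Dk (F 1) (m / 2) ∧ Dk (F 2) (m / 2)) ∧
      (Dk (G 0) (m / 2) ∧ Dk (G 1) (m / 2) ∧ Dk (G 2) (m / 2)) := by
  intro m
  induction m with
  | zero =>
    intro _ _ _
    have e : ((0 : ℕ) : ℝ) / 2 = 0 := by norm_num
    rw [e]
    exact ⟨⟨Dk.of_bdd hM (hbF 0 (by norm_num)), Dk.of_bdd hM (hbF 1 (by norm_num)),
      Dk.of_bdd hM (hbF 2 (by norm_num))⟩, Dk.of_bdd hM (hbG 0 (by norm_num)),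
      Dk.of_bdd hM (hbG 1 (by norm_num)), Dk.of_bdd hM (hbG 2 (by norm_num))⟩
  | succ m ih =>
    intro hm h1 h2
    have hcast : ((m + 1 : ℕ) : ℝ) / 2 = m / 2 + 1 / 2 := by push_cast; ring
    rw [hcast] at h1 h2 ⊢
    obtain ⟨⟨f0, f1, f2⟩, g0, g1, g2⟩ := ih (by omega) (by linarith) (by linarith)
    have hm17 : (m : ℝ) ≤ 17 := by exact_mod_cast (by omega : m ≤ 17)
    have hm0 : (0 : ℝ) ≤ m := Nat.cast_nonneg m
    set a : ℝ := (m : ℝ) / 2 with ha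
    have ha0 : 0 ≤ a := by positivity
    have F1' : Dk (F 1) (1 + a) := stepE hK hEF f0 f1 f2 g0
    have G1' : Dk (G 1) (1 + a) := stepE hK hEG g0 g1 g2 f0
    have F2' : Dk (F 2) (a + 1 / 2) := by
      obtain ⟨C1, c1, hc1⟩ := F1'
      obtain ⟨C2, c2, hc2⟩ := interp (f := F) (al := 1 + a) (by linarith) hM c1 hdF hbF hc1
      exact Dk.mono ⟨C2, c2, hc2⟩ (by linarith)
    have G2' : Dk (G 2) (a + 1 / 2) := by
      obtain ⟨C1, c1, hc1⟩ := G1'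
      obtain ⟨C2, c2, hc2⟩ := interp (f := G) (al := 1 + a) (by linarith) hM c1 hdG hbG hc1
      exact Dk.mono ⟨C2, c2, hc2⟩ (by linarith)
    have F0' : Dk (F 0) (a + 1 / 2) :=
      stepI hK h1 (by linarith) (hdF 0 (by norm_num)) hEF f0 F1' F2' g0
    have G0' : Dk (G 0) (a + 1 / 2) :=
      stepI hK h2 (by linarith) (hdG 0 (by norm_num)) hEG g0 G1' G2' f0
    exact ⟨⟨F0', F1'.mono (by linarith), F2'⟩, G0', G1'.mono (by linarith), G2'⟩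

/-- decay with one more power for the derivatives -/
theorem pair' {F G : ℕ → ℝ → ℂ} {mu nu : ℂ} {K M : ℝ} (hK : 0 ≤ K) (hM : 0 ≤ M)
    (hdF : ∀ j, j < 20 → ∀ s : ℝ, 1 ≤ s → HasDerivAt (F j) (F (j + 1) s) s)
    (hdG : ∀ j, j < 20 → ∀ s : ℝ, 1 ≤ s → HasDerivAt (G j) (G (j + 1) s) s)
    (hbF : ∀ j, j ≤ 20 → ∀ s : ℝ, 1 ≤ s → ‖F j s‖ ≤ M)
    (hbG : ∀ j, j ≤ 20 → ∀ s : ℝ, 1 ≤ s → ‖G j s‖ ≤ M)
    (hEF : ∀ r : ℝ, 1 ≤ r → ‖(r / 2 : ℂ) * F 1 r + mu * F 0 r‖ ≤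
      K * (‖F 2 r‖ + ‖F 1 r‖ / r + (‖F 0 r‖ + ‖G 0 r‖) / r ^ 2))
    (hEG : ∀ r : ℝ, 1 ≤ r → ‖(r / 2 : ℂ) * G 1 r + nu * G 0 r‖ ≤
      K * (‖G 2 r‖ + ‖G 1 r‖ / r + (‖G 0 r‖ + ‖F 0 r‖) / r ^ 2))
    (m : ℕ) (hm : m ≤ 18) (h1 : (m : ℝ) / 2 < 2 * mu.re) (h2 : (m : ℝ) / 2 < 2 * nu.re) :
      Dk (F 0) (m / 2) ∧ Dk (F 1) (1 + m / 2) ∧ Dk (G 0) (m / 2) ∧ Dk (G 1) (1 + m / 2) := by
  obtain ⟨⟨f0, f1, f2⟩, g0, g1, g2⟩ := pair hK hM hdF hdG hbF hbG hEF hEG m hm h1 h2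
  exact ⟨f0, stepE hK hEF f0 f1 f2 g0, g0, stepE hK hEG g0 g1 g2 f0⟩

end Crest.Agent.R086.CDecay
end

-- ▼ part R086/CH3

/-!
Row 86 (S0114), Part C, node C-H (helper362): the uniform bound of `Re lam`, radial form.
-/

set_option autoImplicit false

open Complex ComplexConjugate Filter Topology

namespace Crest.Agent.R086.CH

open CCore CCore.Sys CDecay

/-- quantitative hypotheses on the radial profile `q` (`q1 = q'`), power `n`. -/
structure Prof (n : ℕ) (q q1 : ℝ → ℂ) (om A C R1 e1 dl1 : ℝ) : Prop where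
  two_le : 2 ≤ n
  hA : 0 < A
  hC : 0 ≤ C
  hR1 : 0 < R1
  he1 : 0 ≤ e1
  hdl : 0 ≤ dl1
  ne : ∀ r, 0 < r → q r ≠ 0
  dq : ∀ r, 0 < r → HasDerivAt q (q1 r) r
  dq1 : ∀ r : ℝ, 0 < r → HasDerivAt q1 (-((11 : ℂ) / r + I * r / 2) * q1 r
    - (om + I * ((1 / (n : ℝ) : ℝ) : ℂ)) * q r + ((‖q r‖ ^ n : ℝ) : ℂ) * q r) r
  lo : ∀ r : ℝ, 0 < r → A⁻¹ ≤ ‖q r‖ * (1 + r) ^ ((2 : ℝ) / n)
  hi : ∀ r : ℝ, 0 < r → ‖q r‖ * (1 + r) ^ ((2 : ℝ) / n) ≤ A
  der : ∀ r : ℝ, 0 < r → ‖q1 r‖ ≤ C * (r / (1 + r ^ 2)) * ‖q r‖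
  core : ∀ r, 0 < r → r ≤ R1 → (n : ℝ) * (q1 r / q r).re ≤ e1
  far : ∀ r, R1 ≤ r → ‖q r‖ ^ n ≤ dl1 / r ^ 2
  small1 : e1 * A ^ 4 * R1 ≤ 1
  small2 : (n : ℝ) ^ 2 * C * A ^ 8 * dl1 ≤ 1

namespace Prof

variable {n : ℕ} {q q1 : ℝ → ℂ} {om A C R1 e1 dl1 : ℝ}

/-- the weight `(1+r)^(-4/n)` -/
noncomputable def gg (n : ℕ) (r : ℝ) : ℝ := (1 + r) ^ (-(4 : ℝ) / n)
noncomputable def gg1 (n : ℕ) (r : ℝ) : ℝ := (-(4 : ℝ) / n) * (1 + r) ^ (-(4 : ℝ) / n - 1)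

theorem gg_pos (n : ℕ) {r : ℝ} (hr : 0 < r) : 0 < gg n r := Real.rpow_pos_of_pos (by linarith) _

theorem gg_le (n : ℕ) {r : ℝ} (hr : 0 < r) : gg n r ≤ 1 := by
  apply Real.rpow_le_one_of_one_le_of_nonpos (by linarith)
  rw [neg_div]
  have : (0 : ℝ) ≤ 4 / n := by positivity
  linarith

theorem gg_der (n : ℕ) {r : ℝ} (hr : 0 < r) : HasDerivAt (gg n) (gg1 n r) r := by
  have h1 : HasDerivAt (fun r : ℝ => 1 + r) 1 r := by simpa using (hasDerivAt_id r).const_add 1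
  have h2 := h1.rpow_const (p := -(4 : ℝ) / n) (Or.inl (by linarith : (1 + r : ℝ) ≠ 0))
  refine h2.congr_deriv ?_
  unfold gg1
  ring

theorem gg1_ge {n : ℕ} (hn : 2 ≤ n) {r : ℝ} (hr : 0 < r) : -2 * gg n r ≤ r * gg1 n r := by
  have hg := gg_pos n hr
  have e : gg1 n r = (-(4 : ℝ) / n) * (gg n r / (1 + r)) := by
    unfold gg1 gg
    rw [Real.rpow_sub_one (by linarith : (1 + r : ℝ) ≠ 0)]
  rw [e]
  have hn' : (2 : ℝ) ≤ n := by exact_mod_cast hn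
  have h4 : (4 : ℝ) / n ≤ 2 := by
    rw [div_le_iff₀ (by linarith)]; linarith
  have h40 : (0 : ℝ) ≤ 4 / n := by positivity
  have h5 : r * (gg n r / (1 + r)) ≤ gg n r := by
    rw [mul_div_assoc', div_le_iff₀ (by linarith)]
    nlinarith
  have h50 : 0 ≤ r * (gg n r / (1 + r)) := by positivity
  have h6 : (4 : ℝ) / n * (r * (gg n r / (1 + r))) ≤ 2 * gg n r := by
    calc (4 : ℝ) / n * (r * (gg n r / (1 + r))) ≤ 2 * (r * (gg n r / (1 + r))) :=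
          mul_le_mul_of_nonneg_right h4 h50
      _ ≤ 2 * gg n r := by linarith
  have e2 : r * (-(4 : ℝ) / n * (gg n r / (1 + r))) = -((4 : ℝ) / n * (r * (gg n r / (1 + r)))) := by
    ring
  rw [e2]
  linarith

theorem sq_two (n : ℕ) {r : ℝ} (hr : 0 < r) :
    ((1 + r) ^ ((2 : ℝ) / n)) ^ 2 * gg n r = 1 := by
  unfold gg
  have h : (0 : ℝ) < 1 + r := by linarith
  rw [← Real.rpow_natCast, ← Real.rpow_mul h.le, ← Real.rpow_add h]
  have : (2 : ℝ) / n * ((2 : ℕ) : ℝ) + -(4 : ℝ) / n = 0 := by push_cast; ring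
  rw [this, Real.rpow_zero]

theorem w_lo (h : Prof n q q1 om A C R1 e1 dl1) {r : ℝ} (hr : 0 < r) :
    (A ^ 2)⁻¹ * (r ^ 11 * gg n r) ≤ w q r := by
  have hA := h.hA
  have h1 := h.lo r hr
  have h2 : (A⁻¹) ^ 2 ≤ (‖q r‖ * (1 + r) ^ ((2 : ℝ) / n)) ^ 2 :=
    pow_le_pow_left₀ (by positivity) h1 2
  have hs := sq_two n hr
  have hg := gg_pos n hr
  unfold w
  have h3 : (A ^ 2)⁻¹ * gg n r ≤ ‖q r‖ ^ 2 := by
    calc (A ^ 2)⁻¹ * gg n r = (A⁻¹) ^ 2 * gg n r := by rw [inv_pow]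
      _ ≤ (‖q r‖ * (1 + r) ^ ((2 : ℝ) / n)) ^ 2 * gg n r := mul_le_mul_of_nonneg_right h2 hg.le
      _ = ‖q r‖ ^ 2 * (((1 + r) ^ ((2 : ℝ) / n)) ^ 2 * gg n r) := by ring
      _ = ‖q r‖ ^ 2 := by rw [hs, mul_one]
  calc (A ^ 2)⁻¹ * (r ^ 11 * gg n r) = ((A ^ 2)⁻¹ * gg n r) * r ^ 11 := by ring
    _ ≤ ‖q r‖ ^ 2 * r ^ 11 := mul_le_mul_of_nonneg_right h3 (by positivity)

theorem w_hi (h : Prof n q q1 om A C R1 e1 dl1) {r : ℝ} (hr : 0 < r) :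
    w q r ≤ A ^ 2 * (r ^ 11 * gg n r) := by
  have hA := h.hA
  have h1 := h.hi r hr
  have h10 : 0 < (1 + r) ^ ((2 : ℝ) / n) := Real.rpow_pos_of_pos (by linarith) _
  have h2 : (‖q r‖ * (1 + r) ^ ((2 : ℝ) / n)) ^ 2 ≤ A ^ 2 :=
    pow_le_pow_left₀ (by positivity) h1 2
  have hs := sq_two n hr
  have hg := gg_pos n hr
  unfold w
  have h3 : ‖q r‖ ^ 2 ≤ A ^ 2 * gg n r := by
    calc ‖q r‖ ^ 2 = ‖q r‖ ^ 2 * (((1 + r) ^ ((2 : ℝ) / n)) ^ 2 * gg n r) := by rw [hs, mul_one]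
      _ = (‖q r‖ * (1 + r) ^ ((2 : ℝ) / n)) ^ 2 * gg n r := by ring
      _ ≤ A ^ 2 * gg n r := mul_le_mul_of_nonneg_right h2 hg.le
  calc ‖q r‖ ^ 2 * r ^ 11 ≤ (A ^ 2 * gg n r) * r ^ 11 :=
        mul_le_mul_of_nonneg_right h3 (by positivity)
    _ = _ := by ring

theorem npos (h : Prof n q q1 om A C R1 e1 dl1) : (0 : ℝ) < n := by
  have := h.two_le
  exact_mod_cast (by omega : 0 < n)

/-- `‖q1/q‖ ≤ C r/(1+r²)` -/
theorem ratio (h : Prof n q q1 om A C R1 e1 dl1) {r : ℝ} (hr : 0 < r) :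
    ‖q1 r / q r‖ ≤ C * (r / (1 + r ^ 2)) := by
  have h0 : 0 < ‖q r‖ := norm_pos_iff.2 (h.ne r hr)
  rw [norm_div, div_le_iff₀ h0]
  exact h.der r hr

theorem ratio_le (h : Prof n q q1 om A C R1 e1 dl1) {r : ℝ} (hr : 0 < r) :
    ‖q1 r / q r‖ * r ≤ C := by
  have h1 := h.ratio hr
  have hC := h.hC
  have h2 : r / (1 + r ^ 2) * r ≤ 1 := by
    rw [div_mul_eq_mul_div, div_le_one (by positivity)]
    nlinarith
  calc ‖q1 r / q r‖ * r ≤ C * (r / (1 + r ^ 2)) * r := mul_le_mul_of_nonneg_right h1 hr.le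
    _ = C * (r / (1 + r ^ 2) * r) := by ring
    _ ≤ C * 1 := mul_le_mul_of_nonneg_left h2 hC
    _ = C := mul_one _

theorem ratio_le' (h : Prof n q q1 om A C R1 e1 dl1) {r : ℝ} (hr : 0 < r) :
    ‖q1 r / q r‖ ≤ C := by
  have h1 := h.ratio hr
  have hC := h.hC
  have h2 : r / (1 + r ^ 2) ≤ 1 := by
    rw [div_le_one (by positivity)]
    nlinarith [sq_nonneg (r - 1)]
  calc ‖q1 r / q r‖ ≤ C * (r / (1 + r ^ 2)) := h1
    _ ≤ C * 1 := mul_le_mul_of_nonneg_left h2 hC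
    _ = C := mul_one _

theorem rho_le (h : Prof n q q1 om A C R1 e1 dl1) {r : ℝ} (hr : 0 < r) :
    r * rho q q1 r ≤ C := by
  have h1 := h.ratio_le hr
  have h2 : rho q q1 r ≤ ‖q1 r / q r‖ := Complex.re_le_norm _
  calc r * rho q q1 r ≤ r * ‖q1 r / q r‖ := mul_le_mul_of_nonneg_left h2 hr.le
    _ ≤ C := by rw [mul_comm]; exact h1

theorem abs_b_le (h : Prof n q q1 om A C R1 e1 dl1) {r : ℝ} (hr : 0 < r) :
    |b q q1 r| ≤ 2 * C + r / 2 := by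
  unfold b
  have h2 : |(q1 r / q r).im| ≤ ‖q1 r / q r‖ := Complex.abs_im_le_norm _
  have h3 := h.ratio_le' hr
  calc |2 * (q1 r / q r).im + r / 2| ≤ |2 * (q1 r / q r).im| + |r / 2| := abs_add_le _ _
    _ = 2 * |(q1 r / q r).im| + r / 2 := by
        rw [abs_mul, abs_of_pos (by norm_num : (0 : ℝ) < 2), abs_of_pos (by positivity : 0 < r / 2)]
    _ ≤ _ := by linarith

/-- the pressure and its derivative -/
theorem dP (h : Prof n q q1 om A C R1 e1 dl1) {r : ℝ} (hr : 0 < r) :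
    HasDerivAt (fun r => ‖q r‖ ^ n) ((n : ℝ) * rho q q1 r * ‖q r‖ ^ n) r := by
  have h0 := h.ne r hr
  have hn0 : 0 < ‖q r‖ := norm_pos_iff.2 h0
  have h1 := hasDerivAt_normSq (Q1 := q1) (h.dq r hr)
  have h2 := h1.sqrt (by positivity)
  have e : (fun r => Real.sqrt (‖q r‖ ^ 2)) = fun r => ‖q r‖ := by
    funext r; exact Real.sqrt_sq (norm_nonneg _)
  rw [e, Real.sqrt_sq (norm_nonneg _)] at h2
  have h3 := h2.pow n
  refine h3.congr_deriv ?_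
  have h4 : (q1 r * conj (q r)).re = ‖q r‖ ^ 2 * rho q q1 r := by
    unfold rho
    rw [← Complex.normSq_eq_norm_sq]
    have hn : Complex.normSq (q r) ≠ 0 := by simpa [Complex.normSq_eq_zero] using h0
    rw [Complex.div_re]
    simp only [Complex.mul_re, Complex.conj_re, Complex.conj_im]
    field_simp
    ring
  rw [h4]
  obtain ⟨m, rfl⟩ : ∃ m, n = m + 1 := ⟨n - 1, by have := h.two_le; omega⟩
  simp only [Nat.add_sub_cancel]
  field_simp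
  ring

/-- qualitative decay of the pressure -/
theorem P_le (h : Prof n q q1 om A C R1 e1 dl1) {r : ℝ} (hr : 0 < r) :
    ‖q r‖ ^ n * (1 + r) ^ 2 ≤ A ^ n := by
  have h1 := h.hi r hr
  have h10 : 0 < (1 + r) ^ ((2 : ℝ) / n) := Real.rpow_pos_of_pos (by linarith) _
  have h2 : (‖q r‖ * (1 + r) ^ ((2 : ℝ) / n)) ^ n ≤ A ^ n :=
    pow_le_pow_left₀ (by positivity) h1 n
  have hn := h.npos
  have h3 : ((1 + r) ^ ((2 : ℝ) / n)) ^ n = (1 + r) ^ 2 := by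
    rw [← Real.rpow_natCast, ← Real.rpow_mul (by linarith)]
    have : (2 : ℝ) / n * (n : ℝ) = ((2 : ℕ) : ℝ) := by field_simp; norm_num
    rw [this, Real.rpow_natCast]
  rwa [mul_pow, h3] at h2

end Prof

end Crest.Agent.R086.CH
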