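import Crest.Agent.R086.DGen

/-! Row 86 (helper718): uniqueness of densities, and the spectral hypothesis of the gap theorem
from `SpecGood`. -/

set_option autoImplicit false

open MeasureTheory Complex Set Filter
open scoped ContDiff Topology FourierTransform SchwartzMap

namespace Crest.Agent.R086.DSpec

open Crest.Agent.R086 Crest.Agent.R086.DGen

lemma ft_schwartz (g : 𝓢(R12, ℂ)) (ξ : R12) :
    ft (g : R12 → ℂ) ξ = (𝓕⁻ (g : R12 → ℂ)) ((2 * Real.pi)⁻¹ • ξ) := by
  rw [Real.fourierInv_eq']
  unfold ft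
  refine integral_congr_ae (Eventually.of_forall fun v => ?_)
  simp only [smul_eq_mul]
  congr 2
  rw [inner_smul_right]
  have : (Real.pi : ℂ) ≠ 0 := by exact_mod_cast Real.pi_ne_zero
  push_cast
  field_simp

/-- every test function is `ft` of a Schwartz function -/
lemma exists_ft {φ : R12 → ℝ} (hφ : ContDiff ℝ ∞ φ) (hc : HasCompactSupport φ) :
    ∃ g : 𝓢(R12, ℂ), ∀ ξ, ft (g : R12 → ℂ) ξ = (φ ξ : ℂ) := by
  have hpi : (2 * Real.pi) ≠ 0 := by positivity
  have h1 : HasCompactSupport fun w : R12 => ((φ ((2 * Real.pi) • w) : ℝ) : ℂ) := by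
    have := (hc.comp_homeomorph (Homeomorph.smulOfNeZero (2 * Real.pi) hpi))
    exact this.comp_left (g := fun x : ℝ => (x : ℂ)) (by simp)
  have h2 : ContDiff ℝ ∞ fun w : R12 => ((φ ((2 * Real.pi) • w) : ℝ) : ℂ) :=
    Complex.ofRealCLM.contDiff.comp (hφ.comp (contDiff_const_smul _))
  refine ⟨𝓕 (h1.toSchwartzMap h2), fun ξ => ?_⟩
  rw [ft_schwartz, ← SchwartzMap.fourierInv_coe, FourierTransform.fourierInv_fourier_eq]
  simp only [HasCompactSupport.toSchwartzMap_toFun]
  rw [smul_smul, mul_inv_cancel₀ hpi, one_smul]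

/-- uniqueness of densities -/
lemma ft_eq_zero {a : R12 → ℂ} (ha : Integrable a) (h : ∀ p, ft a p = 0) :
    a =ᵐ[volume] fun _ => 0 := by
  refine ae_eq_zero_of_integral_contDiff_smul_eq_zero ha.locallyIntegrable fun φ hφ hc => ?_
  obtain ⟨g, hg⟩ := exists_ft hφ hc
  have key := VectorFourier.integral_fourierIntegral_smul_eq_flip (e := Real.fourierChar)
    (μ := (volume : Measure R12)) (ν := (volume : Measure R12)) (L := LL.toLinearMap₁₂)
    (f := a) (g := (g : R12 → ℂ)) Real.continuous_fourierChar LL.continuous₂ ha g.integrable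
  have hflip : LL.toLinearMap₁₂.flip = LL.toLinearMap₁₂ := by
    ext x y
    show LL y x = LL x y
    rw [LL_apply, LL_apply, real_inner_comm]
  rw [hflip, ← ft_eq, ← ft_eq] at key
  simp only [h, hg, smul_eq_mul, zero_mul, integral_zero] at key
  rw [key]
  refine integral_congr_ae (Eventually.of_forall fun x => ?_)
  simp only [Complex.real_smul]
  ring



section
variable {n : ℕ} {P : Profile n} {T : Pot P} {N : ℕ} (D : LinData P T N)






end

end Crest.Agent.R086.DSpec
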