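import Crest.Agent.R086.CRegDefs
import Crest.Agent.R086.DSpec
import Crest.Agent.R086.DCcv

-- ▼ part R086/CReg1
section

/-!
Row 86, Part C3 (helper360): density calculus for REG.
-/

set_option autoImplicit false

open MeasureTheory Complex Set Filter Topology
open scoped ContDiff SchwartzMap FourierTransform

namespace Crest.Agent.R086.CReg

open Crest.Agent.R086

/-- weighted integrability of a density -/
def WInt (N : ℕ) (a : R12 → ℂ) : Prop :=
  Integrable (fun ξ : R12 => (((1 + ‖ξ‖) ^ N : ℝ) : ℂ) * a ξ)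

theorem xn_eq (N : ℕ) (a : R12 → ℂ) : xn N a = ∫ ξ : R12, Wie.wtV R12 N ξ * ‖a ξ‖ := rfl

theorem xn_nonneg (N : ℕ) (a : R12 → ℂ) : 0 ≤ xn N a :=
  integral_nonneg fun ξ => by positivity

theorem WInt.g {N : ℕ} {a : R12 → ℂ} (h : WInt N a) : Wie.GInt volume (Wie.wtV R12 N) a :=
  gint_of_integrable h

theorem WInt.of_g {N : ℕ} {a : R12 → ℂ} (h : Wie.GInt volume (Wie.wtV R12 N) a) : WInt N a := by
  refine Integrable.congr h (Eventually.of_forall fun ξ => ?_)
  simp only [Wie.wtV_apply, Wie.wt, Complex.real_smul]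

theorem WInt.int {N : ℕ} {a : R12 → ℂ} (h : WInt N a) : Integrable a := h.g.integrable

theorem WInt.norm_int {N : ℕ} {a : R12 → ℂ} (h : WInt N a) :
    Integrable (fun ξ : R12 => (1 + ‖ξ‖) ^ N * ‖a ξ‖) := h.g.norm_int

theorem WInt.mono {N M : ℕ} (hM : M ≤ N) {a : R12 → ℂ} (h : WInt N a) : WInt M a := by
  refine .of_g (h.g.of_le (C := 1) fun ξ => ?_)
  simp only [Wie.wtV_apply, Wie.wt, one_mul]
  exact pow_le_pow_right₀ (by linarith [norm_nonneg ξ]) hM

theorem Rep.wint {N : ℕ} {a f : R12 → ℂ} (h : Rep N a f) : WInt N a := h.1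

theorem Rep.mono {N M : ℕ} (hM : M ≤ N) {a f : R12 → ℂ} (h : Rep N a f) : Rep M a f :=
  ⟨(Rep.wint h).mono hM, h.2⟩

theorem xn_mono {N M : ℕ} (hM : M ≤ N) {a : R12 → ℂ} (h : WInt N a) : xn M a ≤ xn N a := by
  refine integral_mono (h.mono hM).norm_int h.norm_int fun ξ => ?_
  exact mul_le_mul_of_nonneg_right (pow_le_pow_right₀ (by linarith [norm_nonneg ξ]) hM)
    (norm_nonneg _)

theorem WInt.add {N : ℕ} {a b : R12 → ℂ} (ha : WInt N a) (hb : WInt N b) :
    WInt N (fun ξ => a ξ + b ξ) := .of_g (ha.g.add hb.g)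

theorem WInt.const_mul {N : ℕ} {a : R12 → ℂ} (c : ℂ) (ha : WInt N a) :
    WInt N (fun ξ => c * a ξ) := .of_g (ha.g.const_mul c)

theorem xn_add {N : ℕ} {a b : R12 → ℂ} (ha : WInt N a) (hb : WInt N b) :
    xn N (fun ξ => a ξ + b ξ) ≤ xn N a + xn N b := by
  rw [xn, xn, xn, ← integral_add ha.norm_int hb.norm_int]
  refine integral_mono (ha.add hb).norm_int (ha.norm_int.add hb.norm_int) fun ξ => ?_
  simp only
  rw [← mul_add]
  exact mul_le_mul_of_nonneg_left (norm_add_le _ _) (by positivity)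

theorem xn_const_mul {N : ℕ} (c : ℂ) (a : R12 → ℂ) :
    xn N (fun ξ => c * a ξ) = ‖c‖ * xn N a := by
  rw [xn, xn, ← integral_const_mul]
  refine integral_congr_ae (Eventually.of_forall fun ξ => ?_)
  simp only [norm_mul]; ring

theorem WInt.cv {N : ℕ} {v a : R12 → ℂ} (hv : WInt N v) (ha : WInt N a) : WInt N (cv v a) := by
  rw [cv_eq_wie]
  exact .of_g (hv.g.cv ha.g)

theorem xn_cv {N : ℕ} {v a : R12 → ℂ} (hv : WInt N v) (ha : WInt N a) :
    xn N (cv v a) ≤ xn N v * xn N a := by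
  rw [cv_eq_wie, xn_eq, xn_eq, xn_eq]
  exact Wie.integral_norm_cv_le hv.g ha.g

/-- localisation of the `L¹` norm of a bounded density -/
theorem xn_local {b : R12 → ℂ} (hb : WInt 1 b) {S La : ℝ} (hS : ∀ ξ, ‖b ξ‖ ≤ S) (hLa : 0 < La) :
    xn 0 b ≤ La ^ 12 * (volume (Metric.ball (0 : R12) 1)).toReal * S + xn 1 b / La := by
  have h0 := (hb.mono (Nat.zero_le 1)).norm_int
  have h1 := hb.norm_int
  have hS0 : 0 ≤ S := (norm_nonneg _).trans (hS 0)
  set B : Set R12 := Metric.closedBall 0 La with hB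
  have hvB : volume B = ENNReal.ofReal (La ^ 12) * volume (Metric.ball (0 : R12) 1) := by
    rw [hB, Measure.addHaar_closedBall _ _ hLa.le]
    congr 2
    simp [R12]
  have hfin : volume B ≠ ⊤ := measure_closedBall_lt_top.ne
  have hind : Integrable (B.indicator fun _ : R12 => S) :=
    (integrable_indicator_iff Metric.isClosed_closedBall.measurableSet).2
      (integrableOn_const hfin)
  have key : xn 0 b ≤ ∫ ξ : R12, (B.indicator (fun _ : R12 => S) ξ + (1 + ‖ξ‖) ^ 1 * ‖b ξ‖ / La) := by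
    refine integral_mono h0 (hind.add (h1.div_const La)) fun ξ => ?_
    simp only [pow_zero, one_mul, pow_one]
    by_cases hξ : ξ ∈ B
    · rw [indicator_of_mem hξ]
      have : 0 ≤ (1 + ‖ξ‖) * ‖b ξ‖ / La := by positivity
      linarith [hS ξ]
    · rw [indicator_of_notMem hξ, zero_add]
      have h3 : La ≤ ‖ξ‖ := by
        rw [hB, Metric.mem_closedBall, dist_zero_right, not_le] at hξ
        exact hξ.le
      rw [le_div_iff₀ hLa]
      nlinarith [norm_nonneg (b ξ)]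
  refine key.trans (le_of_eq ?_)
  rw [integral_add hind (h1.div_const La), integral_div, integral_indicator
    Metric.isClosed_closedBall.measurableSet, setIntegral_const, smul_eq_mul]
  congr 2
  rw [Measure.real, hvB, ENNReal.toReal_mul, ENNReal.toReal_ofReal (by positivity)]

theorem WInt.schwartz (N : ℕ) (w : 𝓢(R12, ℂ)) : WInt N (w : R12 → ℂ) := by
  refine .of_g ((Wie.gint_iff w.continuous.aestronglyMeasurable).2 ?_)
  have h1 : Integrable (fun ξ : R12 => ‖ξ‖ ^ N * ‖w ξ‖) := by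
    simpa using w.integrable_pow_mul (volume : Measure R12) N
  have h2 := (w.integrable (μ := (volume : Measure R12))).norm.const_mul ((2 : ℝ) ^ N)
  have h3 := h1.const_mul ((2 : ℝ) ^ N)
  refine (h3.add h2).mono' ((Wie.wtV R12 N).meas.aestronglyMeasurable.mul
    w.continuous.norm.aestronglyMeasurable) (Eventually.of_forall fun ξ => ?_)
  simp only [Wie.wtV_apply, Wie.wt, Pi.add_apply]
  rw [Real.norm_of_nonneg (by positivity), ← mul_assoc, ← add_mul, ← mul_add_one]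
  refine mul_le_mul_of_nonneg_right ?_ (norm_nonneg _)
  by_cases hx : ‖ξ‖ ≤ 1
  · have h4 : (1 + ‖ξ‖) ^ N ≤ 2 ^ N := pow_le_pow_left₀ (by positivity) (by linarith) N
    have h5 : (0 : ℝ) ≤ 2 ^ N * ‖ξ‖ ^ N := by positivity
    nlinarith
  · have hx' : 1 ≤ ‖ξ‖ := (not_le.1 hx).le
    have h4 : (1 + ‖ξ‖) ^ N ≤ (2 * ‖ξ‖) ^ N := pow_le_pow_left₀ (by positivity) (by linarith) N
    rw [mul_pow] at h4
    have h5 : (0 : ℝ) < 2 ^ N := by positivity
    nlinarith

/-- sup bound of `w * c` by the `L¹` norm of its transform -/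
theorem sup_cv (w : 𝓢(R12, ℂ)) {c : R12 → ℂ} (hc : Integrable c)
    (hi : Integrable (ft (cv (w : R12 → ℂ) c))) (ξ : R12) :
    ‖cv (w : R12 → ℂ) c ξ‖ ≤ ∫ y : R12, ‖ft (cv (w : R12 → ℂ) c) y‖ := by
  set h := cv (w : R12 → ℂ) c with hh
  have hint : Integrable h := DGen.integrable_cv w.integrable hc
  have hcont : Continuous h := by
    have hb : BddAbove (range fun x => ‖w x‖) := by
      obtain ⟨C, hC⟩ := w.decay 0 0
      refine ⟨C, ?_⟩
      rintro _ ⟨x, rfl⟩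
      simpa using hC.2 x
    have := hb.continuous_convolution_right_of_integrable (μ := (volume : Measure R12))
      (ContinuousLinearMap.mul ℂ ℂ) hc w.continuous
    refine this.congr fun x => ?_
    rw [hh, cv, convolution_def]
    refine integral_congr_ae (Eventually.of_forall fun t => ?_)
    simp [mul_comm]
  have hF : ∀ v : R12, 𝓕 h v = ft h ((-(2 * Real.pi)) • v) := by
    intro v
    rw [Real.fourier_eq']
    unfold ft
    refine integral_congr_ae (Eventually.of_forall fun x => ?_)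
    simp only [smul_eq_mul, inner_smul_right]
    congr 2
    push_cast; ring
  have hpi : (-(2 * Real.pi)) ≠ 0 := by
    have := Real.pi_pos
    exact (by linarith : (-(2 * Real.pi)) < 0).ne
  have hFi : Integrable (𝓕 h) := by
    have : (𝓕 h) = fun v => ft h ((-(2 * Real.pi)) • v) := funext hF
    rw [this]
    exact (integrable_comp_smul_iff volume _ hpi).2 hi
  have hinv := hint.fourierInv_fourier_eq hFi hcont.continuousAt (v := ξ)
  rw [← hinv, Real.fourierInv_eq']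
  refine (norm_integral_le_integral_norm _).trans ?_
  have h1 : ∀ v : R12, ‖exp (↑(2 * Real.pi * inner ℝ v ξ) * I) • 𝓕 h v‖ = ‖ft h ((-(2 * Real.pi)) • v)‖ := by
    intro v
    rw [norm_smul, Complex.norm_exp_ofReal_mul_I, one_mul, hF]
  simp only [h1]
  rw [Measure.integral_comp_smul volume (fun y => ‖ft h y‖)]
  have h2 : |((-(2 * Real.pi)) ^ Module.finrank ℝ R12)⁻¹| ≤ 1 := by
    rw [abs_inv, abs_pow, abs_neg, abs_of_pos (by positivity : (0:ℝ) < 2 * Real.pi)]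
    refine inv_le_one_of_one_le₀ (one_le_pow₀ ?_)
    linarith [Real.pi_gt_three]
  have h3 : 0 ≤ ∫ y : R12, ‖ft h y‖ := integral_nonneg fun _ => norm_nonneg _
  rw [smul_eq_mul]
  nlinarith

end Crest.Agent.R086.CReg
end

-- ▼ part R086/CReg2
section

/-!
Row 86, Part C3 (helper360): one component of REG.
-/

set_option autoImplicit false

open MeasureTheory Complex Set Filter Topology
open scoped ContDiff SchwartzMap FourierTransform

namespace Crest.Agent.R086.CReg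

open Crest.Agent.R086

theorem ft_continuous {a : R12 → ℂ} (ha : Integrable a) : Continuous (ft a) := by
  rw [DGen.ft_eq]
  exact VectorFourier.fourierIntegral_continuous Real.continuous_fourierChar
    DGen.LL.continuous₂ ha

theorem norm_ft_le {a : R12 → ℂ} (y : R12) : ‖ft a y‖ ≤ xn 0 a := by
  unfold ft xn
  refine (norm_integral_le_integral_norm _).trans (le_of_eq ?_)
  refine integral_congr_ae (Eventually.of_forall fun ξ => ?_)
  simp only [norm_mul, pow_zero, one_mul]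
  rw [mul_comm I, Complex.norm_exp_ofReal_mul_I, one_mul]

theorem norm_sgI {sg : ℝ} (hsg : sg = 1 ∨ sg = -1) : ‖-(sg : ℂ) * I‖ = 1 := by
  rcases hsg with rfl | rfl <;> simp

/-- volume of the unit ball of `R12` -/
noncomputable def vB : ℝ := (volume (Metric.ball (0 : R12) 1)).toReal

theorem vB_nonneg : 0 ≤ vB := ENNReal.toReal_nonneg

theorem comp_est (hS : SmoStmt) {sg : ℝ} (hsg : sg = 1 ∨ sg = -1) {mu al : ℂ} (hmu : 0 < mu.re)
    {f g e a b c1 p q vp vq tp tq : R12 → ℂ} {χ : R12 → ℝ} {r1 M δ : ℝ}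
    (ha : Rep 2 a f) (hb : Rep 2 b g) (hc1 : Rep 1 c1 e)
    (hvp : Rep 1 vp p) (hvq : Rep 1 vq q)
    (htp : Rep 1 tp (fun y => ((1 - χ y : ℝ) : ℂ) * p y))
    (htq : Rep 1 tq (fun y => ((1 - χ y : ℝ) : ℂ) * q y))
    (hMp : xn 1 vp ≤ M) (hMq : xn 1 vq ≤ M) (hdp : xn 1 tp ≤ δ) (hdq : xn 1 tq ≤ δ)
    (w : 𝓢(R12, ℂ)) (hw : ∀ y, ft (w : R12 → ℂ) y = (χ y : ℂ))
    (hχ0 : ∀ y, 0 ≤ χ y) (hχ1 : ∀ y, χ y ≤ 1) (hχr : ∀ y, r1 ≤ ‖y‖ → χ y = 0)
    (heq : ∀ y, (sg : ℂ) * I * lap f y - (1 / 2) * eul f y - mu * f y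
      = (sg : ℂ) * I * (p y * f y + q y * g y) + al * e y) :
    ∃ β : ℝ, 0 ≤ β ∧
      xn 0 a ≤ (β + (δ * (xn 0 a + xn 0 b) + ‖al‖ * xn 1 c1)) / mu.re ∧
      xn 1 a ≤ (2 / mu.re + 6 + ‖mu‖) * β
        + (∫ ξ : R12, ‖fderiv ℝ (w : R12 → ℂ) ξ‖) * (M * (xn 0 a + xn 0 b))
        + (δ * (xn 1 a + xn 1 b) + ‖al‖ * xn 1 c1) / mu.re ∧
      ∀ La : ℝ, 0 < La → β ≤ La ^ 12 * vB * (M * ∫ y in Metric.closedBall (0 : R12) r1, (‖f y‖ + ‖g y‖))
        + xn 1 (w : R12 → ℂ) * (M * (xn 1 a + xn 1 b)) / La := by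
  have wa2 : WInt 2 a := ha.1
  have wb2 : WInt 2 b := hb.1
  have wa1 := wa2.mono (M := 1) (by norm_num)
  have wb1 := wb2.mono (M := 1) (by norm_num)
  have wa0 := wa2.mono (M := 0) (by norm_num)
  have wb0 := wb2.mono (M := 0) (by norm_num)
  have wvp : WInt 1 vp := hvp.1
  have wvq : WInt 1 vq := hvq.1
  have wtp : WInt 1 tp := htp.1
  have wtq : WInt 1 tq := htq.1
  have wc1 : WInt 1 c1 := hc1.1
  have wvp0 := wvp.mono (Nat.zero_le 1)
  have wvq0 := wvq.mono (Nat.zero_le 1)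
  have wtp0 := wtp.mono (Nat.zero_le 1)
  have wtq0 := wtq.mono (Nat.zero_le 1)
  have wc10 := wc1.mono (Nat.zero_le 1)
  have hM0 : 0 ≤ M := (xn_nonneg 1 vp).trans hMp
  have hδ0 : 0 ≤ δ := (xn_nonneg 1 tp).trans hdp
  have hMp0 : xn 0 vp ≤ M := (xn_mono (Nat.zero_le 1) wvp).trans hMp
  have hMq0 : xn 0 vq ≤ M := (xn_mono (Nat.zero_le 1) wvq).trans hMq
  have hdp0 : xn 0 tp ≤ δ := (xn_mono (Nat.zero_le 1) wtp).trans hdp
  have hdq0 : xn 0 tq ≤ δ := (xn_mono (Nat.zero_le 1) wtq).trans hdq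
  have hc10 : xn 0 c1 ≤ xn 1 c1 := xn_mono (Nat.zero_le 1) wc1
  have na0 := xn_nonneg 0 a
  have nb0 := xn_nonneg 0 b
  have na1 := xn_nonneg 1 a
  have nb1 := xn_nonneg 1 b
  -- the densities
  set κ : ℂ := -(sg : ℂ) * I with hκ
  have hκn : ‖κ‖ = 1 := norm_sgI hsg
  set c : R12 → ℂ := fun ξ => κ * (cv vp a ξ + cv vq b ξ) with hc
  set b' : R12 → ℂ := fun ξ => κ * (cv tp a ξ + cv tq b ξ) + (-al) * c1 ξ with hb'
  have wc1' : WInt 1 c := ((wvp.cv wa1).add (wvq.cv wb1)).const_mul κ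
  have wc0' : WInt 0 c := ((wvp0.cv wa0).add (wvq0.cv wb0)).const_mul κ
  have wbt1 : WInt 1 (fun ξ => κ * (cv tp a ξ + cv tq b ξ)) :=
    ((wtp.cv wa1).add (wtq.cv wb1)).const_mul κ
  have wbt0 : WInt 0 (fun ξ => κ * (cv tp a ξ + cv tq b ξ)) :=
    ((wtp0.cv wa0).add (wtq0.cv wb0)).const_mul κ
  have wbc1 : WInt 1 (fun ξ => (-al) * c1 ξ) := wc1.const_mul (-al)
  have wbc0 : WInt 0 (fun ξ => (-al) * c1 ξ) := wc10.const_mul (-al)
  have wb' : WInt 1 b' := wbt1.add wbc1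
  -- norms
  have nc (N : ℕ) (hN : N ≤ 1) : xn N c ≤ M * (xn N a + xn N b) := by
    have w1 := wvp.mono hN
    have w2 := wvq.mono hN
    have w3 := wa1.mono hN
    have w4 := wb1.mono hN
    have h1 := (xn_mono hN wvp).trans hMp
    have h2 := (xn_mono hN wvq).trans hMq
    rw [hc, xn_const_mul, hκn, one_mul]
    refine (xn_add (w1.cv w3) (w2.cv w4)).trans ?_
    have h3 := (xn_cv w1 w3).trans (mul_le_mul_of_nonneg_right h1 (xn_nonneg N a))
    have h4 := (xn_cv w2 w4).trans (mul_le_mul_of_nonneg_right h2 (xn_nonneg N b))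
    linarith
  have nb' (N : ℕ) (hN : N ≤ 1) : xn N b' ≤ δ * (xn N a + xn N b) + ‖al‖ * xn 1 c1 := by
    have w1 := wtp.mono hN
    have w2 := wtq.mono hN
    have w3 := wa1.mono hN
    have w4 := wb1.mono hN
    have h1 := (xn_mono hN wtp).trans hdp
    have h2 := (xn_mono hN wtq).trans hdq
    rw [hb']
    refine (xn_add (((w1.cv w3).add (w2.cv w4)).const_mul κ) (wbc1.mono hN)).trans ?_
    rw [xn_const_mul, xn_const_mul, hκn, one_mul, norm_neg]
    have h3 := (xn_cv w1 w3).trans (mul_le_mul_of_nonneg_right h1 (xn_nonneg N a))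
    have h4 := (xn_cv w2 w4).trans (mul_le_mul_of_nonneg_right h2 (xn_nonneg N b))
    have h5 := xn_add (w1.cv w3) (w2.cv w4)
    have h6 : ‖al‖ * xn N c1 ≤ ‖al‖ * xn 1 c1 :=
      mul_le_mul_of_nonneg_left (xn_mono hN wc1) (norm_nonneg _)
    linarith
  -- transforms
  have ftc : ∀ y, ft c y = κ * (p y * f y + q y * g y) := by
    intro y
    rw [hc, DGen.ft_comb (wvp0.cv wa0).int (wvq0.cv wb0).int, DGen.ft_cv wvp.int wa2.int,
      DGen.ft_cv wvq.int wb2.int, DGen.ft_rep hvp, DGen.ft_rep hvq, DGen.ft_rep ha, DGen.ft_rep hb]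
  have ftb' : ∀ y, ft b' y = κ * (((1 - χ y : ℝ) : ℂ) * p y * f y + ((1 - χ y : ℝ) : ℂ) * q y * g y)
      + (-al) * e y := by
    intro y
    have h1 : ft b' y = ft (fun ξ => κ * (cv tp a ξ + cv tq b ξ)) y + ft (fun ξ => (-al) * c1 ξ) y := by
      have := DGen.ft_comb wbt1.int wbc1.int 1 y
      simpa only [one_mul] using this
    have h2 : ft (fun ξ => (-al) * c1 ξ) y = (-al) * ft c1 y := by
      unfold ft
      rw [← integral_const_mul]
      refine integral_congr_ae (Eventually.of_forall fun ξ => ?_)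
      simp only; ring
    rw [h1, h2, DGen.ft_comb (wtp0.cv wa0).int (wtq0.cv wb0).int, DGen.ft_cv wtp.int wa2.int,
      DGen.ft_cv wtq.int wb2.int, DGen.ft_rep htp, DGen.ft_rep htq, DGen.ft_rep ha, DGen.ft_rep hb,
      DGen.ft_rep hc1]
  have ftwc : ∀ y, ft (cv (w : R12 → ℂ) c) y = (χ y : ℂ) * (κ * (p y * f y + q y * g y)) := by
    intro y
    rw [DGen.ft_cv w.integrable wc1'.int, hw, ftc]
  have hmain := hS sg hsg mu hmu f a c b' w ha wc1'.int wb' (by
    intro y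
    rw [heq y, ftwc, ftb', hκ]
    push_cast
    ring)
  obtain ⟨hm0, hm1⟩ := hmain
  refine ⟨xn 0 (cv (w : R12 → ℂ) c), xn_nonneg _ _, ?_, ?_, ?_⟩
  · refine hm0.trans ?_
    have := nb' 0 (by norm_num)
    gcongr
  · refine hm1.trans ?_
    have h1 := nb' 1 le_rfl
    have h2 := nc 0 (by norm_num)
    have h3 : 0 ≤ ∫ ξ : R12, ‖fderiv ℝ (w : R12 → ℂ) ξ‖ := integral_nonneg fun _ => norm_nonneg _
    gcongr
  · intro La hLa
    have ww : WInt 1 (w : R12 → ℂ) := WInt.schwartz 1 w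
    have wwc : WInt 1 (cv (w : R12 → ℂ) c) := ww.cv wc1'
    -- integrability of the local function
    have hfc : Continuous f := by
      have : f = ft a := funext fun y => (DGen.ft_rep ha y).symm
      rw [this]; exact ft_continuous wa2.int
    have hgc : Continuous g := by
      have : g = ft b := funext fun y => (DGen.ft_rep hb y).symm
      rw [this]; exact ft_continuous wb2.int
    have hFc : Continuous (ft (cv (w : R12 → ℂ) c)) := ft_continuous wwc.int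
    have hpB : ∀ y, ‖p y‖ ≤ M := fun y => by
      rw [← DGen.ft_rep hvp y]; exact (norm_ft_le y).trans hMp0
    have hqB : ∀ y, ‖q y‖ ≤ M := fun y => by
      rw [← DGen.ft_rep hvq y]; exact (norm_ft_le y).trans hMq0
    set B : Set R12 := Metric.closedBall 0 r1 with hB
    have hBm : MeasurableSet B := Metric.isClosed_closedBall.measurableSet
    have hBi : IntegrableOn (fun y => M * (‖f y‖ + ‖g y‖)) B :=
      (continuous_const.mul (hfc.norm.add hgc.norm)).continuousOn.integrableOn_compact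
        (isCompact_closedBall _ _)
    have hbd : ∀ y, ‖ft (cv (w : R12 → ℂ) c) y‖ ≤ B.indicator (fun y => M * (‖f y‖ + ‖g y‖)) y := by
      intro y
      rw [ftwc]
      by_cases hy : y ∈ B
      · rw [indicator_of_mem hy, norm_mul, norm_mul, hκn, one_mul, Complex.norm_real,
          Real.norm_of_nonneg (hχ0 y)]
        have h1 : ‖p y * f y + q y * g y‖ ≤ M * (‖f y‖ + ‖g y‖) := by
          refine (norm_add_le _ _).trans ?_
          rw [norm_mul, norm_mul, mul_add]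
          have := hpB y
          have := hqB y
          gcongr
        have h2 : 0 ≤ ‖p y * f y + q y * g y‖ := norm_nonneg _
        nlinarith [hχ0 y, hχ1 y]
      · rw [indicator_of_notMem hy]
        have : χ y = 0 := hχr y (by
          rw [hB, Metric.mem_closedBall, dist_zero_right, not_le] at hy
          exact hy.le)
        rw [this]; simp
    have hFi : Integrable (ft (cv (w : R12 → ℂ) c)) :=
      (hBi.integrable_indicator hBm).mono' hFc.aestronglyMeasurable (Eventually.of_forall hbd)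
    have hsup : ∀ ξ, ‖cv (w : R12 → ℂ) c ξ‖ ≤ M * ∫ y in B, (‖f y‖ + ‖g y‖) := by
      intro ξ
      refine (sup_cv w wc1'.int hFi ξ).trans ?_
      refine (integral_mono hFi.norm (hBi.integrable_indicator hBm) hbd).trans (le_of_eq ?_)
      rw [integral_indicator hBm, integral_const_mul]
    refine (xn_local wwc hsup hLa).trans ?_
    have h1 := nc 1 le_rfl
    have h2 : xn 1 (cv (w : R12 → ℂ) c) ≤ xn 1 (w : R12 → ℂ) * (M * (xn 1 a + xn 1 b)) :=
      (xn_cv ww wc1').trans (mul_le_mul_of_nonneg_left h1 (xn_nonneg _ _))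
    have h3 : xn 1 (cv (w : R12 → ℂ) c) / La ≤ xn 1 (w : R12 → ℂ) * (M * (xn 1 a + xn 1 b)) / La := by
      gcongr
    unfold vB
    linarith

end Crest.Agent.R086.CReg
end

-- ▼ part R086/CReg

/-!
Row 86, Part C3 (helper360): REG, `regStmt : SmoStmt → RegStmt B`.
-/

set_option autoImplicit false

open MeasureTheory Complex Set Filter Topology
open scoped ContDiff SchwartzMap FourierTransform

namespace Crest.Agent.R086.CReg

open Crest.Agent.R086

/-- closing real-number lemma -/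
theorem close_aux {n μ im W1 W2 M δ β x0 x1 E L V G La : ℝ} (hn : 1 ≤ n) (hμ : 0 ≤ μ)
    (him : im ≤ n) (hW1 : 0 ≤ W1) (hW2 : 0 ≤ W2) (hM : 0 ≤ M) (hδ0 : 0 ≤ δ) (hδ : 4 * n * δ ≤ 1)
    (hβ : 0 ≤ β) (hx0 : 0 ≤ x0) (hx1 : 0 ≤ x1) (hE : 0 ≤ E)
    (h0 : x0 ≤ im * (β + (2 * δ * x0 + E)))
    (h1 : x1 ≤ (2 * im + 6 + μ) * β + W1 * (M * (2 * x0)) + im * (2 * δ * x1 + E))
    (h3 : ∀ La : ℝ, 0 < La → β ≤ 2 * (La ^ 12 * V * (M * L)) + W2 * (M * (2 * x1)) / La)
    (hG : G = 2 * (3 * n + 6 + μ + 4 * W1 * M * n)) (hLa : La = 1 + 4 * W2 * M * G) :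
    x1 ≤ G * (4 * (La ^ 12 * V * (M * L)) + 2 * E) := by
  have hn0 : 0 ≤ n := by linarith
  have hWM : 0 ≤ W1 * M := mul_nonneg hW1 hM
  have hWMn : 0 ≤ W1 * M * n := mul_nonneg hWM hn0
  have hG0 : 0 ≤ G := by rw [hG]; linarith
  have hWG : 0 ≤ W2 * M * G := mul_nonneg (mul_nonneg hW2 hM) hG0
  have hLa0 : 0 < La := by rw [hLa]; linarith
  have hbE : 0 ≤ β + E := add_nonneg hβ hE
  have e0 : x0 ≤ 2 * n * (β + E) := by
    have a1 : im * (β + (2 * δ * x0 + E)) ≤ n * (β + (2 * δ * x0 + E)) :=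
      mul_le_mul_of_nonneg_right him (by positivity)
    have a2 : (4 * n * δ) * x0 ≤ 1 * x0 := mul_le_mul_of_nonneg_right hδ hx0
    linear_combination 2 * h0 + 2 * a1 + a2
  have e1 : x1 ≤ G * (β + E) := by
    have a1 : im * (2 * δ * x1 + E) ≤ n * (2 * δ * x1 + E) :=
      mul_le_mul_of_nonneg_right him (by positivity)
    have a2 : (4 * n * δ) * x1 ≤ 1 * x1 := mul_le_mul_of_nonneg_right hδ hx1
    have a3 : (2 * im + 6 + μ) * β ≤ (2 * n + 6 + μ) * β :=
      mul_le_mul_of_nonneg_right (by linarith) hβ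
    have a4 : W1 * M * (2 * x0) ≤ W1 * M * (2 * (2 * n * (β + E))) :=
      mul_le_mul_of_nonneg_left (by linarith) hWM
    have a5 : 0 ≤ n * β := mul_nonneg hn0 hβ
    have a6 : 0 ≤ n * E := mul_nonneg hn0 hE
    have a7 : 0 ≤ μ * E := mul_nonneg hμ hE
    rw [hG]
    linear_combination 2 * h1 + 2 * a1 + a2 + 2 * a3 + 2 * a4 + 2 * a5 + 4 * a6 + 12 * hE + 2 * a7
  have e3 : β ≤ 4 * (La ^ 12 * V * (M * L)) + E := by
    have a1 := h3 La hLa0
    have a2 : W2 * (M * (2 * x1)) / La ≤ (β + E) / 2 := by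
      rw [div_le_iff₀ hLa0, hLa]
      have b1 : W2 * M * 2 * x1 ≤ W2 * M * 2 * (G * (β + E)) :=
        mul_le_mul_of_nonneg_left e1 (by positivity)
      linear_combination b1 + hbE / 2
    linear_combination 2 * a1 + 2 * a2
  calc x1 ≤ G * (β + E) := e1
    _ ≤ G * (4 * (La ^ 12 * V * (M * L)) + 2 * E) :=
        mul_le_mul_of_nonneg_left (by linarith) hG0

theorem poly_aux {n l W1 W2 V o L E x1 X CG G La P CT Y : ℝ} {K0 k : ℕ} (hn : 2 ≤ n) (hl : 0 ≤ l)
    (ho : 0 ≤ o) (hW1 : 0 ≤ W1) (hW2 : 0 ≤ W2) (hV : 0 ≤ V) (hL : 0 ≤ L) (hE : 0 ≤ E)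
    (hX : X = n * (1 + l)) (hCG : CG = 2 * (11 + o + 4 * W1))
    (hG : G = 2 * (3 * n + 6 + (l + o + 2) + 4 * W1 * n ^ K0 * n))
    (hLa : La = 1 + 4 * W2 * n ^ K0 * G)
    (hP : P = (1 + 4 * W2 * CG) ^ 12) (hCT : CT = 4 * V * CG * P + 2 * CG) (hk : CT ≤ 2 ^ k)
    (hY : Y = X ^ (26 * K0 + 13))
    (h : x1 ≤ G * (4 * (La ^ 12 * V * (n ^ K0 * L)) + 2 * E)) :
    x1 ≤ X ^ k * Y * (L + E) := by
  have hnl : 0 ≤ n * l := mul_nonneg (by linarith) hl
  have hX2 : 2 ≤ X := by rw [hX]; linarith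
  have hX1 : 1 ≤ X := by linarith
  have hnX : n ≤ X := by rw [hX]; linarith
  have hlX : 1 + l ≤ X := by
    have : 1 * (1 + l) ≤ n * (1 + l) := mul_le_mul_of_nonneg_right (by linarith) (by linarith)
    rw [hX]; linarith
  have hCG0 : 0 ≤ CG := by rw [hCG]; linarith
  have hXK1 : X ≤ X ^ (K0 + 1) := by
    calc X = X ^ 1 := (pow_one X).symm
      _ ≤ X ^ (K0 + 1) := pow_le_pow_right₀ hX1 (by omega)
  have hnK : n ^ K0 ≤ X ^ K0 := pow_le_pow_left₀ (by linarith) hnX K0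
  have hnK0 : 0 ≤ n ^ K0 := by positivity
  have hnK1 : n ^ K0 * n ≤ X ^ (K0 + 1) := by
    rw [pow_succ]
    exact mul_le_mul hnK hnX (by linarith) (by positivity)
  have hG0 : 0 ≤ G := by rw [hG]; positivity
  have hGb : G ≤ CG * X ^ (K0 + 1) := by
    have a1 : W1 * (n ^ K0 * n) ≤ W1 * X ^ (K0 + 1) := mul_le_mul_of_nonneg_left hnK1 hW1
    have a2 : 8 + l + o ≤ (8 + o) * X ^ (K0 + 1) := by
      have b1 : 8 + l + o ≤ (8 + o) * (1 + l) := by
        linear_combination 7 * hl + mul_nonneg ho hl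
      have b2 : (8 + o) * (1 + l) ≤ (8 + o) * X ^ (K0 + 1) :=
        mul_le_mul_of_nonneg_left (hlX.trans hXK1) (by linarith)
      linarith
    rw [hG, hCG]
    linear_combination 8 * a1 + 2 * a2 + 6 * (hnX.trans hXK1)
  have hLa0 : 0 ≤ La := by rw [hLa]; positivity
  have hLab : La ≤ (1 + 4 * W2 * CG) * X ^ (2 * K0 + 1) := by
    have a1 : n ^ K0 * G ≤ CG * X ^ (2 * K0 + 1) := by
      calc n ^ K0 * G ≤ X ^ K0 * (CG * X ^ (K0 + 1)) := mul_le_mul hnK hGb hG0 (by positivity)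
        _ = CG * X ^ (2 * K0 + 1) := by ring
    have a2 : 1 ≤ X ^ (2 * K0 + 1) := one_le_pow₀ hX1
    have a3 : W2 * (n ^ K0 * G) ≤ W2 * (CG * X ^ (2 * K0 + 1)) := mul_le_mul_of_nonneg_left a1 hW2
    rw [hLa]
    linear_combination 4 * a3 + a2
  have hP0 : 0 ≤ P := by rw [hP]; positivity
  have hLa12 : La ^ 12 ≤ P * X ^ (24 * K0 + 12) := by
    refine (pow_le_pow_left₀ hLa0 hLab 12).trans (le_of_eq ?_)
    rw [mul_pow, ← pow_mul, hP]
    congr 2; ring
  have hYe : Y = X ^ (K0 + 1) * (X ^ (24 * K0 + 12) * X ^ K0) := by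
    rw [hY, ← pow_add, ← pow_add]; congr 1; ring
  have hY0 : 0 ≤ Y := by rw [hY]; positivity
  have hmain1 : G * (4 * (La ^ 12 * V * (n ^ K0 * L))) ≤ (4 * V * CG * P) * Y * L := by
    have a1 : G * (La ^ 12 * n ^ K0) ≤ (CG * X ^ (K0 + 1)) * ((P * X ^ (24 * K0 + 12)) * X ^ K0) :=
      mul_le_mul hGb (mul_le_mul hLa12 hnK hnK0 (by positivity)) (by positivity) (by positivity)
    have a2 : (CG * X ^ (K0 + 1)) * ((P * X ^ (24 * K0 + 12)) * X ^ K0) = CG * P * Y := by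
      rw [hYe]; ring
    rw [a2] at a1
    have a3 : (4 * V * L) * (G * (La ^ 12 * n ^ K0)) ≤ (4 * V * L) * (CG * P * Y) :=
      mul_le_mul_of_nonneg_left a1 (by positivity)
    calc G * (4 * (La ^ 12 * V * (n ^ K0 * L))) = (4 * V * L) * (G * (La ^ 12 * n ^ K0)) := by ring
      _ ≤ _ := a3
      _ = _ := by ring
  have hmain2 : G * (2 * E) ≤ (2 * CG) * Y * E := by
    have a1 : G ≤ CG * Y := by
      refine hGb.trans (mul_le_mul_of_nonneg_left ?_ hCG0)
      rw [hY]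
      exact pow_le_pow_right₀ hX1 (by omega)
    have a2 := mul_le_mul_of_nonneg_right a1 hE
    linear_combination 2 * a2
  have hkX : CT ≤ X ^ k := hk.trans (pow_le_pow_left₀ (by norm_num) hX2 k)
  have hLE : 0 ≤ L + E := add_nonneg hL hE
  have p1 : 0 ≤ 4 * V * CG * P := by positivity
  have p2 : 0 ≤ 2 * CG := by positivity
  have p3 : 0 ≤ (4 * V * CG * P) * (Y * E) := mul_nonneg p1 (mul_nonneg hY0 hE)
  have p4 : 0 ≤ (2 * CG) * (Y * L) := mul_nonneg p2 (mul_nonneg hY0 hL)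
  have q1 : x1 ≤ CT * Y * (L + E) := by
    rw [hCT]
    linear_combination h + hmain1 + hmain2 + p3 + p4
  exact q1.trans (mul_le_mul_of_nonneg_right (mul_le_mul_of_nonneg_right hkX hY0) hLE)

theorem exists_cut {r0 r1 : ℝ} (h0 : 0 < r0) (h1 : r0 < r1) : ∃ χ : R12 → ℝ, IsCut χ r0 r1 := by
  let b : ContDiffBump (0 : R12) := ⟨r0, r1, h0, h1⟩
  refine ⟨b, h0, h1, b.contDiff, fun y hy => b.one_of_mem_closedBall (by simpa using hy),
    fun y hy => b.zero_of_le_dist (by simpa using hy), fun y => b.nonneg, fun y => b.le_one⟩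

theorem IsCut.compact {χ : R12 → ℝ} {r0 r1 : ℝ} (h : IsCut χ r0 r1) : HasCompactSupport χ := by
  refine HasCompactSupport.of_support_subset_isCompact (isCompact_closedBall (0 : R12) r1) ?_
  intro y hy
  rw [Function.mem_support] at hy
  rw [Metric.mem_closedBall, dist_zero_right]
  by_contra hh
  exact hy (h.zero y (not_le.1 hh).le)

/-- REG -/
theorem regStmt (hS : SmoStmt) {om0 R : ℝ} {U : ℝ → ℂ} (hR : 0 ≤ R) (B : BData om0 R U) :
    RegStmt B := by
  intro r1 hr1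
  obtain ⟨χ, hχ⟩ := exists_cut (r0 := (R + r1) / 2) (r1 := r1) (by linarith) (by linarith)
  obtain ⟨c, hc, htail⟩ := B.tail ((R + r1) / 2) r1 (by linarith) (by linarith) χ hχ
  obtain ⟨K0, hpoly⟩ := B.poly
  obtain ⟨w, hw⟩ := DSpec.exists_ft hχ.smooth (IsCut.compact hχ)
  set W1 : ℝ := ∫ ξ : R12, ‖fderiv ℝ (w : R12 → ℂ) ξ‖ with hW1
  set W2 : ℝ := xn 1 (w : R12 → ℂ) with hW2
  have hW10 : 0 ≤ W1 := integral_nonneg fun _ => norm_nonneg _
  have hW20 : 0 ≤ W2 := xn_nonneg _ _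
  obtain ⟨k, hk⟩ := pow_unbounded_of_one_lt (4 * vB * (2 * (11 + |om0| + 4 * W1)) *
        (1 + 4 * W2 * (2 * (11 + |om0| + 4 * W1))) ^ 12 + 2 * (2 * (11 + |om0| + 4 * W1)))
        (one_lt_two (α := ℝ))
  refine ⟨k + (26 * K0 + 13), ?_⟩
  have hn2 : ∀ᶠ j in atTop, 2 ≤ B.nn j := B.nn_tendsto.eventually_ge_atTop 2
  have hom : ∀ᶠ j in atTop, |(B.P j).om| ≤ |om0| + 1 := by
    have h1 := B.om_tendsto.abs
    exact (h1.eventually (gt_mem_nhds (show |om0| < |om0| + 1 by linarith))).mono fun j hj => hj.le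
  have hexp : ∀ᶠ j in atTop, 4 * (B.nn j : ℝ) * Real.exp (-c * B.nn j) ≤ 1 := by
    have h1 : Tendsto (fun x : ℝ => x ^ (1 : ℝ) * Real.exp (-c * x)) atTop (𝓝 0) :=
      tendsto_rpow_mul_exp_neg_mul_atTop_nhds_zero 1 c hc
    have h2 : Tendsto (fun j => (B.nn j : ℝ)) atTop atTop :=
      tendsto_natCast_atTop_atTop.comp B.nn_tendsto
    have h3 := (h1.comp h2).eventually (gt_mem_nhds (show (0 : ℝ) < 1 / 4 by norm_num))
    refine h3.mono fun j hj => ?_
    simp only [Function.comp_apply, Real.rpow_one] at hj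
    linarith
  filter_upwards [htail, hpoly, hn2, hom, hexp] with j htj hpj hnj homj hexpj
  intro lam al hlam f g e1 e2 a b c1 c2 ha hb hc1 hc2 heq1 heq2
  obtain ⟨⟨t1, ht1, ht1b⟩, ⟨t2, ht2, ht2b⟩, ⟨t2c, ht2c, ht2cb⟩⟩ := htj
  obtain ⟨⟨v1, hv1, hv1b⟩, ⟨v2, hv2, hv2b⟩, ⟨v2c, hv2c, hv2cb⟩, -⟩ := hpj
  have hnR : (2 : ℝ) ≤ (B.nn j : ℝ) := by exact_mod_cast hnj
  set n : ℝ := (B.nn j : ℝ) with hn
  set M : ℝ := n ^ K0 with hM
  set δ : ℝ := Real.exp (-c * n) with hδ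
  have bv1 : xn 1 v1 ≤ M := (xn_mono (by norm_num) (Rep.wint hv1)).trans hv1b
  have bv2 : xn 1 v2 ≤ M := (xn_mono (by norm_num) (Rep.wint hv2)).trans hv2b
  have bv2c : xn 1 v2c ≤ M := (xn_mono (by norm_num) (Rep.wint hv2c)).trans hv2cb
  have bt1 : xn 1 t1 ≤ δ := (xn_mono (by norm_num) (Rep.wint ht1)).trans ht1b
  have bt2 : xn 1 t2 ≤ δ := (xn_mono (by norm_num) (Rep.wint ht2)).trans ht2b
  have bt2c : xn 1 t2c ≤ δ := (xn_mono (by norm_num) (Rep.wint ht2c)).trans ht2cb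
  set mu1 : ℂ := lam + 1 / (B.nn j : ℂ) - I * (B.P j).om with hmu1
  set mu2 : ℂ := lam + 1 / (B.nn j : ℂ) + I * (B.P j).om with hmu2
  have hre : ((1 : ℂ) / (B.nn j : ℂ)).re = 1 / n := by
    rw [hn]
    have : (1 : ℂ) / (B.nn j : ℂ) = ((1 / (B.nn j : ℝ) : ℝ) : ℂ) := by push_cast; ring
    rw [this, ofReal_re]
  have hr1' : mu1.re = lam.re + 1 / n := by
    rw [hmu1, sub_re, add_re, hre]; simp
  have hr2' : mu2.re = lam.re + 1 / n := by
    rw [hmu2, add_re, add_re, hre]; simp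
  have hn0 : 0 < n := by linarith
  have hmpos : 0 < lam.re + 1 / n := by positivity
  have hnorm : ‖(1 : ℂ) / (B.nn j : ℂ)‖ ≤ 1 := by
    rw [norm_div, norm_one, Complex.norm_natCast, ← hn]
    rw [div_le_one hn0]; linarith
  have hnI : ‖I * ((B.P j).om : ℂ)‖ ≤ |om0| + 1 := by
    rw [norm_mul, norm_I, one_mul, Complex.norm_real]; exact homj
  have hb1 : ‖mu1‖ ≤ ‖lam‖ + |om0| + 2 := by
    rw [hmu1]
    have h1 := norm_sub_le (lam + 1 / (B.nn j : ℂ)) (I * (B.P j).om)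
    have h2 := norm_add_le lam (1 / (B.nn j : ℂ))
    linarith
  have hb2 : ‖mu2‖ ≤ ‖lam‖ + |om0| + 2 := by
    rw [hmu2]
    have h1 := norm_add_le (lam + 1 / (B.nn j : ℂ)) (I * (B.P j).om)
    have h2 := norm_add_le lam (1 / (B.nn j : ℂ))
    linarith
  have hE1 : ∀ y, (((1 : ℝ) : ℂ)) * I * lap f y - (1 / 2) * eul f y - mu1 * f y
      = (((1 : ℝ) : ℂ)) * I * ((B.P j).V1 y * f y + (B.P j).V2 y * g y) + al * e1 y := by
    intro y
    rw [← heq1 y, Profile.gen1, hmu1]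
    push_cast; ring
  have hE2 : ∀ y, (((-1 : ℝ) : ℂ)) * I * lap g y - (1 / 2) * eul g y - mu2 * g y
      = (((-1 : ℝ) : ℂ)) * I * ((B.P j).V1 y * g y + (B.P j).V2c y * f y) + al * e2 y := by
    intro y
    rw [← heq2 y, Profile.gen2, hmu2]
    push_cast; ring
  obtain ⟨β1, hβ1, A0, A1, A3⟩ := comp_est hS (Or.inl rfl) (mu := mu1) (al := al)
    (by rw [hr1']; exact hmpos) ha hb hc1
    (Rep.mono (by norm_num) hv1) (Rep.mono (by norm_num) hv2)
    (Rep.mono (by norm_num) ht1) (Rep.mono (by norm_num) ht2) bv1 bv2 bt1 bt2 w hw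
    hχ.nonneg hχ.le_one hχ.zero hE1
  obtain ⟨β2, hβ2, B0, B1, B3⟩ := comp_est hS (Or.inr rfl) (mu := mu2) (al := al)
    (by rw [hr2']; exact hmpos) hb ha hc2
    (Rep.mono (by norm_num) hv1) (Rep.mono (by norm_num) hv2c)
    (Rep.mono (by norm_num) ht1) (Rep.mono (by norm_num) ht2c) bv1 bv2c bt1 bt2c w hw
    hχ.nonneg hχ.le_one hχ.zero hE2
  rw [hr1'] at A0 A1
  rw [hr2'] at B0 B1
  set im : ℝ := (lam.re + 1 / n)⁻¹ with him
  have him0 : 0 ≤ im := by positivity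
  have himn : im ≤ n := by
    rw [him]
    calc (lam.re + 1 / n)⁻¹ ≤ (1 / n)⁻¹ := by
          apply inv_anti₀ (by positivity); linarith
      _ = n := by rw [one_div, inv_inv]
  have hsw : (∫ y in Metric.closedBall (0 : R12) r1, (‖g y‖ + ‖f y‖)) =
      ∫ y in Metric.closedBall (0 : R12) r1, (‖f y‖ + ‖g y‖) := by
    refine integral_congr_ae (Eventually.of_forall fun y => ?_)
    simp only; ring
  set L : ℝ := ∫ y in Metric.closedBall (0 : R12) r1, (‖f y‖ + ‖g y‖) with hL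
  have hL0 : 0 ≤ L := integral_nonneg fun _ => by positivity
  have na0 := xn_nonneg 0 a
  have nb0 := xn_nonneg 0 b
  have na1 := xn_nonneg 1 a
  have nb1 := xn_nonneg 1 b
  have nc1 := xn_nonneg 1 c1
  have nc2 := xn_nonneg 1 c2
  have nal := norm_nonneg al
  have hM0 : 0 ≤ M := by positivity
  have hδ0 : 0 ≤ δ := (Real.exp_pos _).le
  have nl := norm_nonneg lam
  have hoo := abs_nonneg om0
  have hfin := close_aux (n := n) (μ := ‖lam‖ + |om0| + 2) (im := im) (W1 := W1) (W2 := W2) (M := M)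
    (δ := δ) (β := β1 + β2) (x0 := xn 0 a + xn 0 b) (x1 := xn 1 a + xn 1 b)
    (E := ‖al‖ * (xn 1 c1 + xn 1 c2)) (L := L) (V := vB) (by linarith) (by positivity) himn
    hW10 hW20 hM0 hδ0 hexpj (by positivity) (by positivity) (by positivity) (by positivity)
    (by
      rw [div_eq_mul_inv] at A0 B0
      linear_combination A0 + B0)
    (by
      rw [div_eq_mul_inv, div_eq_mul_inv _ (lam.re + 1 / n)] at A1 B1
      have m1 : ‖mu1‖ * β1 ≤ (‖lam‖ + |om0| + 2) * β1 := mul_le_mul_of_nonneg_right hb1 hβ1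
      have m2 : ‖mu2‖ * β2 ≤ (‖lam‖ + |om0| + 2) * β2 := mul_le_mul_of_nonneg_right hb2 hβ2
      linear_combination A1 + B1 + m1 + m2)
    (by
      intro La hLa
      have h1 := A3 La hLa
      have h2 := B3 La hLa
      rw [hsw] at h2
      rw [div_eq_mul_inv] at h1 h2 ⊢
      linear_combination h1 + h2) rfl rfl
  have hres := poly_aux (k := k) (K0 := K0) (o := |om0|) hnR nl hoo hW10 hW20 vB_nonneg hL0
    (by positivity) rfl rfl rfl rfl rfl rfl hk.le rfl hfin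
  rw [pow_add]
  exact hres

end Crest.Agent.R086.CReg
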