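import Crest.Agent.R086.CLarge
import Crest.Agent.R086.CLift
import Crest.Agent.R086.CRegDefs
import Crest.Agent.R086.CTopDefs
import Crest.Agent.R086.C34Defs

-- ▼ part R086/CR2
section

/-!
Row 86, Part C, regime (R2) (helper851): for `|lam| ≤ n^K1` there is no single-mode eigenfunction of
degree `l ≥ n^K2` (n large), given (REG).
-/

set_option autoImplicit false

open MeasureTheory Complex Set Filter Topology
open scoped ContDiff

namespace Crest.Agent.R086.CMax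

open Crest.Agent.R086.CReg

noncomputable section

lemma Rep.anti {M N : ℕ} (hMN : M ≤ N) {a f : R12 → ℂ} (h : Rep N a f) : Rep M a f := by
  refine ⟨?_, h.2⟩
  have h1 : (fun ξ : R12 => (((1 + ‖ξ‖) ^ M : ℝ) : ℂ) * a ξ) = fun ξ : R12 =>
      ((((1 + ‖ξ‖) ^ (N - M))⁻¹ : ℝ) : ℂ) * ((((1 + ‖ξ‖) ^ N : ℝ) : ℂ) * a ξ) := by
    funext ξ
    have h2 : (0 : ℝ) < 1 + ‖ξ‖ := by positivity
    rw [← mul_assoc, ← Complex.ofReal_mul]
    congr 2
    rw [eq_inv_mul_iff_mul_eq₀ (by positivity), ← pow_add, Nat.sub_add_cancel hMN]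
  rw [h1]
  refine h.1.bdd_mul (c := 1) ?_ (Eventually.of_forall fun ξ => ?_)
  · refine Continuous.aestronglyMeasurable ?_
    refine Complex.continuous_ofReal.comp (Continuous.inv₀ (by fun_prop) fun ξ => ?_)
    positivity
  · rw [Complex.norm_real, Real.norm_eq_abs, abs_of_nonneg (by positivity)]
    refine inv_le_one_of_one_le₀ (one_le_pow₀ ?_)
    have := norm_nonneg ξ
    linarith

lemma norm_le_xn {N k : ℕ} (hk : k ≤ N) {a f : R12 → ℂ} (h : Rep N a f) (y : R12) :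
    ‖f y‖ ≤ xn k a := by
  have hk' := (Rep.anti hk h).1
  rw [h.2 y]
  refine (norm_integral_le_integral_norm _).trans ?_
  unfold xn
  have hint : Integrable fun ξ : R12 => (1 + ‖ξ‖) ^ k * ‖a ξ‖ := by
    refine hk'.norm.congr (Eventually.of_forall fun ξ => ?_)
    simp only
    rw [norm_mul, Complex.norm_real, Real.norm_eq_abs, abs_of_nonneg (by positivity)]
  refine integral_mono_of_nonneg (Eventually.of_forall fun ξ => norm_nonneg _) hint
    (Eventually.of_forall fun ξ => ?_)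
  simp only
  rw [norm_mul, mul_comm I, Complex.norm_exp_ofReal_mul_I, one_mul]
  have h1 : (1 : ℝ) ≤ (1 + ‖ξ‖) ^ k := one_le_pow₀ (by have := norm_nonneg ξ; linarith)
  nlinarith [norm_nonneg (a ξ)]

lemma xn_nonneg (N : ℕ) (a : R12 → ℂ) : 0 ≤ xn N a := by
  unfold xn
  exact integral_nonneg fun ξ => by positivity

/-- numerics: exponential beats polynomial -/
lemma ev_small (C : ℝ) (K1 K : ℕ) : ∀ᶠ n : ℕ in atTop,
    ((n : ℝ) * (1 + (n : ℝ) ^ K1)) ^ K * C * Real.sqrt ((1 / 2) ^ n) < 1 := by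
  have hr : |Real.sqrt (1 / 2)| < 1 := by
    rw [abs_of_nonneg (Real.sqrt_nonneg _), Real.sqrt_lt' one_pos]; norm_num
  have h1 := tendsto_pow_const_mul_const_pow_of_abs_lt_one ((1 + K1) * K) hr
  have h2 : Tendsto (fun n : ℕ => (2 : ℝ) ^ K * |C| * ((n : ℝ) ^ ((1 + K1) * K) * Real.sqrt (1 / 2) ^ n))
      atTop (𝓝 ((2 : ℝ) ^ K * |C| * 0)) := h1.const_mul _
  rw [mul_zero] at h2
  filter_upwards [h2.eventually_lt_const (show (0 : ℝ) < 1 by norm_num), eventually_ge_atTop 1]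
    with n hn hn1
  have hn1' : (1 : ℝ) ≤ n := by exact_mod_cast hn1
  have h3 : Real.sqrt ((1 / 2) ^ n) = Real.sqrt (1 / 2) ^ n := by
    rw [Real.sqrt_eq_iff_mul_self_eq (by positivity) (by positivity), ← mul_pow,
      Real.mul_self_sqrt (by norm_num)]
  have h4 : (n : ℝ) * (1 + (n : ℝ) ^ K1) ≤ 2 * (n : ℝ) ^ (1 + K1) := by
    have h5 : (1 : ℝ) ≤ (n : ℝ) ^ K1 := one_le_pow₀ hn1'
    rw [pow_add, pow_one]
    nlinarith
  rw [h3]
  have h6 : ((n : ℝ) * (1 + (n : ℝ) ^ K1)) ^ K ≤ (2 : ℝ) ^ K * (n : ℝ) ^ ((1 + K1) * K) := by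
    calc ((n : ℝ) * (1 + (n : ℝ) ^ K1)) ^ K ≤ (2 * (n : ℝ) ^ (1 + K1)) ^ K := by gcongr
      _ = _ := by rw [mul_pow, ← pow_mul]
  calc ((n : ℝ) * (1 + (n : ℝ) ^ K1)) ^ K * C * Real.sqrt (1 / 2) ^ n
      ≤ ((n : ℝ) * (1 + (n : ℝ) ^ K1)) ^ K * |C| * Real.sqrt (1 / 2) ^ n := by
        gcongr; exact le_abs_self C
    _ ≤ ((2 : ℝ) ^ K * (n : ℝ) ^ ((1 + K1) * K)) * |C| * Real.sqrt (1 / 2) ^ n := by gcongr
    _ = (2 : ℝ) ^ K * |C| * ((n : ℝ) ^ ((1 + K1) * K) * Real.sqrt (1 / 2) ^ n) := by ring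
    _ < 1 := hn

/-- numerics: the size condition of `mode_decay` -/
lemma ev_big (A C0 : ℝ) (K1 : ℕ) : ∀ᶠ n : ℕ in atTop,
    (16 : ℝ) ^ 2 / 8 + 2 * ((n : ℝ) ^ K1 + A + 1 + (1 + (n : ℝ) / 2) * C0) + n * C0 ≤
      (n : ℝ) ^ (K1 + 2) * (n : ℝ) ^ (K1 + 2) / (16 : ℝ) ^ 2 := by
  set D : ℝ := 32 + 2 + 2 * |A| + 2 + 2 * |C0| + |C0| + |C0| with hD
  filter_upwards [eventually_ge_atTop 1, eventually_ge_atTop (Nat.ceil (256 * D))] with n hn1 hn2
  have hn1' : (1 : ℝ) ≤ n := by exact_mod_cast hn1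
  have hn2' : 256 * D ≤ n := (Nat.le_ceil _).trans (by exact_mod_cast hn2)
  have hp : (1 : ℝ) ≤ (n : ℝ) ^ K1 := one_le_pow₀ hn1'
  have hDpos : 0 ≤ D := by positivity
  have e1 : (16 : ℝ) ^ 2 / 8 + 2 * ((n : ℝ) ^ K1 + A + 1 + (1 + (n : ℝ) / 2) * C0) + n * C0 ≤
      D * ((n : ℝ) ^ K1 * n) := by
    have h1 := le_abs_self A
    have h2 := le_abs_self C0
    have h3 : 0 ≤ |A| := abs_nonneg A
    have h4 : 0 ≤ |C0| := abs_nonneg C0
    have h5 : (1 : ℝ) ≤ (n : ℝ) ^ K1 * n := by nlinarith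
    have h6 : (n : ℝ) ≤ (n : ℝ) ^ K1 * n := by nlinarith
    have h7 : (n : ℝ) ^ K1 ≤ (n : ℝ) ^ K1 * n := by nlinarith
    have h8 : (n : ℝ) * C0 ≤ |C0| * ((n : ℝ) ^ K1 * n) := by nlinarith
    have h9 : A ≤ |A| * ((n : ℝ) ^ K1 * n) := by nlinarith
    have h10 : C0 ≤ |C0| * ((n : ℝ) ^ K1 * n) := by nlinarith
    rw [hD]
    nlinarith
  have e2 : D * ((n : ℝ) ^ K1 * n) ≤ (n : ℝ) ^ (K1 + 2) * (n : ℝ) ^ (K1 + 2) / (16 : ℝ) ^ 2 := by
    have h1 : (n : ℝ) ^ (K1 + 2) * (n : ℝ) ^ (K1 + 2) =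
        ((n : ℝ) ^ K1 * n) * (n * ((n : ℝ) ^ K1 * n ^ 2)) := by ring
    rw [h1, le_div_iff₀ (by norm_num)]
    have h2 : D * 16 ^ 2 ≤ n * ((n : ℝ) ^ K1 * n ^ 2) := by
      have h3 : (1 : ℝ) ≤ (n : ℝ) ^ K1 * n ^ 2 := by nlinarith [one_le_pow₀ hn1' (n := 2)]
      nlinarith
    calc D * ((n : ℝ) ^ K1 * n) * 16 ^ 2 = ((n : ℝ) ^ K1 * n) * (D * 16 ^ 2) := by ring
      _ ≤ ((n : ℝ) ^ K1 * n) * (n * ((n : ℝ) ^ K1 * n ^ 2)) := by gcongr
  exact e1.trans e2

/-- REGIME (R2): no single-mode eigenfunction with `|lam| ≤ n^K1` and `l ≥ n^(K1+2)`, `n` large. -/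
theorem regime2 {om0 R : ℝ} {U : ℝ → ℂ} (B : BData om0 R U) (hR : R < 8) (hreg : RegStmt B)
    (K1 : ℕ) : ∀ᶠ j in atTop, ∀ lam : ℂ, 0 ≤ lam.re → ‖lam‖ ≤ (B.nn j : ℝ) ^ K1 →
      ∀ (l : ℕ) (H : R12 → ℝ), SHarm l H → (∫ w : S11, (H w) ^ 2 ∂sig) = 1 →
      B.nn j ^ (K1 + 2) ≤ l → ∀ F G : ℝ → ℂ, ContDiff ℝ 2 F → ContDiff ℝ 2 G →
      InX 2 (modeFn H F) → InX 2 (modeFn H G) →
      (∀ r : ℝ, 0 < r → (B.P j).rgen1 l F G r = lam * F r) →
      (∀ r : ℝ, 0 < r → (B.P j).rgen2 l F G r = lam * G r) →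
      ∀ r : ℝ, 0 < r → F r = 0 ∧ G r = 0 := by
  obtain ⟨K, hK⟩ := hreg 8 hR
  obtain ⟨C0, hC0⟩ := B.pow_le
  have hom : ∀ᶠ j in atTop, |(B.P j).om| ≤ |om0| + 1 := by
    have h1 := (continuous_abs.tendsto om0).comp B.om_tendsto
    exact (h1.eventually_lt_const (show |om0| < |om0| + 1 by linarith)).mono fun j hj => hj.le
  filter_upwards [hK, hC0, hom, B.nn_tendsto.eventually (ev_small CL K1 K),
    B.nn_tendsto.eventually (ev_big (|om0| + 1) C0 K1), B.nn_tendsto.eventually_ge_atTop 1]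
    with j hKj hCj homj hsm hbg hn1
  intro lam hre hlam l H hH hn hl F G hF hG hXF hXG h1 h2
  set n := B.nn j with hndef
  have hn1' : (1 : ℝ) ≤ n := by exact_mod_cast hn1
  obtain ⟨a, ha⟩ := hXF
  obtain ⟨b, hb⟩ := hXG
  have hf2 : ContDiff ℝ 2 (modeFn H F) := by
    have := SH.InX.contDiff (N := 2) ⟨a, ha⟩
    exact_mod_cast this
  have hg2 : ContDiff ℝ 2 (modeFn H G) := by
    have := SH.InX.contDiff (N := 2) ⟨b, hb⟩
    exact_mod_cast this
  obtain ⟨g1, g2⟩ := CLift.lift_eig (B.P j) hH (hF.of_le (by norm_num)) (hG.of_le (by norm_num))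
    hf2 hg2 h1 h2
  have hz : Rep 1 (fun _ : R12 => (0 : ℂ)) (fun _ : R12 => (0 : ℂ)) := by
    refine ⟨by simp, fun y => by simp⟩
  have hreg1 := hKj lam 0 hre (modeFn H F) (modeFn H G) _ _ a b _ _ ha hb hz hz
    (fun y => by rw [g1 y]; ring) (fun y => by rw [g2 y]; ring)
  simp only [norm_zero, zero_mul, add_zero] at hreg1
  -- the bound M
  have hl1 : 1 ≤ l := le_trans (Nat.one_le_pow _ _ hn1) hl
  have hln : n ≤ l := le_trans (by
    calc n = n ^ 1 := (pow_one n).symm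
      _ ≤ n ^ (K1 + 2) := Nat.pow_le_pow_right hn1 (by omega)) hl
  set M : ℝ := ((n : ℝ) * (1 + (n : ℝ) ^ K1)) ^ K with hM
  have hM0 : 0 ≤ M := by positivity
  have hadd : ∫ y in Metric.closedBall (0 : R12) 8, (‖modeFn H F y‖ + ‖modeFn H G y‖) =
      (∫ y in Metric.closedBall (0 : R12) 8, ‖modeFn H F y‖) +
        ∫ y in Metric.closedBall (0 : R12) 8, ‖modeFn H G y‖ := by
    refine integral_add ?_ ?_
    · exact hf2.continuous.norm.continuousOn.integrableOn_compact (isCompact_closedBall _ _)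
    · exact hg2.continuous.norm.continuousOn.integrableOn_compact (isCompact_closedBall _ _)
  have hI0 : 0 ≤ (∫ y in Metric.closedBall (0 : R12) 8, ‖modeFn H F y‖) +
      ∫ y in Metric.closedBall (0 : R12) 8, ‖modeFn H G y‖ :=
    add_nonneg (integral_nonneg fun y => norm_nonneg _) (integral_nonneg fun y => norm_nonneg _)
  rw [hadd] at hreg1
  have hRegF : xn 1 a + xn 1 b ≤ M * ((∫ y in Metric.closedBall (0 : R12) 8, ‖modeFn H F y‖) +
      ∫ y in Metric.closedBall (0 : R12) 8, ‖modeFn H G y‖) := by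
    refine hreg1.trans (mul_le_mul_of_nonneg_right ?_ hI0)
    rw [hM]
    gcongr
  refine no_large_mode (B.P j) hl1 hH hn hF hG (lam := lam) (C0 := C0) (M := M)
    (X := xn 1 a + xn 1 b) (fun r hr => hCj r hr.1) h1 h2 ?_ ?_ hM0 hRegF ?_
  · have e1 : KK (B.nn j) (B.P j).om lam C0 ≤ (n : ℝ) ^ K1 + (|om0| + 1) + 1 +
        (1 + (n : ℝ) / 2) * C0 := by
      unfold KK
      have h3 : 1 / ((B.nn j : ℕ) : ℝ) ≤ 1 := by
        rw [div_le_one (by linarith)]
        exact hn1'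
      linarith
    have e2 : (n : ℝ) ^ (K1 + 2) * (n : ℝ) ^ (K1 + 2) / (16 : ℝ) ^ 2 ≤
        (l : ℝ) * (l + 10) / (16 : ℝ) ^ 2 := by
      have h3 : ((n : ℝ)) ^ (K1 + 2) ≤ (l : ℝ) := by exact_mod_cast hl
      have h4 : ((n : ℝ)) ^ (K1 + 2) ≤ (l : ℝ) + 10 := by linarith
      gcongr
    have e3 := hbg
    linarith
  · intro y
    have f1 := norm_le_xn (k := 1) (by norm_num) ha y
    have f2 := norm_le_xn (k := 1) (by norm_num) hb y
    have f3 := xn_nonneg 1 a
    have f4 := xn_nonneg 1 b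
    constructor <;> linarith
  · refine lt_of_le_of_lt ?_ hsm
    have hCL := CL_nonneg
    have h3 : Real.sqrt ((1 / 2) ^ l) ≤ Real.sqrt ((1 / 2) ^ n) := by
      apply Real.sqrt_le_sqrt
      exact pow_le_pow_of_le_one (by norm_num) (by norm_num) hln
    exact mul_le_mul_of_nonneg_left h3 (by positivity)

end

end Crest.Agent.R086.CMax
end

-- ▼ part R086/CRegB

/-!
Row 86, Part C (helper851): bridges from 360's `RegStmt` to `R2Stmt` (777) and `BData.REG` (426).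
-/

set_option autoImplicit false

open MeasureTheory Complex Set Filter Topology
open scoped ContDiff

namespace Crest.Agent.R086.CRegB

open Crest.Agent.R086.CReg Crest.Agent.R086.CMax Crest.Agent.R086.SHF

noncomputable section

lemma InX.anti {M N : ℕ} (hMN : M ≤ N) {f : R12 → ℂ} (h : InX N f) : InX M f := by
  obtain ⟨a, ha⟩ := h
  exact ⟨a, Rep.anti hMN ha⟩

/-- `R2Stmt` from (REG). -/
theorem r2Stmt (h : ∀ (om0 R : ℝ) (U : ℝ → ℂ), LimitProfile om0 R U → ∀ B : BData om0 R U,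
    RegStmt B) : R2Stmt := by
  intro om0 R U hL B K
  refine ⟨K + 2, ?_⟩
  have hR : R < 8 := by have := hL.R_hi; linarith
  filter_upwards [regime2 B hR (h om0 R U hL B) K] with j hj
  intro lam l H F G hE hre hNZ hlam
  by_contra hcon
  push Not at hcon
  obtain ⟨r, hr, hne⟩ := hNZ
  have hl : B.nn j ^ (K + 2) ≤ l := by
    have : ((B.nn j ^ (K + 2) : ℕ) : ℝ) < l := by push_cast; exact hcon
    exact_mod_cast this.le
  have h2 : (2 : WithTop ℕ∞) ≤ (N0 : ℕ) := by unfold N0; norm_num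
  have h3 := hj lam hre hlam l H hE.mode.harm hE.mode.norm hl F G (hE.mode.cF.of_le h2)
    (hE.mode.cG.of_le h2) (InX.anti (by unfold N0; norm_num) hE.mode.xF)
    (InX.anti (by unfold N0; norm_num) hE.mode.xG) hE.eq1 hE.eq2 r hr
  rcases hne with h4 | h4
  · exact h4 h3.1
  · exact h4 h3.2

/-! ### the bridge to `BData.REG` -/


/-- the `L¹` norm of a mode function on a ball -/
lemma ball_integral {l : ℕ} {H : R12 → ℝ} (_hH : SHarm l H) {F : ℝ → ℂ}
    (hc : Continuous (modeFn H F)) {r1 : ℝ} (hr1 : 0 < r1) :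
    ∫ y in Metric.closedBall (0 : R12) r1, ‖modeFn H F y‖ =
      (∫ w : S11, |H w| ∂sig) * ∫ r in (0 : ℝ)..r1, r ^ 11 * ‖F r‖ := by
  have hint : Integrable ((Metric.closedBall (0 : R12) r1).indicator fun y => ‖modeFn H F y‖) := by
    rw [integrable_indicator_iff Metric.isClosed_closedBall.measurableSet]
    exact hc.norm.continuousOn.integrableOn_compact (isCompact_closedBall _ _)
  rw [← integral_indicator Metric.isClosed_closedBall.measurableSet,
    R202.SphDiv.polar (n := 12) (by norm_num) _ hint]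
  have e1 : ∀ r ∈ Ioi (0 : ℝ), r ^ (12 - 1) * ∫ z : R202.SphDiv.Sph 12,
      (Metric.closedBall (0 : R12) r1).indicator (fun y => ‖modeFn H F y‖) (r • (z : R12))
        ∂(R202.SphDiv.sig 12) =
      (Ioc (0 : ℝ) r1).indicator (fun r => (∫ w : S11, |H w| ∂sig) * (r ^ 11 * ‖F r‖)) r := by
    intro r hr
    have hr0 : (0 : ℝ) < r := hr
    change r ^ 11 * (∫ z : S11, (Metric.closedBall (0 : R12) r1).indicator
      (fun y => ‖modeFn H F y‖) (r • (z : R12)) ∂sig) = _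
    by_cases h : r ≤ r1
    · rw [indicator_of_mem (show r ∈ Ioc (0 : ℝ) r1 from ⟨hr0, h⟩)]
      have e2 : (fun z : S11 => (Metric.closedBall (0 : R12) r1).indicator
          (fun y => ‖modeFn H F y‖) (r • (z : R12))) = fun z : S11 => |H z| * ‖F r‖ := by
        funext z
        rw [indicator_of_mem (by rw [mem_closedBall_zero_iff, norm_smul_sph hr0]; exact h),
          CLift.modeFn_smul H F hr0, norm_mul, Complex.norm_real, Real.norm_eq_abs]
      rw [e2, integral_mul_const]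
      ring
    · rw [indicator_of_notMem (show r ∉ Ioc (0 : ℝ) r1 from fun h2 => h h2.2)]
      have e2 : (fun z : S11 => (Metric.closedBall (0 : R12) r1).indicator
          (fun y => ‖modeFn H F y‖) (r • (z : R12))) = fun _ : S11 => (0 : ℝ) := by
        funext z
        rw [indicator_of_notMem (by rw [mem_closedBall_zero_iff, norm_smul_sph hr0]; exact h)]
      rw [e2]; simp
  rw [setIntegral_congr_fun measurableSet_Ioi e1, setIntegral_indicator measurableSet_Ioc,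
    intervalIntegral.integral_of_le hr1.le, ← integral_const_mul]
  congr 1
  have : Ioi (0 : ℝ) ∩ Ioc 0 r1 = Ioc 0 r1 := inter_eq_right.2 fun x hx => hx.1
  rw [this]

/-- Cauchy–Schwarz in the form needed here -/
lemma l1_le_NB {r1 : ℝ} (hr1 : 0 < r1) {F G : ℝ → ℂ} (hF : Continuous F) (hG : Continuous G) :
    ∫ r in (0 : ℝ)..r1, r ^ 11 * ‖F r‖ ≤ (r1 ^ 12 + 1) * NB r1 F G := by
  set I2 : ℝ := ∫ r in (0 : ℝ)..r1, r ^ 11 * (‖F r‖ ^ 2 + ‖G r‖ ^ 2) with hI2
  have hI20 : 0 ≤ I2 := by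
    refine intervalIntegral.integral_nonneg hr1.le fun r hr => ?_
    have := hr.1
    positivity
  have hNB : NB r1 F G ^ 2 = I2 := Real.sq_sqrt hI20
  have hNB0 : 0 ≤ NB r1 F G := Real.sqrt_nonneg _
  have key : ∀ t : ℝ, 0 < t → ∫ r in (0 : ℝ)..r1, r ^ 11 * ‖F r‖ ≤
      t * r1 ^ 12 + I2 / (2 * t) := by
    intro t ht
    have h1 : ∫ r in (0 : ℝ)..r1, r ^ 11 * ‖F r‖ ≤
        ∫ r in (0 : ℝ)..r1, (t * r ^ 11 + (1 / (2 * t)) * (r ^ 11 * (‖F r‖ ^ 2 + ‖G r‖ ^ 2))) := by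
      refine intervalIntegral.integral_mono_on hr1.le ?_ ?_ fun r hr => ?_
      · exact Continuous.intervalIntegrable (by fun_prop) _ _
      · exact Continuous.intervalIntegrable (by fun_prop) _ _
      · have hr0 : 0 ≤ r := hr.1
        have h2 : ‖F r‖ ≤ t + 1 / (2 * t) * (‖F r‖ ^ 2 + ‖G r‖ ^ 2) := by
          have h3 : 1 / (2 * t) * ‖F r‖ ^ 2 ≤ 1 / (2 * t) * (‖F r‖ ^ 2 + ‖G r‖ ^ 2) := by
            gcongr; nlinarith [sq_nonneg ‖G r‖]
          have h4 : ‖F r‖ ≤ t + 1 / (2 * t) * ‖F r‖ ^ 2 := by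
            have h5 : 0 ≤ (‖F r‖ - t) ^ 2 := sq_nonneg _
            have h6 : t * ‖F r‖ ≤ t * (t + 1 / (2 * t) * ‖F r‖ ^ 2) := by
              have : t * (t + 1 / (2 * t) * ‖F r‖ ^ 2) = t ^ 2 + ‖F r‖ ^ 2 / 2 := by
                field_simp
              rw [this]
              nlinarith
            exact le_of_mul_le_mul_left h6 ht
          linarith
        have h7 : 0 ≤ r ^ 11 := by positivity
        calc r ^ 11 * ‖F r‖ ≤ r ^ 11 * (t + 1 / (2 * t) * (‖F r‖ ^ 2 + ‖G r‖ ^ 2)) := by gcongr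
          _ = _ := by ring
    refine h1.trans ?_
    rw [intervalIntegral.integral_add (Continuous.intervalIntegrable (by fun_prop) _ _)
      (Continuous.intervalIntegrable (by fun_prop) _ _), intervalIntegral.integral_const_mul,
      intervalIntegral.integral_const_mul, integral_pow]
    have h8 : t * ((r1 ^ (11 + 1) - 0 ^ (11 + 1)) / (((11 : ℕ) : ℝ) + 1)) ≤ t * r1 ^ 12 := by
      have h9 : (r1 ^ (11 + 1) - 0 ^ (11 + 1)) / (((11 : ℕ) : ℝ) + 1) ≤ r1 ^ 12 := by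
        rw [div_le_iff₀ (by positivity)]
        have : 0 ≤ r1 ^ 12 := by positivity
        push_cast
        nlinarith
      gcongr
    have h10 : 1 / (2 * t) * I2 = I2 / (2 * t) := by ring
    rw [← hI2, h10]
    linarith
  rcases hNB0.eq_or_lt with h0 | hpos
  · have hz : I2 = 0 := by rw [← hNB, ← h0]; norm_num
    rw [← h0, mul_zero]
    by_contra hcon
    push Not at hcon
    set J := ∫ r in (0 : ℝ)..r1, r ^ 11 * ‖F r‖ with hJ
    have h1 := key (J / (2 * (r1 ^ 12 + 1))) (by positivity)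
    rw [hz, zero_div, add_zero] at h1
    have h2 : J / (2 * (r1 ^ 12 + 1)) * r1 ^ 12 < J := by
      rw [div_mul_eq_mul_div, div_lt_iff₀ (by positivity)]
      have : 0 ≤ r1 ^ 12 := by positivity
      nlinarith
    linarith
  · have h1 := key (NB r1 F G) hpos
    rw [← hNB] at h1
    have h2 : NB r1 F G ^ 2 / (2 * NB r1 F G) = NB r1 F G / 2 := by field_simp
    rw [h2] at h1
    nlinarith

/-- bound of the local `L¹` norm by `NB` -/
lemma ball_le_NB {l : ℕ} {H : R12 → ℝ} (hH : SHarm l H)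
    (hn : (∫ w : S11, (H w) ^ 2 ∂sig) = 1) {F G : ℝ → ℂ} (hF : Continuous F) (hG : Continuous G)
    (hc : Continuous (modeFn H F)) {r1 : ℝ} (hr1 : 0 < r1) :
    ∫ y in Metric.closedBall (0 : R12) r1, ‖modeFn H F y‖ ≤
      (1 + sg0) * ((r1 ^ 12 + 1) * NB r1 F G) := by
  rw [ball_integral hH hc hr1]
  refine mul_le_mul (l1_H hH hn) (l1_le_NB hr1 hF hG) ?_ (by have := sg0_nonneg; linarith)
  refine intervalIntegral.integral_nonneg hr1.le fun r hr => ?_
  have := hr.1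
  positivity

lemma NB_comm (r1 : ℝ) (F G : ℝ → ℂ) : NB r1 G F = NB r1 F G := by
  unfold NB
  congr 1
  refine intervalIntegral.integral_congr fun r _ => ?_
  ring

/-- bound of the local `L¹` norm by a sup bound -/
lemma ball_le_sup {l : ℕ} {H : R12 → ℝ} (hH : SHarm l H)
    (hn : (∫ w : S11, (H w) ^ 2 ∂sig) = 1) {F : ℝ → ℂ} (hF : Continuous F)
    (hc : Continuous (modeFn H F)) {r1 E : ℝ} (hr1 : 0 < r1)
    (hE : ∀ r ∈ Icc (0 : ℝ) r1, ‖F r‖ ≤ E) :
    ∫ y in Metric.closedBall (0 : R12) r1, ‖modeFn H F y‖ ≤ (1 + sg0) * (r1 ^ 12 * E) := by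
  rw [ball_integral hH hc hr1]
  have hE0 : 0 ≤ E := (norm_nonneg _).trans (hE 0 ⟨le_rfl, hr1.le⟩)
  refine mul_le_mul (l1_H hH hn) ?_ ?_ (by have := sg0_nonneg; linarith)
  · have h1 : ∫ r in (0 : ℝ)..r1, r ^ 11 * ‖F r‖ ≤ ∫ r in (0 : ℝ)..r1, r ^ 11 * E := by
      refine intervalIntegral.integral_mono_on hr1.le ?_ ?_ fun r hr => ?_
      · exact Continuous.intervalIntegrable (by fun_prop) _ _
      · exact Continuous.intervalIntegrable (by fun_prop) _ _
      · have hr0 : 0 ≤ r := hr.1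
        exact mul_le_mul_of_nonneg_left (hE r hr) (by positivity)
    refine h1.trans ?_
    rw [intervalIntegral.integral_mul_const, integral_pow]
    refine mul_le_mul_of_nonneg_right ?_ hE0
    rw [div_le_iff₀ (by positivity)]
    have : 0 ≤ r1 ^ 12 := by positivity
    push_cast
    nlinarith
  · refine intervalIntegral.integral_nonneg hr1.le fun r hr => ?_
    have := hr.1
    positivity

/-- the symmetry modes are bounded on bounded intervals, uniformly in `j` -/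
lemma sym_bound {om0 R : ℝ} {U : ℝ → ℂ} (B : BData om0 R U) {r1 : ℝ} (hr1 : 0 < r1) :
    ∃ E : ℝ, 0 ≤ E ∧ ∀ᶠ j in atTop, ∀ (l : ℕ) (ls : ℝ) (e : ℝ → ℂ), (B.P j).IsSym l ls e →
      ∀ r ∈ Icc (0 : ℝ) r1, ‖e r‖ ≤ E := by
  obtain ⟨C, hC⟩ := B.q_der
  obtain ⟨C0, hC0⟩ := B.pow_le
  have hom : ∀ᶠ j in atTop, |(B.P j).om| ≤ |om0| + 1 := by
    have h1 := (continuous_abs.tendsto om0).comp B.om_tendsto
    exact (h1.eventually_lt_const (show |om0| < |om0| + 1 by linarith)).mono fun j hj => hj.le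
  set M : ℝ := max 1 C0 with hM
  have hM1 : 1 ≤ M := le_max_left _ _
  refine ⟨(|om0| + 3 + |C| + r1 * |C|) * M, by positivity, ?_⟩
  filter_upwards [hC, hC0, hom, B.nn_tendsto.eventually_ge_atTop 1] with j hCj hC0j homj hn1
  intro l ls e he r hr
  have hn1' : (1 : ℝ) ≤ B.nn j := by exact_mod_cast hn1
  have hq : ‖(B.P j).q r‖ ≤ M := by
    by_contra hcon
    push Not at hcon
    have h1 : 1 ≤ ‖(B.P j).q r‖ := hM1.trans hcon.le
    have h2 : ‖(B.P j).q r‖ ≤ ‖(B.P j).q r‖ ^ (B.nn j) := by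
      calc ‖(B.P j).q r‖ = ‖(B.P j).q r‖ ^ 1 := (pow_one _).symm
        _ ≤ _ := pow_le_pow_right₀ h1 hn1
    have h3 := hC0j r hr.1
    have h4 : C0 ≤ M := le_max_right _ _
    linarith
  have hq' : ‖deriv (B.P j).q r‖ ≤ |C| * M := by
    have h1 := (hCj r hr.1).1
    have h2 : C * (r / (1 + r ^ 2)) * ‖(B.P j).q r‖ ≤ |C| * 1 * M := by
      have h3 : r / (1 + r ^ 2) ≤ 1 := by
        rw [div_le_one (by positivity)]
        nlinarith [sq_nonneg (r - 1)]
      have h4 : 0 ≤ r / (1 + r ^ 2) := div_nonneg hr.1 (by positivity)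
      have h5 : C * (r / (1 + r ^ 2)) ≤ |C| * 1 := by
        calc C * (r / (1 + r ^ 2)) ≤ |C| * (r / (1 + r ^ 2)) := by gcongr; exact le_abs_self C
          _ ≤ |C| * 1 := by gcongr
      calc C * (r / (1 + r ^ 2)) * ‖(B.P j).q r‖ ≤ |C| * 1 * ‖(B.P j).q r‖ := by gcongr
        _ ≤ |C| * 1 * M := by gcongr
    linarith
  have hCM : 0 ≤ |C| * M := by positivity
  have hoM : 0 ≤ |om0| * M := by positivity
  have hrM : 0 ≤ r1 * |C| * M := by positivity
  rcases he with ⟨-, -, rfl⟩ | ⟨-, -, rfl⟩ | ⟨-, -, rfl⟩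
  · simp only [norm_mul, norm_I, one_mul]
    nlinarith
  · unfold Profile.rtime
    refine (norm_add_le _ _).trans ?_
    rw [norm_mul, norm_mul, norm_mul, Complex.norm_real, Real.norm_eq_abs, abs_of_nonneg hr.1]
    have h1 : ‖(1 : ℂ) / (B.nn j : ℂ) - I * (B.P j).om‖ ≤ 1 + (|om0| + 1) := by
      refine (norm_sub_le _ _).trans (add_le_add ?_ ?_)
      · rw [norm_div, norm_one, Complex.norm_natCast, div_le_one (by linarith)]
        exact hn1'
      · rw [norm_mul, norm_I, one_mul, Complex.norm_real, Real.norm_eq_abs]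
        exact homj
    have h2 : ‖(1 : ℂ) / 2‖ ≤ 1 := by rw [norm_div, norm_one, Complex.norm_ofNat]; norm_num
    have h3 : ‖(1 : ℂ) / (B.nn j : ℂ) - I * (B.P j).om‖ * ‖(B.P j).q r‖ ≤
        (1 + (|om0| + 1)) * M := mul_le_mul h1 hq (norm_nonneg _) (by positivity)
    have h4 : ‖(1 : ℂ) / 2‖ * (r * ‖deriv (B.P j).q r‖) ≤ 1 * (r1 * (|C| * M)) := by
      refine mul_le_mul h2 (mul_le_mul hr.2 hq' (norm_nonneg _) hr1.le) ?_ (by norm_num)
      exact mul_nonneg hr.1 (norm_nonneg _)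
    nlinarith
  · nlinarith

/-- THE BRIDGE: `BData.REG` from `RegStmt`. -/
theorem reg_of (hsym : SymStmt) {om0 R : ℝ} {U : ℝ → ℂ} (B : BData om0 R U) (hR0 : 0 ≤ R)
    (hreg : RegStmt B) : B.REG := by
  intro r1 hr1
  have hr10 : 0 < r1 := lt_of_le_of_lt hR0 hr1
  obtain ⟨K0, hK0⟩ := hreg r1 hr1
  obtain ⟨E, hE0, hE⟩ := sym_bound B hr10
  have hs := sg0_nonneg
  -- the constant
  set D : ℝ := 2 * ((1 + sg0) * (r1 ^ 12 + 1)) + 2 * ((1 + sg0) * (r1 ^ 12 * E)) with hD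
  have hD0 : 0 ≤ D := by positivity
  refine ⟨3 * K0 + 1, ?_⟩
  filter_upwards [hK0, hE, B.nn_tendsto.eventually_ge_atTop 2,
    B.nn_tendsto.eventually_ge_atTop (Nat.ceil D)] with j hj hEj hn2 hnD
  intro l H lam al e F G hre hP hcase
  set n := B.nn j with hndef
  have hn2' : (2 : ℝ) ≤ n := by exact_mod_cast hn2
  have hnD' : D ≤ n := (Nat.le_ceil _).trans (by exact_mod_cast hnD)
  obtain ⟨a, ha⟩ := hP.xF
  obtain ⟨b, hb⟩ := hP.xG
  have hf2 : ContDiff ℝ 2 (modeFn H F) := by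
    have := SH.InX.contDiff (N := 2) ⟨a, Rep.anti (by unfold N0; norm_num) ha⟩
    exact_mod_cast this
  have hg2 : ContDiff ℝ 2 (modeFn H G) := by
    have := SH.InX.contDiff (N := 2) ⟨b, Rep.anti (by unfold N0; norm_num) hb⟩
    exact_mod_cast this
  have h1N : (1 : WithTop ℕ∞) ≤ (N0 : ℕ) := by unfold N0; norm_num
  have hcF : Continuous F := hP.cF.continuous
  have hcG : Continuous G := hP.cG.continuous
  -- densities of the source
  obtain ⟨c1, c2, hc1, hc2, hsrc, hme, hmce⟩ : ∃ c1 c2 : R12 → ℂ, Rep 1 c1 (modeFn H e) ∧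
      Rep 1 c2 (modeFn H fun r => starRingEnd ℂ (e r)) ∧
      ‖al‖ * (xn 1 c1 + xn 1 c2) ≤
        ((n : ℝ) * 2) ^ K0 * (2 * ((1 + sg0) * (r1 ^ 12 * E))) * ‖al‖ ∧
      Continuous (modeFn H e) ∧ Continuous (modeFn H fun r => starRingEnd ℂ (e r)) := by
    rcases hcase with ⟨hal, he⟩ | ⟨ls, hls⟩
    · have hz : modeFn H e = fun _ => 0 := by rw [he, CLift.modeFn_zero]
      have hz2 : (modeFn H fun r => starRingEnd ℂ (e r)) = fun _ => 0 := by
        rw [he]; simp only [map_zero]; exact CLift.modeFn_zero H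
      refine ⟨fun _ => 0, fun _ => 0, ?_, ?_, ?_, ?_, ?_⟩
      · rw [hz]; exact ⟨by simp, fun y => by simp⟩
      · rw [hz2]; exact ⟨by simp, fun y => by simp⟩
      · rw [hal]; simp
      · rw [hz]; exact continuous_const
      · rw [hz2]; exact continuous_const
    · have hPe := hsym n (B.P j) l ls e H hls hP.sharm hP.nrm
      obtain ⟨c1, hc1⟩ := hPe.xF
      obtain ⟨c2, hc2⟩ := hPe.xG
      have he2 : ContDiff ℝ 2 (modeFn H e) := by
        have := SH.InX.contDiff (N := 2) ⟨c1, Rep.anti (by unfold N0; norm_num) hc1⟩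
        exact_mod_cast this
      have hce2 : ContDiff ℝ 2 (modeFn H fun r => starRingEnd ℂ (e r)) := by
        have := SH.InX.contDiff (N := 2) ⟨c2, Rep.anti (by unfold N0; norm_num) hc2⟩
        exact_mod_cast this
      have hls0 : 0 ≤ ((ls : ℂ)).re ∧ ‖(ls : ℂ)‖ ≤ 1 := by
        rw [Complex.ofReal_re, Complex.norm_real, Real.norm_eq_abs]
        rcases hls with ⟨-, h, -⟩ | ⟨-, h, -⟩ | ⟨-, h, -⟩
        · rw [h]; norm_num
        · rw [h]; norm_num
        · rw [h]; constructor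
          · norm_num
          · rw [abs_of_pos (by norm_num)]; norm_num
      obtain ⟨g1, g2⟩ := CLift.lift_eig (B.P j) hP.sharm (hPe.cF.of_le h1N) (hPe.cG.of_le h1N)
        he2 hce2 (lam := (ls : ℂ)) (fun r hr => by
          have := hPe.eqF r hr; rw [zero_mul] at this; exact sub_eq_zero.mp this)
        (fun r hr => by have := hPe.eqG r hr; rw [zero_mul] at this; exact sub_eq_zero.mp this)
      have hz : Rep 1 (fun _ : R12 => (0 : ℂ)) (fun _ : R12 => (0 : ℂ)) := ⟨by simp, fun y => by simp⟩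
      have h2 := hj (ls : ℂ) 0 hls0.1 (modeFn H e) (modeFn H fun r => starRingEnd ℂ (e r)) _ _
        c1 c2 _ _ (Rep.anti (by unfold N0; norm_num) hc1) (Rep.anti (by unfold N0; norm_num) hc2)
        hz hz (fun y => by rw [g1 y]; ring) (fun y => by rw [g2 y]; ring)
      simp only [norm_zero, zero_mul, add_zero] at h2
      have hadd : ∫ y in Metric.closedBall (0 : R12) r1, (‖modeFn H e y‖ +
          ‖modeFn H (fun r => starRingEnd ℂ (e r)) y‖) =
          (∫ y in Metric.closedBall (0 : R12) r1, ‖modeFn H e y‖) +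
          ∫ y in Metric.closedBall (0 : R12) r1, ‖modeFn H (fun r => starRingEnd ℂ (e r)) y‖ := by
        refine integral_add ?_ ?_
        · exact he2.continuous.norm.continuousOn.integrableOn_compact (isCompact_closedBall _ _)
        · exact hce2.continuous.norm.continuousOn.integrableOn_compact (isCompact_closedBall _ _)
      have hb1 := ball_le_sup hP.sharm hP.nrm hPe.cF.continuous he2.continuous hr10
        (fun r hr => hEj l ls e hls r hr)
      have hb2 := ball_le_sup hP.sharm hP.nrm hPe.cG.continuous hce2.continuous hr10 (E := E)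
        (fun r hr => by rw [RCLike.norm_conj]; exact hEj l ls e hls r hr)
      have h3 : xn 1 c1 + xn 1 c2 ≤ ((n : ℝ) * 2) ^ K0 * (2 * ((1 + sg0) * (r1 ^ 12 * E))) := by
        refine h2.trans ?_
        rw [hadd]
        have h4 : ((n : ℝ) * (1 + ‖(ls : ℂ)‖)) ^ K0 ≤ ((n : ℝ) * 2) ^ K0 := by
          have := hls0.2
          gcongr
          linarith
        refine mul_le_mul h4 (by linarith) ?_ (by positivity)
        exact add_nonneg (integral_nonneg fun y => norm_nonneg _)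
          (integral_nonneg fun y => norm_nonneg _)
      refine ⟨c1, c2, Rep.anti (by unfold N0; norm_num) hc1, Rep.anti (by unfold N0; norm_num) hc2,
        ?_, he2.continuous, hce2.continuous⟩
      rw [mul_comm]
      exact mul_le_mul_of_nonneg_right h3 (norm_nonneg _)
  -- the lifted equations
  have hmm : ∀ e' : ℝ → ℂ, modeFn H (fun r => al * e' r) = fun y => al * modeFn H e' y := by
    intro e'; funext y; unfold modeFn; ring
  have q1 := CLift.lift1 (B.P j) hP.sharm (E := fun r => al * e r) (lam := lam)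
    (hP.cF.of_le h1N) hf2 hg2 (by rw [hmm]; exact continuous_const.mul hme) hP.eqF
  have q2 := CLift.lift2 (B.P j) hP.sharm (E := fun r => al * starRingEnd ℂ (e r)) (lam := lam)
    (hP.cG.of_le h1N) hf2 hg2 (by rw [hmm fun r => starRingEnd ℂ (e r)]
                                  exact continuous_const.mul hmce) hP.eqG
  have h2 := hj lam al hre (modeFn H F) (modeFn H G) (modeFn H e)
    (modeFn H fun r => starRingEnd ℂ (e r)) a b c1 c2
    (Rep.anti (by unfold N0; norm_num) ha) (Rep.anti (by unfold N0; norm_num) hb) hc1 hc2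
    (fun y => by rw [q1 y, hmm]) (fun y => by rw [q2 y, hmm fun r => starRingEnd ℂ (e r)])
  have hadd : ∫ y in Metric.closedBall (0 : R12) r1, (‖modeFn H F y‖ + ‖modeFn H G y‖) =
      (∫ y in Metric.closedBall (0 : R12) r1, ‖modeFn H F y‖) +
        ∫ y in Metric.closedBall (0 : R12) r1, ‖modeFn H G y‖ := by
    refine integral_add ?_ ?_
    · exact hf2.continuous.norm.continuousOn.integrableOn_compact (isCompact_closedBall _ _)
    · exact hg2.continuous.norm.continuousOn.integrableOn_compact (isCompact_closedBall _ _)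
  have hb1 := ball_le_NB hP.sharm hP.nrm hcF hcG hf2.continuous hr10
  have hb2 := ball_le_NB hP.sharm hP.nrm hcG hcF hg2.continuous hr10
  rw [NB_comm] at hb2
  have hNB0 : 0 ≤ NB r1 F G := Real.sqrt_nonneg _
  have hlam0 : 0 ≤ ‖lam‖ := norm_nonneg _
  have hal0 : 0 ≤ ‖al‖ := norm_nonneg _
  set Z : ℝ := (n : ℝ) * (1 + ‖lam‖) with hZ
  have hnZ : (n : ℝ) ≤ Z := by rw [hZ]; nlinarith
  have hZ1 : 1 ≤ Z := by linarith
  have hn2K : ((n : ℝ) * 2) ^ K0 ≤ Z ^ (2 * K0) := by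
    rw [pow_mul]
    apply pow_le_pow_left₀ (by positivity)
    nlinarith
  have h1K : (1 : ℝ) ≤ Z ^ (2 * K0) := one_le_pow₀ hZ1
  have hfinal : xn 1 a + xn 1 b ≤ Z ^ (3 * K0 + 1) * (NB r1 F G + ‖al‖) := by
    refine h2.trans ?_
    rw [hadd]
    have h3 : (∫ y in Metric.closedBall (0 : R12) r1, ‖modeFn H F y‖) +
        (∫ y in Metric.closedBall (0 : R12) r1, ‖modeFn H G y‖) + ‖al‖ * (xn 1 c1 + xn 1 c2) ≤
        Z ^ (2 * K0) * (Z * (NB r1 F G + ‖al‖)) := by
      have h4 : (∫ y in Metric.closedBall (0 : R12) r1, ‖modeFn H F y‖) +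
          (∫ y in Metric.closedBall (0 : R12) r1, ‖modeFn H G y‖) ≤
          (2 * ((1 + sg0) * (r1 ^ 12 + 1))) * NB r1 F G := by nlinarith
      have h5 : (2 * ((1 + sg0) * (r1 ^ 12 + 1))) * NB r1 F G ≤
          Z ^ (2 * K0) * (D * NB r1 F G) := by
        have h6 : (2 * ((1 + sg0) * (r1 ^ 12 + 1))) * NB r1 F G ≤ D * NB r1 F G := by
          have : 0 ≤ 2 * ((1 + sg0) * (r1 ^ 12 * E)) := by positivity
          apply mul_le_mul_of_nonneg_right _ hNB0
          rw [hD]; linarith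
        have h7 : D * NB r1 F G ≤ Z ^ (2 * K0) * (D * NB r1 F G) := by
          have : 0 ≤ D * NB r1 F G := by positivity
          nlinarith
        linarith
      have h8 : ((n : ℝ) * 2) ^ K0 * (2 * ((1 + sg0) * (r1 ^ 12 * E))) * ‖al‖ ≤
          Z ^ (2 * K0) * (D * ‖al‖) := by
        have h9 : 2 * ((1 + sg0) * (r1 ^ 12 * E)) ≤ D := by
          have : 0 ≤ 2 * ((1 + sg0) * (r1 ^ 12 + 1)) := by positivity
          rw [hD]; linarith
        calc ((n : ℝ) * 2) ^ K0 * (2 * ((1 + sg0) * (r1 ^ 12 * E))) * ‖al‖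
            ≤ Z ^ (2 * K0) * D * ‖al‖ := by gcongr
          _ = _ := by ring
      have h10 : Z ^ (2 * K0) * (D * NB r1 F G) + Z ^ (2 * K0) * (D * ‖al‖) ≤
          Z ^ (2 * K0) * (Z * (NB r1 F G + ‖al‖)) := by
        have h11 : D * NB r1 F G + D * ‖al‖ ≤ Z * (NB r1 F G + ‖al‖) := by
          have : D ≤ Z := hnD'.trans hnZ
          nlinarith
        rw [← mul_add]
        exact mul_le_mul_of_nonneg_left h11 (by positivity)
      linarith
    calc Z ^ K0 * _ ≤ Z ^ K0 * (Z ^ (2 * K0) * (Z * (NB r1 F G + ‖al‖))) :=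
          mul_le_mul_of_nonneg_left h3 (by positivity)
      _ = Z ^ (3 * K0 + 1) * (NB r1 F G + ‖al‖) := by ring
  have hxa := xn_nonneg 1 a
  have hxb := xn_nonneg 1 b
  refine ⟨⟨a, Rep.anti (by unfold N0; norm_num) ha, ?_⟩, ⟨b, Rep.anti (by unfold N0; norm_num) hb, ?_⟩⟩
  · change xn 1 a ≤ _
    linarith
  · change xn 1 b ≤ _
    linarith

end

end Crest.Agent.R086.CRegB
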