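import Crest.Agent.R086.Res1

/-!
Row 86, node RES (helper470), file 3: the pointwise resolvent equation.
-/

set_option autoImplicit false

open MeasureTheory Complex Set Filter
open scoped ContDiff Topology

namespace Crest.Agent.R086.Res

open Crest.Agent.R086.Wie (WInt)

/-- Fourier multiplier (at the point `y`) of `sg·i·Δ - ½ y·∇ - μ` -/
noncomputable def mult (sg : ℝ) (μ : ℂ) (y ξ : R12) : ℂ :=
  -(sg : ℂ) * I * ((‖ξ‖ ^ 2 : ℝ) : ℂ) - (1 / 2) * (I * ((inner ℝ ξ y : ℝ) : ℂ)) - μ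

variable {N : ℕ} {sg : ℝ} {μ : ℂ} {a b : R12 → ℂ}

theorem norm_mult_le (sg : ℝ) (μ : ℂ) (y ξ : R12) :
    ‖mult sg μ y ξ‖ ≤ (|sg| + ‖y‖ + ‖μ‖) * Wie.wt 2 ξ := by
  have h0 : 0 ≤ ‖ξ‖ := norm_nonneg ξ
  have hw : Wie.wt 2 ξ = (1 + ‖ξ‖) ^ 2 := rfl
  have h1 : ‖-(sg : ℂ) * I * ((‖ξ‖ ^ 2 : ℝ) : ℂ)‖ ≤ |sg| * Wie.wt 2 ξ := by
    rw [norm_mul, norm_mul, norm_neg, norm_I, norm_real, norm_real, Real.norm_eq_abs, mul_one,
      Real.norm_of_nonneg (by positivity), hw]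
    refine mul_le_mul_of_nonneg_left ?_ (abs_nonneg _)
    nlinarith
  have h2 : ‖(1 / 2 : ℂ) * (I * ((inner ℝ ξ y : ℝ) : ℂ))‖ ≤ ‖y‖ * Wie.wt 2 ξ := by
    rw [norm_mul, norm_mul, norm_I, norm_real, Real.norm_eq_abs, one_mul, hw]
    have h3 := abs_real_inner_le_norm ξ y
    have h4 : ‖(1 / 2 : ℂ)‖ = 1 / 2 := by simp
    rw [h4]
    nlinarith [norm_nonneg y, mul_nonneg (norm_nonneg y) h0, mul_nonneg (norm_nonneg y) (sq_nonneg ‖ξ‖)]
  have h3 : ‖μ‖ ≤ ‖μ‖ * Wie.wt 2 ξ := by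
    have := Wie.one_le_wt 2 ξ
    nlinarith [norm_nonneg μ]
  unfold mult
  calc _ ≤ ‖-(sg : ℂ) * I * ((‖ξ‖ ^ 2 : ℝ) : ℂ) - (1 / 2) * (I * ((inner ℝ ξ y : ℝ) : ℂ))‖ + ‖μ‖ :=
        norm_sub_le _ _
    _ ≤ ‖-(sg : ℂ) * I * ((‖ξ‖ ^ 2 : ℝ) : ℂ)‖ + ‖(1 / 2 : ℂ) * (I * ((inner ℝ ξ y : ℝ) : ℂ))‖ + ‖μ‖ := by
        gcongr
        exact norm_sub_le _ _
    _ ≤ _ := by nlinarith

theorem continuous_mult (sg : ℝ) (μ : ℂ) (y : R12) : Continuous fun ξ : R12 => mult sg μ y ξ := by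
  unfold mult
  fun_prop

theorem WInt.int1 (ha : WInt 2 a) : Integrable fun ξ => ‖ξ‖ * ‖a ξ‖ := by
  refine ha.mono (continuous_norm.aestronglyMeasurable.mul ha.integrable.1.norm)
    (Eventually.of_forall fun ξ => ?_)
  have hn : ‖(Wie.wtV R12 2).toFun ξ‖ = Wie.wt 2 ξ := Real.norm_of_nonneg (Wie.wt_nonneg 2 ξ)
  rw [Real.norm_of_nonneg (by positivity), norm_smul, hn]
  refine mul_le_mul_of_nonneg_right ?_ (norm_nonneg _)
  have hw : Wie.wt 2 ξ = (1 + ‖ξ‖) ^ 2 := rfl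
  rw [hw]
  nlinarith [norm_nonneg ξ]

theorem WInt.int2 (ha : WInt 2 a) : Integrable fun ξ => ‖ξ‖ ^ 2 * ‖a ξ‖ := by
  refine ha.mono ((continuous_norm.pow 2).aestronglyMeasurable.mul ha.integrable.1.norm)
    (Eventually.of_forall fun ξ => ?_)
  have hn : ‖(Wie.wtV R12 2).toFun ξ‖ = Wie.wt 2 ξ := Real.norm_of_nonneg (Wie.wt_nonneg 2 ξ)
  rw [Real.norm_of_nonneg (by positivity), norm_smul, hn]
  refine mul_le_mul_of_nonneg_right ?_ (norm_nonneg _)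
  have hw : Wie.wt 2 ξ = (1 + ‖ξ‖) ^ 2 := rfl
  rw [hw]
  nlinarith [norm_nonneg ξ]


/-- the operator `sg·i·Δ - ½ y·∇ - μ` on a synthesis -/
theorem op_ft (ha : WInt 2 a) (y : R12) :
    (sg : ℂ) * I * lap (ft a) y - (1 / 2) * eul (ft a) y - μ * ft a y
      = ∫ ξ, ch ξ y * (mult sg μ y ξ * a ξ) := by
  have i0 := ha.integrable
  have i1 := WInt.int1 ha
  have i2 := WInt.int2 ha
  rw [lap_ft i0 i1 i2, eul_ft i0 i1, ft_eq]
  have j2 : Integrable fun ξ : R12 => ch ξ y * (-((‖ξ‖ ^ 2 : ℝ) : ℂ) * a ξ) := by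
    refine i2.mono ((continuous_ch_left y).aestronglyMeasurable.mul
      (Continuous.aestronglyMeasurable (by fun_prop) |>.mul i0.1)) (Eventually.of_forall fun ξ => ?_)
    rw [norm_mul, norm_ch, one_mul, norm_mul, norm_neg, norm_real, Real.norm_of_nonneg (by positivity),
      Real.norm_of_nonneg (by positivity)]
  have j1 : Integrable fun ξ : R12 => ch ξ y * (I * ((inner ℝ ξ y : ℝ) : ℂ) * a ξ) := by
    refine (i1.const_mul ‖y‖).mono ((continuous_ch_left y).aestronglyMeasurable.mul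
      (Continuous.aestronglyMeasurable (by fun_prop) |>.mul i0.1)) (Eventually.of_forall fun ξ => ?_)
    rw [norm_mul, norm_ch, one_mul, norm_mul, norm_mul, norm_I, one_mul, norm_real,
      Real.norm_eq_abs, Real.norm_eq_abs]
    have h3 := mul_le_mul_of_nonneg_right (abs_real_inner_le_norm ξ y) (norm_nonneg (a ξ))
    rw [abs_of_nonneg (by positivity : 0 ≤ ‖y‖ * (‖ξ‖ * ‖a ξ‖))]
    linarith
  have j0 : Integrable fun ξ : R12 => ch ξ y • a ξ := integrable_ch_smul i0 y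
  have k1 := (j2.const_mul ((sg : ℂ) * I)).sub (j1.const_mul (1 / 2))
  rw [← integral_const_mul, ← integral_const_mul, ← integral_const_mul,
    ← integral_sub (j2.const_mul _) (j1.const_mul _)]
  refine (integral_sub k1 (j0.const_mul μ)).symm.trans ?_
  refine integral_congr_ae (Eventually.of_forall fun ξ => ?_)
  simp only [smul_eq_mul, mult, Pi.sub_apply]
  ring

/-- the antiderivative -/
noncomputable def psi (A B : ℝ) (μ : ℂ) (z : ℂ) : ℂ :=
  z ^ (-2 * μ) * exp (I * A * z⁻¹ - I * B * (1 - (z ^ 2)⁻¹))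

/-- its derivative -/
noncomputable def psi' (A B : ℝ) (μ : ℂ) (z : ℂ) : ℂ :=
  2 * z ^ (-2 * μ - 1) * (-μ - I * A / (2 * z) - I * B / z ^ 2)
    * exp (I * A * z⁻¹ - I * B * (1 - (z ^ 2)⁻¹))

theorem hasDerivAt_psi (A B : ℝ) (μ : ℂ) {s : ℝ} (hs : 0 < s) :
    HasDerivAt (fun s : ℝ => psi A B μ (s : ℂ)) (psi' A B μ (s : ℂ)) s := by
  refine HasDerivAt.comp_ofReal (e := psi A B μ) ?_
  have hz : (s : ℂ) ≠ 0 := by exact_mod_cast hs.ne'
  have hsl : (s : ℂ) ∈ slitPlane := by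
    rw [mem_slitPlane_iff]; left; simpa using hs
  have h1 : HasDerivAt (fun z : ℂ => z ^ (-2 * μ)) (-2 * μ * (s : ℂ) ^ (-2 * μ - 1) * 1) (s : ℂ) :=
    (hasDerivAt_id (s : ℂ)).cpow_const hsl
  have h2 : HasDerivAt (fun z : ℂ => z⁻¹) (-((s : ℂ) ^ 2)⁻¹) (s : ℂ) := hasDerivAt_inv hz
  have h3 : HasDerivAt (fun z : ℂ => (z ^ 2)⁻¹) (-(2 * (s : ℂ)) / ((s : ℂ) ^ 2) ^ 2) (s : ℂ) := by
    have := (hasDerivAt_pow 2 (s : ℂ)).fun_inv (pow_ne_zero 2 hz)
    simpa using this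
  have h4 : HasDerivAt (fun z : ℂ => exp (I * A * z⁻¹ - I * B * (1 - (z ^ 2)⁻¹)))
      (exp (I * A * (s : ℂ)⁻¹ - I * B * (1 - ((s : ℂ) ^ 2)⁻¹)) *
        (I * A * (-((s : ℂ) ^ 2)⁻¹) - I * B * (-(-(2 * (s : ℂ)) / ((s : ℂ) ^ 2) ^ 2)))) (s : ℂ) :=
    (((h2.const_mul (I * A)).sub ((h3.const_sub 1).const_mul (I * B)))).cexp
  refine (h1.mul h4).congr_deriv ?_
  have h5 : (s : ℂ) ^ (-2 * μ) = (s : ℂ) ^ (-2 * μ - 1) * s := by
    conv_lhs => rw [show (-2 * μ) = (-2 * μ - 1) + 1 by ring]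
    rw [cpow_add _ _ hz, cpow_one]
  simp only [psi']
  rw [h5]
  field_simp
  ring

theorem norm_exp_aux (A B s : ℝ) :
    ‖exp (I * A * (s : ℂ)⁻¹ - I * B * (1 - ((s : ℂ) ^ 2)⁻¹))‖ = 1 := by
  rw [show I * A * (s : ℂ)⁻¹ - I * B * (1 - ((s : ℂ) ^ 2)⁻¹)
    = ((A * s⁻¹ - B * (1 - (s ^ 2)⁻¹) : ℝ) : ℂ) * I by push_cast; ring]
  exact norm_exp_ofReal_mul_I _

theorem norm_psi' (A B : ℝ) {s : ℝ} (hs : 1 < s) :
    ‖psi' A B μ (s : ℂ)‖ ≤ 2 * (‖μ‖ + |A| + |B|) * s ^ (-1 - 2 * μ.re) := by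
  have hs0 : 0 < s := lt_trans one_pos hs
  unfold psi'
  rw [norm_mul, norm_exp_aux, mul_one, norm_mul, norm_mul, norm_cpow_eq_rpow_re_of_pos hs0]
  have h1 : (-2 * μ - 1 : ℂ).re = -1 - 2 * μ.re := by simp; ring
  have h2 : ‖(-μ - I * A / (2 * (s : ℂ)) - I * B / (s : ℂ) ^ 2)‖ ≤ ‖μ‖ + |A| + |B| := by
    have e1 : ‖I * A / (2 * (s : ℂ))‖ ≤ |A| := by
      rw [norm_div, norm_mul, norm_I, one_mul, norm_real, norm_mul, norm_real,
        Real.norm_of_nonneg hs0.le, Real.norm_eq_abs]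
      simp only [Complex.norm_ofNat]
      exact div_le_self (abs_nonneg _) (by linarith)
    have e2 : ‖I * B / (s : ℂ) ^ 2‖ ≤ |B| := by
      rw [norm_div, norm_mul, norm_I, one_mul, norm_real, norm_pow, norm_real,
        Real.norm_of_nonneg hs0.le, Real.norm_eq_abs]
      exact div_le_self (abs_nonneg _) (by nlinarith)
    calc _ ≤ ‖-μ - I * A / (2 * (s : ℂ))‖ + ‖I * B / (s : ℂ) ^ 2‖ := norm_sub_le _ _
      _ ≤ ‖-μ‖ + ‖I * A / (2 * (s : ℂ))‖ + ‖I * B / (s : ℂ) ^ 2‖ := by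
        gcongr; exact norm_sub_le _ _
      _ ≤ _ := by rw [norm_neg]; linarith
  rw [h1]
  simp only [Complex.norm_ofNat]
  have h3 : 0 ≤ s ^ (-1 - 2 * μ.re) := by positivity
  nlinarith [mul_le_mul_of_nonneg_left h2 h3]

theorem integral_psi' (hμ : 0 < μ.re) (A B : ℝ) :
    ∫ s in Ioi (1 : ℝ), psi' A B μ (s : ℂ) = -exp (I * A) := by
  have hmeas : Measurable fun s : ℝ => psi' A B μ (s : ℂ) := by
    unfold psi'; fun_prop
  have hint : IntegrableOn (fun s : ℝ => psi' A B μ (s : ℂ)) (Ioi 1) := by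
    refine ((integrableOn_pow hμ).const_mul (2 * (‖μ‖ + |A| + |B|))).mono
      hmeas.aestronglyMeasurable ?_
    refine (ae_restrict_iff' measurableSet_Ioi).2 (Eventually.of_forall fun s hs => ?_)
    have hs0 : (0 : ℝ) < s := lt_trans one_pos hs
    rw [Real.norm_of_nonneg (by positivity)]
    exact norm_psi' A B hs
  have htend : Tendsto (fun s : ℝ => psi A B μ (s : ℂ)) atTop (𝓝 0) := by
    rw [tendsto_zero_iff_norm_tendsto_zero]
    have h1 : Tendsto (fun s : ℝ => s ^ (-(2 * μ.re))) atTop (𝓝 0) :=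
      tendsto_rpow_neg_atTop (by linarith)
    refine h1.congr' ?_
    filter_upwards [eventually_gt_atTop 0] with s hs
    unfold psi
    rw [norm_mul, norm_exp_aux, mul_one, norm_cpow_eq_rpow_re_of_pos hs]
    congr 1
    simp
  have h := integral_Ioi_of_hasDerivAt_of_tendsto' (f := fun s : ℝ => psi A B μ (s : ℂ))
    (f' := fun s : ℝ => psi' A B μ (s : ℂ)) (a := 1) (m := 0)
    (fun s hs => hasDerivAt_psi A B μ (lt_of_lt_of_le one_pos hs)) hint htend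
  rw [h]
  simp [psi]

/-- the scaled kernel is the derivative of `psi` -/
theorem scaled_kernel {s : ℝ} (hs : 0 < s) (y η : R12) :
    ((s ^ 12 : ℝ)⁻¹ : ℝ) • (ch (s⁻¹ • η) y * (mult sg μ y (s⁻¹ • η) * kern sg μ s (s⁻¹ • η)))
      = psi' (inner ℝ η y) (sg * ‖η‖ ^ 2) μ (s : ℂ) := by
  have hz : (s : ℂ) ≠ 0 := by exact_mod_cast hs.ne'
  have hnorm : ‖s⁻¹ • η‖ = s⁻¹ * ‖η‖ := by
    rw [norm_smul, Real.norm_of_nonneg (by positivity)]
  have hin : (inner ℝ (s⁻¹ • η) y : ℝ) = s⁻¹ * inner ℝ η y := by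
    rw [inner_smul_left]; simp
  have hpow : (s : ℂ) ^ (11 - 2 * μ) = (s : ℂ) ^ (-2 * μ - 1) * (s : ℂ) ^ 12 := by
    rw [show (11 - 2 * μ) = (-2 * μ - 1) + ((12 : ℕ) : ℂ) by push_cast; ring, cpow_add _ _ hz,
      cpow_natCast]
  unfold ch mult kern psi'
  rw [hnorm, hin, hpow, real_smul]
  have hexp : exp (I * (inner ℝ η y : ℝ) * (s : ℂ)⁻¹ - I * ((sg * ‖η‖ ^ 2 : ℝ) : ℂ) * (1 - ((s : ℂ) ^ 2)⁻¹))
      = exp (I * ((s⁻¹ * inner ℝ η y : ℝ) : ℂ)) *
        exp (-I * ((sg * (s⁻¹ * ‖η‖) ^ 2 * (s ^ 2 - 1) : ℝ) : ℂ)) := by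
    rw [← exp_add]
    congr 1
    push_cast
    field_simp
    ring
  rw [hexp]
  push_cast
  field_simp
  ring

/-- RES-exist, part 3: the equation -/
theorem res_eqn (hμ : 0 < μ.re) (hb : WInt 2 b) (y : R12) :
    (sg : ℂ) * I * lap (ft (resDen sg μ b)) y - (1 / 2) * eul (ft (resDen sg μ b)) y
      - μ * ft (resDen sg μ b) y = - ft b y := by
  rw [op_ft (wint_resDen hμ hb)]
  have hj := integrable_joint (sg := sg) hμ hb
  have hkm := measurable_kern sg μ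
  -- the integrand on the product
  have hG : Integrable (fun p : ℝ × R12 => (ch p.2 y * (mult sg μ y p.2 * kern sg μ p.1 p.2)) *
      b (p.1 • p.2)) (rho1.prod volume) := by
    refine (hj.norm.const_mul (|sg| + ‖y‖ + ‖μ‖)).mono ?_ (Eventually.of_forall fun p => ?_)
    · have h1 : AEStronglyMeasurable (fun p : ℝ × R12 => b (p.1 • p.2)) (rho1.prod volume) :=
        hb.integrable.1.comp_quasiMeasurePreserving qmp_smul
      have h2 : Continuous fun p : ℝ × R12 => ch p.2 y := (continuous_ch_left y).comp continuous_snd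
      have h3 : Continuous fun p : ℝ × R12 => mult sg μ y p.2 :=
        (continuous_mult sg μ y).comp continuous_snd
      exact (h2.aestronglyMeasurable.mul (h3.aestronglyMeasurable.mul hkm.aestronglyMeasurable)).mul h1
    · rw [norm_mul, norm_mul, norm_ch, one_mul, norm_mul, Real.norm_of_nonneg (by positivity),
        norm_smul, norm_mul, Real.norm_of_nonneg (Wie.wt_nonneg 2 p.2)]
      have h1 := norm_mult_le sg μ y p.2
      have h2 : 0 ≤ ‖kern sg μ p.1 p.2‖ * ‖b (p.1 • p.2)‖ := by positivity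
      calc _ = ‖mult sg μ y p.2‖ * (‖kern sg μ p.1 p.2‖ * ‖b (p.1 • p.2)‖) := by ring
        _ ≤ ((|sg| + ‖y‖ + ‖μ‖) * Wie.wt 2 p.2) * (‖kern sg μ p.1 p.2‖ * ‖b (p.1 • p.2)‖) :=
          mul_le_mul_of_nonneg_right h1 h2
        _ = _ := by ring
  -- the transformed integrand
  have hK : Integrable (fun p : ℝ × R12 =>
      psi' (inner ℝ p.2 y) (sg * ‖p.2‖ ^ 2) μ (p.1 : ℂ) * b p.2) (rho1.prod volume) := by
    have h0 : Integrable (fun p : ℝ × R12 => (2 * (|sg| + ‖y‖ + ‖μ‖) * p.1 ^ (-1 - 2 * μ.re)) *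
        ‖Wie.wt 2 p.2 • b p.2‖) (rho1.prod volume) :=
      ((integrableOn_pow hμ).const_mul (2 * (|sg| + ‖y‖ + ‖μ‖))).mul_prod hb.norm
    refine h0.mono ?_ ?_
    · have h1 : Measurable fun p : ℝ × R12 => psi' (inner ℝ p.2 y) (sg * ‖p.2‖ ^ 2) μ (p.1 : ℂ) := by
        unfold psi'
        have e1 : Measurable fun p : ℝ × R12 => ((inner ℝ p.2 y : ℝ) : ℂ) := by fun_prop
        fun_prop
      exact h1.aestronglyMeasurable.mul hb.integrable.1.comp_snd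
    · have h2 : ∀ᵐ p : ℝ × R12 ∂(rho1.prod volume), p.1 ∈ Ioi (1 : ℝ) := by
        have h3 : ∀ᵐ s ∂rho1, s ∈ Ioi (1 : ℝ) := ae_restrict_mem measurableSet_Ioi
        exact Measure.quasiMeasurePreserving_fst.ae h3
      refine h2.mono fun p hp => ?_
      have hp0 : (0 : ℝ) < p.1 := lt_trans one_pos hp
      rw [norm_mul, Real.norm_of_nonneg (by positivity), norm_smul,
        Real.norm_of_nonneg (Wie.wt_nonneg 2 p.2)]
      have h3 := norm_psi' (μ := μ) (inner ℝ p.2 y) (sg * ‖p.2‖ ^ 2) hp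
      have h4 : ‖μ‖ + |inner ℝ p.2 y| + |sg * ‖p.2‖ ^ 2| ≤ (|sg| + ‖y‖ + ‖μ‖) * Wie.wt 2 p.2 := by
        have hw : Wie.wt 2 p.2 = (1 + ‖p.2‖) ^ 2 := rfl
        rw [abs_mul, abs_of_nonneg (sq_nonneg ‖p.2‖), hw]
        have h5 := abs_real_inner_le_norm p.2 y
        have h6 := norm_nonneg p.2
        have h7 := norm_nonneg y
        have h8 := abs_nonneg sg
        have h9 := norm_nonneg μ
        nlinarith [mul_nonneg h6 h7, mul_nonneg h6 h8, mul_nonneg h6 h9, mul_nonneg (sq_nonneg ‖p.2‖) h7,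
          mul_nonneg (sq_nonneg ‖p.2‖) h9, mul_nonneg (sq_nonneg ‖p.2‖) h8]
      have h10 : 0 ≤ p.1 ^ (-1 - 2 * μ.re) := by positivity
      calc _ ≤ 2 * (‖μ‖ + |inner ℝ p.2 y| + |sg * ‖p.2‖ ^ 2|) * p.1 ^ (-1 - 2 * μ.re) * ‖b p.2‖ :=
            mul_le_mul_of_nonneg_right h3 (norm_nonneg _)
        _ ≤ 2 * ((|sg| + ‖y‖ + ‖μ‖) * Wie.wt 2 p.2) * p.1 ^ (-1 - 2 * μ.re) * ‖b p.2‖ := by
            gcongr
        _ = _ := by ring
  calc ∫ ξ, ch ξ y * (mult sg μ y ξ * resDen sg μ b ξ)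
      = ∫ ξ, ∫ s in Ioi (1 : ℝ), (ch ξ y * (mult sg μ y ξ * kern sg μ s ξ)) * b (s • ξ) := by
        refine integral_congr_ae (Eventually.of_forall fun ξ => ?_)
        simp only [resDen]
        rw [← integral_const_mul, ← integral_const_mul]
        refine integral_congr_ae (Eventually.of_forall fun s => ?_)
        simp only
        ring
    _ = ∫ s in Ioi (1 : ℝ), ∫ ξ, (ch ξ y * (mult sg μ y ξ * kern sg μ s ξ)) * b (s • ξ) :=
        integral_integral_swap (μ := (volume : Measure R12)) (ν := rho1)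
          (f := fun ξ s => (ch ξ y * (mult sg μ y ξ * kern sg μ s ξ)) * b (s • ξ)) hG.swap
    _ = ∫ s in Ioi (1 : ℝ), ∫ η, psi' (inner ℝ η y) (sg * ‖η‖ ^ 2) μ (s : ℂ) * b η := by
        refine setIntegral_congr_fun measurableSet_Ioi fun s hs => ?_
        have hs0 : (0 : ℝ) < s := lt_trans one_pos hs
        have h := Measure.integral_comp_smul_of_nonneg (volume : Measure R12)
          (fun η => (ch (s⁻¹ • η) y * (mult sg μ y (s⁻¹ • η) * kern sg μ s (s⁻¹ • η))) * b η) s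
          (hR := hs0.le)
        rw [finrank_R12] at h
        simp only [smul_smul, inv_mul_cancel₀ hs0.ne', one_smul] at h
        rw [h, ← integral_smul]
        refine integral_congr_ae (Eventually.of_forall fun η => ?_)
        simp only
        rw [← scaled_kernel hs0 y η, smul_mul_assoc]
    _ = ∫ η, ∫ s in Ioi (1 : ℝ), psi' (inner ℝ η y) (sg * ‖η‖ ^ 2) μ (s : ℂ) * b η :=
        integral_integral_swap (μ := rho1) (ν := (volume : Measure R12))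
          (f := fun s η => psi' (inner ℝ η y) (sg * ‖η‖ ^ 2) μ (s : ℂ) * b η) hK
    _ = - ft b y := by
        rw [ft_eq, ← integral_neg]
        refine integral_congr_ae (Eventually.of_forall fun η => ?_)
        simp only
        rw [integral_mul_const, integral_psi' hμ]
        simp only [ch, smul_eq_mul, neg_mul]

end Crest.Agent.R086.Res
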