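import Crest.Agent.R086.DLIface
import Crest.Agent.R086.Res2
import Crest.Agent.R086.Res1
import Crest.Agent.R086.DGen
import Crest.Agent.R086.CRegDefs
import Crest.Agent.R086.CTop
import Crest.Agent.R086.C34Defs
import Crest.Agent.R086.CInst

-- ▼ part R086/ResInj
section

/-!
Row 86, node RES (helper470): uniqueness of densities (proof copied from DLLin.lean to keep the imports small).
-/

set_option autoImplicit false

open MeasureTheory Complex Set Function
open scoped ContDiff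

namespace Crest.Agent.R086.Res

/-- a real integrable function with zero Fourier transform vanishes a.e. -/
lemma real_zero {u : R12 → ℝ} (hu : Integrable u volume)
    (h : ∀ y : R12, ∫ ξ : R12, exp (((inner ℝ ξ y : ℝ) : ℂ) * I) * (u ξ : ℂ) = 0) :
    u =ᵐ[volume] 0 := by
  have hp : Integrable (fun ξ => max (u ξ) 0) volume := hu.pos_part
  have hn : Integrable (fun ξ => max (-u ξ) 0) volume := hu.neg_part
  let μ1 : Measure R12 := volume.withDensity fun ξ => ENNReal.ofReal (max (u ξ) 0)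
  let μ2 : Measure R12 := volume.withDensity fun ξ => ENNReal.ofReal (max (-u ξ) 0)
  haveI : IsFiniteMeasure μ1 := isFiniteMeasure_withDensity_ofReal hp.2
  haveI : IsFiniteMeasure μ2 := isFiniteMeasure_withDensity_ofReal hn.2
  have hcf : charFun μ1 = charFun μ2 := by
    ext y
    rw [charFun_apply, charFun_apply]
    have e1 : ∫ x, exp (((inner ℝ x y : ℝ) : ℂ) * I) ∂μ1
        = ∫ x, exp (((inner ℝ x y : ℝ) : ℂ) * I) * ((max (u x) 0 : ℝ) : ℂ) := by
      rw [integral_withDensity_eq_integral_toReal_smul₀ hp.1.aemeasurable.ennreal_ofReal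
        (Filter.Eventually.of_forall fun ξ => ENNReal.ofReal_lt_top)]
      apply integral_congr_ae
      filter_upwards with x
      rw [ENNReal.toReal_ofReal (le_max_right _ _), Complex.real_smul, mul_comm]
    have e2 : ∫ x, exp (((inner ℝ x y : ℝ) : ℂ) * I) ∂μ2
        = ∫ x, exp (((inner ℝ x y : ℝ) : ℂ) * I) * ((max (-u x) 0 : ℝ) : ℂ) := by
      rw [integral_withDensity_eq_integral_toReal_smul₀ hn.1.aemeasurable.ennreal_ofReal
        (Filter.Eventually.of_forall fun ξ => ENNReal.ofReal_lt_top)]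
      apply integral_congr_ae
      filter_upwards with x
      rw [ENNReal.toReal_ofReal (le_max_right _ _), Complex.real_smul, mul_comm]
    rw [e1, e2, ← sub_eq_zero, ← integral_sub]
    · rw [← h y]
      apply integral_congr_ae
      filter_upwards with x
      rw [← mul_sub, ← Complex.ofReal_sub]
      congr 2
      rcases le_total 0 (u x) with h | h
      · rw [max_eq_left h, max_eq_right (by linarith)]; ring
      · rw [max_eq_right h, max_eq_left (by linarith)]; ring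
    · refine (hp.ofReal (𝕜 := ℂ)).bdd_mul (c := 1) (by apply Continuous.aestronglyMeasurable; fun_prop) ?_
      refine Filter.Eventually.of_forall fun ξ => ?_
      rw [Complex.norm_exp]; simp
    · refine (hn.ofReal (𝕜 := ℂ)).bdd_mul (c := 1) (by apply Continuous.aestronglyMeasurable; fun_prop) ?_
      refine Filter.Eventually.of_forall fun ξ => ?_
      rw [Complex.norm_exp]; simp
  have hμ : μ1 = μ2 := Measure.ext_of_charFun hcf
  have hd := (withDensity_eq_iff hp.1.aemeasurable.ennreal_ofReal hn.1.aemeasurable.ennreal_ofReal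
    (by
      have h5 := (hasFiniteIntegral_iff_ofReal (f := fun ξ => max (u ξ) 0) (μ := volume)
        (Filter.Eventually.of_forall fun _ => le_max_right _ _)).1 hp.2
      exact h5.ne)).1 hμ
  filter_upwards [hd] with x hx
  have h3 := (ENNReal.ofReal_eq_ofReal_iff (le_max_right _ _) (le_max_right _ _)).1 hx
  simp only [Pi.zero_apply]
  rcases le_total 0 (u x) with h | h
  · rw [max_eq_left h, max_eq_right (by linarith)] at h3; exact h3
  · rw [max_eq_right h, max_eq_left (by linarith)] at h3; linarith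

lemma ft_zero_ae {a : R12 → ℂ} (ha : Integrable a volume) (h : ∀ y, ft a y = 0) : a =ᵐ[volume] 0 := by
  have hconj : ∀ y, ∫ ξ : R12, exp (((inner ℝ ξ y : ℝ) : ℂ) * I) * (starRingEnd ℂ) (a ξ) = 0 := by
    intro y
    have h1 := h (-y)
    unfold ft at h1
    have h2 := congrArg (starRingEnd ℂ) h1
    rw [← integral_conj, map_zero] at h2
    rw [← h2]
    apply integral_congr_ae
    filter_upwards with ξ
    rw [map_mul, ← Complex.exp_conj]
    simp only [map_mul, Complex.conj_I, Complex.conj_ofReal, inner_neg_right, Complex.ofReal_neg,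
      map_neg]
    ring_nf
  have hself : ∀ y, ∫ ξ : R12, exp (((inner ℝ ξ y : ℝ) : ℂ) * I) * a ξ = 0 := by
    intro y
    rw [← h y]
    unfold ft
    apply integral_congr_ae
    filter_upwards with ξ
    rw [mul_comm I]
  have hb : ∀ (b : R12 → ℂ), Integrable b volume → ∀ y, Integrable (fun ξ : R12 => exp (((inner ℝ ξ y : ℝ) : ℂ) * I) * b ξ) := by
    intro b hb y
    refine hb.bdd_mul (c := 1) (by apply Continuous.aestronglyMeasurable; fun_prop) ?_
    refine Filter.Eventually.of_forall fun ξ => ?_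
    rw [Complex.norm_exp]; simp
  have hac : Integrable (fun ξ => (starRingEnd ℂ) (a ξ)) volume := by
    refine ha.congr' (Complex.continuous_conj.comp_aestronglyMeasurable ha.1) ?_
    filter_upwards with ξ
    simp
  have hre := real_zero (u := fun ξ => (a ξ).re) ha.re (fun y => by
    have := congrArg₂ (· + ·) (hself y) (hconj y)
    simp only [add_zero] at this
    rw [← integral_add (hb a ha y) (hb _ hac y)] at this
    have h2 : ∫ ξ : R12, exp (((inner ℝ ξ y : ℝ) : ℂ) * I) * (((a ξ).re : ℝ) : ℂ)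
        = (1/2 : ℂ) * ∫ ξ : R12, (exp (((inner ℝ ξ y : ℝ) : ℂ) * I) * a ξ + exp (((inner ℝ ξ y : ℝ) : ℂ) * I) * (starRingEnd ℂ) (a ξ)) := by
      rw [← MeasureTheory.integral_const_mul]
      apply integral_congr_ae
      filter_upwards with ξ
      rw [← mul_add, Complex.add_conj]
      push_cast; ring
    rw [h2, this, mul_zero])
  have him := real_zero (u := fun ξ => (a ξ).im) ha.im (fun y => by
    have := congrArg₂ (· - ·) (hself y) (hconj y)
    simp only [sub_zero] at this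
    rw [← integral_sub (hb a ha y) (hb _ hac y)] at this
    have h2 : ∫ ξ : R12, exp (((inner ℝ ξ y : ℝ) : ℂ) * I) * (((a ξ).im : ℝ) : ℂ)
        = (-I/2 : ℂ) * ∫ ξ : R12, (exp (((inner ℝ ξ y : ℝ) : ℂ) * I) * a ξ - exp (((inner ℝ ξ y : ℝ) : ℂ) * I) * (starRingEnd ℂ) (a ξ)) := by
      rw [← MeasureTheory.integral_const_mul]
      apply integral_congr_ae
      filter_upwards with ξ
      rw [← mul_sub, Complex.sub_conj]
      push_cast
      linear_combination (exp (((inner ℝ ξ y : ℝ) : ℂ) * I) * ((a ξ).im : ℂ)) * Complex.I_sq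
    rw [h2, this, mul_zero])
  filter_upwards [hre, him] with ξ h1 h2
  apply Complex.ext
  · simpa using h1
  · simpa using h2


end Crest.Agent.R086.Res
end

-- ▼ part R086/Res3
section

/-!
Row 86, node RES (helper470), file 4: uniqueness.
If `f = ft a`, `a ∈ L¹((1+|ξ|)²)`, and `sg·i·Δf - ½ y·∇f - μ f = - ft b` with `b ∈ L¹`, then
`a = resDen sg μ b` almost everywhere.
-/

set_option autoImplicit false

open MeasureTheory Complex Set Filter
open scoped ContDiff Topology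

namespace Crest.Agent.R086.Res

open Crest.Agent.R086.Wie (WInt)

/-! ### A. averages of dilations -/

/-- Lebesgue measure on `(1,t]` -/
noncomputable abbrev rhot (t : ℝ) : Measure ℝ := (volume : Measure ℝ).restrict (Ioc 1 t)

theorem qmp_inv_smul (t : ℝ) : Measure.QuasiMeasurePreserving (fun p : ℝ × R12 => p.1⁻¹ • p.2)
    ((rhot t).prod (volume : Measure R12)) (volume : Measure R12) := by
  have hm : Measurable (fun p : ℝ × R12 => p.1⁻¹ • p.2) := by fun_prop
  refine ⟨hm, Measure.AbsolutelyContinuous.mk fun A hA h0 => ?_⟩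
  rw [Measure.map_apply hm hA, Measure.measure_prod_null (hm hA)]
  refine (ae_restrict_iff' measurableSet_Ioc).2 (Eventually.of_forall fun s hs => ?_)
  have hs0 : s⁻¹ ≠ 0 := inv_ne_zero (lt_trans one_pos hs.1).ne'
  have h1 : (Prod.mk s ⁻¹' ((fun p : ℝ × R12 => p.1⁻¹ • p.2) ⁻¹' A)) = (fun ξ : R12 => s⁻¹ • ξ) ⁻¹' A := rfl
  simp only [h1, Pi.zero_apply]
  rw [Measure.addHaar_preimage_smul _ hs0, h0, mul_zero]

noncomputable def avg (t : ℝ) (c : R12 → ℂ) (ξ : R12) : ℂ :=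
  ∫ r in Ioc (1 : ℝ) t, ((r ^ 13)⁻¹ : ℝ) • c (r⁻¹ • ξ)

noncomputable def dil (t : ℝ) (a : R12 → ℂ) (ξ : R12) : ℂ := ((t ^ 12)⁻¹ : ℝ) • a (t⁻¹ • ξ)

variable {sg : ℝ} {μ : ℂ} {a b c : R12 → ℂ}

theorem comp_inv_smul_integral {r : ℝ} (hr : 0 < r) (φ c : R12 → ℂ) :
    ∫ ξ, φ ξ * c (r⁻¹ • ξ) = ((r ^ 12 : ℝ)) • ∫ η, φ (r • η) * c η := by
  have h := Measure.integral_comp_inv_smul (volume : Measure R12) (fun η => φ (r • η) * c η) r
  rw [finrank_R12, abs_of_pos (by positivity)] at h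
  rw [← h]
  refine integral_congr_ae (Eventually.of_forall fun ξ => ?_)
  simp only [smul_smul, mul_inv_cancel₀ hr.ne', one_smul]

theorem avg_joint (hc : Integrable c) (t : ℝ) :
    Integrable (fun p : ℝ × R12 => ((p.1 ^ 13)⁻¹ : ℝ) • c (p.1⁻¹ • p.2)) ((rhot t).prod volume) := by
  have hm : AEStronglyMeasurable (fun p : ℝ × R12 => ((p.1 ^ 13)⁻¹ : ℝ) • c (p.1⁻¹ • p.2))
      ((rhot t).prod volume) := by
    have h1 : Measurable fun p : ℝ × R12 => ((p.1 ^ 13)⁻¹ : ℝ) := by fun_prop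
    exact h1.aestronglyMeasurable.smul (hc.1.comp_quasiMeasurePreserving (qmp_inv_smul t))
  have hs : ∀ r : ℝ, 1 < r → Integrable fun ξ : R12 => ((r ^ 13)⁻¹ : ℝ) • c (r⁻¹ • ξ) := by
    intro r hr
    have h := Integrable.comp_smul (μ := (volume : Measure R12)) hc
      (inv_ne_zero (lt_trans one_pos hr).ne')
    exact h.smul ((r ^ 13)⁻¹ : ℝ)
  rw [integrable_prod_iff hm]
  constructor
  · exact (ae_restrict_iff' measurableSet_Ioc).2 (Eventually.of_forall fun r hr => hs r hr.1)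
  · have hfin : Integrable (fun _ : ℝ => ∫ ξ, ‖c ξ‖) (rhot t) := integrable_const _
    refine hfin.mono hm.norm.integral_prod_right' ?_
    refine (ae_restrict_iff' measurableSet_Ioc).2 (Eventually.of_forall fun r hr => ?_)
    have hr0 : (0 : ℝ) < r := lt_trans one_pos hr.1
    rw [Real.norm_of_nonneg (integral_nonneg fun ξ => norm_nonneg _),
      Real.norm_of_nonneg (integral_nonneg fun ξ => norm_nonneg _)]
    have h := Measure.integral_comp_inv_smul (volume : Measure R12) (fun η => ‖c η‖) r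
    rw [finrank_R12, abs_of_pos (by positivity)] at h
    simp only [norm_smul]
    rw [integral_const_mul, h, smul_eq_mul, Real.norm_of_nonneg (by positivity), ← mul_assoc]
    have h2 : (r ^ 13)⁻¹ * r ^ 12 = r⁻¹ := by field_simp
    rw [h2]
    have h3 : r⁻¹ ≤ 1 := inv_le_one_of_one_le₀ hr.1.le
    have h4 : 0 ≤ ∫ ξ, ‖c ξ‖ := integral_nonneg fun ξ => norm_nonneg _
    nlinarith

theorem integrable_avg (hc : Integrable c) (t : ℝ) : Integrable (avg t c) :=
  (avg_joint hc t).integral_prod_right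

theorem avg_test (hc : Integrable c) (t : ℝ) {φ : R12 → ℂ} (hφ : Continuous φ) {M : ℝ}
    (hM : ∀ ξ, ‖φ ξ‖ ≤ M) :
    ∫ ξ, φ ξ * avg t c ξ = ∫ r in Ioc (1 : ℝ) t, (r⁻¹ : ℝ) • ∫ η, φ (r • η) * c η := by
  have hj : Integrable (fun p : ℝ × R12 => φ p.2 * (((p.1 ^ 13)⁻¹ : ℝ) • c (p.1⁻¹ • p.2)))
      ((rhot t).prod volume) := by
    refine (avg_joint hc t).bdd_mul (c := M) ?_ (Eventually.of_forall fun p => hM p.2)
    exact (hφ.comp continuous_snd).aestronglyMeasurable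
  calc ∫ ξ, φ ξ * avg t c ξ
      = ∫ ξ, ∫ r in Ioc (1 : ℝ) t, φ ξ * (((r ^ 13)⁻¹ : ℝ) • c (r⁻¹ • ξ)) := by
        refine integral_congr_ae (Eventually.of_forall fun ξ => ?_)
        simp only [avg]
        rw [integral_const_mul]
    _ = ∫ r in Ioc (1 : ℝ) t, ∫ ξ, φ ξ * (((r ^ 13)⁻¹ : ℝ) • c (r⁻¹ • ξ)) :=
        integral_integral_swap (μ := (volume : Measure R12)) (ν := rhot t)
          (f := fun ξ r => φ ξ * (((r ^ 13)⁻¹ : ℝ) • c (r⁻¹ • ξ))) hj.swap
    _ = _ := by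
        refine setIntegral_congr_fun measurableSet_Ioc fun r hr => ?_
        have hr0 : (0 : ℝ) < r := lt_trans one_pos hr.1
        simp only [mul_smul_comm]
        rw [integral_smul, comp_inv_smul_integral hr0, smul_smul]
        congr 1
        field_simp

theorem integrable_dil {t : ℝ} (ht : 0 < t) (ha : Integrable a) : Integrable (dil t a) := by
  have h := Integrable.comp_smul (μ := (volume : Measure R12)) ha (inv_ne_zero ht.ne')
  exact h.smul ((t ^ 12)⁻¹ : ℝ)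

theorem dil_test {t : ℝ} (ht : 0 < t) (φ : R12 → ℂ) :
    ∫ ξ, φ ξ * dil t a ξ = ∫ η, φ (t • η) * a η := by
  unfold dil
  simp only [mul_smul_comm]
  rw [integral_smul, comp_inv_smul_integral ht, smul_smul, inv_mul_cancel₀ (by positivity), one_smul]

/-! ### B. the dilation identity -/

theorem continuous_ft (hc : Integrable c) : Continuous (ft c) := by
  refine continuous_of_dominated (bound := fun ξ => ‖c ξ‖) (fun y => ?_) (fun y => ?_) hc.norm ?_
  · exact (continuous_ch_left y).aestronglyMeasurable.mul hc.1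
  · refine Eventually.of_forall fun ξ => ?_
    have := norm_ch ξ y
    unfold ch at this
    rw [norm_mul, this, one_mul]
  · refine Eventually.of_forall fun ξ => ?_
    fun_prop

theorem ch_smul (r : ℝ) (η y : R12) : ch (r • η) y = ch η (r • y) := by
  unfold ch
  rw [inner_smul_left, inner_smul_right]
  simp

theorem dil_identity (ha : Integrable a) (ha1 : Integrable fun ξ => ‖ξ‖ * ‖a ξ‖) (hc : Integrable c)
    (heul : ∀ y, eul (ft a) y = ft c y) {t : ℝ} (ht : 1 ≤ t) :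
    (fun ξ => dil t a ξ - a ξ - avg t c ξ) =ᵐ[volume] 0 := by
  have ht0 : 0 < t := lt_of_lt_of_le one_pos ht
  have id1 := integrable_dil ht0 ha
  have id2 := integrable_avg hc t
  refine ft_zero_ae ((id1.sub ha).sub id2) fun y => ?_
  have e0 : ft (fun ξ => dil t a ξ - a ξ - avg t c ξ) y = ft (dil t a) y - ft a y - ft (avg t c) y := by
    simp only [ft_eq, smul_sub]
    have i1 := integrable_ch_smul id1 y
    have i2 := integrable_ch_smul ha y
    have i3 := integrable_ch_smul id2 y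
    rw [← integral_sub i1 i2]
    exact integral_sub (i1.sub i2) i3
  have e1 : ft (dil t a) y = ft a (t • y) := by
    have h := dil_test (a := a) ht0 (fun ξ => ch ξ y)
    simp only [ch_smul] at h
    exact h
  have e2 : ft (avg t c) y = ∫ r in (1 : ℝ)..t, (r⁻¹ : ℝ) • ft c (r • y) := by
    have h := avg_test hc t (continuous_ch_left y) (M := 1) (fun ξ => (norm_ch ξ y).le)
    simp only [ch_smul] at h
    rw [intervalIntegral.integral_of_le ht]
    exact h
  have e3 : ∫ r in (1 : ℝ)..t, (r⁻¹ : ℝ) • ft c (r • y) = ft a (t • y) - ft a y := by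
    have hd : ∀ r ∈ uIcc 1 t, HasDerivAt (fun r : ℝ => ft a (r • y)) ((r⁻¹ : ℝ) • ft c (r • y)) r := by
      intro r hr
      rw [uIcc_of_le ht] at hr
      have hr0 : 0 < r := lt_of_lt_of_le one_pos hr.1
      have h1 := (hasFDerivAt_ft ha ha1 (r • y))
      have h2 : HasDerivAt (fun r : ℝ => r • y) y r := by
        simpa using (hasDerivAt_id r).smul_const y
      have h3 := h1.comp_hasDerivAt r h2
      have h4 : fderiv ℝ (ft a) (r • y) = ∫ ξ, ch ξ (r • y) • dc a ξ := h1.fderiv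
      have h5 : (r⁻¹ : ℝ) • ft c (r • y) = (∫ ξ, ch ξ (r • y) • dc a ξ) y := by
        rw [← heul, eul, h4, map_smul, smul_smul, inv_mul_cancel₀ hr0.ne', one_smul]
      rw [h5]
      exact h3
    have hcont : ContinuousOn (fun r : ℝ => (r⁻¹ : ℝ) • ft c (r • y)) (uIcc 1 t) := by
      rw [uIcc_of_le ht]
      refine ContinuousOn.smul (ContinuousOn.inv₀ continuousOn_id fun r hr => ?_) ?_
      · exact (lt_of_lt_of_le one_pos hr.1).ne'
      · exact ((continuous_ft hc).comp (by fun_prop : Continuous fun r : ℝ => r • y)).continuousOn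
    rw [intervalIntegral.integral_eq_sub_of_hasDerivAt hd hcont.intervalIntegrable, one_smul]
  rw [e0, e1, e2, e3]
  ring

/-! ### C. the weak form with the character replaced by `e^{i⟨ξ,z⟩ - i w |ξ|²}` -/

/-- oscillating Gaussian -/
noncomputable def og (z : R12) (w : ℝ) (ξ : R12) : ℂ :=
  exp (I * (((inner ℝ ξ z : ℝ) - w * ‖ξ‖ ^ 2 : ℝ) : ℂ))

theorem norm_og (z : R12) (w : ℝ) (ξ : R12) : ‖og z w ξ‖ = 1 := by
  unfold og
  rw [mul_comm]
  exact norm_exp_ofReal_mul_I _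

theorem continuous_og (z : R12) (w : ℝ) : Continuous (og z w) := by
  unfold og
  fun_prop

theorem weak_int (ha : Integrable a) (ha1 : Integrable fun ξ => ‖ξ‖ * ‖a ξ‖) (hc : Integrable c)
    (heul : ∀ y, eul (ft a) y = ft c y) {t : ℝ} (ht : 1 ≤ t) (z : R12) (w : ℝ) :
    (∫ η, og z w (t • η) * a η) - (∫ η, og z w η * a η)
      = ∫ r in (1 : ℝ)..t, (r⁻¹ : ℝ) • ∫ η, og z w (r • η) * c η := by
  have ht0 : 0 < t := lt_of_lt_of_le one_pos ht
  have id1 := integrable_dil ht0 ha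
  have id2 := integrable_avg hc t
  have hog : ∀ {u : R12 → ℂ}, Integrable u → Integrable fun ξ => og z w ξ * u ξ := fun hu =>
    hu.bdd_mul (c := 1) (continuous_og z w).aestronglyMeasurable
      (Eventually.of_forall fun ξ => (norm_og z w ξ).le)
  have h0 := dil_identity ha ha1 hc heul ht
  have h1 : ∫ ξ, og z w ξ * (dil t a ξ - a ξ - avg t c ξ) = 0 := by
    rw [integral_congr_ae (g := fun _ => (0 : ℂ))]
    · simp
    · filter_upwards [h0] with ξ hξ
      have hξ' : dil t a ξ - a ξ - avg t c ξ = 0 := hξ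
      rw [hξ', mul_zero]
  have h2 : ∫ ξ, og z w ξ * (dil t a ξ - a ξ - avg t c ξ)
      = (∫ ξ, og z w ξ * dil t a ξ) - (∫ ξ, og z w ξ * a ξ) - ∫ ξ, og z w ξ * avg t c ξ := by
    simp only [mul_sub]
    rw [← integral_sub (hog id1) (hog ha)]
    exact integral_sub ((hog id1).sub (hog ha)) (hog id2)
  rw [intervalIntegral.integral_of_le ht, ← avg_test hc t (continuous_og z w) (fun ξ => (norm_og z w ξ).le),
    ← dil_test ht0 (og z w)]
  rw [h1] at h2
  exact (sub_eq_zero.1 h2.symm)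

theorem hasDerivAt_og (z : R12) (w : ℝ) (η : R12) (t : ℝ) :
    HasDerivAt (fun t : ℝ => og z w (t • η))
      ((I * (((inner ℝ η z : ℝ) - 2 * w * t * ‖η‖ ^ 2 : ℝ) : ℂ)) * og z w (t • η)) t := by
  have e : ∀ t : ℝ, og z w (t • η) = exp (I * ((t * inner ℝ η z - w * (t ^ 2 * ‖η‖ ^ 2) : ℝ) : ℂ)) := by
    intro t
    unfold og
    rw [inner_smul_left, norm_smul, mul_pow, Real.norm_eq_abs, sq_abs]
    simp
  simp only [e]
  have h1 : HasDerivAt (fun t : ℝ => t * inner ℝ η z - w * (t ^ 2 * ‖η‖ ^ 2))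
      (1 * inner ℝ η z - w * ((2 * t) * ‖η‖ ^ 2)) t := by
    have ha := (hasDerivAt_id t).mul_const (inner ℝ η z : ℝ)
    have hb := (((hasDerivAt_pow 2 t).mul_const (‖η‖ ^ 2)).const_mul w)
    have hc := ha.sub hb
    refine hc.congr_deriv ?_
    simp
  have h2 := (h1.ofReal_comp.const_mul I).cexp
  refine h2.congr_deriv ?_
  push_cast
  ring

/-- the weak form -/
theorem weak_form (ha : WInt 2 a) (hc : Integrable c) (heul : ∀ y, eul (ft a) y = ft c y)
    (z : R12) (w : ℝ) :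
    ∫ η, (I * (((inner ℝ η z : ℝ) - 2 * w * ‖η‖ ^ 2 : ℝ) : ℂ)) * og z w η * a η
      = ∫ η, og z w η * c η := by
  have ha0 := ha.integrable
  have ha1 := WInt.int1 ha
  have ha2 := WInt.int2 ha
  -- left derivative
  have hL : HasDerivAt (fun t : ℝ => ∫ η, og z w (t • η) * a η)
      (∫ η, (I * (((inner ℝ η z : ℝ) - 2 * w * 1 * ‖η‖ ^ 2 : ℝ) : ℂ)) * og z w ((1 : ℝ) • η) * a η) 1 := by
    have hb : Integrable fun ξ => (‖z‖ + 4 * |w|) * ‖Wie.wt 2 ξ • a ξ‖ := ha.norm.const_mul _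
    refine (hasDerivAt_integral_of_dominated_loc_of_deriv_le (μ := (volume : Measure R12))
      (F := fun t η => og z w (t • η) * a η)
      (F' := fun t η => (I * (((inner ℝ η z : ℝ) - 2 * w * t * ‖η‖ ^ 2 : ℝ) : ℂ)) * og z w (t • η) * a η)
      (x₀ := 1) (s := Metric.ball 1 1) (bound := fun ξ => (‖z‖ + 4 * |w|) * ‖Wie.wt 2 ξ • a ξ‖)
      (Metric.ball_mem_nhds 1 one_pos) ?_ ?_ ?_ ?_ hb ?_).2
    · refine Eventually.of_forall fun t => ?_
      exact ((continuous_og z w).comp (by fun_prop : Continuous fun η : R12 => t • η)).aestronglyMeasurable.mul ha0.1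
    · refine ha0.bdd_mul (c := 1) ?_ (Eventually.of_forall fun ξ => (norm_og z w _).le)
      exact ((continuous_og z w).comp (by fun_prop : Continuous fun η : R12 => (1 : ℝ) • η)).aestronglyMeasurable
    · have h1 : Continuous fun η : R12 => (I * (((inner ℝ η z : ℝ) - 2 * w * 1 * ‖η‖ ^ 2 : ℝ) : ℂ)) *
          og z w ((1 : ℝ) • η) := by
        refine Continuous.mul (by fun_prop) ?_
        exact (continuous_og z w).comp (by fun_prop : Continuous fun η : R12 => (1 : ℝ) • η)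
      exact h1.aestronglyMeasurable.mul ha0.1
    · refine Eventually.of_forall fun η t ht => ?_
      rw [norm_mul, norm_mul, norm_mul, norm_I, one_mul, norm_og, mul_one, norm_real, norm_smul,
        Real.norm_of_nonneg (Wie.wt_nonneg 2 η), ← mul_assoc]
      refine mul_le_mul_of_nonneg_right ?_ (norm_nonneg _)
      have ht2 : |t| ≤ 2 := by
        rw [Metric.mem_ball, Real.dist_eq] at ht
        have := abs_sub_abs_le_abs_sub t 1
        simp at this
        linarith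
      have hw : Wie.wt 2 η = (1 + ‖η‖) ^ 2 := rfl
      rw [hw, Real.norm_eq_abs]
      have e1 : |inner ℝ η z - 2 * w * t * ‖η‖ ^ 2| ≤ ‖η‖ * ‖z‖ + 2 * |w| * |t| * ‖η‖ ^ 2 := by
        calc _ ≤ |inner ℝ η z| + |2 * w * t * ‖η‖ ^ 2| := abs_sub _ _
          _ ≤ _ := by
            have := abs_real_inner_le_norm η z
            rw [abs_mul, abs_mul, abs_mul, abs_of_nonneg (sq_nonneg ‖η‖)]
            simp only [Nat.abs_ofNat]
            linarith
      have h0 := norm_nonneg η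
      have h1 := norm_nonneg z
      have h2 := abs_nonneg w
      have h3 := abs_nonneg t
      have e2 : |w| * |t| * ‖η‖ ^ 2 ≤ |w| * 2 * ‖η‖ ^ 2 := by gcongr
      nlinarith [mul_nonneg h0 h1, mul_nonneg h2 h0, mul_nonneg h1 (sq_nonneg ‖η‖)]
    · refine Eventually.of_forall fun η t _ => ?_
      exact (hasDerivAt_og z w η t).mul_const (a η)
  -- right hand side
  let g : ℝ → ℂ := fun r => (r⁻¹ : ℝ) • ∫ η, og z w (r • η) * c η
  have hgc : Continuous fun r : ℝ => ∫ η, og z w (r • η) * c η := by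
    refine continuous_of_dominated (bound := fun ξ => ‖c ξ‖) (fun r => ?_) (fun r => ?_) hc.norm ?_
    · exact ((continuous_og z w).comp (by fun_prop : Continuous fun η : R12 => r • η)).aestronglyMeasurable.mul hc.1
    · exact Eventually.of_forall fun ξ => by rw [norm_mul, norm_og, one_mul]
    · refine Eventually.of_forall fun ξ => ?_
      have := (continuous_og z w).comp (by fun_prop : Continuous fun r : ℝ => r • ξ)
      exact this.mul continuous_const
  have hgcont : ContinuousOn g (Ioi 0) := by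
    refine ContinuousOn.smul (ContinuousOn.inv₀ continuousOn_id fun r hr => (ne_of_gt hr)) hgc.continuousOn
  have hR : HasDerivWithinAt (fun t : ℝ => ∫ r in (1 : ℝ)..t, g r) (g 1) (Ici 1) 1 := by
    have h1 : ContinuousAt g 1 := hgcont.continuousAt (Ioi_mem_nhds one_pos)
    have h2 : HasDerivAt (fun t : ℝ => ∫ r in (1 : ℝ)..t, g r) (g 1) 1 := by
      refine intervalIntegral.integral_hasDerivAt_right (by simp) ?_ h1
      exact hgcont.stronglyMeasurableAtFilter isOpen_Ioi 1 (by simp)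
    exact h2.hasDerivWithinAt
  have hEq : ∀ t ∈ Ici (1 : ℝ), (∫ η, og z w (t • η) * a η) - (∫ η, og z w η * a η) = ∫ r in (1 : ℝ)..t, g r :=
    fun t ht => weak_int ha0 ha1 hc heul ht z w
  have hL2 : HasDerivWithinAt (fun t : ℝ => ∫ r in (1 : ℝ)..t, g r)
      (∫ η, (I * (((inner ℝ η z : ℝ) - 2 * w * 1 * ‖η‖ ^ 2 : ℝ) : ℂ)) * og z w ((1 : ℝ) • η) * a η) (Ici 1) 1 := by
    refine ((hL.sub_const (∫ η, og z w η * a η)).hasDerivWithinAt (s := Ici 1)).congr (fun t ht => (hEq t ht).symm) ?_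
    exact (hEq 1 self_mem_Ici).symm
  have hfin := (uniqueDiffWithinAt_Ici (1 : ℝ)).eq_deriv _ hL2 hR
  simp only [mul_one, one_smul, g, inv_one] at hfin
  exact hfin

end Crest.Agent.R086.Res
end

-- ▼ part R086/Res4
section

/-!
Row 86, node RES (helper470), file 5: uniqueness theorem `res_uniq`.
-/

set_option autoImplicit false

open MeasureTheory Complex Set Filter
open scoped ContDiff Topology

namespace Crest.Agent.R086.Res

open Crest.Agent.R086.Wie (WInt)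

variable {N : ℕ} {sg : ℝ} {μ : ℂ} {a b c : R12 → ℂ}

theorem wint_zero (hb : Integrable b) : WInt 0 b := by
  refine hb.congr (Eventually.of_forall fun ξ => ?_)
  simp [Wie.wt]

theorem integrable_psi'_mul (hμ : 0 < μ.re) (hb : WInt 2 b) (y : R12) :
    Integrable (fun p : ℝ × R12 =>
      psi' (inner ℝ p.2 y) (sg * ‖p.2‖ ^ 2) μ (p.1 : ℂ) * b p.2) (rho1.prod volume) := by
  have h0 : Integrable (fun p : ℝ × R12 => (2 * (|sg| + ‖y‖ + ‖μ‖) * p.1 ^ (-1 - 2 * μ.re)) *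
      ‖Wie.wt 2 p.2 • b p.2‖) (rho1.prod volume) :=
    ((integrableOn_pow hμ).const_mul (2 * (|sg| + ‖y‖ + ‖μ‖))).mul_prod hb.norm
  refine h0.mono ?_ ?_
  · have h1 : Measurable fun p : ℝ × R12 => psi' (inner ℝ p.2 y) (sg * ‖p.2‖ ^ 2) μ (p.1 : ℂ) := by
      unfold psi'
      have e1 : Measurable fun p : ℝ × R12 => ((inner ℝ p.2 y : ℝ) : ℂ) := by fun_prop
      fun_prop
    exact h1.aestronglyMeasurable.mul hb.integrable.1.comp_snd
  · have h2 : ∀ᵐ p : ℝ × R12 ∂(rho1.prod volume), p.1 ∈ Ioi (1 : ℝ) := by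
      have h3 : ∀ᵐ s ∂rho1, s ∈ Ioi (1 : ℝ) := ae_restrict_mem measurableSet_Ioi
      exact Measure.quasiMeasurePreserving_fst.ae h3
    refine h2.mono fun p hp => ?_
    have hp0 : (0 : ℝ) < p.1 := lt_trans one_pos hp
    rw [norm_mul, Real.norm_of_nonneg (by positivity), norm_smul,
      Real.norm_of_nonneg (Wie.wt_nonneg 2 p.2)]
    have h3 := norm_psi' (μ := μ) (inner ℝ p.2 y) (sg * ‖p.2‖ ^ 2) hp
    have h4 : ‖μ‖ + |inner ℝ p.2 y| + |sg * ‖p.2‖ ^ 2| ≤ (|sg| + ‖y‖ + ‖μ‖) * Wie.wt 2 p.2 := by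
      have hw : Wie.wt 2 p.2 = (1 + ‖p.2‖) ^ 2 := rfl
      rw [abs_mul, abs_of_nonneg (sq_nonneg ‖p.2‖), hw]
      have h5 := abs_real_inner_le_norm p.2 y
      have h6 := norm_nonneg p.2
      have h7 := norm_nonneg y
      have h8 := abs_nonneg sg
      have h9 := norm_nonneg μ
      nlinarith [mul_nonneg h6 h7, mul_nonneg h6 h8, mul_nonneg h6 h9, mul_nonneg (sq_nonneg ‖p.2‖) h7,
        mul_nonneg (sq_nonneg ‖p.2‖) h9, mul_nonneg (sq_nonneg ‖p.2‖) h8]
    have h10 : 0 ≤ p.1 ^ (-1 - 2 * μ.re) := by positivity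
    calc _ ≤ 2 * (‖μ‖ + |inner ℝ p.2 y| + |sg * ‖p.2‖ ^ 2|) * p.1 ^ (-1 - 2 * μ.re) * ‖b p.2‖ :=
          mul_le_mul_of_nonneg_right h3 (norm_nonneg _)
      _ ≤ 2 * ((|sg| + ‖y‖ + ‖μ‖) * Wie.wt 2 p.2) * p.1 ^ (-1 - 2 * μ.re) * ‖b p.2‖ := by
          gcongr
      _ = _ := by ring

/-- `-ft a y` as an iterated integral -/
theorem neg_ft_eq (hμ : 0 < μ.re) (ha : WInt 2 a) (y : R12) :
    - ft a y = ∫ s in Ioi (1 : ℝ), ∫ η, psi' (inner ℝ η y) (sg * ‖η‖ ^ 2) μ (s : ℂ) * a η := by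
  have hK := integrable_psi'_mul (sg := sg) hμ ha y
  symm
  calc ∫ s in Ioi (1 : ℝ), ∫ η, psi' (inner ℝ η y) (sg * ‖η‖ ^ 2) μ (s : ℂ) * a η
      = ∫ η, ∫ s in Ioi (1 : ℝ), psi' (inner ℝ η y) (sg * ‖η‖ ^ 2) μ (s : ℂ) * a η :=
        integral_integral_swap (μ := rho1) (ν := (volume : Measure R12))
          (f := fun s η => psi' (inner ℝ η y) (sg * ‖η‖ ^ 2) μ (s : ℂ) * a η) hK
    _ = - ft a y := by
        rw [ft_eq, ← integral_neg]
        refine integral_congr_ae (Eventually.of_forall fun η => ?_)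
        simp only
        rw [integral_mul_const, integral_psi' hμ]
        simp only [ch, smul_eq_mul, neg_mul]

theorem og_eq {s : ℝ} (_hs : 0 < s) (y η : R12) :
    og (s⁻¹ • y) (sg * (1 - (s ^ 2)⁻¹)) η
      = exp (I * ((inner ℝ η y : ℝ) : ℂ) * (s : ℂ)⁻¹ -
          I * ((sg * ‖η‖ ^ 2 : ℝ) : ℂ) * (1 - ((s : ℂ) ^ 2)⁻¹)) := by
  unfold og
  rw [inner_smul_right]
  congr 1
  push_cast
  ring

/-- the density of the equation -/
noncomputable def cden (sg : ℝ) (μ : ℂ) (a b : R12 → ℂ) (ξ : R12) : ℂ :=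
  2 * (-(sg : ℂ) * I * ((‖ξ‖ ^ 2 : ℝ) : ℂ) * a ξ - μ * a ξ + b ξ)

theorem integrable_sq (ha : WInt 2 a) : Integrable fun ξ : R12 => ((‖ξ‖ ^ 2 : ℝ) : ℂ) * a ξ := by
  refine (WInt.int2 ha).mono (Continuous.aestronglyMeasurable (by fun_prop) |>.mul ha.integrable.1)
    (Eventually.of_forall fun ξ => ?_)
  rw [norm_mul, norm_real, Real.norm_of_nonneg (by positivity), Real.norm_of_nonneg (by positivity)]

theorem integrable_cden (ha : WInt 2 a) (hb : Integrable b) : Integrable (cden sg μ a b) := by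
  have h := ((((integrable_sq ha).const_mul (-(sg : ℂ) * I)).sub (ha.integrable.const_mul μ)).add hb).const_mul 2
  refine h.congr (Eventually.of_forall fun ξ => ?_)
  simp only [cden, Pi.add_apply, Pi.sub_apply]
  ring

theorem eul_eq_cden (ha : WInt 2 a) (hb : Integrable b)
    (h : ∀ y, (sg : ℂ) * I * lap (ft a) y - (1 / 2) * eul (ft a) y - μ * ft a y = - ft b y) (y : R12) :
    eul (ft a) y = ft (cden sg μ a b) y := by
  have i0 := ha.integrable
  have i1 := WInt.int1 ha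
  have i2 := WInt.int2 ha
  have hl := lap_ft i0 i1 i2 y
  have j1 : Integrable fun ξ : R12 => ch ξ y • (((‖ξ‖ ^ 2 : ℝ) : ℂ) * a ξ) :=
    integrable_ch_smul (integrable_sq ha) y
  have j2 : Integrable fun ξ : R12 => ch ξ y • a ξ := integrable_ch_smul i0 y
  have j3 : Integrable fun ξ : R12 => ch ξ y • b ξ := integrable_ch_smul hb y
  have hl2 : lap (ft a) y = - ∫ ξ, ch ξ y • (((‖ξ‖ ^ 2 : ℝ) : ℂ) * a ξ) := by
    rw [hl, ← integral_neg]
    refine integral_congr_ae (Eventually.of_forall fun ξ => ?_)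
    simp only [smul_eq_mul]
    ring
  have hc : ft (cden sg μ a b) y = 2 * (-(sg : ℂ) * I * (∫ ξ, ch ξ y • (((‖ξ‖ ^ 2 : ℝ) : ℂ) * a ξ))
      - μ * ft a y + ft b y) := by
    rw [ft_eq, ft_eq, ft_eq, ← integral_const_mul, ← integral_const_mul]
    have k1 := (j1.const_mul (-(sg : ℂ) * I)).sub (j2.const_mul μ)
    rw [← integral_sub (j1.const_mul (-(sg : ℂ) * I)) (j2.const_mul μ)]
    have e : (∫ ξ, (-(sg : ℂ) * I * (ch ξ y • (((‖ξ‖ ^ 2 : ℝ) : ℂ) * a ξ)) - μ * (ch ξ y • a ξ)))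
        + ∫ ξ, ch ξ y • b ξ = ∫ ξ, ((-(sg : ℂ) * I * (ch ξ y • (((‖ξ‖ ^ 2 : ℝ) : ℂ) * a ξ)) - μ * (ch ξ y • a ξ))
          + ch ξ y • b ξ) := (integral_add k1 j3).symm
    rw [e, ← integral_const_mul]
    refine integral_congr_ae (Eventually.of_forall fun ξ => ?_)
    simp only [cden, smul_eq_mul]
    ring
  rw [hc]
  have h1 := h y
  rw [hl2] at h1
  linear_combination (-2) * h1

theorem integrable_og_mul (hb : Integrable b) (z : R12) (w : ℝ) : Integrable fun ξ => og z w ξ * b ξ :=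
  hb.bdd_mul (c := 1) (continuous_og z w).aestronglyMeasurable
    (Eventually.of_forall fun ξ => (norm_og z w ξ).le)

theorem integrable_X_og (ha : WInt 2 a) (z : R12) (w : ℝ) :
    Integrable fun η => (I * (((inner ℝ η z : ℝ) - 2 * w * ‖η‖ ^ 2 : ℝ) : ℂ)) * og z w η * a η := by
  have ha' : Integrable fun ξ => Wie.wt 2 ξ • a ξ := ha
  refine (ha'.norm.const_mul (‖z‖ + 2 * |w|)).mono ?_ (Eventually.of_forall fun η => ?_)
  · have h1 : Continuous fun η : R12 => (I * (((inner ℝ η z : ℝ) - 2 * w * ‖η‖ ^ 2 : ℝ) : ℂ)) * og z w η :=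
      Continuous.mul (by fun_prop) (continuous_og z w)
    exact h1.aestronglyMeasurable.mul ha.integrable.1
  · rw [norm_mul, norm_mul, norm_mul, norm_I, one_mul, norm_og, mul_one, norm_real,
      Real.norm_of_nonneg (by positivity : 0 ≤ (‖z‖ + 2 * |w|) * ‖Wie.wt 2 η • a η‖), norm_smul,
      Real.norm_of_nonneg (Wie.wt_nonneg 2 η), ← mul_assoc]
    refine mul_le_mul_of_nonneg_right ?_ (norm_nonneg _)
    have hw : Wie.wt 2 η = (1 + ‖η‖) ^ 2 := rfl
    rw [hw, Real.norm_eq_abs]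
    have e1 : |inner ℝ η z - 2 * w * ‖η‖ ^ 2| ≤ ‖η‖ * ‖z‖ + 2 * |w| * ‖η‖ ^ 2 := by
      calc _ ≤ |inner ℝ η z| + |2 * w * ‖η‖ ^ 2| := abs_sub _ _
        _ ≤ _ := by
          have := abs_real_inner_le_norm η z
          rw [abs_mul, abs_mul, abs_of_nonneg (sq_nonneg ‖η‖)]
          simp only [Nat.abs_ofNat]
          linarith
    have h0 := norm_nonneg η
    have h1 := norm_nonneg z
    have h2 := abs_nonneg w
    nlinarith [mul_nonneg h0 h1, mul_nonneg h2 h0, mul_nonneg h1 (sq_nonneg ‖η‖)]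

theorem slice_psi'_integrable (ha : WInt 2 a) (y : R12) {s : ℝ} (hs : 1 < s) :
    Integrable fun η : R12 => psi' (inner ℝ η y) (sg * ‖η‖ ^ 2) μ (s : ℂ) * a η := by
  have hs0 : 0 < s := lt_trans one_pos hs
  have ha' : Integrable fun ξ => Wie.wt 2 ξ • a ξ := ha
  refine (ha'.norm.const_mul (2 * (|sg| + ‖y‖ + ‖μ‖) * s ^ (-1 - 2 * μ.re))).mono ?_
    (Eventually.of_forall fun η => ?_)
  · have h1 : Measurable fun η : R12 => psi' (inner ℝ η y) (sg * ‖η‖ ^ 2) μ (s : ℂ) := by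
      unfold psi'
      fun_prop
    exact h1.aestronglyMeasurable.mul ha.integrable.1
  · rw [norm_mul, Real.norm_of_nonneg (by positivity), norm_smul,
      Real.norm_of_nonneg (Wie.wt_nonneg 2 η)]
    have h3 := norm_psi' (μ := μ) (inner ℝ η y) (sg * ‖η‖ ^ 2) hs
    have h4 : ‖μ‖ + |inner ℝ η y| + |sg * ‖η‖ ^ 2| ≤ (|sg| + ‖y‖ + ‖μ‖) * Wie.wt 2 η := by
      have hw : Wie.wt 2 η = (1 + ‖η‖) ^ 2 := rfl
      rw [abs_mul, abs_of_nonneg (sq_nonneg ‖η‖), hw]
      have h5 := abs_real_inner_le_norm η y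
      have h6 := norm_nonneg η
      have h7 := norm_nonneg y
      have h8 := abs_nonneg sg
      have h9 := norm_nonneg μ
      nlinarith [mul_nonneg h6 h7, mul_nonneg h6 h8, mul_nonneg h6 h9, mul_nonneg (sq_nonneg ‖η‖) h7,
        mul_nonneg (sq_nonneg ‖η‖) h9, mul_nonneg (sq_nonneg ‖η‖) h8]
    have h10 : 0 ≤ s ^ (-1 - 2 * μ.re) := by positivity
    calc _ ≤ 2 * (‖μ‖ + |inner ℝ η y| + |sg * ‖η‖ ^ 2|) * s ^ (-1 - 2 * μ.re) * ‖a η‖ :=
          mul_le_mul_of_nonneg_right h3 (norm_nonneg _)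
      _ ≤ 2 * ((|sg| + ‖y‖ + ‖μ‖) * Wie.wt 2 η) * s ^ (-1 - 2 * μ.re) * ‖a η‖ := by
          gcongr
      _ = _ := by ring

/-- key identity at fixed `s` -/
theorem key_slice (ha : WInt 2 a) (hb : Integrable b)
    (h : ∀ y, (sg : ℂ) * I * lap (ft a) y - (1 / 2) * eul (ft a) y - μ * ft a y = - ft b y)
    (y : R12) {s : ℝ} (hs : 1 < s) :
    ∫ η, psi' (inner ℝ η y) (sg * ‖η‖ ^ 2) μ (s : ℂ) * a η
      = -(2 * (s : ℂ) ^ (-2 * μ - 1) * ∫ η, og (s⁻¹ • y) (sg * (1 - (s ^ 2)⁻¹)) η * b η) := by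
  have hs0 : 0 < s := lt_trans one_pos hs
  have hz : (s : ℂ) ≠ 0 := by exact_mod_cast hs0.ne'
  set z : R12 := s⁻¹ • y with hzdef
  set w : ℝ := sg * (1 - (s ^ 2)⁻¹) with hwdef
  have hwk := weak_form ha (integrable_cden (sg := sg) (μ := μ) ha hb) (eul_eq_cden ha hb h) z w
  have iX := integrable_X_og ha z w
  have ic := integrable_og_mul (integrable_cden (sg := sg) (μ := μ) ha hb) z w
  have ib := integrable_og_mul hb z w
  have ip := slice_psi'_integrable (sg := sg) (μ := μ) ha y hs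
  have e1 : (∫ η, psi' (inner ℝ η y) (sg * ‖η‖ ^ 2) μ (s : ℂ) * a η)
      + 2 * (s : ℂ) ^ (-2 * μ - 1) * ∫ η, og z w η * b η
      = -((s : ℂ) ^ (-2 * μ - 1)) * ((∫ η, (I * (((inner ℝ η z : ℝ) - 2 * w * ‖η‖ ^ 2 : ℝ) : ℂ)) * og z w η * a η)
        - ∫ η, og z w η * cden sg μ a b η) := by
    rw [← integral_const_mul, ← integral_add ip (ib.const_mul _), ← integral_sub iX ic,
      ← integral_const_mul]
    refine integral_congr_ae (Eventually.of_forall fun η => ?_)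
    simp only [cden]
    have e2 : og z w η = exp (I * ((inner ℝ η y : ℝ) : ℂ) * (s : ℂ)⁻¹ -
          I * ((sg * ‖η‖ ^ 2 : ℝ) : ℂ) * (1 - ((s : ℂ) ^ 2)⁻¹)) := og_eq hs0 y η
    have e3 : (inner ℝ η z : ℝ) = s⁻¹ * inner ℝ η y := by rw [hzdef, inner_smul_right]
    unfold psi'
    rw [← e2, e3, hwdef]
    push_cast
    field_simp
    ring
  rw [hwk, sub_self, mul_zero] at e1
  exact eq_neg_of_add_eq_zero_left e1

theorem scaled_kernel0 {s : ℝ} (hs : 0 < s) (y η : R12) :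
    ((s ^ 12 : ℝ)⁻¹ : ℝ) • (ch (s⁻¹ • η) y * kern sg μ s (s⁻¹ • η))
      = 2 * (s : ℂ) ^ (-2 * μ - 1) * og (s⁻¹ • y) (sg * (1 - (s ^ 2)⁻¹)) η := by
  have hz : (s : ℂ) ≠ 0 := by exact_mod_cast hs.ne'
  have hnorm : ‖s⁻¹ • η‖ = s⁻¹ * ‖η‖ := by
    rw [norm_smul, Real.norm_of_nonneg (by positivity)]
  have hin : (inner ℝ (s⁻¹ • η) y : ℝ) = s⁻¹ * inner ℝ η y := by
    rw [inner_smul_left]; simp
  have hpow : (s : ℂ) ^ (11 - 2 * μ) = (s : ℂ) ^ (-2 * μ - 1) * (s : ℂ) ^ 12 := by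
    rw [show (11 - 2 * μ) = (-2 * μ - 1) + ((12 : ℕ) : ℂ) by push_cast; ring, cpow_add _ _ hz,
      cpow_natCast]
  rw [og_eq hs]
  unfold ch kern
  rw [hnorm, hin, hpow, real_smul]
  have hexp : exp (I * (inner ℝ η y : ℝ) * (s : ℂ)⁻¹ - I * ((sg * ‖η‖ ^ 2 : ℝ) : ℂ) * (1 - ((s : ℂ) ^ 2)⁻¹))
      = exp (I * ((s⁻¹ * inner ℝ η y : ℝ) : ℂ)) *
        exp (-I * ((sg * (s⁻¹ * ‖η‖) ^ 2 * (s ^ 2 - 1) : ℝ) : ℂ)) := by
    rw [← exp_add]
    congr 1
    push_cast
    field_simp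
    ring
  rw [hexp]
  push_cast
  field_simp

theorem ft_resDen (hμ : 0 < μ.re) (hb : Integrable b) (y : R12) :
    ft (resDen sg μ b) y = ∫ s in Ioi (1 : ℝ),
      2 * (s : ℂ) ^ (-2 * μ - 1) * ∫ η, og (s⁻¹ • y) (sg * (1 - (s ^ 2)⁻¹)) η * b η := by
  have hj := integrable_joint (N := 0) (sg := sg) hμ (wint_zero hb)
  have hG : Integrable (fun p : ℝ × R12 => (ch p.2 y * kern sg μ p.1 p.2) * b (p.1 • p.2))
      (rho1.prod volume) := by
    refine (hj.norm).mono ?_ (Eventually.of_forall fun p => ?_)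
    · have h1 : AEStronglyMeasurable (fun p : ℝ × R12 => b (p.1 • p.2)) (rho1.prod volume) :=
        hb.1.comp_quasiMeasurePreserving qmp_smul
      have h2 : Continuous fun p : ℝ × R12 => ch p.2 y := (continuous_ch_left y).comp continuous_snd
      exact (h2.aestronglyMeasurable.mul (measurable_kern sg μ).aestronglyMeasurable).mul h1
    · rw [norm_mul, norm_mul, norm_ch, one_mul, norm_norm, norm_smul, norm_mul]
      simp [Wie.wt]
  calc ft (resDen sg μ b) y
      = ∫ ξ, ∫ s in Ioi (1 : ℝ), (ch ξ y * kern sg μ s ξ) * b (s • ξ) := by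
        rw [ft_eq]
        refine integral_congr_ae (Eventually.of_forall fun ξ => ?_)
        simp only [resDen, smul_eq_mul]
        rw [← integral_const_mul]
        refine integral_congr_ae (Eventually.of_forall fun s => ?_)
        simp only
        ring
    _ = ∫ s in Ioi (1 : ℝ), ∫ ξ, (ch ξ y * kern sg μ s ξ) * b (s • ξ) :=
        integral_integral_swap (μ := (volume : Measure R12)) (ν := rho1)
          (f := fun ξ s => (ch ξ y * kern sg μ s ξ) * b (s • ξ)) hG.swap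
    _ = _ := by
        refine setIntegral_congr_fun measurableSet_Ioi fun s hs => ?_
        have hs0 : (0 : ℝ) < s := lt_trans one_pos hs
        have h := Measure.integral_comp_smul_of_nonneg (volume : Measure R12)
          (fun η => (ch (s⁻¹ • η) y * kern sg μ s (s⁻¹ • η)) * b η) s (hR := hs0.le)
        rw [finrank_R12] at h
        simp only [smul_smul, inv_mul_cancel₀ hs0.ne', one_smul] at h
        rw [h, ← integral_smul, ← integral_const_mul]
        refine integral_congr_ae (Eventually.of_forall fun η => ?_)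
        beta_reduce
        rw [← mul_assoc, ← scaled_kernel0 hs0 y η, smul_mul_assoc]

/-- RES-uniq -/
theorem res_uniq (hμ : 0 < μ.re) (ha : WInt 2 a) (hb : Integrable b)
    (h : ∀ y, (sg : ℂ) * I * lap (ft a) y - (1 / 2) * eul (ft a) y - μ * ft a y = - ft b y) :
    a =ᵐ[volume] resDen sg μ b := by
  have hr : Integrable (resDen sg μ b) := (wint_resDen (sg := sg) hμ (wint_zero hb)).integrable
  have h1 : ∀ y, ft a y = ft (resDen sg μ b) y := by
    intro y
    have e1 := neg_ft_eq (sg := sg) hμ ha y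
    rw [ft_resDen hμ hb, ← neg_inj, e1, ← integral_neg]
    refine setIntegral_congr_fun measurableSet_Ioi fun s hs => ?_
    exact key_slice ha hb h y hs
  have h2 := ft_zero_ae (ha.integrable.sub hr) fun y => by
    have e : ft (a - resDen sg μ b) y = ft a y - ft (resDen sg μ b) y := by
      simp only [ft_eq, Pi.sub_apply, smul_sub]
      exact integral_sub (integrable_ch_smul ha.integrable y) (integrable_ch_smul hr y)
    rw [e, h1 y, sub_self]
  filter_upwards [h2] with ξ hξ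
  have hξ' : a ξ - resDen sg μ b ξ = 0 := hξ
  exact sub_eq_zero.1 hξ'

end Crest.Agent.R086.Res
end

-- ▼ part R086/ResSmo
section

/-! Row 86 (helper718): SMO.  Smoothing estimate for the resolvent density of a `C¹` density, and
convolution with a Schwartz density. -/

set_option autoImplicit false

open MeasureTheory Complex Set Filter
open scoped ContDiff Topology SchwartzMap

namespace Crest.Agent.R086.Res

open Crest.Agent.R086.Wie (WInt)

section joint

variable {E : Type*} [NormedAddCommGroup E] [NormedSpace ℝ E] {F : R12 → E} {β : ℝ}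

omit [NormedSpace ℝ E] in
theorem slice_norm (F : R12 → E) {s : ℝ} (hs : 0 < s) :
    ∫ ξ : R12, s ^ β * ‖F (s • ξ)‖ = s ^ (β - 12) * ∫ ξ : R12, ‖F ξ‖ := by
  have h := Measure.integral_comp_smul_of_nonneg (volume : Measure R12)
    (fun ξ => ‖F ξ‖) s (hR := hs.le)
  rw [finrank_R12] at h
  rw [integral_const_mul, h, smul_eq_mul, show (β - 12 : ℝ) = β - (12 : ℕ) by push_cast; ring,
    Real.rpow_sub_natCast hs.ne']
  ring

theorem aesm_pow (hF : AEStronglyMeasurable F volume) (β : ℝ) :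
    AEStronglyMeasurable (fun p : ℝ × R12 => p.1 ^ β • F (p.1 • p.2)) (rho1.prod volume) := by
  have h1 : AEStronglyMeasurable (fun p : ℝ × R12 => F (p.1 • p.2)) (rho1.prod volume) :=
    hF.comp_quasiMeasurePreserving qmp_smul
  have h2 : Measurable fun p : ℝ × R12 => p.1 ^ β := by fun_prop
  exact h2.aestronglyMeasurable.smul h1

theorem joint_pow (hF : Integrable F) (hβ : β < 11) :
    Integrable (fun p : ℝ × R12 => p.1 ^ β • F (p.1 • p.2)) (rho1.prod volume) := by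
  have hm := aesm_pow hF.1 β
  rw [integrable_prod_iff hm]
  constructor
  · refine (ae_restrict_iff' measurableSet_Ioi).2 (Eventually.of_forall fun s hs => ?_)
    have hs0 : (0 : ℝ) < s := lt_trans one_pos hs
    exact (Integrable.comp_smul (μ := (volume : Measure R12)) hF hs0.ne').smul (s ^ β)
  · have h1 : Integrable (fun s : ℝ => s ^ (β - 12) * ∫ ξ : R12, ‖F ξ‖) rho1 :=
      (integrableOn_Ioi_rpow_of_lt (by linarith) one_pos).mul_const _
    refine h1.congr ((ae_restrict_iff' measurableSet_Ioi).2 (Eventually.of_forall fun s hs => ?_))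
    have hs0 : (0 : ℝ) < s := lt_trans one_pos hs
    simp only
    rw [← slice_norm F hs0]
    refine integral_congr_ae (Eventually.of_forall fun ξ => ?_)
    simp only [norm_smul, Real.norm_of_nonneg (Real.rpow_nonneg hs0.le β)]

omit [NormedSpace ℝ E] in
theorem joint_int (hF : Integrable F) (hβ : β < 11) :
    ∫ ξ : R12, ∫ s in Ioi (1 : ℝ), s ^ β * ‖F (s • ξ)‖ = (∫ ξ : R12, ‖F ξ‖) / (11 - β) := by
  have h1 : Integrable (fun p : ℝ × R12 => p.1 ^ β * ‖F (p.1 • p.2)‖) (rho1.prod volume) := by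
    have := joint_pow hF.norm hβ
    simpa only [smul_eq_mul] using this
  have h2 := integral_integral_swap (μ := rho1) (ν := (volume : Measure R12))
    (f := fun s ξ => s ^ β * ‖F (s • ξ)‖) h1
  rw [← h2]
  have h3 : ∫ s in Ioi (1 : ℝ), ∫ ξ : R12, s ^ β * ‖F (s • ξ)‖
      = ∫ s in Ioi (1 : ℝ), s ^ (β - 12) * ∫ ξ : R12, ‖F ξ‖ := by
    refine setIntegral_congr_fun measurableSet_Ioi fun s hs => ?_
    exact slice_norm F (lt_trans one_pos hs)
  rw [h3, integral_mul_const, integral_Ioi_rpow_of_lt (by linarith) one_pos, Real.one_rpow]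
  have h4 : β - 12 + 1 = -(11 - β) := by ring
  have h5 : (11 - β) ≠ 0 := by linarith
  rw [h4]
  field_simp

theorem ae_integrableOn (hF : Integrable F) (hβ : β < 11) :
    ∀ᵐ ξ : R12, IntegrableOn (fun s : ℝ => s ^ β • F (s • ξ)) (Ioi 1) := by
  exact (joint_pow hF hβ).prod_left_ae

omit [NormedSpace ℝ E] in
theorem integrable_inner (hF : Integrable F) (hβ : β < 11) :
    Integrable fun ξ : R12 => ∫ s in Ioi (1 : ℝ), s ^ β * ‖F (s • ξ)‖ := by
  have h1 : Integrable (fun p : ℝ × R12 => p.1 ^ β * ‖F (p.1 • p.2)‖) (rho1.prod volume) := by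
    have := joint_pow hF.norm hβ
    simpa only [smul_eq_mul] using this
  exact h1.integral_prod_right

end joint

section parts

variable {sg : ℝ} {μ : ℂ} {b1 : R12 → ℂ} {b1' : R12 → R12 →L[ℝ] ℂ}

/-- the phase -/
noncomputable def phs (sg : ℝ) (ξ : R12) (s : ℝ) : ℂ :=
  exp (-I * ((sg * ‖ξ‖ ^ 2 * (s ^ 2 - 1) : ℝ) : ℂ))

theorem norm_phs (sg : ℝ) (ξ : R12) (s : ℝ) : ‖phs sg ξ s‖ = 1 := by
  unfold phs
  rw [show -I * ((sg * ‖ξ‖ ^ 2 * (s ^ 2 - 1) : ℝ) : ℂ)
    = ((-(sg * ‖ξ‖ ^ 2 * (s ^ 2 - 1)) : ℝ) : ℂ) * I by push_cast; ring]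
  exact norm_exp_ofReal_mul_I _

theorem hasDerivAt_phs (sg : ℝ) (ξ : R12) (s : ℝ) :
    HasDerivAt (phs sg ξ) (-I * ((sg * ‖ξ‖ ^ 2 * (2 * s) : ℝ) : ℂ) * phs sg ξ s) s := by
  have h1 : HasDerivAt (fun s : ℝ => sg * ‖ξ‖ ^ 2 * (s ^ 2 - 1)) (sg * ‖ξ‖ ^ 2 * (2 * s)) s := by
    have := ((hasDerivAt_pow 2 s).sub_const 1).const_mul (sg * ‖ξ‖ ^ 2)
    simpa using this
  have h2 := (h1.ofReal_comp.const_mul (-I)).cexp
  refine h2.congr_deriv ?_
  unfold phs
  ring

theorem hasDerivAt_vv (hd : ∀ x, HasFDerivAt b1 (b1' x) x) (ξ : R12) {s : ℝ} (hs : 0 < s) :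
    HasDerivAt (fun s : ℝ => (s : ℂ) ^ (10 - 2 * μ) * b1 (s • ξ))
      ((10 - 2 * μ) * (s : ℂ) ^ (9 - 2 * μ) * b1 (s • ξ)
        + (s : ℂ) ^ (10 - 2 * μ) * b1' (s • ξ) ξ) s := by
  have hs' : (s : ℂ) ≠ 0 := by exact_mod_cast hs.ne'
  have h1 : HasDerivAt (fun s : ℝ => (s : ℂ) ^ (10 - 2 * μ))
      ((10 - 2 * μ) * (s : ℂ) ^ (9 - 2 * μ)) s := by
    have h := (hasDerivAt_id (s : ℂ)).cpow_const (c := 10 - 2 * μ)
      (by left; simpa using hs)
    have h' := h.comp_ofReal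
    simp only [id, mul_one] at h'
    rw [show (9 - 2 * μ) = 10 - 2 * μ - 1 by ring]
    exact h'
  have h2 : HasDerivAt (fun s : ℝ => b1 (s • ξ)) (b1' (s • ξ) ξ) s := by
    have h3 : HasDerivAt (fun s : ℝ => s • ξ) ξ s := by
      simpa using (hasDerivAt_id s).smul_const ξ
    exact (hd (s • ξ)).comp_hasDerivAt s h3
  exact h1.mul h2

theorem norm_cpow_ofReal {s : ℝ} (hs : 0 < s) (k : ℝ) :
    ‖(s : ℂ) ^ ((k : ℂ) - 2 * μ)‖ = s ^ (k - 2 * μ.re) := by
  rw [norm_cpow_eq_rpow_re_of_pos hs]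
  simp

set_option maxHeartbeats 3200000 in
theorem resDen_parts (hsg : sg = 1 ∨ sg = -1) (hd : ∀ x, HasFDerivAt b1 (b1' x) x)
    (hc : Continuous b1') {ξ : R12} (hξ : ξ ≠ 0)
    (i11 : IntegrableOn (fun s : ℝ => s ^ (11 - 2 * μ.re) • ‖b1 (s • ξ)‖) (Ioi 1))
    (i9 : IntegrableOn (fun s : ℝ => s ^ (9 - 2 * μ.re) • ‖b1 (s • ξ)‖) (Ioi 1))
    (i10 : IntegrableOn (fun s : ℝ => s ^ (10 - 2 * μ.re) • ‖b1' (s • ξ)‖) (Ioi 1)) :
    ‖ξ‖ ^ 2 * ‖resDen sg μ b1 ξ‖ ≤ ‖b1 ξ‖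
      + ‖10 - 2 * μ‖ * (∫ s in Ioi (1 : ℝ), s ^ (9 - 2 * μ.re) * ‖b1 (s • ξ)‖)
      + ‖ξ‖ * ∫ s in Ioi (1 : ℝ), s ^ (10 - 2 * μ.re) * ‖b1' (s • ξ)‖ := by
  have hb1c : Continuous b1 := continuous_iff_continuousAt.2 fun x => (hd x).continuousAt
  have hsg1 : |sg| = 1 := by rcases hsg with h | h <;> simp [h]
  have hsg0 : (sg : ℂ) ≠ 0 := by rcases hsg with h | h <;> simp [h]
  have hξ0 : ((‖ξ‖ : ℝ) : ℂ) ≠ 0 := by simpa using hξ
  set v : ℝ → ℂ := fun s => (s : ℂ) ^ (10 - 2 * μ) * b1 (s • ξ) with hv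
  set v' : ℝ → ℂ := fun s => (10 - 2 * μ) * (s : ℂ) ^ (9 - 2 * μ) * b1 (s • ξ)
        + (s : ℂ) ^ (10 - 2 * μ) * b1' (s • ξ) ξ with hv'
  have hvd : ∀ s : ℝ, 0 < s → HasDerivAt v (v' s) s := fun s hs => hasDerivAt_vv hd ξ hs
  -- measurability on (1,∞)
  have hcpow : ∀ c : ℂ, ContinuousOn (fun s : ℝ => (s : ℂ) ^ c) (Ioi 1) := by
    intro c s hs
    have hs0 : (0 : ℝ) < s := lt_trans one_pos hs
    have : ContinuousAt (fun s : ℝ => (s : ℂ) ^ c) s := by
      have h := continuousAt_cpow_const (a := (s : ℂ)) (b := c) (by left; simpa using hs0)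
      exact h.comp continuous_ofReal.continuousAt
    exact this.continuousWithinAt
  have hb1s : Continuous fun s : ℝ => b1 (s • ξ) := by fun_prop
  have hb1s' : Continuous fun s : ℝ => b1' (s • ξ) ξ := by fun_prop
  have hvc : ContinuousOn v (Ioi 1) := (hcpow _).mul hb1s.continuousOn
  have hv'c : ContinuousOn v' (Ioi 1) :=
    (((continuousOn_const.mul (hcpow _)).mul hb1s.continuousOn).add
      ((hcpow _).mul hb1s'.continuousOn))
  have hphc : Continuous (phs sg ξ) := by unfold phs; fun_prop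
  -- norms
  have hnv : ∀ s : ℝ, 1 < s → ‖v s‖ ≤ s ^ (11 - 2 * μ.re) * ‖b1 (s • ξ)‖ := by
    intro s hs
    have hs0 : (0 : ℝ) < s := lt_trans one_pos hs
    rw [hv]; simp only
    have h10 := norm_cpow_ofReal (μ := μ) hs0 10
    push_cast at h10
    rw [norm_mul, h10]
    refine mul_le_mul_of_nonneg_right ?_ (norm_nonneg _)
    exact Real.rpow_le_rpow_of_exponent_le hs.le (by linarith)
  have hnv' : ∀ s : ℝ, 1 < s → ‖v' s‖ ≤ ‖10 - 2 * μ‖ * (s ^ (9 - 2 * μ.re) * ‖b1 (s • ξ)‖)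
      + ‖ξ‖ * (s ^ (10 - 2 * μ.re) * ‖b1' (s • ξ)‖) := by
    intro s hs
    have hs0 : (0 : ℝ) < s := lt_trans one_pos hs
    rw [hv']; simp only
    have h10 := norm_cpow_ofReal (μ := μ) hs0 10
    have h9 := norm_cpow_ofReal (μ := μ) hs0 9
    push_cast at h10 h9
    refine (norm_add_le _ _).trans ?_
    rw [norm_mul, norm_mul, norm_mul, h9, h10]
    refine add_le_add (le_of_eq (by ring)) ?_
    have h := (b1' (s • ξ)).le_opNorm ξ
    have h0 : 0 ≤ s ^ (10 - 2 * μ.re) := Real.rpow_nonneg hs0.le _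
    calc s ^ (10 - 2 * μ.re) * ‖b1' (s • ξ) ξ‖
        ≤ s ^ (10 - 2 * μ.re) * (‖b1' (s • ξ)‖ * ‖ξ‖) := mul_le_mul_of_nonneg_left h h0
      _ = _ := by ring
  -- integrability
  have iv : IntegrableOn v (Ioi 1) := by
    refine i11.mono' (hvc.aestronglyMeasurable measurableSet_Ioi)
      ((ae_restrict_iff' measurableSet_Ioi).2 (Eventually.of_forall fun s hs => ?_))
    exact hnv s hs
  have iv' : IntegrableOn v' (Ioi 1) := by
    refine ((i9.const_mul ‖10 - 2 * μ‖).add (i10.const_mul ‖ξ‖)).mono'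
      (hv'c.aestronglyMeasurable measurableSet_Ioi)
      ((ae_restrict_iff' measurableSet_Ioi).2 (Eventually.of_forall fun s hs => ?_))
    exact hnv' s hs
  -- product with the phase
  set f : ℝ → ℂ := fun s => phs sg ξ s * v s with hf
  set f' : ℝ → ℂ := fun s => (-I * ((sg * ‖ξ‖ ^ 2 * (2 * s) : ℝ) : ℂ) * phs sg ξ s) * v s
    + phs sg ξ s * v' s with hf'
  have hfd : ∀ s : ℝ, 0 < s → HasDerivAt f (f' s) s := fun s hs =>
    (hasDerivAt_phs sg ξ s).mul (hvd s hs)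
  have iker : IntegrableOn (fun s : ℝ => kern sg μ s ξ * b1 (s • ξ)) (Ioi 1) := by
    have hm : AEStronglyMeasurable (fun s : ℝ => kern sg μ s ξ * b1 (s • ξ)) rho1 := by
      have hk : Measurable fun s : ℝ => kern sg μ s ξ :=
        (measurable_kern sg μ).comp (measurable_id.prodMk measurable_const)
      exact hk.aestronglyMeasurable.mul hb1s.aestronglyMeasurable
    refine (i11.const_mul 2).mono' hm
      ((ae_restrict_iff' measurableSet_Ioi).2 (Eventually.of_forall fun s hs => ?_))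
    have hs0 : (0 : ℝ) < s := lt_trans one_pos hs
    rw [norm_mul, norm_kern hs0]
    exact le_of_eq (by simp only [smul_eq_mul]; ring)
  have hrel : ∀ s : ℝ, 0 < s →
      (-I * ((sg * ‖ξ‖ ^ 2 * (2 * s) : ℝ) : ℂ) * phs sg ξ s) * v s
        = (-I * (sg : ℂ) * ((‖ξ‖ : ℝ) : ℂ) ^ 2) * (kern sg μ s ξ * b1 (s • ξ)) := by
    intro s hs
    have hs' : (s : ℂ) ≠ 0 := by exact_mod_cast hs.ne'
    have h1 : (s : ℂ) ^ (11 - 2 * μ) = (s : ℂ) ^ (10 - 2 * μ) * s := by
      rw [show (11 - 2 * μ) = 10 - 2 * μ + 1 by ring, cpow_add _ _ hs', cpow_one]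
    rw [hv]
    unfold kern phs
    simp only
    rw [h1]
    push_cast
    ring
  have if1 : IntegrableOn (fun s : ℝ =>
      (-I * ((sg * ‖ξ‖ ^ 2 * (2 * s) : ℝ) : ℂ) * phs sg ξ s) * v s) (Ioi 1) := by
    refine IntegrableOn.congr_fun (iker.const_mul (-I * (sg : ℂ) * ((‖ξ‖ : ℝ) : ℂ) ^ 2))
      (fun s hs => ?_) measurableSet_Ioi
    exact (hrel s (lt_trans one_pos hs)).symm
  have if2 : IntegrableOn (fun s : ℝ => phs sg ξ s * v' s) (Ioi 1) := by
    refine iv'.norm.mono' (hphc.aestronglyMeasurable.mul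
      (hv'c.aestronglyMeasurable measurableSet_Ioi)) (Eventually.of_forall fun s => ?_)
    rw [norm_mul, norm_phs, one_mul]
  have iff : IntegrableOn f (Ioi 1) := by
    refine iv.norm.mono' (hphc.aestronglyMeasurable.mul
      (hvc.aestronglyMeasurable measurableSet_Ioi)) (Eventually.of_forall fun s => ?_)
    rw [hf]; simp only
    rw [norm_mul, norm_phs, one_mul]
  have if' : IntegrableOn f' (Ioi 1) := if1.add if2
  have hlim : Tendsto f atTop (𝓝 0) :=
    tendsto_zero_of_hasDerivAt_of_integrableOn_Ioi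
      (fun s hs => hfd s (lt_trans one_pos hs)) if' iff
  have hint := integral_Ioi_of_hasDerivAt_of_tendsto (a := (1 : ℝ))
    (hfd 1 one_pos).continuousAt.continuousWithinAt
    (fun s hs => hfd s (lt_trans one_pos hs)) if' hlim
  have hf1 : f 1 = b1 ξ := by
    rw [hf, hv]; simp [phs]
  have hsplit : ∫ s in Ioi (1 : ℝ), f' s
      = (-I * (sg : ℂ) * ((‖ξ‖ : ℝ) : ℂ) ^ 2) * resDen sg μ b1 ξ
        + ∫ s in Ioi (1 : ℝ), phs sg ξ s * v' s := by
    have e1 : ∫ s in Ioi (1 : ℝ), f' s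
        = (∫ s in Ioi (1 : ℝ), (-I * ((sg * ‖ξ‖ ^ 2 * (2 * s) : ℝ) : ℂ) * phs sg ξ s) * v s)
          + ∫ s in Ioi (1 : ℝ), phs sg ξ s * v' s := integral_add if1 if2
    rw [e1]
    congr 1
    unfold resDen
    rw [← integral_const_mul]
    exact setIntegral_congr_fun measurableSet_Ioi fun s hs => hrel s (lt_trans one_pos hs)
  rw [hint, hf1, zero_sub] at hsplit
  have hres : (-I * (sg : ℂ) * ((‖ξ‖ : ℝ) : ℂ) ^ 2) * resDen sg μ b1 ξ
      = -(b1 ξ) - ∫ s in Ioi (1 : ℝ), phs sg ξ s * v' s := by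
    linear_combination -hsplit
  have hnl : ‖(-I * (sg : ℂ) * ((‖ξ‖ : ℝ) : ℂ) ^ 2) * resDen sg μ b1 ξ‖
      = ‖ξ‖ ^ 2 * ‖resDen sg μ b1 ξ‖ := by
    rw [norm_mul, norm_mul, norm_mul, norm_neg, norm_I, norm_real, Real.norm_eq_abs, hsg1,
      norm_pow, norm_real, norm_norm]
    ring
  rw [← hnl, hres]
  have hi1 : ‖∫ s in Ioi (1 : ℝ), phs sg ξ s * v' s‖
      ≤ ∫ s in Ioi (1 : ℝ), (‖10 - 2 * μ‖ * (s ^ (9 - 2 * μ.re) * ‖b1 (s • ξ)‖)
      + ‖ξ‖ * (s ^ (10 - 2 * μ.re) * ‖b1' (s • ξ)‖)) := by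
    refine norm_integral_le_of_norm_le ((i9.const_mul _).add (i10.const_mul _))
      ((ae_restrict_iff' measurableSet_Ioi).2 (Eventually.of_forall fun s hs => ?_))
    rw [norm_mul, norm_phs, one_mul]
    exact hnv' s hs
  have hi2 : ∫ s in Ioi (1 : ℝ), (‖10 - 2 * μ‖ * (s ^ (9 - 2 * μ.re) * ‖b1 (s • ξ)‖)
      + ‖ξ‖ * (s ^ (10 - 2 * μ.re) * ‖b1' (s • ξ)‖))
      = ‖10 - 2 * μ‖ * (∫ s in Ioi (1 : ℝ), s ^ (9 - 2 * μ.re) * ‖b1 (s • ξ)‖)
      + ‖ξ‖ * ∫ s in Ioi (1 : ℝ), s ^ (10 - 2 * μ.re) * ‖b1' (s • ξ)‖ := by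
    rw [← integral_const_mul, ← integral_const_mul]
    exact integral_add (i9.const_mul _) (i10.const_mul _)
  calc ‖-(b1 ξ) - ∫ s in Ioi (1 : ℝ), phs sg ξ s * v' s‖
      ≤ ‖-(b1 ξ)‖ + ‖∫ s in Ioi (1 : ℝ), phs sg ξ s * v' s‖ := norm_sub_le _ _
    _ ≤ ‖b1 ξ‖ + (‖10 - 2 * μ‖ * (∫ s in Ioi (1 : ℝ), s ^ (9 - 2 * μ.re) * ‖b1 (s • ξ)‖)
      + ‖ξ‖ * ∫ s in Ioi (1 : ℝ), s ^ (10 - 2 * μ.re) * ‖b1' (s • ξ)‖) := by
        rw [norm_neg, ← hi2]
        exact add_le_add le_rfl hi1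
    _ = _ := by ring

theorem smo_pt (hsg : sg = 1 ∨ sg = -1) (hμ : 0 < μ.re) (hd : ∀ x, HasFDerivAt b1 (b1' x) x)
    (hc : Continuous b1') (h0 : Integrable b1) (h1 : Integrable b1') :
    ∀ᵐ ξ : R12, (1 + ‖ξ‖) * ‖resDen sg μ b1 ξ‖ ≤ 2 * ‖resDen sg μ b1 ξ‖ + (‖b1 ξ‖
      + ‖10 - 2 * μ‖ * (∫ s in Ioi (1 : ℝ), s ^ (9 - 2 * μ.re) * ‖b1 (s • ξ)‖)
      + ∫ s in Ioi (1 : ℝ), s ^ (10 - 2 * μ.re) * ‖b1' (s • ξ)‖) := by
  have i11 := ae_integrableOn h0.norm (show 11 - 2 * μ.re < 11 by linarith)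
  have i9 := ae_integrableOn h0.norm (show 9 - 2 * μ.re < 11 by linarith)
  have i10 := ae_integrableOn h1.norm (show 10 - 2 * μ.re < 11 by linarith)
  filter_upwards [i11, i9, i10] with ξ h11 h9 h10
  have n9 : 0 ≤ ∫ s in Ioi (1 : ℝ), s ^ (9 - 2 * μ.re) * ‖b1 (s • ξ)‖ :=
    setIntegral_nonneg measurableSet_Ioi fun s hs =>
      mul_nonneg (Real.rpow_nonneg (lt_trans one_pos hs).le _) (norm_nonneg _)
  have n10 : 0 ≤ ∫ s in Ioi (1 : ℝ), s ^ (10 - 2 * μ.re) * ‖b1' (s • ξ)‖ :=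
    setIntegral_nonneg measurableSet_Ioi fun s hs =>
      mul_nonneg (Real.rpow_nonneg (lt_trans one_pos hs).le _) (norm_nonneg _)
  have nr := norm_nonneg (resDen sg μ b1 ξ)
  have nb := norm_nonneg (b1 ξ)
  have nm := norm_nonneg (10 - 2 * μ)
  rcases le_or_gt ‖ξ‖ 1 with hx | hx
  · have : (1 + ‖ξ‖) * ‖resDen sg μ b1 ξ‖ ≤ 2 * ‖resDen sg μ b1 ξ‖ :=
      mul_le_mul_of_nonneg_right (by linarith) nr
    have := mul_nonneg nm n9
    linarith
  · have hx0 : ξ ≠ 0 := by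
      intro h; rw [h, norm_zero] at hx; linarith
    have key := resDen_parts hsg hd hc hx0 h11 h9 h10
    set A := ∫ s in Ioi (1 : ℝ), s ^ (9 - 2 * μ.re) * ‖b1 (s • ξ)‖
    set B := ∫ s in Ioi (1 : ℝ), s ^ (10 - 2 * μ.re) * ‖b1' (s • ξ)‖
    have hA := mul_nonneg nm n9
    have hk2 : ‖ξ‖ * (‖ξ‖ * ‖resDen sg μ b1 ξ‖)
        ≤ ‖ξ‖ * (‖b1 ξ‖ + ‖10 - 2 * μ‖ * A + B) := by
      have e1 : ‖b1 ξ‖ + ‖10 - 2 * μ‖ * A ≤ ‖ξ‖ * (‖b1 ξ‖ + ‖10 - 2 * μ‖ * A) :=
        le_mul_of_one_le_left (by positivity) hx.le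
      nlinarith
    have hk3 := le_of_mul_le_mul_left hk2 (by linarith)
    linarith

/-- SMO: smoothing estimate (426/470's (A)). -/
theorem smo (hsg : sg = 1 ∨ sg = -1) (hμ : 0 < μ.re) (hd : ∀ x, HasFDerivAt b1 (b1' x) x)
    (hc : Continuous b1') (h0 : Integrable b1) (h1 : Integrable b1') :
    WInt 1 (resDen sg μ b1) ∧
    xn 1 (resDen sg μ b1) ≤ (2 / μ.re + 6 + ‖μ‖) * xn 0 b1 + ∫ ξ, ‖b1' ξ‖ := by
  have hw0 : WInt 0 b1 := by
    unfold WInt
    refine h0.congr (Eventually.of_forall fun ξ => ?_)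
    simp [Wie.wt]
  have hr0 : WInt 0 (resDen sg μ b1) := wint_resDen hμ hw0
  have hri : Integrable (resDen sg μ b1) := hr0.integrable
  have J9 := integrable_inner h0 (show 9 - 2 * μ.re < 11 by linarith)
  have J10 := integrable_inner h1 (show 10 - 2 * μ.re < 11 by linarith)
  have hB : Integrable fun ξ : R12 => 2 * ‖resDen sg μ b1 ξ‖ + (‖b1 ξ‖
      + ‖10 - 2 * μ‖ * (∫ s in Ioi (1 : ℝ), s ^ (9 - 2 * μ.re) * ‖b1 (s • ξ)‖)
      + ∫ s in Ioi (1 : ℝ), s ^ (10 - 2 * μ.re) * ‖b1' (s • ξ)‖) :=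
    (hri.norm.const_mul 2).add ((h0.norm.add (J9.const_mul _)).add J10)
  have hpt := smo_pt hsg hμ hd hc h0 h1
  have hwt : ∀ ξ : R12, Wie.wt 1 ξ = 1 + ‖ξ‖ := fun ξ => by simp [Wie.wt]
  have hW : WInt 1 (resDen sg μ b1) := by
    refine hB.mono' ((Wie.measurable_wt 1).aestronglyMeasurable.smul hri.1) ?_
    filter_upwards [hpt] with ξ hξ
    show ‖Wie.wt 1 ξ • resDen sg μ b1 ξ‖ ≤ _
    rw [norm_smul, Real.norm_of_nonneg (Wie.wt_nonneg 1 ξ), hwt]
    exact hξ
  refine ⟨hW, ?_⟩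
  have hx0 : ∀ c : R12 → ℂ, xn 0 c = ∫ ξ, ‖c ξ‖ := by
    intro c; unfold xn; simp [Wie.wt]
  have hn := xn_resDen_le (sg := sg) hμ hw0
  have hI : xn 1 (resDen sg μ b1) ≤ 2 * xn 0 (resDen sg μ b1) + (xn 0 b1
      + ‖10 - 2 * μ‖ * (xn 0 b1 / (11 - (9 - 2 * μ.re)))
      + (∫ ξ, ‖b1' ξ‖) / (11 - (10 - 2 * μ.re))) := by
    rw [hx0, hx0]
    rw [← joint_int h0 (show 9 - 2 * μ.re < 11 by linarith),
      ← joint_int h1 (show 10 - 2 * μ.re < 11 by linarith)]
    rw [← integral_const_mul, ← integral_const_mul]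
    have K1 : (∫ ξ, ‖b1 ξ‖) + (∫ ξ : R12, ‖10 - 2 * μ‖ * ∫ s in Ioi (1 : ℝ),
        s ^ (9 - 2 * μ.re) * ‖b1 (s • ξ)‖) = ∫ ξ : R12, (‖b1 ξ‖ + ‖10 - 2 * μ‖ *
          ∫ s in Ioi (1 : ℝ), s ^ (9 - 2 * μ.re) * ‖b1 (s • ξ)‖) :=
      (integral_add h0.norm (J9.const_mul _)).symm
    have K2 : (∫ ξ : R12, (‖b1 ξ‖ + ‖10 - 2 * μ‖ *
          ∫ s in Ioi (1 : ℝ), s ^ (9 - 2 * μ.re) * ‖b1 (s • ξ)‖))
          + (∫ ξ : R12, ∫ s in Ioi (1 : ℝ), s ^ (10 - 2 * μ.re) * ‖b1' (s • ξ)‖)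
        = ∫ ξ : R12, ((‖b1 ξ‖ + ‖10 - 2 * μ‖ *
          ∫ s in Ioi (1 : ℝ), s ^ (9 - 2 * μ.re) * ‖b1 (s • ξ)‖)
          + ∫ s in Ioi (1 : ℝ), s ^ (10 - 2 * μ.re) * ‖b1' (s • ξ)‖) :=
      (integral_add (h0.norm.add (J9.const_mul _)) J10).symm
    have K3 : (∫ ξ : R12, 2 * ‖resDen sg μ b1 ξ‖) + (∫ ξ : R12, ((‖b1 ξ‖ + ‖10 - 2 * μ‖ *
          ∫ s in Ioi (1 : ℝ), s ^ (9 - 2 * μ.re) * ‖b1 (s • ξ)‖)
          + ∫ s in Ioi (1 : ℝ), s ^ (10 - 2 * μ.re) * ‖b1' (s • ξ)‖))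
        = ∫ ξ : R12, (2 * ‖resDen sg μ b1 ξ‖ + ((‖b1 ξ‖ + ‖10 - 2 * μ‖ *
          ∫ s in Ioi (1 : ℝ), s ^ (9 - 2 * μ.re) * ‖b1 (s • ξ)‖)
          + ∫ s in Ioi (1 : ℝ), s ^ (10 - 2 * μ.re) * ‖b1' (s • ξ)‖)) :=
      (integral_add (hri.norm.const_mul 2) ((h0.norm.add (J9.const_mul _)).add J10)).symm
    rw [K1, K2, K3]
    unfold xn
    refine integral_mono_ae ?_ hB ?_
    · have := hW.norm
      refine this.congr (Eventually.of_forall fun ξ => ?_)
      show ‖Wie.wt 1 ξ • resDen sg μ b1 ξ‖ = _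
      rw [norm_smul, Real.norm_of_nonneg (Wie.wt_nonneg 1 ξ)]
    · filter_upwards [hpt] with ξ hξ
      simp only [hwt]
      exact hξ
  refine hI.trans ?_
  have hb0 := xn_nonneg 0 b1
  have hD0 : 0 ≤ ∫ ξ, ‖b1' ξ‖ := integral_nonneg fun ξ => norm_nonneg _
  have q1 : (∫ ξ, ‖b1' ξ‖) / (11 - (10 - 2 * μ.re)) ≤ ∫ ξ, ‖b1' ξ‖ :=
    div_le_self hD0 (by linarith)
  have q2 : ‖10 - 2 * μ‖ ≤ 10 + 2 * ‖μ‖ := by
    refine (norm_sub_le _ _).trans ?_
    rw [norm_mul]; simp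
  have q3 : ‖10 - 2 * μ‖ * (xn 0 b1 / (11 - (9 - 2 * μ.re))) ≤ (5 + ‖μ‖) * xn 0 b1 := by
    have e1 : 11 - (9 - 2 * μ.re) = 2 + 2 * μ.re := by ring
    rw [e1, ← mul_div_assoc, div_le_iff₀ (by linarith)]
    have e2 : ‖10 - 2 * μ‖ * xn 0 b1 ≤ (10 + 2 * ‖μ‖) * xn 0 b1 :=
      mul_le_mul_of_nonneg_right q2 hb0
    have e3 : 0 ≤ (5 + ‖μ‖) * xn 0 b1 * μ.re := by
      have := norm_nonneg μ
      positivity
    nlinarith
  have q4 : 2 * xn 0 (resDen sg μ b1) ≤ 2 / μ.re * xn 0 b1 := by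
    have : 2 / μ.re * xn 0 b1 = 2 * (xn 0 b1 / μ.re) := by ring
    rw [this]; linarith
  nlinarith

end parts

section conv

variable {c : R12 → ℂ}

/-- derivative of `w * c` -/
noncomputable def dcv (w : 𝓢(R12, ℂ)) (c : R12 → ℂ) (x : R12) : R12 →L[ℝ] ℂ :=
  ∫ ξ : R12, c ξ • fderiv ℝ (w : R12 → ℂ) (x - ξ)

theorem exists_bound_fderiv (w : 𝓢(R12, ℂ)) : ∃ M : ℝ, 0 ≤ M ∧ ∀ x, ‖fderiv ℝ (w : R12 → ℂ) x‖ ≤ M := by
  obtain ⟨M, hM0, hM⟩ := w.decay 0 1
  refine ⟨M, hM0.le, fun x => ?_⟩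
  have := hM x
  rwa [pow_zero, one_mul, norm_iteratedFDeriv_one] at this

theorem continuous_fderiv_sch (w : 𝓢(R12, ℂ)) : Continuous (fderiv ℝ (w : R12 → ℂ)) :=
  (w.smooth 1).continuous_fderiv (by norm_num)

theorem hasFDerivAt_cv (w : 𝓢(R12, ℂ)) (hc : Integrable c) (x : R12) :
    HasFDerivAt (cv (w : R12 → ℂ) c) (dcv w c x) x := by
  obtain ⟨M, hM0, hM⟩ := exists_bound_fderiv w
  have hwc : Continuous (w : R12 → ℂ) := w.continuous
  have hdc := continuous_fderiv_sch w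
  have hmeas : ∀ x : R12, AEStronglyMeasurable (fun ξ : R12 => (w : R12 → ℂ) (x - ξ) * c ξ) volume :=
    fun x => (Continuous.aestronglyMeasurable (by fun_prop)).mul hc.1
  have h := hasFDerivAt_integral_of_dominated_of_fderiv_le (𝕜 := ℝ) (μ := (volume : Measure R12))
    (F := fun (x ξ : R12) => (w : R12 → ℂ) (x - ξ) * c ξ)
    (F' := fun (x ξ : R12) => c ξ • fderiv ℝ (w : R12 → ℂ) (x - ξ))
    (x₀ := x) (s := univ) (bound := fun ξ => M * ‖c ξ‖) univ_mem ?_ ?_ ?_ ?_ ?_ ?_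
  · exact h
  · exact Eventually.of_forall hmeas
  · obtain ⟨W, hW0, hW⟩ := w.decay 0 0
    refine (hc.norm.const_mul W).mono' (hmeas x) (Eventually.of_forall fun ξ => ?_)
    rw [norm_mul]
    refine mul_le_mul_of_nonneg_right ?_ (norm_nonneg _)
    have := hW (x - ξ)
    rwa [pow_zero, one_mul, norm_iteratedFDeriv_zero] at this
  · exact hc.1.smul (Continuous.aestronglyMeasurable (by fun_prop))
  · refine Eventually.of_forall fun ξ y _ => ?_
    rw [norm_smul, mul_comm]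
    exact mul_le_mul_of_nonneg_right (hM _) (norm_nonneg _)
  · exact hc.norm.const_mul M
  · refine Eventually.of_forall fun ξ y _ => ?_
    have h1 : HasFDerivAt (fun y : R12 => (w : R12 → ℂ) (y - ξ)) (fderiv ℝ (w : R12 → ℂ) (y - ξ)) y := by
      have h2 : HasFDerivAt (w : R12 → ℂ) (fderiv ℝ (w : R12 → ℂ) (y - ξ)) (y - ξ) :=
        (w.differentiable (y - ξ)).hasFDerivAt
      have h3 := h2.comp y ((hasFDerivAt_id y).sub_const ξ)
      rwa [ContinuousLinearMap.comp_id] at h3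
    exact h1.mul_const (c ξ)

theorem continuous_dcv (w : 𝓢(R12, ℂ)) (hc : Integrable c) : Continuous (dcv w c) := by
  obtain ⟨M, hM0, hM⟩ := exists_bound_fderiv w
  have hdc := continuous_fderiv_sch w
  refine continuous_of_dominated (bound := fun ξ => M * ‖c ξ‖) (fun x => ?_) (fun x => ?_)
    (hc.norm.const_mul M) (Eventually.of_forall fun ξ => ?_)
  · exact hc.1.smul (Continuous.aestronglyMeasurable (by fun_prop))
  · refine Eventually.of_forall fun ξ => ?_
    rw [norm_smul, mul_comm]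
    exact mul_le_mul_of_nonneg_right (hM _) (norm_nonneg _)
  · fun_prop

theorem integrable_fderiv_sch (w : 𝓢(R12, ℂ)) : Integrable fun ξ : R12 => ‖fderiv ℝ (w : R12 → ℂ) ξ‖ := by
  have h := (SchwartzMap.fderivCLM ℝ R12 ℂ w).integrable (μ := (volume : Measure R12))
  exact h.norm

theorem dcv_bound (w : 𝓢(R12, ℂ)) (hc : Integrable c) :
    Integrable (dcv w c) ∧
    ∫ x, ‖dcv w c x‖ ≤ (∫ ξ : R12, ‖fderiv ℝ (w : R12 → ℂ) ξ‖) * ∫ ξ, ‖c ξ‖ := by
  have hdc := continuous_fderiv_sch w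
  have hw := integrable_fderiv_sch w
  have h1 := Integrable.integrable_convolution (ContinuousLinearMap.mul ℝ ℝ) hc.norm hw
  have h2 := integral_convolution (ContinuousLinearMap.mul ℝ ℝ) (μ := (volume : Measure R12))
    (ν := (volume : Measure R12)) hc.norm hw
  have hpt : ∀ x : R12, ‖dcv w c x‖ ≤ convolution (fun ξ => ‖c ξ‖)
      (fun ξ => ‖fderiv ℝ (w : R12 → ℂ) ξ‖) (ContinuousLinearMap.mul ℝ ℝ) volume x := by
    intro x
    unfold dcv convolution
    refine (norm_integral_le_integral_norm _).trans (le_of_eq ?_)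
    refine integral_congr_ae (Eventually.of_forall fun ξ => ?_)
    simp [norm_smul]
  constructor
  · refine h1.mono' (continuous_dcv w hc).aestronglyMeasurable (Eventually.of_forall hpt)
  · calc ∫ x, ‖dcv w c x‖ ≤ _ := integral_mono_of_nonneg
          (Eventually.of_forall fun x => norm_nonneg _) h1 (Eventually.of_forall hpt)
      _ = _ := by rw [h2]; simp [mul_comm]

theorem integrable_cv_sch (w : 𝓢(R12, ℂ)) (hc : Integrable c) :
    Integrable (cv (w : R12 → ℂ) c) := DGen.integrable_cv w.integrable hc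

/-- SMO applied to `w * c`. -/
theorem smo_cv {sg : ℝ} {μ : ℂ} (hsg : sg = 1 ∨ sg = -1) (hμ : 0 < μ.re) (w : 𝓢(R12, ℂ))
    (hc : Integrable c) :
    WInt 1 (resDen sg μ (cv (w : R12 → ℂ) c)) ∧
    xn 1 (resDen sg μ (cv (w : R12 → ℂ) c)) ≤ (2 / μ.re + 6 + ‖μ‖) * xn 0 (cv (w : R12 → ℂ) c)
      + (∫ ξ : R12, ‖fderiv ℝ (w : R12 → ℂ) ξ‖) * xn 0 c := by
  obtain ⟨h1, h2⟩ := smo hsg hμ (hasFDerivAt_cv w hc) (continuous_dcv w hc)
    (integrable_cv_sch w hc) (dcv_bound w hc).1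
  refine ⟨h1, h2.trans (add_le_add le_rfl ?_)⟩
  refine (dcv_bound w hc).2.trans (le_of_eq ?_)
  unfold xn
  simp [Wie.wt]

end conv

end Crest.Agent.R086.Res
end

-- ▼ part R086/ResSmoTop
section

/-!
Row 86, node RES/SMO (helper470, helper718): `theorem smoStmt : CReg.SmoStmt`.
-/

set_option autoImplicit false

open MeasureTheory Complex Set Filter
open scoped ContDiff Topology SchwartzMap

namespace Crest.Agent.R086.Res

open Crest.Agent.R086.Wie (WInt)

theorem xn_congr' {N : ℕ} {a b : R12 → ℂ} (h : a =ᵐ[volume] b) : xn N a = xn N b := by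
  unfold xn
  exact integral_congr_ae (h.mono fun ξ hξ => by simp only [hξ])

theorem xn_add_le {N : ℕ} {a b : R12 → ℂ} (ha : WInt N a) (hb : WInt N b) :
    xn N (fun ξ => a ξ + b ξ) ≤ xn N a + xn N b := by
  have ha' : Integrable fun ξ => Wie.wt N ξ • a ξ := ha
  have hb' : Integrable fun ξ => Wie.wt N ξ • b ξ := hb
  simp only [xn_eq]
  rw [← integral_add ha'.norm hb'.norm]
  refine integral_mono ?_ (ha'.norm.add hb'.norm) fun ξ => ?_
  · refine Integrable.norm ?_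
    refine (ha'.add hb').congr (Eventually.of_forall fun ξ => ?_)
    simp only [Pi.add_apply, smul_add]
  · simp only [smul_add]
    exact norm_add_le _ _

theorem resDen_add {sg : ℝ} {μ : ℂ} (hμ : 0 < μ.re) {b1 b2 : R12 → ℂ} (h1 : Integrable b1)
    (h2 : Integrable b2) :
    resDen sg μ (fun ξ => b1 ξ + b2 ξ) =ᵐ[volume] fun ξ => resDen sg μ b1 ξ + resDen sg μ b2 ξ := by
  have k1 := (integrable_joint (N := 0) (sg := sg) hμ (wint_zero h1)).prod_left_ae
  have k2 := (integrable_joint (N := 0) (sg := sg) hμ (wint_zero h2)).prod_left_ae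
  filter_upwards [k1, k2] with ξ hk1 hk2
  simp only [Wie.wt, pow_zero, one_smul] at hk1 hk2
  unfold resDen
  rw [← integral_add hk1 hk2]
  simp only [mul_add]

theorem wint_of_rep {N : ℕ} {a f : R12 → ℂ} (h : Rep N a f) : WInt N a := by
  show Integrable fun ξ => Wie.wt N ξ • a ξ
  refine h.1.congr (Eventually.of_forall fun ξ => ?_)
  simp only [Wie.wt, real_smul]

/-- `SmoStmt` (input of REG) -/
theorem smoStmt : CReg.SmoStmt := by
  intro sg hsg μ hμ f a c b w hf hc hb heq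
  obtain ⟨hsA, hsB⟩ := smo_cv hsg hμ w hc
  have hb1 : Integrable (cv (w : R12 → ℂ) c) := integrable_cv_sch w hc
  have ha : WInt 2 a := wint_of_rep hf
  have hbW : WInt 1 b := by
    show Integrable fun ξ => Wie.wt 1 ξ • b ξ
    refine hb.congr (Eventually.of_forall fun ξ => ?_)
    simp only [Wie.wt, real_smul]
  have hbI : Integrable b := hbW.integrable
  have hfe : f = ft a := funext hf.2
  set b1 : R12 → ℂ := cv (w : R12 → ℂ) c with hb1def
  have hsum : Integrable fun ξ => b1 ξ + b ξ := hb1.add hbI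
  have hEq : ∀ y, (sg : ℂ) * I * lap (ft a) y - (1 / 2) * eul (ft a) y - μ * ft a y
      = - ft (fun ξ => b1 ξ + b ξ) y := by
    intro y
    rw [← hfe, heq y]
    congr 1
    simp only [ft_eq, smul_add]
    exact (integral_add (integrable_ch_smul hb1 y) (integrable_ch_smul hbI y)).symm
  have hu := res_uniq hμ ha hsum hEq
  have hu2 : a =ᵐ[volume] fun ξ => resDen sg μ b1 ξ + resDen sg μ b ξ :=
    hu.trans (resDen_add hμ hb1 hbI)
  constructor
  · have h1 : xn 0 a ≤ xn 0 (fun ξ => b1 ξ + b ξ) / μ.re := by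
      rw [xn_congr' hu]
      exact xn_resDen_le hμ (wint_zero hsum)
    have h2 : xn 0 (fun ξ => b1 ξ + b ξ) ≤ xn 0 b1 + xn 0 b :=
      xn_add_le (wint_zero hb1) (wint_zero hbI)
    exact h1.trans (div_le_div_of_nonneg_right h2 hμ.le)
  · have h1 : xn 1 a ≤ xn 1 (resDen sg μ b1) + xn 1 (resDen sg μ b) := by
      rw [xn_congr' hu2]
      exact xn_add_le hsA (wint_resDen hμ hbW)
    have h2 : xn 1 (resDen sg μ b) ≤ xn 1 b / μ.re := xn_resDen_le hμ hbW
    calc CReg.xn 1 a = xn 1 a := rfl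
      _ ≤ xn 1 (resDen sg μ b1) + xn 1 (resDen sg μ b) := h1
      _ ≤ ((2 / μ.re + 6 + ‖μ‖) * xn 0 b1 + (∫ ξ : R12, ‖fderiv ℝ (w : R12 → ℂ) ξ‖) * xn 0 c)
          + xn 1 b / μ.re := add_le_add hsB h2
      _ = _ := rfl

end Crest.Agent.R086.Res
end

-- ▼ part R086/CSym

/-!
Row 86 (S0114), Part C, node SYMF (helper392): the radial symmetry modes are mode pairs.
-/

set_option autoImplicit false

open MeasureTheory Complex ComplexConjugate Set Filter Topology
open scoped ContDiff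

namespace Crest.Agent.R086.CSym

open CTop SH

theorem eq_of_par {f g : ℝ → ℂ} {l : ℕ} (hf : Continuous f) (hg : Continuous g)
    (pf : ∀ r, f (-r) = (-1) ^ l * f r) (pg : ∀ r, g (-r) = (-1) ^ l * g r)
    (h : ∀ r, 0 < r → f r = g r) : f = g := by
  have h0 : f 0 = g 0 := by
    have h1 : Tendsto f (𝓝[>] 0) (𝓝 (f 0)) := hf.continuousAt.tendsto.mono_left nhdsWithin_le_nhds
    have h2 : Tendsto g (𝓝[>] 0) (𝓝 (g 0)) := hg.continuousAt.tendsto.mono_left nhdsWithin_le_nhds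
    have h3 : g =ᶠ[𝓝[>] 0] f := by
      filter_upwards [self_mem_nhdsWithin] with r hr using (h r hr).symm
    exact tendsto_nhds_unique h1 (h2.congr' h3)
  funext r
  rcases lt_trichotomy r 0 with hr | hr | hr
  · have e1 := pf (-r)
    have e2 := pg (-r)
    rw [neg_neg] at e1 e2
    rw [e1, e2, h (-r) (by linarith)]
  · rw [hr]; exact h0
  · exact h r hr

theorem rgen1_zero {n : ℕ} (P : Profile n) (l : ℕ) (r : ℝ) :
    P.rgen1 l (fun _ => 0) (fun _ => 0) r = 0 := by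
  unfold Profile.rgen1 rlap
  simp

theorem rgen2_zero {n : ℕ} (P : Profile n) (l : ℕ) (r : ℝ) :
    P.rgen2 l (fun _ => 0) (fun _ => 0) r = 0 := by
  unfold Profile.rgen2 rlap
  simp

theorem modeFn_smul (H : R12 → ℝ) (F : ℝ → ℂ) (c : ℂ) :
    modeFn H (fun r => c * F r) = fun y => c * modeFn H F y := by
  funext y
  unfold modeFn
  ring

theorem pair_of {n : ℕ} (P : Profile n) {l : ℕ} {H : R12 → ℝ} (hH : SHarm l H)
    (hn : (∫ w : S11, (H w) ^ 2 ∂sig) = 1) (m : Option (Option (Fin 12))) {c : ℂ} (hc : c ≠ 0)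
    (hcc : conj c = c) {e : ℝ → ℂ} (ce : Continuous e) (pe : ∀ r, e (-r) = (-1) ^ l * e r)
    (h1 : ∀ r, 0 < r → E1 P H m r = e r * c) :
    P.Pair l H (DM.ml m : ℂ) 0 (fun _ => 0) e (fun r => conj (e r)) := by
  have he : e = fun r => c⁻¹ * E1 P H m r := by
    refine eq_of_par (l := l) ce (continuous_const.mul (E1_cd P hH m 0).continuous) pe ?_ ?_
    · intro r
      rw [E1_par P hH]
      ring
    · intro r hr
      rw [h1 r hr]
      field_simp
  have hE : ∀ r, E2 P H m r = conj (E1 P H m r) := fun r => comp_mode2 P H m r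
  have hec : (fun r => conj (e r)) = fun r => c⁻¹ * E2 P H m r := by
    funext r
    rw [he, hE]
    simp only [map_mul, map_inv₀, hcc]
  rw [hec, he]
  have d1 : ContDiff ℝ N0 (E1 P H m) := E1_cd P hH m N0
  have d2 : ContDiff ℝ N0 (E2 P H m) := E2_cd P hH m N0
  have g1 := fun r => rgen1_sub P (l := l) (F := fun _ => 0) (G := fun _ => 0)
    (E2 := E2 P H m) contDiff_const (E1_cd P hH m 2) (-c⁻¹) r
  have g2 := fun r => rgen2_sub P (l := l) (F := fun _ => 0) (G := fun _ => 0)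
    (E1 := E1 P H m) contDiff_const (E2_cd P hH m 2) (-c⁻¹) r
  simp only [rgen1_zero, rgen2_zero, zero_sub, neg_mul, neg_neg] at g1 g2
  exact
  { sharm := hH
    nrm := hn
    cF := contDiff_const.mul d1
    cG := contDiff_const.mul d2
    pF := fun r => by
      rw [E1_par P hH]; ring
    pG := fun r => by
      rw [E2_par P hH]; ring
    xF := by
      rw [modeFn_smul]
      exact inX_smul _ (E1_inX P hH m N0)
    xG := by
      rw [modeFn_smul]
      exact inX_smul _ (E2_inX P hH m N0)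
    eqF := fun r hr => by
      rw [g1 r, E_eq1 P hH m hr]; ring
    eqG := fun r hr => by
      rw [g2 r, E_eq2 P hH m hr]; simp only [map_zero]; ring }

theorem dq_odd {n : ℕ} (P : Profile n) (r : ℝ) : deriv P.q (-r) = -deriv P.q r := by
  have h := CInst.hd_q P (-r)
  have h1 : HasDerivAt (fun r : ℝ => P.q (-r)) (-deriv P.q (-r)) r := by
    have h5 := h.scomp r (hasDerivAt_neg r)
    rw [neg_one_smul] at h5
    exact h5
  have e : (fun r : ℝ => P.q (-r)) = P.q := funext (CInst.q_even P)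
  rw [e] at h1
  have h2 := h1.unique (CInst.hd_q P r)
  rw [← h2, neg_neg]

theorem symStmt : SymStmt := by
  intro n P l ls e H hs hH hn
  have cq : Continuous P.q := CInst.cq P
  have cdq : Continuous (deriv P.q) := CInst.cd_q P
  rcases hs with ⟨hl, hls, he⟩ | ⟨hl, hls, he⟩ | ⟨hl, hls, he⟩
  · subst hl hls he
    have h := pair_of P hH hn none (m0_ne hH hn) (m0_conj H) (e := fun r => I * P.q r)
      (continuous_const.mul cq) (fun r => by simp [CInst.q_even P r]) (fun r hr => E1_phase P H hr)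
    exact h
  · subst hl hls he
    have hc : Continuous P.rtime := CInst.c_rtime P
    have h := pair_of P hH hn (some none) (m0_ne hH hn) (m0_conj H) (e := P.rtime) hc
      (fun r => by
        unfold Profile.rtime
        rw [CInst.q_even P r, dq_odd]
        push_cast
        ring) (fun r hr => E1_time P H hr)
    exact h
  · subst hl hls he
    obtain ⟨j, hj⟩ := m1_ne hH hn
    have h := pair_of P hH hn (some (some j)) hj (m1_conj H j) (e := deriv P.q) cdq
      (fun r => by rw [dq_odd]; ring) (fun r hr => E1_tr P H j hr)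
    exact h

end Crest.Agent.R086.CSym
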