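import Crest.Agent.R086.CExId
import Crest.Agent.R086.C2Bd

-- ▼ part R086/CaseIIIa
section

/-!
Row 86 (S0114), Part C, regime (R3), CASE III: integral estimates (owner helper153).
-/

set_option autoImplicit false

open Complex ComplexConjugate MeasureTheory Set Filter Topology

namespace Crest.Agent.R086.CEx.III

open CCore CEx

section gen

variable {w : ℝ → ℝ} {f g : ℝ → ℂ} {R A t : ℝ}

theorem ii_mono {f g : ℝ → ℝ} (hR : 0 < R) (hf : BC R f) (hg : BC R g)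
    (h : ∀ r ∈ Ioc 0 R, f r ≤ g r) :
    ∫ r in (0 : ℝ)..R, f r ≤ ∫ r in (0 : ℝ)..R, g r := by
  rw [intervalIntegral.integral_of_le hR.le, intervalIntegral.integral_of_le hR.le]
  exact setIntegral_mono_on ((intervalIntegrable_iff_integrableOn_Ioc_of_le hR.le).1
    (hf.intble hR)) ((intervalIntegrable_iff_integrableOn_Ioc_of_le hR.le).1
    (hg.intble hR)) measurableSet_Ioc h

theorem ii_nonneg {f : ℝ → ℝ} (hR : 0 < R) (h : ∀ r ∈ Ioc 0 R, 0 ≤ f r) :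
    0 ≤ ∫ r in (0 : ℝ)..R, f r := by
  rw [intervalIntegral.integral_of_le hR.le]
  exact setIntegral_nonneg measurableSet_Ioc h

theorem L2_nonneg (hR : 0 < R) (hw : ∀ r ∈ Ioc 0 R, 0 ≤ w r) : 0 ≤ L2 w f R :=
  ii_nonneg hR fun r hr => mul_nonneg (hw r hr) (by positivity)


theorem young (hR : 0 < R) (hw : BC R w) (hw0 : ∀ r ∈ Ioc 0 R, 0 ≤ w r) {F : ℝ → ℂ}
    (hF : ∀ r ∈ Ioc 0 R, ‖F r‖ ≤ A * (w r * (‖f r‖ * ‖g r‖))) (hA : 0 ≤ A)
    (hf : BC R f) (hg : BC R g) (ht : 0 < t) :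
    ‖∫ r in (0 : ℝ)..R, F r‖ ≤ A / 2 * (t * L2 w f R + t⁻¹ * L2 w g R) := by
  have b1 : BC R (fun r => w r * ‖f r‖ ^ 2) := hw.mulR hf.normSq
  have b2 : BC R (fun r => w r * ‖g r‖ ^ 2) := hw.mulR hg.normSq
  have b3 : BC R (fun r => A / 2 * (t * (w r * ‖f r‖ ^ 2) + t⁻¹ * (w r * ‖g r‖ ^ 2))) :=
    (BC.const (A / 2)).mulR (((BC.const t).mulR b1).add ((BC.const t⁻¹).mulR b2))
  have h1 : ‖∫ r in (0 : ℝ)..R, F r‖
      ≤ ∫ r in (0 : ℝ)..R, A / 2 * (t * (w r * ‖f r‖ ^ 2) + t⁻¹ * (w r * ‖g r‖ ^ 2)) := by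
    refine intervalIntegral.norm_integral_le_of_norm_le hR.le ?_ (b3.intble hR)
    refine ae_of_all _ fun r hr => ?_
    refine (hF r hr).trans ?_
    have hw1 := hw0 r hr
    have hab : ‖f r‖ * ‖g r‖ ≤ (t * ‖f r‖ ^ 2 + t⁻¹ * ‖g r‖ ^ 2) / 2 := by
      have h3 : t⁻¹ * ((t * ‖f r‖ - ‖g r‖) ^ 2)
          = t * ‖f r‖ ^ 2 + t⁻¹ * ‖g r‖ ^ 2 - 2 * (‖f r‖ * ‖g r‖) := by
        field_simp
        ring
      have h4 : 0 ≤ t⁻¹ * ((t * ‖f r‖ - ‖g r‖) ^ 2) := by positivity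
      linarith
    calc A * (w r * (‖f r‖ * ‖g r‖))
        ≤ A * (w r * ((t * ‖f r‖ ^ 2 + t⁻¹ * ‖g r‖ ^ 2) / 2)) := by gcongr
      _ = A / 2 * (t * (w r * ‖f r‖ ^ 2) + t⁻¹ * (w r * ‖g r‖ ^ 2)) := by ring
  refine h1.trans (le_of_eq ?_)
  rw [intervalIntegral.integral_const_mul, intervalIntegral.integral_add
    (((BC.const t).mulR b1).intble hR) (((BC.const t⁻¹).mulR b2).intble hR),
    intervalIntegral.integral_const_mul, intervalIntegral.integral_const_mul]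
  rfl

/-- zero integral of a nonnegative continuous function -/
theorem eq_zero_of_L2 (hR : 0 < R) (hw : BC R w) (hw0 : ∀ r ∈ Ioc 0 R, 0 < w r)
    (hf : BC R f) (h : L2 w f R ≤ 0) : ∀ r ∈ Ioc 0 R, f r = 0 := by
  have b1 : BC R (fun r => w r * ‖f r‖ ^ 2) := hw.mulR hf.normSq
  intro r hr
  by_contra hne
  have hpos : 0 < w r * ‖f r‖ ^ 2 := mul_pos (hw0 r hr) (by positivity)
  -- on a small interval to the left of `r` the integrand is at least half of this value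
  have hc := b1.1 r hr
  have hev : ∀ᶠ x in 𝓝[Ioc 0 R] r, w r * ‖f r‖ ^ 2 / 2 < w x * ‖f x‖ ^ 2 :=
    hc.eventually (lt_mem_nhds (by linarith))
  have hev2 : ∀ᶠ x in 𝓝[<] r, w r * ‖f r‖ ^ 2 / 2 < w x * ‖f x‖ ^ 2 := by
    have h1 : 𝓝[Ioo 0 r] r ≤ 𝓝[Ioc 0 R] r :=
      nhdsWithin_mono _ fun x hx => ⟨hx.1, hx.2.le.trans hr.2⟩
    rw [nhdsWithin_Ioo_eq_nhdsLT hr.1] at h1
    exact h1 hev
  obtain ⟨a, ha, hab⟩ := (mem_nhdsLT_iff_exists_Ioo_subset' hr.1).1 hev2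
  have ha0 : max a 0 < r := max_lt ha hr.1
  have hii := b1.intble hR
  have hsplit : ∫ x in (0 : ℝ)..R, w x * ‖f x‖ ^ 2
      = (∫ x in (0 : ℝ)..(max a 0), w x * ‖f x‖ ^ 2) + (∫ x in (max a 0)..r, w x * ‖f x‖ ^ 2)
        + ∫ x in r..R, w x * ‖f x‖ ^ 2 := by
    have m0 : (0 : ℝ) ≤ max a 0 := le_max_right _ _
    have i1 : IntervalIntegrable (fun x => w x * ‖f x‖ ^ 2) volume 0 (max a 0) :=
      hii.mono_set (by
        rw [uIcc_of_le m0, uIcc_of_le hR.le]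
        exact Icc_subset_Icc le_rfl (ha0.le.trans hr.2))
    have i2 : IntervalIntegrable (fun x => w x * ‖f x‖ ^ 2) volume (max a 0) r :=
      hii.mono_set (by
        rw [uIcc_of_le ha0.le, uIcc_of_le hR.le]
        exact Icc_subset_Icc m0 hr.2)
    have i3 : IntervalIntegrable (fun x => w x * ‖f x‖ ^ 2) volume r R :=
      hii.mono_set (by
        rw [uIcc_of_le hr.2, uIcc_of_le hR.le]
        exact Icc_subset_Icc hr.1.le le_rfl)
    rw [intervalIntegral.integral_add_adjacent_intervals i1 i2,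
      intervalIntegral.integral_add_adjacent_intervals (i1.trans i2) i3]
  have n1 : 0 ≤ ∫ x in (0 : ℝ)..(max a 0), w x * ‖f x‖ ^ 2 := by
    rw [intervalIntegral.integral_of_le (le_max_right _ _)]
    refine setIntegral_nonneg measurableSet_Ioc fun x hx => ?_
    have := hw0 x ⟨hx.1, hx.2.trans (ha0.le.trans hr.2)⟩
    positivity
  have n3 : 0 ≤ ∫ x in r..R, w x * ‖f x‖ ^ 2 := by
    rw [intervalIntegral.integral_of_le hr.2]
    refine setIntegral_nonneg measurableSet_Ioc fun x hx => ?_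
    have := hw0 x ⟨hr.1.trans hx.1, hx.2⟩
    positivity
  have n2 : (r - max a 0) * (w r * ‖f r‖ ^ 2 / 2) ≤ ∫ x in (max a 0)..r, w x * ‖f x‖ ^ 2 := by
    have e : ∫ x in (max a 0)..r, (w r * ‖f r‖ ^ 2 / 2) = (r - max a 0) * (w r * ‖f r‖ ^ 2 / 2) := by
      rw [intervalIntegral.integral_const, smul_eq_mul]
    rw [← e, intervalIntegral.integral_of_le ha0.le, intervalIntegral.integral_of_le ha0.le]
    refine setIntegral_mono_on ?_ ?_ measurableSet_Ioc fun x hx => ?_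
    · exact integrableOn_const (by simp)
    · refine ((intervalIntegrable_iff_integrableOn_Ioc_of_le hR.le).1 hii).mono_set ?_
      exact Ioc_subset_Ioc (le_max_right _ _) hr.2
    · rcases eq_or_lt_of_le hx.2 with h1 | h1
      · rw [h1]; linarith
      · exact (le_of_lt (hab ⟨(le_max_left _ _).trans_lt hx.1, h1⟩))
  have : 0 < (r - max a 0) * (w r * ‖f r‖ ^ 2 / 2) :=
    mul_pos (by linarith) (by linarith)
  unfold L2 at h
  rw [hsplit] at h
  linarith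

end gen

section poinc
variable {w m rho : ℝ → ℝ} {T T1 : ℝ → ℂ} {R A : ℝ}

/-- Poincaré from `(m w)' = 12 w`. -/
theorem poinc (hR : 0 < R) (hA : 0 < A)
    (hw : BC R w) (hw0 : ∀ r ∈ Ioc 0 R, 0 ≤ w r) (hwt : Tendsto w (𝓝[>] 0) (𝓝 0))
    (hm : BC R m) (hmA : ∀ r ∈ Ioc 0 R, |m r| ≤ A)
    (dm : ∀ r ∈ Ioc 0 R, HasDerivAt m (12 - m r * (11 / r + 2 * rho r)) r)
    (dw : ∀ r ∈ Ioc 0 R, HasDerivAt w (w r * (11 / r + 2 * rho r)) r)
    (hT : BC R T) (hT1 : BC R T1) (dT : ∀ r ∈ Ioc 0 R, HasDerivAt T (T1 r) r) :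
    6 * L2 w T R ≤ A * (w R * ‖T R‖ ^ 2) + A ^ 2 / 6 * L2 w T1 R := by
  have b1 : BC R (fun r => w r * ‖T r‖ ^ 2) := hw.mulR hT.normSq
  have b2 : BC R (fun r => (m r * w r) * (conj (T r) * T1 r).re) :=
    (hm.mulR hw).mulR (hT.cj.mulC hT1).re
  have b2c : BC R (fun r => ((m r * w r : ℝ) : ℂ) * (conj (T r) * T1 r)) :=
    (hm.mulR hw).ofReal.mulC (hT.cj.mulC hT1)
  have key := ftc0 (f := fun r => w r * (m r * ‖T r‖ ^ 2))
    (f' := fun r => 12 * (w r * ‖T r‖ ^ 2) + 2 * ((m r * w r) * (conj (T r) * T1 r).re)) hR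
    (fun r hr => by
      have h1 := (dw r hr).mul ((dm r hr).mul (dT r hr).norm_sq)
      refine h1.congr_deriv ?_
      rw [Complex.inner]
      have e : (T1 r * conj (T r)).re = (conj (T r) * T1 r).re := by rw [mul_comm]
      rw [e]
      simp only [Pi.mul_apply]
      ring)
    (((BC.const (12 : ℝ)).mulR b1).add ((BC.const (2 : ℝ)).mulR b2))
    (by
      have h2 := BC.tendsto_zero_mulR hR (hm.mulR hT.normSq) hwt
      exact h2)
  have hre : ∫ r in (0 : ℝ)..R, (m r * w r) * (conj (T r) * T1 r).re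
      = (∫ r in (0 : ℝ)..R, ((m r * w r : ℝ) : ℂ) * (conj (T r) * T1 r)).re := by
    have h3 := (Complex.reCLM.intervalIntegral_comp_comm (b2c.intble hR))
    simp only [Complex.reCLM_apply] at h3
    rw [← h3]
    congr 1
    funext r
    rw [Complex.re_ofReal_mul]
  rw [intervalIntegral.integral_add (((BC.const (12 : ℝ)).mulR b1).intble hR)
      (((BC.const (2 : ℝ)).mulR b2).intble hR),
    intervalIntegral.integral_const_mul, intervalIntegral.integral_const_mul, hre] at key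
  have hy := young (A := A) (t := 6 / A) (f := T) (g := T1)
    (F := fun r => ((m r * w r : ℝ) : ℂ) * (conj (T r) * T1 r)) hR hw hw0 (fun r hr => by
      rw [norm_mul, norm_mul, RCLike.norm_conj, Complex.norm_real, Real.norm_eq_abs, abs_mul,
        abs_of_nonneg (hw0 r hr)]
      have := hmA r hr
      have h0 := hw0 r hr
      calc |m r| * w r * (‖T r‖ * ‖T1 r‖) ≤ A * w r * (‖T r‖ * ‖T1 r‖) := by gcongr
        _ = A * (w r * (‖T r‖ * ‖T1 r‖)) := by ring) hA.le hT hT1 (by positivity)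
  have hre2 := neg_abs_le (∫ r in (0 : ℝ)..R, ((m r * w r : ℝ) : ℂ) * (conj (T r) * T1 r)).re
  have hre3 := Complex.abs_re_le_norm
    (∫ r in (0 : ℝ)..R, ((m r * w r : ℝ) : ℂ) * (conj (T r) * T1 r))
  have e1 : 2 * (A / 2 * (6 / A * L2 w T R + (6 / A)⁻¹ * L2 w T1 R))
      = 6 * L2 w T R + A ^ 2 / 6 * L2 w T1 R := by
    field_simp
  have hwR := hw0 R ⟨hR, le_rfl⟩
  have e2 : w R * (m R * ‖T R‖ ^ 2) ≤ A * (w R * ‖T R‖ ^ 2) := by
    have := (le_abs_self _).trans (hmA R ⟨hR, le_rfl⟩)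
    calc w R * (m R * ‖T R‖ ^ 2) = m R * (w R * ‖T R‖ ^ 2) := by ring
      _ ≤ _ := mul_le_mul_of_nonneg_right this (by positivity)
  have e3 : L2 w T R = ∫ r in (0 : ℝ)..R, w r * ‖T r‖ ^ 2 := rfl
  rw [← e3] at key
  linarith

end poinc

end Crest.Agent.R086.CEx.III
end

-- ▼ part R086/CaseIIIb

/-!
Row 86 (S0114), Part C, regime (R3), CASE III: identity (b), virial lower bound (owner helper153).
-/

set_option autoImplicit false

open Complex ComplexConjugate MeasureTheory Set Filter Topology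

namespace Crest.Agent.R086.CEx.III

open CCore CEx

theorem _root_.Crest.Agent.R086.CCore.BC.cgr {E : Type*} [NormedAddCommGroup E] {R : ℝ} {f g : ℝ → E} (hf : BC R f)
    (h : ∀ r ∈ Ioc 0 R, g r = f r) : BC R g := by
  obtain ⟨cf, A, hA⟩ := hf
  exact ⟨cf.congr h, A, fun r hr => by rw [h r hr]; exact hA r hr⟩

section main

variable {w b P P1 rho m : ℝ → ℝ} {C0 e n rb Lam eps : ℝ} {lam : ℂ} {S S1 D D1 : ℝ → ℂ}

theorem wpos (hc : Coef w b P P1 rho m C0 e n rb) : ∀ r ∈ Ioc 0 rb, 0 < w r := fun r hr => by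
  have h1 := hc.wlo r hr
  have h2 : 0 < r ^ 11 / C0 := div_pos (pow_pos hr.1 _) (lt_of_lt_of_le one_pos hc.C0_one)
  linarith

theorem rbpos (hc : Coef w b P P1 rho m C0 e n rb) : 0 < rb := lt_of_lt_of_le one_pos hc.rb_lo

theorem m_nonneg (hc : Coef w b P P1 rho m C0 e n rb) : ∀ r ∈ Ioc 0 rb, 0 ≤ m r := fun r hr =>
  le_trans (div_nonneg hr.1.le (le_trans zero_le_one hc.C0_one)) (hc.m_lo r hr)

theorem m_le (hc : Coef w b P P1 rho m C0 e n rb) : ∀ r ∈ Ioc 0 rb, m r ≤ C0 ^ 2 := fun r hr => by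
  have h1 := hc.m_hi r hr
  have h0 := hc.C0_one
  calc m r ≤ C0 * r := h1
    _ ≤ C0 * C0 := by
      have : r ≤ C0 := hr.2.trans hc.rb_hi
      nlinarith
    _ = C0 ^ 2 := by ring

theorem b_le (hc : Coef w b P P1 rho m C0 e n rb) : ∀ r ∈ Ioc 0 rb, |b r| ≤ C0 ^ 2 :=
  fun r hr => by
  have h1 := hc.bhi r hr
  have h0 := hc.C0_one
  calc |b r| ≤ C0 * r := h1
    _ ≤ C0 * C0 := by
      have : r ≤ C0 := hr.2.trans hc.rb_hi
      nlinarith
    _ = C0 ^ 2 := by ring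

theorem bcm (hc : Coef w b P P1 rho m C0 e n rb) : BC rb m :=
  ⟨fun r hr => (hc.m_der r hr).continuousAt.continuousWithinAt, C0 ^ 2, fun r hr => by
    rw [Real.norm_eq_abs, abs_of_nonneg (m_nonneg hc r hr)]
    exact m_le hc r hr⟩


theorem poincS (hc : Coef w b P P1 rho m C0 e n rb)
    (hs : Sol w b P rho Lam n eps lam S S1 D D1 rb) :
    6 * L2 w S rb ≤ C0 ^ 2 * (w rb * ‖S rb‖ ^ 2) + (C0 ^ 2) ^ 2 / 6 * L2 w S1 rb := by
  have h := sysOn hc hs
  have h0 := hc.C0_one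
  exact poinc h.Rpos (by positivity) h.bcw (fun r hr => (wpos hc r hr).le) h.w0 (bcm hc)
    (fun r hr => by rw [abs_of_nonneg (m_nonneg hc r hr)]; exact m_le hc r hr)
    hc.m_der (fun r hr => (hs.sys r hr).hw) h.bcS h.bcS1 (fun r hr => (hs.sys r hr).hS)

theorem poincD (hc : Coef w b P P1 rho m C0 e n rb)
    (hs : Sol w b P rho Lam n eps lam S S1 D D1 rb) :
    6 * L2 w D rb ≤ C0 ^ 2 * (w rb * ‖D rb‖ ^ 2) + (C0 ^ 2) ^ 2 / 6 * L2 w D1 rb := by
  have h := sysOn hc hs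
  have h0 := hc.C0_one
  exact poinc h.Rpos (by positivity) h.bcw (fun r hr => (wpos hc r hr).le) h.w0 (bcm hc)
    (fun r hr => by rw [abs_of_nonneg (m_nonneg hc r hr)]; exact m_le hc r hr)
    hc.m_der (fun r hr => (hs.sys r hr).hw) h.bcD h.bcD1 (fun r hr => (hs.sys r hr).hD)

theorem bKS (hc : Coef w b P P1 rho m C0 e n rb)
    (hs : Sol w b P rho Lam n eps lam S S1 D D1 rb) :
    BC rb (fun r => w r * (‖S1 r‖ ^ 2 + Lam / r ^ 2 * ‖S r‖ ^ 2)) :=
  SysOn.bcK (sysOn hc hs).bcw ((sysOn hc hs).bcwj 2 (by norm_num)) (sysOn hc hs).bcS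
    (sysOn hc hs).bcS1 Lam

theorem bKD (hc : Coef w b P P1 rho m C0 e n rb)
    (hs : Sol w b P rho Lam n eps lam S S1 D D1 rb) :
    BC rb (fun r => w r * (‖D1 r‖ ^ 2 + Lam / r ^ 2 * ‖D r‖ ^ 2)) :=
  SysOn.bcK (sysOn hc hs).bcw ((sysOn hc hs).bcwj 2 (by norm_num)) (sysOn hc hs).bcD
    (sysOn hc hs).bcD1 Lam

theorem S1_le_KK (hc : Coef w b P P1 rho m C0 e n rb)
    (hs : Sol w b P rho Lam n eps lam S S1 D D1 rb) : L2 w S1 rb ≤ KK w Lam S S1 rb := by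
  have h := sysOn hc hs
  refine ii_mono h.Rpos (h.bcw.mulR h.bcS1.normSq) (bKS hc hs) fun r hr => ?_
  have h1 := wpos hc r hr
  have h2 := hs.Lam_nonneg
  have h3 := hr.1
  have h4 : 0 ≤ Lam / r ^ 2 * ‖S r‖ ^ 2 := by positivity
  exact mul_le_mul_of_nonneg_left (by linarith) h1.le

theorem D1_le_KK (hc : Coef w b P P1 rho m C0 e n rb)
    (hs : Sol w b P rho Lam n eps lam S S1 D D1 rb) : L2 w D1 rb ≤ KK w Lam D D1 rb := by
  have h := sysOn hc hs
  refine ii_mono h.Rpos (h.bcw.mulR h.bcD1.normSq) (bKD hc hs) fun r hr => ?_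
  have h1 := wpos hc r hr
  have h2 := hs.Lam_nonneg
  have h3 := hr.1
  have h4 : 0 ≤ Lam / r ^ 2 * ‖D r‖ ^ 2 := by positivity
  exact mul_le_mul_of_nonneg_left (by linarith) h1.le

theorem KKS_nonneg (hc : Coef w b P P1 rho m C0 e n rb)
    (hs : Sol w b P rho Lam n eps lam S S1 D D1 rb) : 0 ≤ KK w Lam S S1 rb := by
  have h := sysOn hc hs
  exact (L2_nonneg h.Rpos fun r hr => (wpos hc r hr).le).trans (S1_le_KK hc hs)

theorem KKD_nonneg (hc : Coef w b P P1 rho m C0 e n rb)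
    (hs : Sol w b P rho Lam n eps lam S S1 D D1 rb) : 0 ≤ KK w Lam D D1 rb := by
  have h := sysOn hc hs
  exact (L2_nonneg h.Rpos fun r hr => (wpos hc r hr).le).trans (D1_le_KK hc hs)

theorem Pot_nonneg (hc : Coef w b P P1 rho m C0 e n rb) : 0 ≤ Pot w P n S rb := by
  refine ii_nonneg (rbpos hc) fun r hr => ?_
  have h1 := wpos hc r hr
  have h2 := hc.P_nonneg r hr
  have h3 := hc.n_one
  have h4 : 0 ≤ n := by linarith
  positivity

/-- identity (b): the `D` equation tested with `conj S` -/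
theorem idb (hc : Coef w b P P1 rho m C0 e n rb)
    (hs : Sol w b P rho Lam n eps lam S S1 D D1 rb) :
    (w rb : ℂ) * (conj (S rb) * D1 rb) =
      (∫ r in (0 : ℝ)..rb, ((w r : ℂ) * (conj (S1 r) * D1 r)
        + ((w r / r ^ 2 * Lam : ℝ) : ℂ) * (conj (S r) * D r)))
      - I * AA w b S S1 rb - I * lam * (L2 w S rb : ℂ) := by
  have h := sysOn hc hs
  have hR := h.Rpos
  have b1 : BC rb (fun r => (w r : ℂ) * (conj (S1 r) * D1 r)) :=
    h.bcw.ofReal.mulC (h.bcS1.cj.mulC h.bcD1)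
  have b2 : BC rb (fun r => ((w r / r ^ 2 * Lam : ℝ) : ℂ) * (conj (S r) * D r)) :=
    (((h.bcwj 2 (by norm_num)).mulR (BC.const Lam)).ofReal).mulC (h.bcS.cj.mulC h.bcD)
  have b3 : BC rb (fun r => ((w r * b r : ℝ) : ℂ) * (conj (S r) * S1 r)) :=
    (h.bcw.mulR h.bcb).ofReal.mulC (h.bcS.cj.mulC h.bcS1)
  have b4 : BC rb (fun r => ((w r * ‖S r‖ ^ 2 : ℝ) : ℂ)) := (h.bcw.mulR h.bcS.normSq).ofReal
  have key := ftc0 (f := fun r => (w r : ℂ) * (conj (S r) * D1 r))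
    (f' := fun r => (((w r : ℂ) * (conj (S1 r) * D1 r)
        + ((w r / r ^ 2 * Lam : ℝ) : ℂ) * (conj (S r) * D r))
      - I * (((w r * b r : ℝ) : ℂ) * (conj (S r) * S1 r)))
      - I * lam * ((w r * ‖S r‖ ^ 2 : ℝ) : ℂ)) hR
    (fun r hr => by
      have h1 := (h.sys r hr).hD1.mul (hasDerivAt_conj (h.sys r hr).hS)
      have e : (fun r => (w r : ℂ) * (conj (S r) * D1 r)) =
          (fun r => ((w r : ℂ) * D1 r)) * (fun r => conj (S r)) := by
        funext x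
        simp only [Pi.mul_apply]
        ring
      rw [e]
      refine h1.congr_deriv ?_
      rw [Complex.ofReal_mul (w r) (‖S r‖ ^ 2), ← SysOn.cns]
      push_cast
      ring)
    (((b1.add b2).sub ((BC.const I).mulC b3)).sub ((BC.const (I * lam)).mulC b4))
    (h.w0C (h.bcS.cj.mulC h.bcD1))
  rw [← key, intervalIntegral.integral_sub
      (((b1.add b2).sub ((BC.const I).mulC b3)).intble hR)
      (((BC.const (I * lam)).mulC b4).intble hR),
    intervalIntegral.integral_sub ((b1.add b2).intble hR) (((BC.const I).mulC b3).intble hR),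
    intervalIntegral.integral_const_mul, intervalIntegral.integral_const_mul,
    intervalIntegral.integral_ofReal]
  rfl

theorem idb_bd (hc : Coef w b P P1 rho m C0 e n rb)
    (hs : Sol w b P rho Lam n eps lam S S1 D D1 rb) {t : ℝ} (ht : 0 < t) :
    ‖lam‖ * L2 w S rb ≤ (KK w Lam S S1 rb + KK w Lam D D1 rb) / 2
      + C0 ^ 2 / 2 * (t * L2 w S rb + t⁻¹ * KK w Lam S S1 rb)
      + w rb * (‖S rb‖ * ‖D1 rb‖) := by
  have h := sysOn hc hs
  have hR := h.Rpos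
  have h0 := hc.C0_one
  have hL0 : 0 ≤ L2 w S rb := L2_nonneg hR fun r hr => (wpos hc r hr).le
  have h1 : ‖∫ r in (0 : ℝ)..rb, ((w r : ℂ) * (conj (S1 r) * D1 r)
        + ((w r / r ^ 2 * Lam : ℝ) : ℂ) * (conj (S r) * D r))‖
      ≤ (KK w Lam S S1 rb + KK w Lam D D1 rb) / 2 := by
    have e1 : (KK w Lam S S1 rb + KK w Lam D D1 rb) / 2
        = ∫ r in (0 : ℝ)..rb, (w r * (‖S1 r‖ ^ 2 + Lam / r ^ 2 * ‖S r‖ ^ 2)
          + w r * (‖D1 r‖ ^ 2 + Lam / r ^ 2 * ‖D r‖ ^ 2)) / 2 := by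
      rw [intervalIntegral.integral_div, intervalIntegral.integral_add
        ((bKS hc hs).intble hR) ((bKD hc hs).intble hR)]
      rfl
    rw [e1]
    refine intervalIntegral.norm_integral_le_of_norm_le hR.le ?_ ?_
    · refine ae_of_all _ fun r hr => ?_
      have hw := wpos hc r hr
      have hr0 := hr.1
      have hL := hs.Lam_nonneg
      refine (norm_add_le _ _).trans ?_
      rw [norm_mul, norm_mul, norm_mul, norm_mul, RCLike.norm_conj, RCLike.norm_conj,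
        Complex.norm_real, Complex.norm_real, Real.norm_eq_abs, Real.norm_eq_abs,
        abs_of_pos hw, abs_of_nonneg (by positivity : 0 ≤ w r / r ^ 2 * Lam)]
      have a1 : ‖S1 r‖ * ‖D1 r‖ ≤ (‖S1 r‖ ^ 2 + ‖D1 r‖ ^ 2) / 2 := by
        nlinarith [sq_nonneg (‖S1 r‖ - ‖D1 r‖)]
      have a2 : ‖S r‖ * ‖D r‖ ≤ (‖S r‖ ^ 2 + ‖D r‖ ^ 2) / 2 := by
        nlinarith [sq_nonneg (‖S r‖ - ‖D r‖)]
      calc w r * (‖S1 r‖ * ‖D1 r‖) + w r / r ^ 2 * Lam * (‖S r‖ * ‖D r‖)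
          ≤ w r * ((‖S1 r‖ ^ 2 + ‖D1 r‖ ^ 2) / 2)
            + w r / r ^ 2 * Lam * ((‖S r‖ ^ 2 + ‖D r‖ ^ 2) / 2) := by gcongr
        _ = _ := by ring
    · exact BC.intble (by
        have := (BC.const (1 / 2 : ℝ)).mulR ((bKS hc hs).add (bKD hc hs))
        refine this.cgr fun r _ => ?_
        ring) hR
  have h2 : ‖AA w b S S1 rb‖ ≤ C0 ^ 2 / 2 * (t * L2 w S rb + t⁻¹ * L2 w S1 rb) := by
    unfold AA
    refine young hR h.bcw (fun r hr => (wpos hc r hr).le) (fun r hr => ?_) (by positivity)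
      h.bcS h.bcS1 ht
    have hw := wpos hc r hr
    rw [norm_mul, norm_mul, RCLike.norm_conj, Complex.norm_real, Real.norm_eq_abs, abs_mul,
      abs_of_pos hw]
    have := b_le hc r hr
    calc w r * |b r| * (‖S r‖ * ‖S1 r‖) ≤ w r * C0 ^ 2 * (‖S r‖ * ‖S1 r‖) := by gcongr
      _ = _ := by ring
  have h3 := S1_le_KK hc hs
  have h4 : C0 ^ 2 / 2 * (t * L2 w S rb + t⁻¹ * L2 w S1 rb)
      ≤ C0 ^ 2 / 2 * (t * L2 w S rb + t⁻¹ * KK w Lam S S1 rb) := by gcongr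
  have hid := idb hc hs
  have h5 : I * lam * (L2 w S rb : ℂ) =
      (∫ r in (0 : ℝ)..rb, ((w r : ℂ) * (conj (S1 r) * D1 r)
        + ((w r / r ^ 2 * Lam : ℝ) : ℂ) * (conj (S r) * D r)))
      - I * AA w b S S1 rb - (w rb : ℂ) * (conj (S rb) * D1 rb) := by
    rw [hid]; ring
  have h6 : ‖I * lam * (L2 w S rb : ℂ)‖ = ‖lam‖ * L2 w S rb := by
    rw [norm_mul, norm_mul, Complex.norm_I, one_mul, Complex.norm_real, Real.norm_eq_abs,
      abs_of_nonneg hL0]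
  have h7 : ‖(w rb : ℂ) * (conj (S rb) * D1 rb)‖ = w rb * (‖S rb‖ * ‖D1 rb‖) := by
    rw [norm_mul, norm_mul, RCLike.norm_conj, Complex.norm_real, Real.norm_eq_abs,
      abs_of_pos (wpos hc rb ⟨hR, le_rfl⟩)]
  have h8 : ‖I * AA w b S S1 rb‖ = ‖AA w b S S1 rb‖ := by
    rw [norm_mul, Complex.norm_I, one_mul]
  rw [← h6, h5]
  refine (norm_sub_le _ _).trans ?_
  rw [h7]
  refine add_le_add ((norm_sub_le _ _).trans (add_le_add h1 ?_)) le_rfl
  rw [h8]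
  exact h2.trans h4

theorem bPot (hc : Coef w b P P1 rho m C0 e n rb)
    (hs : Sol w b P rho Lam n eps lam S S1 D D1 rb) :
    BC rb (fun r => n * P r * w r * ‖S r‖ ^ 2) :=
  (((BC.const n).mulR (sysOn hc hs).bcP).mulR (sysOn hc hs).bcw).mulR (sysOn hc hs).bcS.normSq

/-- lower bound of the virial form -/
theorem vir_ge (hc : Coef w b P P1 rho m C0 e n rb)
    (hs : Sol w b P rho Lam n eps lam S S1 D D1 rb) :
    (KK w Lam S S1 rb + KK w Lam D D1 rb) / C0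
      - e * C0 ^ 2 / 2 * (Pot w P n S rb + L2 w S rb) ≤ Vir w rho m P1 Lam n S S1 D D1 rb := by
  have h := sysOn hc hs
  have hR := h.Rpos
  have h0 := hc.C0_one
  have C0p : 0 < C0 := by linarith
  have he := hc.e_nonneg
  have cm' : ContinuousOn (fun r => 12 - m r * (11 / r + 2 * rho r)) (Ioc 0 rb) := by
    have h1 : ContinuousOn (fun r : ℝ => 11 / r) (Ioc 0 rb) :=
      continuousOn_const.div continuousOn_id (fun r hr => hr.1.ne')
    exact continuousOn_const.sub ((bcm hc).1.mul (h1.add (continuousOn_const.mul hc.rhocont)))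
  have bm' : BC rb (fun r => 12 - m r * (11 / r + 2 * rho r)) := ⟨cm', C0, fun r hr => by
    have h1 := hc.m1_lo r hr
    have h2 : 0 ≤ 12 - m r * (11 / r + 2 * rho r) := le_trans (by positivity) h1
    rw [Real.norm_eq_abs, abs_of_nonneg h2]
    exact hc.m1_hi r hr⟩
  have bI1 : BC rb (fun r => w r * ((12 - m r * (11 / r + 2 * rho r)) *
        (‖S1 r‖ ^ 2 + ‖D1 r‖ ^ 2) + Lam * (m r / r) / r ^ 2 * (‖S r‖ ^ 2 + ‖D r‖ ^ 2))) := by
    have b1 := (h.bcw.mulR bm').mulR (h.bcS1.normSq.add h.bcD1.normSq)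
    have b2 := (((BC.const Lam).mulR ((h.bcwj 3 (by norm_num)).mulR (bcm hc)))).mulR
      (h.bcS.normSq.add h.bcD.normSq)
    refine (b1.add b2).cgr fun r hr => ?_
    have := hr.1.ne'
    field_simp
  have e1 : (KK w Lam S S1 rb + KK w Lam D D1 rb) / C0
      = ∫ r in (0 : ℝ)..rb, (w r * (‖S1 r‖ ^ 2 + Lam / r ^ 2 * ‖S r‖ ^ 2)
        + w r * (‖D1 r‖ ^ 2 + Lam / r ^ 2 * ‖D r‖ ^ 2)) / C0 := by
    rw [intervalIntegral.integral_div, intervalIntegral.integral_add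
      ((bKS hc hs).intble hR) ((bKD hc hs).intble hR)]
    rfl
  have l1 : (KK w Lam S S1 rb + KK w Lam D D1 rb) / C0
      ≤ ∫ r in (0 : ℝ)..rb, w r * ((12 - m r * (11 / r + 2 * rho r)) *
        (‖S1 r‖ ^ 2 + ‖D1 r‖ ^ 2) + Lam * (m r / r) / r ^ 2 * (‖S r‖ ^ 2 + ‖D r‖ ^ 2)) := by
    rw [e1]
    refine ii_mono hR ?_ bI1 fun r hr => ?_
    · have := (BC.const (1 / C0 : ℝ)).mulR ((bKS hc hs).add (bKD hc hs))
      refine this.cgr fun r _ => ?_
      ring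
    · have hw := wpos hc r hr
      have hr0 := hr.1
      have hL := hs.Lam_nonneg
      have m1 := hc.m1_lo r hr
      have m2 : 1 / C0 ≤ m r / r := by
        rw [le_div_iff₀ hr0]
        have := hc.m_lo r hr
        calc 1 / C0 * r = r / C0 := by ring
          _ ≤ m r := this
      have q1 : 0 ≤ ‖S1 r‖ ^ 2 + ‖D1 r‖ ^ 2 := by positivity
      have q2 : 0 ≤ Lam / r ^ 2 * (‖S r‖ ^ 2 + ‖D r‖ ^ 2) := by positivity
      have q3 := mul_le_mul_of_nonneg_right m1 q1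
      have q4 := mul_le_mul_of_nonneg_right m2 q2
      have e2 : (w r * (‖S1 r‖ ^ 2 + Lam / r ^ 2 * ‖S r‖ ^ 2)
        + w r * (‖D1 r‖ ^ 2 + Lam / r ^ 2 * ‖D r‖ ^ 2)) / C0
          = w r * (1 / C0 * (‖S1 r‖ ^ 2 + ‖D1 r‖ ^ 2)
            + 1 / C0 * (Lam / r ^ 2 * (‖S r‖ ^ 2 + ‖D r‖ ^ 2))) := by ring
      rw [e2]
      refine mul_le_mul_of_nonneg_left ?_ hw.le
      have e3 : Lam * (m r / r) / r ^ 2 * (‖S r‖ ^ 2 + ‖D r‖ ^ 2)
          = m r / r * (Lam / r ^ 2 * (‖S r‖ ^ 2 + ‖D r‖ ^ 2)) := by ring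
      rw [e3]
      linarith
  have bP1 : BC rb P1 := ⟨hc.P1_cont, hc.P1_bd⟩
  have bI2 : BC rb (fun r => n * P1 r * (m r * w r) * ‖S r‖ ^ 2) :=
    (((BC.const n).mulR bP1).mulR ((bcm hc).mulR h.bcw)).mulR h.bcS.normSq
  have bL : BC rb (fun r => w r * ‖S r‖ ^ 2) := h.bcw.mulR h.bcS.normSq
  have l2 : (∫ r in (0 : ℝ)..rb, n * P1 r * (m r * w r) * ‖S r‖ ^ 2)
      ≤ e * C0 ^ 2 * (Pot w P n S rb + L2 w S rb) := by
    have e4 : e * C0 ^ 2 * (Pot w P n S rb + L2 w S rb)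
        = ∫ r in (0 : ℝ)..rb, e * C0 ^ 2 * (n * P r * w r * ‖S r‖ ^ 2 + w r * ‖S r‖ ^ 2) := by
      rw [intervalIntegral.integral_const_mul, intervalIntegral.integral_add
        ((bPot hc hs).intble hR) (bL.intble hR)]
      rfl
    rw [e4]
    refine ii_mono hR bI2 ((BC.const (e * C0 ^ 2)).mulR ((bPot hc hs).add bL)) fun r hr => ?_
    have hw := wpos hc r hr
    have hm0 := m_nonneg hc r hr
    have hm1 := m_le hc r hr
    have hP := hc.P1_le r hr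
    have hP0 := hc.P_nonneg r hr
    have hn := hc.n_one
    have hn0 : 0 ≤ n := by linarith
    have q1 : 0 ≤ w r * ‖S r‖ ^ 2 := by positivity
    have q2 : 0 ≤ e * (n * P r) + e := by positivity
    calc n * P1 r * (m r * w r) * ‖S r‖ ^ 2 = (n * P1 r) * (m r * (w r * ‖S r‖ ^ 2)) := by ring
      _ ≤ (e * (n * P r) + e) * (m r * (w r * ‖S r‖ ^ 2)) :=
          mul_le_mul_of_nonneg_right hP (by positivity)
      _ ≤ (e * (n * P r) + e) * (C0 ^ 2 * (w r * ‖S r‖ ^ 2)) :=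
          mul_le_mul_of_nonneg_left (mul_le_mul_of_nonneg_right hm1 q1) q2
      _ = _ := by ring
  unfold Vir
  have e5 : e * C0 ^ 2 / 2 * (Pot w P n S rb + L2 w S rb)
      = (1 / 2) * (e * C0 ^ 2 * (Pot w P n S rb + L2 w S rb)) := by ring
  rw [e5]
  linarith

end main

end Crest.Agent.R086.CEx.III
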