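import Mathlib
import Crest.Prelude.Def_PeriodicNLS

-- ▼ part R086/DLat
section

/-!
Row 86 (S0114), Part D, torus side: lattice `ℤ¹²`, characters, basic summability.  (helper232)
Notation parallel to helper327's `R086/TorA.lean` (`kv`, `wt`, `ek`).
-/

set_option autoImplicit false

open MeasureTheory Complex Set Filter Topology
open scoped ContDiff

namespace Crest.Agent.R086.DCls

open Crest.AnalysisR.PDE.NLS (R12)

abbrev K12 : Type := Fin 12 → ℤ

/-- integer frequency vector -/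
noncomputable def kv (k : K12) : R12 := WithLp.toLp 2 (fun i => (k i : ℝ))

@[simp] lemma kv_apply (k : K12) (i : Fin 12) : kv k i = (k i : ℝ) := rfl




/-- weight -/
noncomputable def wt (k : K12) : ℝ := 1 + ‖kv k‖

lemma one_le_wt (k : K12) : 1 ≤ wt k := by
  rw [wt]; linarith [norm_nonneg (kv k)]

lemma wt_pos (k : K12) : 0 < wt k := lt_of_lt_of_le one_pos (one_le_wt k)



/-- character `e^{i k·x}` -/
noncomputable def ek (k : K12) (x : R12) : ℂ := cexp (I * ((inner ℝ (kv k) x : ℝ) : ℂ))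

lemma norm_ek (k : K12) (x : R12) : ‖ek k x‖ = 1 := by
  rw [ek, mul_comm, Complex.norm_exp_ofReal_mul_I]




lemma ek_periodic (k : K12) (x : R12) (i : Fin 12) :
    ek k (x + EuclideanSpace.single i (2 * Real.pi)) = ek k x := by
  have h : (inner ℝ (kv k) (x + EuclideanSpace.single i (2 * Real.pi)) : ℝ)
      = inner ℝ (kv k) x + (k i : ℝ) * (2 * Real.pi) := by
    rw [inner_add_right, EuclideanSpace.inner_single_right]
    simp [mul_comm]
  rw [ek, h]
  push_cast
  rw [mul_add, Complex.exp_add]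
  have : cexp (I * ((k i : ℂ) * (2 * Real.pi))) = 1 := by
    rw [Complex.exp_eq_one_iff]
    exact ⟨k i, by ring⟩
  rw [this, mul_one, ek]

lemma abs_coord_le (k : K12) (i : Fin 12) : |(k i : ℝ)| ≤ ‖kv k‖ := by
  simpa using PiLp.norm_apply_le (kv k) i

lemma norm_le_kv (k : K12) : ‖k‖ ≤ ‖kv k‖ := by
  rw [pi_norm_le_iff_of_nonneg (norm_nonneg _)]
  intro i
  simpa [Int.norm_eq_abs] using abs_coord_le k i

/-- injection of `ℤ¹²` into the standard lattice -/
lemma summable_norm_inv_pow : Summable (fun k : K12 => (‖k‖⁻¹) ^ 13) := by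
  classical
  let b := Pi.basisFun ℝ (Fin 12)
  let L : Submodule ℤ (Fin 12 → ℝ) := Submodule.span ℤ (Set.range b)
  have hfin : Module.finrank ℤ L = 12 := by
    have := ZLattice.rank ℝ L
    simpa using this
  have hs := ZLattice.summable_norm_pow_inv L 13 (by rw [hfin]; norm_num)
  have hmem : ∀ k : K12, (fun i => (k i : ℝ)) ∈ L := by
    intro k
    have : (fun i => (k i : ℝ)) = ∑ i, k i • b i := by
      ext j
      simp [b, Finset.sum_apply, Pi.single_apply]
    rw [this]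
    exact Submodule.sum_mem _ (fun i _ => Submodule.smul_mem _ _ (Submodule.subset_span ⟨i, rfl⟩))
  let φ : K12 → L := fun k => ⟨fun i => (k i : ℝ), hmem k⟩
  have hφ : Function.Injective φ := by
    intro k l h
    have h' : (fun i => (k i : ℝ)) = (fun i => (l i : ℝ)) := congrArg Subtype.val h
    ext i
    exact_mod_cast congrFun h' i
  have hnorm : ∀ k, ‖φ k‖ = ‖k‖ := by
    intro k
    change ‖(fun i => (k i : ℝ))‖ = ‖k‖
    rw [Pi.norm_def, Pi.norm_def]
    congr 1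
  have := hs.comp_injective hφ
  refine this.congr (fun k => ?_)
  change (‖φ k‖⁻¹) ^ 13 = _
  rw [hnorm]

lemma summable_wt_inv {m : ℕ} (hm : 13 ≤ m) : Summable (fun k : K12 => (wt k ^ m)⁻¹) := by
  refine Summable.of_norm_bounded_eventually summable_norm_inv_pow ?_
  have : ({0} : Set K12)ᶜ ∈ (cofinite : Filter K12) := by
    rw [mem_cofinite, compl_compl]; exact Set.finite_singleton _
  filter_upwards [this] with k hk
  have hk0 : k ≠ 0 := by simpa using hk
  have hkp : 0 < ‖k‖ := norm_pos_iff.mpr hk0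
  have hw := wt_pos k
  rw [Real.norm_eq_abs, abs_of_pos (by positivity), inv_pow]
  apply inv_anti₀ (by positivity)
  calc ‖k‖ ^ 13 ≤ wt k ^ 13 := by
        gcongr
        rw [wt]; linarith [norm_le_kv k]
    _ ≤ wt k ^ m := pow_le_pow_right₀ (one_le_wt k) hm

end Crest.Agent.R086.DCls
end

-- ▼ part R086/DCls

/-!
Row 86 (S0114), Part D, torus side: coefficient curves give classical solutions.  (helper232)
-/

set_option autoImplicit false

open MeasureTheory Complex Set Filter Topology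
open scoped ContDiff

namespace Crest.Agent.R086.DCls

open Crest.AnalysisR.PDE.NLS (R12)

/-- `s ↦ e^{is}` -/
noncomputable def cis (s : ℝ) : ℂ := cexp (I * (s : ℂ))

lemma hasDerivAt_cis (s : ℝ) : HasDerivAt cis (I * cis s) s := by
  have h1 : HasDerivAt (fun s : ℝ => I * (s : ℂ)) I s := by
    simpa using (Complex.ofRealCLM.hasDerivAt (x := s)).const_mul I
  have h2 := h1.cexp
  rw [mul_comm] at h2
  exact h2

lemma iteratedDeriv_cis (n : ℕ) : iteratedDeriv n cis = fun s => I ^ n * cis s := by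
  induction n with
  | zero => simp
  | succ n ih =>
    rw [iteratedDeriv_succ, ih]
    ext s
    rw [((hasDerivAt_cis s).const_mul (I ^ n)).deriv]
    ring

lemma contDiff_cis {n : WithTop ℕ∞} : ContDiff ℝ n cis := by
  unfold cis
  exact (contDiff_const.mul Complex.ofRealCLM.contDiff).cexp


lemma ek_eq (k : K12) : ek k = cis ∘ (innerSL ℝ (kv k) : R12 →L[ℝ] ℝ) := by
  ext x; simp [ek, cis]

lemma contDiff_ek (k : K12) {n : WithTop ℕ∞} : ContDiff ℝ n (ek k) := by
  rw [ek_eq]; exact contDiff_cis.comp (innerSL ℝ (kv k) : R12 →L[ℝ] ℝ).contDiff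

lemma iteratedFDeriv_ek_apply (k : K12) (n : ℕ) (x : R12) (m : Fin n → R12) :
    iteratedFDeriv ℝ n (ek k) x m = ((∏ j, (inner ℝ (kv k) (m j) : ℝ) : ℝ) : ℂ) * (I ^ n * ek k x) := by
  have hc : ContDiff ℝ n cis := contDiff_cis
  rw [ek_eq, ContinuousLinearMap.iteratedFDeriv_comp_right (innerSL ℝ (kv k) : R12 →L[ℝ] ℝ)
    hc x le_rfl]
  rw [ContinuousMultilinearMap.compContinuousLinearMap_apply]
  rw [iteratedFDeriv_apply_eq_iteratedDeriv_mul_prod, iteratedDeriv_cis]
  simp [Complex.real_smul]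

lemma norm_iteratedFDeriv_ek_le (k : K12) (n : ℕ) (x : R12) :
    ‖iteratedFDeriv ℝ n (ek k) x‖ ≤ ‖kv k‖ ^ n := by
  refine ContinuousMultilinearMap.opNorm_le_bound (by positivity) (fun m => ?_)
  rw [iteratedFDeriv_ek_apply, norm_mul, norm_mul, norm_pow, Complex.norm_I, one_pow, norm_ek,
    one_mul, mul_one, Complex.norm_real, Real.norm_eq_abs, Finset.abs_prod]
  calc ∏ j, |(inner ℝ (kv k) (m j) : ℝ)| ≤ ∏ j, (‖kv k‖ * ‖m j‖) := by
        apply Finset.prod_le_prod
        · intro i _; positivity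
        · intro i _; exact abs_real_inner_le_norm _ _
    _ = ‖kv k‖ ^ n * ∏ j, ‖m j‖ := by
        rw [Finset.prod_mul_distrib]; simp

/-- derivative of the character -/
noncomputable def dek (k : K12) (x : R12) : R12 →L[ℝ] ℂ :=
  (I * ek k x) • (Complex.ofRealCLM.comp (innerSL ℝ (kv k) : R12 →L[ℝ] ℝ))

lemma hasFDerivAt_ek (k : K12) (x : R12) : HasFDerivAt (ek k) (dek k x) x := by
  rw [ek_eq]
  have h1 := (hasDerivAt_cis ((innerSL ℝ (kv k) : R12 →L[ℝ] ℝ) x)).hasFDerivAt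
  have h2 := h1.comp x (innerSL ℝ (kv k) : R12 →L[ℝ] ℝ).hasFDerivAt
  refine h2.congr_fderiv ?_
  ext v
  simp [dek, ek, cis]
  ring

lemma norm_dek_le (k : K12) (x : R12) : ‖dek k x‖ ≤ ‖kv k‖ := by
  refine ContinuousLinearMap.opNorm_le_bound _ (norm_nonneg _) (fun v => ?_)
  have : dek k x v = (I * ek k x) * ((inner ℝ (kv k) v : ℝ) : ℂ) := by simp [dek]
  rw [this, norm_mul, norm_mul, Complex.norm_I, norm_ek, one_mul, one_mul, Complex.norm_real]
  exact abs_real_inner_le_norm _ _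

lemma continuous_dek (k : K12) : Continuous (dek k) := by
  unfold dek
  exact (continuous_const.mul (contDiff_ek k (n := 0)).continuous).smul continuous_const

section series

variable {c : K12 → ℂ} {C : ℝ} {m : ℕ}


lemma bound_to_inv {a C : ℝ} {k : K12} (h : wt k ^ m * a ≤ C) : a ≤ C * (wt k ^ m)⁻¹ := by
  have : 0 < wt k ^ m := pow_pos (wt_pos k) m
  rw [← div_eq_mul_inv, le_div_iff₀ this]; linarith

lemma norm_kv_pow_mul_le {a C : ℝ} {k : K12} {j : ℕ} (ha : 0 ≤ a) (h : wt k ^ (m + j) * a ≤ C) :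
    ‖kv k‖ ^ j * a ≤ C * (wt k ^ m)⁻¹ := by
  apply bound_to_inv
  refine le_trans ?_ h
  have : ‖kv k‖ ^ j ≤ wt k ^ j := by
    gcongr
    rw [wt]; linarith
  rw [pow_add, mul_assoc]
  have hw : 0 < wt k ^ m := pow_pos (wt_pos k) m
  gcongr

/-- smoothness of order `N` of Fourier series with decaying coefficients. -/
lemma contDiff_synth (N : ℕ) (hc : ∀ k, wt k ^ (13 + N) * ‖c k‖ ≤ C) :
    ContDiff ℝ N (fun x => ∑' k, c k * ek k x) := by
  have hb : ∀ (j : ℕ) (k : K12) (x : R12), (j : ℕ∞) ≤ (N : ℕ∞) →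
      ‖iteratedFDeriv ℝ j (fun x => c k * ek k x) x‖ ≤ C * (wt k ^ 13)⁻¹ := by
    intro j k x hj
    have hj' : j ≤ N := by exact_mod_cast hj
    have : iteratedFDeriv ℝ j (fun x => c k * ek k x) x = c k • iteratedFDeriv ℝ j (ek k) x := by
      have := iteratedFDeriv_const_smul_apply (𝕜 := ℝ) (i := j) (a := c k) (f := ek k) (x := x)
        ((contDiff_ek k (n := j)).contDiffAt)
      simpa [Pi.smul_def, smul_eq_mul] using this
    rw [this, norm_smul]
    have h1 := norm_iteratedFDeriv_ek_le k j x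
    have h2 : wt k ^ (13 + j) * ‖c k‖ ≤ C := by
      refine le_trans ?_ (hc k)
      gcongr
      exact one_le_wt k
    have h3 := norm_kv_pow_mul_le (norm_nonneg _) h2
    calc ‖c k‖ * ‖iteratedFDeriv ℝ j (ek k) x‖ ≤ ‖c k‖ * ‖kv k‖ ^ j := by gcongr
      _ = ‖kv k‖ ^ j * ‖c k‖ := mul_comm _ _
      _ ≤ _ := h3
  have := contDiff_tsum (𝕜 := ℝ) (N := (N : ℕ∞)) (f := fun k x => c k * ek k x)
    (v := fun _ k => C * (wt k ^ 13)⁻¹)
    (fun k => contDiff_const.mul (contDiff_ek k))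
    (fun j _ => (summable_wt_inv le_rfl).mul_left C) (fun j k x hj => hb j k x hj)
  exact this

lemma iteratedFDeriv_two_synth (hc : ∀ k, wt k ^ 15 * ‖c k‖ ≤ C) (x : R12) (i : Fin 12) :
    iteratedFDeriv ℝ 2 (fun x => ∑' k, c k * ek k x) x
      ![EuclideanSpace.single i 1, EuclideanSpace.single i 1]
      = ∑' k, -((k i : ℝ) ^ 2 : ℝ) * (c k * ek k x) := by
  have hb : ∀ (j : ℕ) (k : K12) (x : R12), (j : ℕ∞) ≤ (2 : ℕ∞) →
      ‖iteratedFDeriv ℝ j (fun x => c k * ek k x) x‖ ≤ C * (wt k ^ 13)⁻¹ := by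
    intro j k x hj
    have hj' : j ≤ 2 := by exact_mod_cast hj
    have : iteratedFDeriv ℝ j (fun x => c k * ek k x) x = c k • iteratedFDeriv ℝ j (ek k) x := by
      have := iteratedFDeriv_const_smul_apply (𝕜 := ℝ) (i := j) (a := c k) (f := ek k) (x := x)
        ((contDiff_ek k (n := j)).contDiffAt)
      simpa [Pi.smul_def, smul_eq_mul] using this
    rw [this, norm_smul]
    have h1 := norm_iteratedFDeriv_ek_le k j x
    have h2 : wt k ^ (13 + j) * ‖c k‖ ≤ C := by
      refine le_trans ?_ (hc k)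
      gcongr
      · exact one_le_wt k
      · omega
    have h3 := norm_kv_pow_mul_le (norm_nonneg _) h2
    calc ‖c k‖ * ‖iteratedFDeriv ℝ j (ek k) x‖ ≤ ‖c k‖ * ‖kv k‖ ^ j := by gcongr
      _ = ‖kv k‖ ^ j * ‖c k‖ := mul_comm _ _
      _ ≤ _ := h3
  have h := iteratedFDeriv_tsum_apply (𝕜 := ℝ) (N := (2 : ℕ∞)) (f := fun k x => c k * ek k x)
    (v := fun _ k => C * (wt k ^ 13)⁻¹)
    (fun k => contDiff_const.mul (contDiff_ek k))
    (fun j _ => (summable_wt_inv le_rfl).mul_left C) (fun j k x hj => hb j k x hj) (k := 2)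
    le_rfl x
  rw [h]
  have hs : Summable (fun k => iteratedFDeriv ℝ 2 (fun x => c k * ek k x) x) :=
    Summable.of_norm_bounded ((summable_wt_inv le_rfl).mul_left C) (fun k => hb 2 k x le_rfl)
  let ev : (R12 [×2]→L[ℝ] ℂ) →L[ℝ] ℂ := ContinuousMultilinearMap.apply ℝ (fun _ : Fin 2 => R12) ℂ
    ![EuclideanSpace.single i 1, EuclideanSpace.single i 1]
  have h2 := ev.map_tsum hs
  change ev (∑' k, iteratedFDeriv ℝ 2 (fun x => c k * ek k x) x) = _
  rw [h2]
  refine tsum_congr (fun k => ?_)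
  change iteratedFDeriv ℝ 2 (fun x => c k * ek k x) x
    ![EuclideanSpace.single i 1, EuclideanSpace.single i 1] = _
  have h3 : iteratedFDeriv ℝ 2 (fun x => c k * ek k x) x = c k • iteratedFDeriv ℝ 2 (ek k) x := by
    have := iteratedFDeriv_const_smul_apply (𝕜 := ℝ) (i := 2) (a := c k) (f := ek k) (x := x)
      ((contDiff_ek k (n := 2)).contDiffAt)
    simpa [Pi.smul_def, smul_eq_mul] using this
  rw [h3, _root_.smul_apply, iteratedFDeriv_ek_apply]
  simp [EuclideanSpace.inner_single_right]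
  ring_nf

end series

section main

variable {T : ℝ} {c d : ℝ → K12 → ℂ}

/-- derivative of one space-time mode -/
noncomputable def dmode (c d : ℝ → K12 → ℂ) (k : K12) (q : ℝ × R12) : ℝ × R12 →L[ℝ] ℂ :=
  (c q.1 k) • ((dek k q.2).comp (ContinuousLinearMap.snd ℝ ℝ R12))
    + (ContinuousLinearMap.fst ℝ ℝ R12).smulRight (d q.1 k * ek k q.2)

lemma hasFDerivAt_mode (k : K12) (q : ℝ × R12) (h : HasDerivAt (fun s => c s k) (d q.1 k) q.1) :
    HasFDerivAt (fun q : ℝ × R12 => c q.1 k * ek k q.2) (dmode c d k q) q := by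
  have h1 : HasFDerivAt (fun q : ℝ × R12 => c q.1 k)
      ((ContinuousLinearMap.fst ℝ ℝ R12).smulRight (d q.1 k)) q := by
    have := h.hasFDerivAt.comp q (hasFDerivAt_fst (𝕜 := ℝ) (E := ℝ) (F := R12) (p := q))
    refine this.congr_fderiv ?_
    ext v <;> simp
  have h2 : HasFDerivAt (fun q : ℝ × R12 => ek k q.2)
      ((dek k q.2).comp (ContinuousLinearMap.snd ℝ ℝ R12)) q :=
    (hasFDerivAt_ek k q.2).comp q hasFDerivAt_snd
  refine (h1.mul h2).congr_fderiv ?_
  ext v <;> simp [dmode]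
  ring

lemma norm_dmode_le {C C' : ℝ} (k : K12) (q : ℝ × R12) (h1 : wt k ^ 14 * ‖c q.1 k‖ ≤ C)
    (h2 : wt k ^ 13 * ‖d q.1 k‖ ≤ C') : ‖dmode c d k q‖ ≤ (C + C') * (wt k ^ 13)⁻¹ := by
  have a1 : ‖(c q.1 k) • ((dek k q.2).comp (ContinuousLinearMap.snd ℝ ℝ R12))‖ ≤
      C * (wt k ^ 13)⁻¹ := by
    rw [norm_smul]
    have h3 : ‖(dek k q.2).comp (ContinuousLinearMap.snd ℝ ℝ R12)‖ ≤ ‖kv k‖ := by
      refine le_trans (ContinuousLinearMap.opNorm_comp_le _ _) ?_
      have := ContinuousLinearMap.norm_snd_le ℝ ℝ R12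
      calc _ ≤ ‖kv k‖ * 1 := by
            gcongr
            exact norm_dek_le k q.2
        _ = _ := mul_one _
    have h4 := norm_kv_pow_mul_le (m := 13) (j := 1) (norm_nonneg (c q.1 k)) h1
    calc ‖c q.1 k‖ * ‖(dek k q.2).comp (ContinuousLinearMap.snd ℝ ℝ R12)‖
        ≤ ‖c q.1 k‖ * ‖kv k‖ := by gcongr
      _ = ‖kv k‖ ^ 1 * ‖c q.1 k‖ := by rw [pow_one, mul_comm]
      _ ≤ _ := h4
  have a2 : ‖(ContinuousLinearMap.fst ℝ ℝ R12).smulRight (d q.1 k * ek k q.2)‖ ≤
      C' * (wt k ^ 13)⁻¹ := by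
    rw [ContinuousLinearMap.norm_smulRight_apply, norm_mul, norm_ek, mul_one]
    have := ContinuousLinearMap.norm_fst_le ℝ ℝ R12
    have h5 := bound_to_inv h2
    calc ‖ContinuousLinearMap.fst ℝ ℝ R12‖ * ‖d q.1 k‖ ≤ 1 * ‖d q.1 k‖ := by gcongr
      _ = ‖d q.1 k‖ := one_mul _
      _ ≤ _ := h5
  calc ‖dmode c d k q‖ ≤ _ := norm_add_le _ _
    _ ≤ C * (wt k ^ 13)⁻¹ + C' * (wt k ^ 13)⁻¹ := add_le_add a1 a2
    _ = _ := by ring

lemma continuousOn_dmode (k : K12) {s : Set ℝ} (h1 : ContinuousOn (fun t => c t k) s)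
    (h2 : ContinuousOn (fun t => d t k) s) :
    ContinuousOn (dmode c d k) (s ×ˢ (univ : Set R12)) := by
  have hfst : ContinuousOn (fun q : ℝ × R12 => q.1) (s ×ˢ (univ : Set R12)) :=
    continuous_fst.continuousOn
  have hm : MapsTo (fun q : ℝ × R12 => q.1) (s ×ˢ (univ : Set R12)) s := fun q hq => hq.1
  have c1 : ContinuousOn (fun q : ℝ × R12 => c q.1 k) (s ×ˢ (univ : Set R12)) :=
    h1.comp hfst hm
  have c2 : ContinuousOn (fun q : ℝ × R12 => d q.1 k) (s ×ˢ (univ : Set R12)) :=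
    h2.comp hfst hm
  have c3 : ContinuousOn (fun q : ℝ × R12 => dek k q.2) (s ×ˢ (univ : Set R12)) :=
    ((continuous_dek k).comp continuous_snd).continuousOn
  have c4 : ContinuousOn (fun q : ℝ × R12 => ek k q.2) (s ×ˢ (univ : Set R12)) :=
    (((contDiff_ek k (n := 0)).continuous).comp continuous_snd).continuousOn
  unfold dmode
  refine (c1.smul ?_).add ?_
  · exact c3.clm_comp continuousOn_const
  · have c5 : ContinuousOn (fun q : ℝ × R12 => d q.1 k * ek k q.2) (s ×ˢ (univ : Set R12)) :=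
      c2.mul c4
    have h6 : Continuous (fun z : ℂ => (ContinuousLinearMap.fst ℝ ℝ R12).smulRight z) := by
      exact (ContinuousLinearMap.smulRightL ℝ (ℝ × R12) ℂ
        (ContinuousLinearMap.fst ℝ ℝ R12)).continuous
    exact h6.comp_continuousOn c5

/-- Coefficient curves with locally bounded decay give classical solutions. -/
theorem classical_of_coeff (p : ℕ) (u : ℝ → R12 → ℂ)
    (hu : ∀ t ∈ Ico 0 T, ∀ x, u t x = ∑' k, c t k * ek k x)
    (hb : ∀ t0 < T, ∃ C, ∀ t ∈ Icc 0 t0, ∀ k, wt k ^ 15 * ‖c t k‖ ≤ C)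
    (hbd : ∀ t0 < T, ∃ C, ∀ t ∈ Icc 0 t0, ∀ k, wt k ^ 13 * ‖d t k‖ ≤ C)
    (hc : ∀ k, ContinuousOn (fun t => c t k) (Ico 0 T))
    (hd : ∀ k, ContinuousOn (fun t => d t k) (Ioo 0 T))
    (hder : ∀ k, ∀ t ∈ Ioo 0 T, HasDerivAt (fun s => c s k) (d t k) t)
    (heq : ∀ t ∈ Ioo 0 T, ∀ x, I * ∑' k, d t k * ek k x
      - ∑' k, ((‖kv k‖ ^ 2 : ℝ) : ℂ) * (c t k * ek k x)
        = ((‖u t x‖ ^ (p - 1) : ℝ) : ℂ) * u t x) :
    Crest.AnalysisR.PDE.NLS.IsClassicalSolution p T u := by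
  refine ⟨?_, ?_, ?_, ?_, ?_⟩
  · -- continuity
    intro q hq
    obtain ⟨⟨h0, hT⟩, -⟩ := hq
    obtain ⟨t0, ht0, ht0T⟩ := exists_between hT
    obtain ⟨C, hC⟩ := hb t0 ht0T
    have hcont : ContinuousOn (fun q : ℝ × R12 => ∑' k, c q.1 k * ek k q.2)
        (Icc 0 t0 ×ˢ (univ : Set R12)) := by
      refine continuousOn_tsum (u := fun k => C * (wt k ^ 13)⁻¹) (fun k => ?_)
        ((summable_wt_inv le_rfl).mul_left C) (fun k q hq => ?_)
      · have hm : MapsTo (fun q : ℝ × R12 => q.1) (Icc 0 t0 ×ˢ (univ : Set R12)) (Ico 0 T) :=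
          fun q hq => ⟨hq.1.1, lt_of_le_of_lt hq.1.2 ht0T⟩
        exact ((hc k).comp continuous_fst.continuousOn hm).mul
          (((contDiff_ek k (n := 0)).continuous).comp continuous_snd).continuousOn
      · rw [norm_mul, norm_ek, mul_one]
        apply bound_to_inv
        refine le_trans ?_ (hC q.1 hq.1 k)
        gcongr
        · exact one_le_wt k
        · norm_num
    have hcont2 : ContinuousOn (fun q : ℝ × R12 => u q.1 q.2) (Icc 0 t0 ×ˢ (univ : Set R12)) :=
      hcont.congr (fun q hq => hu q.1 ⟨hq.1.1, lt_of_le_of_lt hq.1.2 ht0T⟩ q.2)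
    have hq' : q ∈ (Icc 0 t0 ×ˢ (univ : Set R12)) := ⟨⟨h0, ht0.le⟩, mem_univ _⟩
    refine (hcont2 q hq').mono_of_mem_nhdsWithin ?_
    rw [mem_nhdsWithin]
    refine ⟨Iio t0 ×ˢ (univ : Set R12), isOpen_Iio.prod isOpen_univ, ⟨ht0, mem_univ _⟩, ?_⟩
    rintro r ⟨⟨hr1, -⟩, ⟨hr2, -⟩⟩
    exact ⟨⟨hr2.1, le_of_lt hr1⟩, mem_univ _⟩
  · -- C¹
    intro q hq
    obtain ⟨⟨h0, hT⟩, -⟩ := hq
    obtain ⟨t0, ht0, ht0T⟩ := exists_between hT
    obtain ⟨C, hC⟩ := hb t0 ht0T
    obtain ⟨C', hC'⟩ := hbd t0 ht0T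
    set s : Set (ℝ × R12) := Ioo 0 t0 ×ˢ (univ : Set R12) with hs
    have hso : IsOpen s := isOpen_Ioo.prod isOpen_univ
    have hsc : IsPreconnected s := ((convex_Ioo 0 t0).prod convex_univ).isPreconnected
    have hqs : q ∈ s := ⟨⟨h0, ht0⟩, mem_univ _⟩
    have hsum : Summable (fun k => (C + C') * (wt k ^ 13)⁻¹) := (summable_wt_inv le_rfl).mul_left _
    have hterm : ∀ (k : K12) (r : ℝ × R12), r ∈ s →
        HasFDerivAt (fun q : ℝ × R12 => c q.1 k * ek k q.2) (dmode c d k r) r := by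
      intro k r hr
      exact hasFDerivAt_mode k r (hder k r.1 ⟨hr.1.1, hr.1.2.trans ht0T⟩)
    have hbound : ∀ (k : K12) (r : ℝ × R12), r ∈ s → ‖dmode c d k r‖ ≤ (C + C') * (wt k ^ 13)⁻¹ := by
      intro k r hr
      have hr' : r.1 ∈ Icc 0 t0 := ⟨hr.1.1.le, hr.1.2.le⟩
      refine norm_dmode_le k r ?_ (hC' r.1 hr' k)
      refine le_trans ?_ (hC r.1 hr' k)
      gcongr
      · exact one_le_wt k
      · norm_num
    have hsumq : Summable (fun k => c q.1 k * ek k q.2) := by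
      refine Summable.of_norm_bounded ((summable_wt_inv le_rfl).mul_left C) (fun k => ?_)
      rw [norm_mul, norm_ek, mul_one]
      apply bound_to_inv (m := 13)
      refine le_trans ?_ (hC q.1 ⟨h0.le, ht0.le⟩ k)
      gcongr
      · exact one_le_wt k
      · norm_num
    have hF : ∀ r ∈ s, HasFDerivAt (fun q : ℝ × R12 => ∑' k, c q.1 k * ek k q.2)
        (∑' k, dmode c d k r) r := by
      intro r hr
      exact hasFDerivAt_tsum_of_isPreconnected hsum hso hsc hterm hbound hqs hsumq hr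
    have hDc : ContinuousOn (fun r => ∑' k, dmode c d k r) s := by
      refine continuousOn_tsum (fun k => ?_) hsum hbound
      exact continuousOn_dmode k ((hc k).mono (fun t ht => ⟨ht.1.le, ht.2.trans ht0T⟩))
        ((hd k).mono (fun t ht => ⟨ht.1, ht.2.trans ht0T⟩))
    have hC1 : ContDiffOn ℝ 1 (fun q : ℝ × R12 => ∑' k, c q.1 k * ek k q.2) s := by
      rw [show (1 : WithTop ℕ∞) = 0 + 1 from rfl, contDiffOn_succ_iff_fderiv_of_isOpen hso]
      refine ⟨fun r hr => (hF r hr).differentiableAt.differentiableWithinAt, by simp, ?_⟩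
      rw [contDiffOn_zero]
      exact hDc.congr (fun r hr => (hF r hr).fderiv)
    have hC2 : ContDiffOn ℝ 1 (fun q : ℝ × R12 => u q.1 q.2) s :=
      hC1.congr (fun r hr => hu r.1 ⟨hr.1.1.le, hr.1.2.trans ht0T⟩ r.2)
    exact ((hC2 q hqs).contDiffAt (hso.mem_nhds hqs)).contDiffWithinAt
  · -- C² in x
    intro t ht
    obtain ⟨C, hC⟩ := hb t ht.2
    have h1 := contDiff_synth (c := c t) (C := C) 2 (fun k => hC t ⟨ht.1.le, le_rfl⟩ k)
    have h2 : u t = fun x => ∑' k, c t k * ek k x := by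
      ext x; exact hu t ⟨ht.1.le, ht.2⟩ x
    rw [h2]; exact_mod_cast h1
  · -- periodicity
    intro t ht x i
    rw [hu t ht, hu t ht]
    exact tsum_congr (fun k => by rw [ek_periodic])
  · -- equation
    intro t ht x
    obtain ⟨t0, ht0, ht0T⟩ := exists_between ht.2
    obtain ⟨C, hC⟩ := hb t0 ht0T
    obtain ⟨C', hC'⟩ := hbd t0 ht0T
    have htI : t ∈ Icc 0 t0 := ⟨ht.1.le, ht0.le⟩
    have hsumt : ∀ x, Summable (fun k => c t k * ek k x) := by
      intro x
      refine Summable.of_norm_bounded ((summable_wt_inv le_rfl).mul_left C) (fun k => ?_)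
      rw [norm_mul, norm_ek, mul_one]
      apply bound_to_inv (m := 13)
      refine le_trans ?_ (hC t htI k)
      gcongr
      · exact one_le_wt k
      · norm_num
    have hderiv : HasDerivAt (fun s => u s x) (∑' k, d t k * ek k x) t := by
      have h1 : HasDerivAt (fun s => ∑' k, c s k * ek k x) (∑' k, d t k * ek k x) t := by
        refine hasDerivAt_tsum_of_isPreconnected (u := fun k => C' * (wt k ^ 13)⁻¹)
          ((summable_wt_inv le_rfl).mul_left C')
          (isOpen_Ioo (a := 0) (b := t0)) isPreconnected_Ioo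
          (g := fun k s => c s k * ek k x) (g' := fun k s => d s k * ek k x)
          (fun k s hs => (hder k s ⟨hs.1, hs.2.trans ht0T⟩).mul_const _)
          (fun k s hs => ?_) (y₀ := t) ⟨ht.1, ht0⟩ (hsumt x) ⟨ht.1, ht0⟩
        rw [norm_mul, norm_ek, mul_one]
        exact bound_to_inv (hC' s ⟨hs.1.le, hs.2.le⟩ k)
      refine h1.congr_of_eventuallyEq ?_
      filter_upwards [isOpen_Ioo.mem_nhds ht] with s hs
      exact hu s ⟨hs.1.le, hs.2⟩ x
    rw [hderiv.deriv]
    have h2 : u t = fun x => ∑' k, c t k * ek k x := by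
      ext x; exact hu t ⟨ht.1.le, ht.2⟩ x
    have hlap : ∑ i : Fin 12, iteratedFDeriv ℝ 2 (u t) x
          ![EuclideanSpace.single i 1, EuclideanSpace.single i 1]
        = - ∑' k, ((‖kv k‖ ^ 2 : ℝ) : ℂ) * (c t k * ek k x) := by
      rw [h2]
      have h3 : ∀ i : Fin 12, iteratedFDeriv ℝ 2 (fun x => ∑' k, c t k * ek k x) x
          ![EuclideanSpace.single i 1, EuclideanSpace.single i 1]
          = ∑' k, -((k i : ℝ) ^ 2 : ℝ) * (c t k * ek k x) := fun i =>
        iteratedFDeriv_two_synth (fun k => hC t htI k) x i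
      simp_rw [h3]
      have hsi : ∀ i ∈ (Finset.univ : Finset (Fin 12)),
          Summable (fun k : K12 => (-((k i : ℝ) ^ 2 : ℝ) : ℂ) * (c t k * ek k x)) := by
        intro i _
        refine Summable.of_norm_bounded ((summable_wt_inv le_rfl).mul_left C) (fun k => ?_)
        rw [norm_mul, norm_mul, norm_ek, mul_one, norm_neg, Complex.norm_real, Real.norm_eq_abs,
          abs_of_nonneg (sq_nonneg _)]
        have h4 : ((k i : ℝ)) ^ 2 ≤ ‖kv k‖ ^ 2 := by
          rw [← sq_abs]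
          have := abs_coord_le k i
          gcongr
        have h5 := norm_kv_pow_mul_le (m := 13) (j := 2) (norm_nonneg (c t k)) (hC t htI k)
        calc (k i : ℝ) ^ 2 * ‖c t k‖ ≤ ‖kv k‖ ^ 2 * ‖c t k‖ := by gcongr
          _ ≤ _ := h5
      rw [← Summable.tsum_finsetSum hsi, ← tsum_neg]
      refine tsum_congr (fun k => ?_)
      have h6 : ‖kv k‖ ^ 2 = ∑ i, (k i : ℝ) ^ 2 := by
        rw [EuclideanSpace.norm_sq_eq]
        simp
      rw [← Finset.sum_mul, h6]
      push_cast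
      rw [Finset.sum_neg_distrib, neg_mul]
    rw [hlap, ← heq t ht x]
    ring

end main

end Crest.Agent.R086.DCls
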