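import Mathlib
import Crest.Agent.R086.DLIface
import Crest.Agent.R086.Wie

-- ▼ part R086/DCpert
section

/-!
Row 86, module DC (helper758): abstract bounded perturbation of a strongly continuous semigroup.
`S0` is used only for `t ≥ 0`.
-/

set_option autoImplicit false

open MeasureTheory Set Filter Topology

namespace Crest.Agent.R086.DC

variable {X : Type*} [NormedAddCommGroup X] [NormedSpace ℂ X] [CompleteSpace X]

/-- strongly continuous semigroup with exponential bound `‖S t‖ ≤ exp (ω t)` -/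
structure IsC0 (S : ℝ → X →L[ℂ] X) (ω : ℝ) : Prop where
  zero : S 0 = 1
  add : ∀ s t, 0 ≤ s → 0 ≤ t → S (s + t) = (S s).comp (S t)
  cont : ∀ x, ContinuousOn (fun t => S t x) (Ici 0)
  bound : ∀ t, 0 ≤ t → ‖S t‖ ≤ Real.exp (ω * t)

variable {S0 : ℝ → X →L[ℂ] X} {ω : ℝ}

namespace IsC0

omit [CompleteSpace X] in
/-- joint continuity of `(t,x) ↦ S (max t 0) x`. -/
theorem joint (h : IsC0 S0 ω) : Continuous (fun p : ℝ × X => S0 (max p.1 0) p.2) := by
  rw [continuous_iff_continuousAt]
  rintro ⟨t0, x0⟩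
  have h1 : Continuous (fun t : ℝ => S0 (max t 0) x0) := by
    have := (h.cont x0).comp_continuous (f := fun t : ℝ => max t 0) (by fun_prop)
      (fun t => Set.mem_Ici.2 (le_max_right _ _))
    exact this
  rw [ContinuousAt, tendsto_iff_norm_sub_tendsto_zero]
  have hb : ∀ p : ℝ × X, ‖S0 (max p.1 0) p.2 - S0 (max t0 0) x0‖ ≤
      Real.exp (ω * max p.1 0) * ‖p.2 - x0‖ + ‖S0 (max p.1 0) x0 - S0 (max t0 0) x0‖ := by
    intro p
    have e : S0 (max p.1 0) p.2 - S0 (max t0 0) x0 =
        S0 (max p.1 0) (p.2 - x0) + (S0 (max p.1 0) x0 - S0 (max t0 0) x0) := by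
      rw [map_sub]; abel
    rw [e]
    refine (norm_add_le _ _).trans (add_le_add ?_ le_rfl)
    refine ((S0 (max p.1 0)).le_opNorm _).trans ?_
    exact mul_le_mul_of_nonneg_right (h.bound _ (le_max_right _ _)) (norm_nonneg _)
  have hc : Continuous (fun p : ℝ × X => Real.exp (ω * max p.1 0) * ‖p.2 - x0‖
      + ‖S0 (max p.1 0) x0 - S0 (max t0 0) x0‖) := by
    have h2 : Continuous (fun p : ℝ × X => S0 (max p.1 0) x0) := h1.comp continuous_fst
    have h3 : Continuous (fun p : ℝ × X => Real.exp (ω * max p.1 0) * ‖p.2 - x0‖) := by fun_prop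
    exact h3.add (h2.sub continuous_const).norm
  refine squeeze_zero (fun p => norm_nonneg _) hb ?_
  have := hc.tendsto (t0, x0)
  simpa using this

omit [CompleteSpace X] in
theorem joint_comp (h : IsC0 S0 ω) {α : Type*} [TopologicalSpace α] {f : α → ℝ} {g : α → X}
    (hf : Continuous f) (hg : Continuous g) :
    Continuous (fun a => S0 (max (f a) 0) (g a)) :=
  h.joint.comp (hf.prodMk hg)

omit [CompleteSpace X] in
theorem apply_add (h : IsC0 S0 ω) {s t : ℝ} (hs : 0 ≤ s) (ht : 0 ≤ t) (x : X) :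
    S0 (s + t) x = S0 s (S0 t x) := by
  rw [h.add s t hs ht]; rfl

omit [CompleteSpace X] in
theorem norm_apply_le (h : IsC0 S0 ω) {t : ℝ} (ht : 0 ≤ t) (x : X) :
    ‖S0 t x‖ ≤ Real.exp (ω * t) * ‖x‖ :=
  ((S0 t).le_opNorm x).trans (mul_le_mul_of_nonneg_right (h.bound t ht) (norm_nonneg _))

end IsC0

/-- Integral over `[0,∞)`-type bound used for the Volterra operator. -/
theorem int_exp_le {b t : ℝ} (hb : 0 ≤ b) :
    ∫ r in (0:ℝ)..t, Real.exp (-(b + 1) * (t - r)) ≤ 1 / (b + 1) := by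
  have hb1 : 0 < b + 1 := by linarith
  have h1 : ∀ r ∈ uIcc 0 t, HasDerivAt (fun r => Real.exp (-(b + 1) * (t - r)) / (b + 1))
      (Real.exp (-(b + 1) * (t - r))) r := by
    intro r _
    have h2 : HasDerivAt (fun r => -(b + 1) * (t - r)) (b + 1) r := by
      have := ((hasDerivAt_id r).const_sub t).const_mul (-(b + 1))
      simpa using this
    have h3 := (h2.exp).div_const (b + 1)
    have h4 : Real.exp (-(b + 1) * (t - r)) * (b + 1) / (b + 1) = Real.exp (-(b + 1) * (t - r)) := by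
      rw [mul_div_assoc, div_self hb1.ne', mul_one]
    rwa [h4] at h3
  rw [intervalIntegral.integral_eq_sub_of_hasDerivAt h1 (by
    apply Continuous.intervalIntegrable; fun_prop)]
  have : 0 ≤ Real.exp (-(b + 1) * (t - 0)) / (b + 1) := by positivity
  simp only [sub_self, mul_zero, Real.exp_zero]
  linarith

section Volterra

variable (h : IsC0 S0 ω) (B : X →L[ℂ] X)

omit [CompleteSpace X] in
/-- the integrand of the weighted Volterra operator -/
theorem volt_cont_integrand (h : IsC0 S0 ω) (B : X →L[ℂ] X) (lam : ℝ) {u : ℝ → X} (hu : Continuous u) :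
    Continuous (Function.uncurry fun (t r : ℝ) =>
      Real.exp (-lam * (t - r)) • S0 (max (t - r) 0) (B (u r))) := by
  have h1 : Continuous (fun p : ℝ × ℝ => S0 (max (p.1 - p.2) 0) (B (u p.2))) :=
    h.joint_comp (by fun_prop) (by fun_prop)
  have h2 : Continuous (fun p : ℝ × ℝ => Real.exp (-lam * (p.1 - p.2))) := by fun_prop
  exact h2.smul h1

omit [CompleteSpace X] in
theorem volt_cont (h : IsC0 S0 ω) (B : X →L[ℂ] X) (lam : ℝ) {u : ℝ → X} (hu : Continuous u) :
    Continuous (fun t : ℝ => ∫ r in (0:ℝ)..(max t 0),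
      Real.exp (-lam * (max t 0 - r)) • S0 (max (max t 0 - r) 0) (B (u r))) := by
  have h1 : Continuous (fun t : ℝ => ∫ r in (0:ℝ)..t,
      Real.exp (-lam * (t - r)) • S0 (max (t - r) 0) (B (u r))) :=
    intervalIntegral.continuous_parametric_intervalIntegral_of_continuous
      (volt_cont_integrand h B lam hu) continuous_id
  exact h1.comp (by fun_prop : Continuous (fun t : ℝ => max t 0))

omit [CompleteSpace X] in
theorem volt_bound (h : IsC0 S0 ω) (B : X →L[ℂ] X) {u : ℝ → X} {C : ℝ} (hu : ∀ r, ‖u r‖ ≤ C) (t : ℝ) :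
    ‖∫ r in (0:ℝ)..(max t 0),
      Real.exp (-(ω + ‖B‖ + 1) * (max t 0 - r)) • S0 (max (max t 0 - r) 0) (B (u r))‖
      ≤ ‖B‖ / (‖B‖ + 1) * C := by
  set T := max t 0 with hT
  have hT0 : 0 ≤ T := le_max_right _ _
  have hC : 0 ≤ C := (norm_nonneg _).trans (hu 0)
  have h1 : ‖∫ r in (0:ℝ)..T,
      Real.exp (-(ω + ‖B‖ + 1) * (T - r)) • S0 (max (T - r) 0) (B (u r))‖ ≤
      ∫ r in (0:ℝ)..T, Real.exp (-(‖B‖ + 1) * (T - r)) * (‖B‖ * C) := by
    apply intervalIntegral.norm_integral_le_of_norm_le hT0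
    · filter_upwards with r hr
      have hr2 : 0 ≤ T - r := by have := hr.2; linarith
      rw [max_eq_left hr2, norm_smul, Real.norm_eq_abs, abs_of_pos (Real.exp_pos _)]
      have h2 : ‖S0 (T - r) (B (u r))‖ ≤ Real.exp (ω * (T - r)) * (‖B‖ * C) := by
        refine (h.norm_apply_le hr2 _).trans ?_
        refine mul_le_mul_of_nonneg_left ?_ (Real.exp_pos _).le
        exact (B.le_opNorm _).trans (mul_le_mul_of_nonneg_left (hu r) (norm_nonneg _))
      calc Real.exp (-(ω + ‖B‖ + 1) * (T - r)) * ‖S0 (T - r) (B (u r))‖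
          ≤ Real.exp (-(ω + ‖B‖ + 1) * (T - r)) * (Real.exp (ω * (T - r)) * (‖B‖ * C)) :=
            mul_le_mul_of_nonneg_left h2 (Real.exp_pos _).le
        _ = Real.exp (-(‖B‖ + 1) * (T - r)) * (‖B‖ * C) := by
            rw [← mul_assoc, ← Real.exp_add]; congr 2; ring
    · apply Continuous.intervalIntegrable; fun_prop
  refine h1.trans ?_
  rw [intervalIntegral.integral_mul_const]
  calc (∫ r in (0:ℝ)..T, Real.exp (-(‖B‖ + 1) * (T - r))) * (‖B‖ * C)
      ≤ (1 / (‖B‖ + 1)) * (‖B‖ * C) :=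
        mul_le_mul_of_nonneg_right (int_exp_le (norm_nonneg _)) (by positivity)
    _ = ‖B‖ / (‖B‖ + 1) * C := by ring

/-- weighted Volterra operator on bounded continuous functions -/
noncomputable def volt (h : IsC0 S0 ω) (B : X →L[ℂ] X) :
    BoundedContinuousFunction ℝ X →L[ℂ] BoundedContinuousFunction ℝ X :=
  LinearMap.mkContinuous
    { toFun := fun u => BoundedContinuousFunction.ofNormedAddCommGroup
        (fun t : ℝ => ∫ r in (0:ℝ)..(max t 0),
          Real.exp (-(ω + ‖B‖ + 1) * (max t 0 - r)) • S0 (max (max t 0 - r) 0) (B (u r)))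
        (volt_cont h B _ u.continuous) (‖B‖ / (‖B‖ + 1) * ‖u‖)
        (volt_bound h B (fun r => u.norm_coe_le_norm r))
      map_add' := by
        intro u v
        ext t
        simp only [BoundedContinuousFunction.coe_ofNormedAddCommGroup,
          BoundedContinuousFunction.coe_add, Pi.add_apply]
        rw [← intervalIntegral.integral_add]
        · congr 1; ext r; simp
        · apply Continuous.intervalIntegrable
          exact (volt_cont_integrand h B (ω + ‖B‖ + 1) u.continuous).comp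
            (continuous_const.prodMk continuous_id)
        · apply Continuous.intervalIntegrable
          exact (volt_cont_integrand h B (ω + ‖B‖ + 1) v.continuous).comp
            (continuous_const.prodMk continuous_id)
      map_smul' := by
        intro c u
        ext t
        simp only [BoundedContinuousFunction.coe_ofNormedAddCommGroup,
          BoundedContinuousFunction.coe_smul, RingHom.id_apply]
        rw [← intervalIntegral.integral_smul]
        congr 1; ext r
        rw [map_smul, map_smul, smul_comm] }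
    (‖B‖ / (‖B‖ + 1))
    (by
      intro u
      apply BoundedContinuousFunction.norm_ofNormedAddCommGroup_le
      · positivity
      · exact volt_bound h B (fun r => u.norm_coe_le_norm r))

omit [CompleteSpace X] in
theorem norm_volt_lt (h : IsC0 S0 ω) (B : X →L[ℂ] X) : ‖volt h B‖ < 1 := by
  refine (LinearMap.mkContinuous_norm_le _ (by positivity) _).trans_lt ?_
  rw [div_lt_one (by positivity)]; linarith

end Volterra

section Pert

omit [CompleteSpace X] in
theorem orb_bound (h : IsC0 S0 ω) {b : ℝ} (hb : 0 ≤ b) (x : X) (t : ℝ) :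
    ‖Real.exp (-(ω + b + 1) * max t 0) • S0 (max t 0) x‖ ≤ ‖x‖ := by
  have ht : 0 ≤ max t 0 := le_max_right _ _
  rw [norm_smul, Real.norm_eq_abs, abs_of_pos (Real.exp_pos _)]
  calc Real.exp (-(ω + b + 1) * max t 0) * ‖S0 (max t 0) x‖
      ≤ Real.exp (-(ω + b + 1) * max t 0) * (Real.exp (ω * max t 0) * ‖x‖) :=
        mul_le_mul_of_nonneg_left (h.norm_apply_le ht x) (Real.exp_pos _).le
    _ = Real.exp (-(b + 1) * max t 0) * ‖x‖ := by
        rw [← mul_assoc, ← Real.exp_add]; congr 2; ring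
    _ ≤ 1 * ‖x‖ := by
        refine mul_le_mul_of_nonneg_right ?_ (norm_nonneg _)
        apply Real.exp_le_one_iff.2
        have : 0 ≤ (b + 1) * max t 0 := by positivity
        linarith
    _ = ‖x‖ := one_mul _

/-- the free orbit as an element of the weighted space -/
noncomputable def orb (h : IsC0 S0 ω) (b : ℝ) (hb : 0 ≤ b) : X →L[ℂ] BoundedContinuousFunction ℝ X :=
  LinearMap.mkContinuous
    { toFun := fun x => BoundedContinuousFunction.ofNormedAddCommGroup
        (fun t : ℝ => Real.exp (-(ω + b + 1) * max t 0) • S0 (max t 0) x)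
        (by
          have h1 : Continuous (fun t : ℝ => S0 (max t 0) x) :=
            h.joint_comp continuous_id continuous_const
          have h2 : Continuous (fun t : ℝ => Real.exp (-(ω + b + 1) * max t 0)) := by fun_prop
          exact h2.smul h1) ‖x‖ (orb_bound h hb x)
      map_add' := by
        intro u v
        ext t
        simp
      map_smul' := by
        intro c u
        ext t
        simp only [BoundedContinuousFunction.coe_ofNormedAddCommGroup,
          BoundedContinuousFunction.coe_smul, RingHom.id_apply]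
        rw [map_smul, smul_comm] }
    1
    (by
      intro u
      rw [one_mul]
      apply BoundedContinuousFunction.norm_ofNormedAddCommGroup_le
      · positivity
      · exact orb_bound h hb u)

/-- inverse of `1 - volt` -/
noncomputable def res (h : IsC0 S0 ω) (B : X →L[ℂ] X) :
    BoundedContinuousFunction ℝ X →L[ℂ] BoundedContinuousFunction ℝ X :=
  ((Units.oneSub (volt h B) (norm_volt_lt h B))⁻¹ :
    (BoundedContinuousFunction ℝ X →L[ℂ] BoundedContinuousFunction ℝ X)ˣ)

theorem res_spec (h : IsC0 S0 ω) (B : X →L[ℂ] X) (f : BoundedContinuousFunction ℝ X) :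
    res h B f = f + volt h B (res h B f) := by
  have h1 : (1 - volt h B) * res h B = 1 := by
    have := (Units.oneSub (volt h B) (norm_volt_lt h B)).mul_inv
    exact this
  have h2 : (1 - volt h B) (res h B f) = f := by
    have := congrArg (fun L => L f) h1
    exact this
  have h3 : (1 - volt h B) (res h B f) = res h B f - volt h B (res h B f) := rfl
  rw [h3] at h2
  exact sub_eq_iff_eq_add.1 h2

/-- the perturbed semigroup -/
noncomputable def pert (h : IsC0 S0 ω) (B : X →L[ℂ] X) (t : ℝ) : X →L[ℂ] X :=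
  Real.exp ((ω + ‖B‖ + 1) * t) • ((BoundedContinuousFunction.evalCLM ℂ t).comp
    ((res h B).comp (orb h ‖B‖ (norm_nonneg _))))

theorem pert_apply (h : IsC0 S0 ω) (B : X →L[ℂ] X) (t : ℝ) (x : X) :
    pert h B t x = Real.exp ((ω + ‖B‖ + 1) * t) • (res h B (orb h ‖B‖ (norm_nonneg _) x)) t := rfl

theorem pert_continuous (h : IsC0 S0 ω) (B : X →L[ℂ] X) (x : X) :
    Continuous (fun t => pert h B t x) := by
  simp only [pert_apply]
  have h1 : Continuous (fun t => (res h B (orb h ‖B‖ (norm_nonneg _) x)) t) :=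
    (res h B (orb h ‖B‖ (norm_nonneg _) x)).continuous
  have h2 : Continuous (fun t : ℝ => Real.exp ((ω + ‖B‖ + 1) * t)) := by fun_prop
  exact h2.smul h1

/-- DUHAMEL, first form -/
theorem pert_duhamel (h : IsC0 S0 ω) (B : X →L[ℂ] X) {t : ℝ} (ht : 0 ≤ t) (x : X) :
    pert h B t x = S0 t x + ∫ r in (0:ℝ)..t, S0 (t - r) (B (pert h B r x)) := by
  set u := res h B (orb h ‖B‖ (norm_nonneg _) x) with hu
  have h1 := res_spec h B (orb h ‖B‖ (norm_nonneg _) x)
  rw [← hu] at h1
  have h2 : u t = Real.exp (-(ω + ‖B‖ + 1) * max t 0) • S0 (max t 0) x +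
      ∫ r in (0:ℝ)..(max t 0),
          Real.exp (-(ω + ‖B‖ + 1) * (max t 0 - r)) • S0 (max (max t 0 - r) 0) (B (u r)) :=
    congrArg (fun f : BoundedContinuousFunction ℝ X => f t) h1
  rw [max_eq_left ht] at h2
  rw [pert_apply, ← hu, h2, smul_add, smul_smul, ← Real.exp_add]
  have e1 : (ω + ‖B‖ + 1) * t + -(ω + ‖B‖ + 1) * t = 0 := by ring
  rw [e1, Real.exp_zero, one_smul, ← intervalIntegral.integral_smul]
  congr 1
  apply intervalIntegral.integral_congr
  intro r hr
  rw [uIcc_of_le ht] at hr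
  have hr2 : 0 ≤ t - r := by linarith [hr.2]
  simp only
  rw [max_eq_left hr2, pert_apply, ← hu, smul_smul, ← Real.exp_add]
  have e2 : (ω + ‖B‖ + 1) * t + -(ω + ‖B‖ + 1) * (t - r) = (ω + ‖B‖ + 1) * r := by ring
  rw [e2]
  rw [ContinuousLinearMap.map_smul_of_tower B, ContinuousLinearMap.map_smul_of_tower]

omit [CompleteSpace X] in
/-- UNIQUENESS for the homogeneous Volterra equation -/
theorem duh_unique (h : IsC0 S0 ω) (B : X →L[ℂ] X) {T : ℝ} (hT : 0 ≤ T) {v : ℝ → X}
    (hv : ContinuousOn v (Icc 0 T))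
    (hD : ∀ t ∈ Icc 0 T, v t = ∫ r in (0:ℝ)..t, S0 (t - r) (B (v r))) :
    ∀ t ∈ Icc 0 T, v t = 0 := by
  set lam := ω + ‖B‖ + 1 with hlam
  have hw : ContinuousOn (fun t => Real.exp (-lam * t) * ‖v t‖) (Icc 0 T) :=
    (Continuous.continuousOn (by fun_prop)).mul hv.norm
  obtain ⟨t0, ht0, hmax⟩ := isCompact_Icc.exists_isMaxOn ⟨0, left_mem_Icc.2 hT⟩ hw
  set M := Real.exp (-lam * t0) * ‖v t0‖ with hM
  have hM0 : 0 ≤ M := by positivity
  have hb : ∀ r ∈ Icc 0 T, ‖v r‖ ≤ Real.exp (lam * r) * M := by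
    intro r hr
    have h1 : Real.exp (-lam * r) * ‖v r‖ ≤ M := hmax hr
    have h2 : ‖v r‖ = Real.exp (lam * r) * (Real.exp (-lam * r) * ‖v r‖) := by
      rw [← mul_assoc, ← Real.exp_add]
      have : lam * r + -lam * r = 0 := by ring
      rw [this, Real.exp_zero, one_mul]
    rw [h2]
    exact mul_le_mul_of_nonneg_left h1 (Real.exp_pos _).le
  have h3 : ‖v t0‖ ≤ ∫ r in (0:ℝ)..t0, Real.exp (lam * t0) * M * ‖B‖ *
      Real.exp (-(‖B‖ + 1) * (t0 - r)) := by
    rw [hD t0 ht0]
    apply intervalIntegral.norm_integral_le_of_norm_le ht0.1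
    · filter_upwards with r hr
      have hr2 : 0 ≤ t0 - r := by have := hr.2; linarith
      have hr3 : r ∈ Icc 0 T := ⟨hr.1.le, hr.2.trans ht0.2⟩
      calc ‖S0 (t0 - r) (B (v r))‖ ≤ Real.exp (ω * (t0 - r)) * ‖B (v r)‖ := h.norm_apply_le hr2 _
        _ ≤ Real.exp (ω * (t0 - r)) * (‖B‖ * (Real.exp (lam * r) * M)) := by
            refine mul_le_mul_of_nonneg_left ?_ (Real.exp_pos _).le
            exact (B.le_opNorm _).trans (mul_le_mul_of_nonneg_left (hb r hr3) (norm_nonneg _))
        _ = (Real.exp (ω * (t0 - r)) * Real.exp (lam * r)) * M * ‖B‖ := by ring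
        _ = (Real.exp (lam * t0) * Real.exp (-(‖B‖ + 1) * (t0 - r))) * M * ‖B‖ := by
            rw [← Real.exp_add, ← Real.exp_add]; congr 3; rw [hlam]; ring
        _ = _ := by ring
    · apply Continuous.intervalIntegrable; fun_prop
  rw [intervalIntegral.integral_const_mul] at h3
  have h4 : ‖v t0‖ ≤ Real.exp (lam * t0) * M * ‖B‖ * (1 / (‖B‖ + 1)) :=
    h3.trans (mul_le_mul_of_nonneg_left (int_exp_le (norm_nonneg _)) (by positivity))
  have h5 : M ≤ M * (‖B‖ / (‖B‖ + 1)) := by
    calc M ≤ Real.exp (-lam * t0) * (Real.exp (lam * t0) * M * ‖B‖ * (1 / (‖B‖ + 1))) := by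
          conv_lhs => rw [hM]
          exact mul_le_mul_of_nonneg_left h4 (Real.exp_pos _).le
      _ = (Real.exp (-lam * t0) * Real.exp (lam * t0)) * (M * (‖B‖ / (‖B‖ + 1))) := by ring
      _ = M * (‖B‖ / (‖B‖ + 1)) := by
          rw [← Real.exp_add]
          have : -lam * t0 + lam * t0 = 0 := by ring
          rw [this, Real.exp_zero, one_mul]
  have h6 : ‖B‖ / (‖B‖ + 1) < 1 := by
    rw [div_lt_one (by positivity)]; linarith
  have h7 : M = 0 := by
    by_contra hne
    have hpos : 0 < M := lt_of_le_of_ne hM0 (Ne.symm hne)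
    have : M * (‖B‖ / (‖B‖ + 1)) < M * 1 := mul_lt_mul_of_pos_left h6 hpos
    linarith
  intro t ht
  have h8 := hb t ht
  rw [h7, mul_zero] at h8
  exact norm_le_zero_iff.1 h8

omit [CompleteSpace X] in
/-- uniqueness of the Duhamel equation with free term `g` -/
theorem duh_unique' (h : IsC0 S0 ω) (B : X →L[ℂ] X) {T : ℝ} (hT : 0 ≤ T) {g v w : ℝ → X}
    (hv : ContinuousOn v (Icc 0 T)) (hw : ContinuousOn w (Icc 0 T))
    (hvD : ∀ t ∈ Icc 0 T, v t = g t + ∫ r in (0:ℝ)..t, S0 (t - r) (B (v r)))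
    (hwD : ∀ t ∈ Icc 0 T, w t = g t + ∫ r in (0:ℝ)..t, S0 (t - r) (B (w r))) :
    ∀ t ∈ Icc 0 T, v t = w t := by
  have hint : ∀ (u : ℝ → X), ContinuousOn u (Icc 0 T) → ∀ t ∈ Icc (0:ℝ) T,
      IntervalIntegrable (fun r => S0 (t - r) (B (u r))) volume 0 t := by
    intro u hu t ht
    apply ContinuousOn.intervalIntegrable
    rw [uIcc_of_le ht.1]
    have h1 : ContinuousOn (fun r => S0 (max (t - r) 0) (B (u r))) (Icc 0 t) := by
      have h2 : ContinuousOn (fun r => ((t - r, B (u r)) : ℝ × X)) (Icc 0 t) :=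
        ContinuousOn.prodMk (by fun_prop)
          (B.continuous.comp_continuousOn (hu.mono (Icc_subset_Icc le_rfl ht.2)))
      exact h.joint.comp_continuousOn h2
    refine h1.congr ?_
    intro r hr
    simp only
    rw [max_eq_left (by linarith [hr.2])]
  have key := duh_unique h B hT (v := fun t => v t - w t) (hv.sub hw) (by
    intro t ht
    rw [hvD t ht, hwD t ht, add_sub_add_left_eq_sub,
      ← intervalIntegral.integral_sub (hint v hv t ht) (hint w hw t ht)]
    simp only [map_sub])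
  intro t ht
  exact sub_eq_zero.1 (key t ht)

omit [CompleteSpace X] in
theorem int_cont (h : IsC0 S0 ω) {t : ℝ} (ht : 0 ≤ t) {u : ℝ → X} (hu : ContinuousOn u (Icc 0 t)) :
    IntervalIntegrable (fun r => S0 (t - r) (u r)) volume 0 t := by
  apply ContinuousOn.intervalIntegrable
  rw [uIcc_of_le ht]
  have h2 : ContinuousOn (fun r => ((t - r, u r) : ℝ × X)) (Icc 0 t) :=
    ContinuousOn.prodMk (by fun_prop) hu
  have h1 : ContinuousOn (fun r => S0 (max (t - r) 0) (u r)) (Icc 0 t) :=
    h.joint.comp_continuousOn h2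
  refine h1.congr ?_
  intro r hr
  simp only
  rw [max_eq_left (by linarith [hr.2])]

theorem pert_zero (h : IsC0 S0 ω) (B : X →L[ℂ] X) : pert h B 0 = 1 := by
  ext x
  rw [pert_duhamel h B le_rfl, h.zero]; simp

theorem pert_add (h : IsC0 S0 ω) (B : X →L[ℂ] X) {s t : ℝ} (hs : 0 ≤ s) (ht : 0 ≤ t) (x : X) :
    pert h B (s + t) x = pert h B s (pert h B t x) := by
  have hc := pert_continuous h B
  refine duh_unique' h B hs (g := fun s => S0 s (pert h B t x))
    (v := fun s => pert h B (s + t) x) (w := fun s => pert h B s (pert h B t x))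
    ((hc x).comp (by fun_prop)).continuousOn (hc _).continuousOn ?_ ?_ s ⟨hs, le_rfl⟩
  · intro r hr
    have hrt : 0 ≤ r + t := add_nonneg hr.1 ht
    rw [pert_duhamel h B hrt, h.apply_add hr.1 ht]
    have hI1 : IntervalIntegrable (fun σ => S0 (r + t - σ) (B (pert h B σ x))) volume 0 (r + t) :=
      int_cont h hrt (B.continuous.comp (hc x)).continuousOn
    have hI2 := hI1.mono_set (c := 0) (d := t) (by
      rw [uIcc_of_le hrt, uIcc_of_le ht]; exact Icc_subset_Icc le_rfl (by linarith [hr.1]))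
    have hI3 := hI1.mono_set (c := t) (d := r + t) (by
      rw [uIcc_of_le hrt, uIcc_of_le (by linarith [hr.1])]; exact Icc_subset_Icc ht le_rfl)
    rw [← intervalIntegral.integral_add_adjacent_intervals hI2 hI3, ← add_assoc]
    congr 1
    · rw [pert_duhamel h B ht x, map_add,
        ← ContinuousLinearMap.intervalIntegral_comp_comm (S0 r) (int_cont h ht (u := fun σ => B (pert h B σ x))
          (B.continuous.comp (hc x)).continuousOn)]
      congr 1
      apply intervalIntegral.integral_congr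
      intro σ hσ
      rw [uIcc_of_le ht] at hσ
      simp only
      rw [← h.apply_add hr.1 (by linarith [hσ.2])]
      congr 2; ring
    · have := intervalIntegral.integral_comp_add_right (a := 0) (b := r)
        (fun σ => S0 (r + t - σ) (B (pert h B σ x))) t
      rw [zero_add] at this
      rw [← this]
      apply intervalIntegral.integral_congr
      intro σ _
      simp only
      congr 2; ring
  · intro r hr
    exact pert_duhamel h B hr.1 _

/-- integral Gronwall -/
theorem gron {f : ℝ → ℝ} (hf : Continuous f) {b c : ℝ} (hb : 0 ≤ b) (h0 : ∀ t, 0 ≤ t → 0 ≤ f t)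
    (hc : 0 ≤ c)
    (h1 : ∀ t, 0 ≤ t → f t ≤ c + b * ∫ r in (0:ℝ)..t, f r) {t : ℝ} (ht : 0 ≤ t) :
    f t ≤ c * Real.exp (b * t) := by
  set F : ℝ → ℝ := fun t => c + b * ∫ r in (0:ℝ)..t, f r with hF
  have hd : ∀ x, HasDerivAt F (b * f x) x := by
    intro x
    exact ((intervalIntegral.integral_hasDerivAt_right (hf.intervalIntegrable _ _)
      (hf.stronglyMeasurableAtFilter _ _) hf.continuousAt).const_mul b).const_add c
  have hFn : ∀ x, 0 ≤ x → 0 ≤ F x := fun x hx => (h0 x hx).trans (h1 x hx)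
  have key := norm_le_gronwallBound_of_norm_deriv_right_le (f := F) (f' := fun x => b * f x)
    (δ := c) (K := b) (ε := 0) (a := 0) (b := t)
    (fun x _ => (hd x).continuousAt.continuousWithinAt)
    (fun x _ => (hd x).hasDerivWithinAt)
    (by simp [hF, abs_of_nonneg hc])
    (by
      intro x hx
      rw [add_zero, norm_mul, Real.norm_of_nonneg hb, Real.norm_of_nonneg (h0 x hx.1),
        Real.norm_of_nonneg (hFn x hx.1)]
      exact mul_le_mul_of_nonneg_left (h1 x hx.1) hb)
    t ⟨ht, le_rfl⟩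
  rw [sub_zero, gronwallBound_ε0, Real.norm_of_nonneg (hFn t ht)] at key
  exact (h1 t ht).trans key

/-- growth bound -/
theorem pert_bound (h : IsC0 S0 ω) (B : X →L[ℂ] X) {t : ℝ} (ht : 0 ≤ t) :
    ‖pert h B t‖ ≤ Real.exp ((ω + ‖B‖) * t) := by
  apply ContinuousLinearMap.opNorm_le_bound _ (Real.exp_pos _).le
  intro x
  have hc := pert_continuous h B x
  have key := gron (f := fun t => Real.exp (-ω * t) * ‖pert h B t x‖) (b := ‖B‖) (c := ‖x‖)
    (by fun_prop) (norm_nonneg _) (fun t _ => by positivity) (norm_nonneg _) (by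
      intro s hs
      have h1 : ‖pert h B s x‖ ≤ Real.exp (ω * s) * ‖x‖ +
          ∫ r in (0:ℝ)..s, Real.exp (ω * s) * ‖B‖ * (Real.exp (-ω * r) * ‖pert h B r x‖) := by
        rw [pert_duhamel h B hs x]
        refine (norm_add_le _ _).trans (add_le_add (h.norm_apply_le hs x) ?_)
        apply intervalIntegral.norm_integral_le_of_norm_le hs
        · filter_upwards with r hr
          have hr2 : 0 ≤ s - r := by have := hr.2; linarith
          calc ‖S0 (s - r) (B (pert h B r x))‖ ≤ Real.exp (ω * (s - r)) * ‖B (pert h B r x)‖ :=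
                h.norm_apply_le hr2 _
            _ ≤ Real.exp (ω * (s - r)) * (‖B‖ * ‖pert h B r x‖) :=
                mul_le_mul_of_nonneg_left (B.le_opNorm _) (Real.exp_pos _).le
            _ = Real.exp (ω * s) * ‖B‖ * (Real.exp (-ω * r) * ‖pert h B r x‖) := by
                have : ω * (s - r) = ω * s + -ω * r := by ring
                rw [this, Real.exp_add]; ring
        · apply Continuous.intervalIntegrable; fun_prop
      rw [intervalIntegral.integral_const_mul] at h1
      calc Real.exp (-ω * s) * ‖pert h B s x‖ ≤ Real.exp (-ω * s) * (Real.exp (ω * s) * ‖x‖ +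
          Real.exp (ω * s) * ‖B‖ * ∫ r in (0:ℝ)..s, (Real.exp (-ω * r) * ‖pert h B r x‖)) :=
            mul_le_mul_of_nonneg_left h1 (Real.exp_pos _).le
        _ = (Real.exp (-ω * s) * Real.exp (ω * s)) * (‖x‖ +
          ‖B‖ * ∫ r in (0:ℝ)..s, (Real.exp (-ω * r) * ‖pert h B r x‖)) := by ring
        _ = _ := by
          rw [← Real.exp_add]
          have : -ω * s + ω * s = 0 := by ring
          rw [this, Real.exp_zero, one_mul]) ht
  have e : ‖pert h B t x‖ = Real.exp (ω * t) * (Real.exp (-ω * t) * ‖pert h B t x‖) := by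
    rw [← mul_assoc, ← Real.exp_add]
    have : ω * t + -ω * t = 0 := by ring
    rw [this, Real.exp_zero, one_mul]
  rw [e]
  refine (mul_le_mul_of_nonneg_left key (Real.exp_pos _).le).trans (le_of_eq ?_)
  rw [add_mul, Real.exp_add]; ring

theorem pert_isC0 (h : IsC0 S0 ω) (B : X →L[ℂ] X) : IsC0 (pert h B) (ω + ‖B‖) where
  zero := pert_zero h B
  add := by
    intro s t hs ht
    ext x
    exact pert_add h B hs ht x
  cont := fun x => (pert_continuous h B x).continuousOn
  bound := fun t ht => pert_bound h B ht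

/-- DUHAMEL, second form -/
theorem pert_duhamel' (h : IsC0 S0 ω) (B : X →L[ℂ] X) {t : ℝ} (ht : 0 ≤ t) (x : X) :
    pert h B t x = S0 t x + ∫ r in (0:ℝ)..t, pert h B (t - r) (B (S0 r x)) := by
  have hp := pert_isC0 h B
  -- continuous extension of the orbit
  set y : ℝ → X := fun r => B (S0 (max r 0) x) with hy
  have hyc : Continuous y := B.continuous.comp (h.joint_comp continuous_id continuous_const)
  have hy0 : ∀ r, 0 ≤ r → y r = B (S0 r x) := by
    intro r hr; simp only [hy]; rw [max_eq_left hr]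
  set w : ℝ → X := fun t => S0 (max t 0) x +
    ∫ r in (0:ℝ)..t, pert h B (max (t - r) 0) (y r) with hw
  have hG1 : Continuous (Function.uncurry fun (t r : ℝ) => pert h B (max (t - r) 0) (y r)) :=
    hp.joint_comp (f := fun p : ℝ × ℝ => p.1 - p.2) (by fun_prop) (by fun_prop)
  have hwc : Continuous w := by
    refine (h.joint_comp continuous_id continuous_const).add ?_
    exact intervalIntegral.continuous_parametric_intervalIntegral_of_continuous hG1 continuous_id
  have hwt : ∀ t, 0 ≤ t → w t = S0 t x + ∫ r in (0:ℝ)..t, pert h B (t - r) (B (S0 r x)) := by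
    intro t ht
    simp only [hw]
    rw [max_eq_left ht]
    congr 1
    apply intervalIntegral.integral_congr
    intro r hr
    rw [uIcc_of_le ht] at hr
    simp only
    rw [max_eq_left (by linarith [hr.2]), hy0 r hr.1]
  rw [← hwt t ht]
  refine duh_unique' h B ht (g := fun s => S0 s x) (pert_continuous h B x).continuousOn
    hwc.continuousOn (fun s hs => pert_duhamel h B hs.1 x) ?_ t ⟨ht, le_rfl⟩
  rintro s ⟨hs, -⟩
  rw [hwt s hs]
  congr 1
  -- Fubini on the triangle
  set G : ℝ → ℝ → X := fun r σ => S0 (max (s - r) 0) (B (pert h B (max (r - σ) 0) (y σ))) with hG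
  have hGc : Continuous (Function.uncurry G) := by
    have h1 : Continuous (fun p : ℝ × ℝ => pert h B (max (p.1 - p.2) 0) (y p.2)) := hG1
    exact h.joint_comp (f := fun p : ℝ × ℝ => s - p.1) (by fun_prop) (B.continuous.comp h1)
  set H : ℝ → ℝ → X := fun r σ => if σ ≤ r then G r σ else 0 with hH
  have hGr : ∀ r, Continuous (G r) := fun r => hGc.comp (continuous_const.prodMk continuous_id)
  have hGs : ∀ σ, Continuous (fun r => G r σ) := fun σ =>
    hGc.comp (continuous_id.prodMk continuous_const)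
  have hms : MeasurableSet {p : ℝ × ℝ | p.2 ≤ p.1} :=
    measurableSet_le measurable_snd measurable_fst
  have hHi : IntegrableOn (Function.uncurry H) (uIoc 0 s ×ˢ uIoc 0 s) := by
    have h1 : IntegrableOn (Function.uncurry G) (uIoc 0 s ×ˢ uIoc 0 s) := by
      have h2 : IntegrableOn (Function.uncurry G) (Icc 0 s ×ˢ Icc 0 s) :=
        hGc.continuousOn.integrableOn_compact (isCompact_Icc.prod isCompact_Icc)
      refine h2.mono_set ?_
      rw [uIoc_of_le hs]
      exact prod_mono Ioc_subset_Icc_self Ioc_subset_Icc_self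
    have h3 : Function.uncurry H = indicator {p : ℝ × ℝ | p.2 ≤ p.1} (Function.uncurry G) := by
      ext ⟨r, σ⟩
      simp only [Function.uncurry, hH, indicator, mem_ofPred_eq]
    rw [h3]
    exact h1.indicator hms
  have hswap := intervalIntegral_intervalIntegral_swap (F := H) (a := 0) (b := s) (c := 0) (d := s) hHi
  have hL : ∫ r in (0:ℝ)..s, ∫ σ in (0:ℝ)..s, H r σ = ∫ r in (0:ℝ)..s, (S0 (s - r) (B (w r)) -
      S0 (s - r) (B (S0 r x))) := by
    apply intervalIntegral.integral_congr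
    intro r hr
    rw [uIcc_of_le hs] at hr
    simp only
    have hHr : ∀ a b, IntervalIntegrable (H r) volume a b := by
      intro a b
      have h3 : H r = indicator {σ : ℝ | σ ≤ r} (G r) := by
        ext σ
        simp only [hH, indicator, mem_ofPred_eq]
      rw [h3]
      have := (hGr r).intervalIntegrable (μ := volume) a b
      exact ⟨this.1.indicator measurableSet_Iic, this.2.indicator measurableSet_Iic⟩
    rw [← intervalIntegral.integral_add_adjacent_intervals (hHr 0 r) (hHr r s)]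
    have e1 : ∫ σ in (0:ℝ)..r, H r σ = ∫ σ in (0:ℝ)..r, G r σ := by
      apply intervalIntegral.integral_congr
      intro σ hσ
      rw [uIcc_of_le hr.1] at hσ
      simp only [hH, if_pos hσ.2]
    have e2 : ∫ σ in r..s, H r σ = 0 := by
      rw [intervalIntegral.integral_of_le hr.2]
      apply integral_eq_zero_of_ae
      rw [EventuallyEq, ae_restrict_iff' measurableSet_Ioc]
      filter_upwards with σ hσ
      simp only [hH, if_neg (not_le.2 hσ.1), Pi.zero_apply]
    rw [e1, e2, add_zero, hwt r hr.1, map_add, map_add, add_sub_cancel_left]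
    have hI : IntervalIntegrable (fun σ => pert h B (r - σ) (B (S0 σ x))) volume 0 r :=
      int_cont hp hr.1 (B.continuous.comp_continuousOn ((h.cont x).mono (fun z hz => hz.1)))
    rw [← ContinuousLinearMap.intervalIntegral_comp_comm B hI,
      ← ContinuousLinearMap.intervalIntegral_comp_comm (S0 (s - r))
        (f := fun σ => B (pert h B (r - σ) (B (S0 σ x))))
        ⟨B.integrable_comp hI.1, B.integrable_comp hI.2⟩]
    apply intervalIntegral.integral_congr
    intro σ hσ
    rw [uIcc_of_le hr.1] at hσ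
    simp only [hG]
    rw [max_eq_left (by linarith [hr.2]), max_eq_left (by linarith [hσ.2]), hy0 σ hσ.1]
  have hR : ∫ σ in (0:ℝ)..s, ∫ r in (0:ℝ)..s, H r σ = ∫ σ in (0:ℝ)..s,
      (pert h B (s - σ) (B (S0 σ x)) - S0 (s - σ) (B (S0 σ x))) := by
    apply intervalIntegral.integral_congr
    intro σ hσ
    rw [uIcc_of_le hs] at hσ
    simp only
    have hHs : ∀ a b, IntervalIntegrable (fun r => H r σ) volume a b := by
      intro a b
      have h3 : (fun r => H r σ) = indicator {r : ℝ | σ ≤ r} (fun r => G r σ) := by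
        ext r
        simp only [hH, indicator, mem_ofPred_eq]
      rw [h3]
      have := (hGs σ).intervalIntegrable (μ := volume) a b
      exact ⟨this.1.indicator measurableSet_Ici, this.2.indicator measurableSet_Ici⟩
    rw [← intervalIntegral.integral_add_adjacent_intervals (hHs 0 σ) (hHs σ s)]
    have e1 : ∫ r in (0:ℝ)..σ, H r σ = 0 := by
      rw [intervalIntegral.integral_of_le hσ.1]
      apply integral_eq_zero_of_ae
      rw [EventuallyEq, ae_restrict_iff' measurableSet_Ioc]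
      have h5 : ∀ᵐ r : ℝ, r ≠ σ := by
        rw [ae_iff]; simp
      filter_upwards [h5] with r hr5 hr
      have : r < σ := lt_of_le_of_ne hr.2 hr5
      simp only [hH, if_neg (not_le.2 this), Pi.zero_apply]
    have e2 : ∫ r in σ..s, H r σ = ∫ r in σ..s, G r σ := by
      apply intervalIntegral.integral_congr
      intro r hr
      rw [uIcc_of_le hσ.2] at hr
      simp only [hH, if_pos hr.1]
    rw [e1, e2, zero_add]
    have e3 := intervalIntegral.integral_comp_add_right (a := 0) (b := s - σ)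
      (fun r => G r σ) σ
    rw [zero_add, sub_add_cancel] at e3
    rw [← e3, pert_duhamel h B (by linarith [hσ.2] : 0 ≤ s - σ), add_sub_cancel_left]
    apply intervalIntegral.integral_congr
    intro ρ hρ
    rw [uIcc_of_le (by linarith [hσ.2])] at hρ
    simp only [hG]
    have e4 : s - (ρ + σ) = s - σ - ρ := by ring
    have e5 : ρ + σ - σ = ρ := by ring
    rw [e4, e5, max_eq_left (by linarith [hρ.2]), max_eq_left hρ.1, hy0 σ hσ.1]
  rw [hL, hR] at hswap
  have hi1 : IntervalIntegrable (fun r => S0 (s - r) (B (w r))) volume 0 s :=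
    int_cont h hs (B.continuous.comp hwc).continuousOn
  have hi2 : IntervalIntegrable (fun r => S0 (s - r) (B (S0 r x))) volume 0 s :=
    int_cont h hs (B.continuous.comp_continuousOn ((h.cont x).mono (fun z hz => hz.1)))
  have hi3 : IntervalIntegrable (fun r => pert h B (s - r) (B (S0 r x))) volume 0 s :=
    int_cont hp hs (B.continuous.comp_continuousOn ((h.cont x).mono (fun z hz => hz.1)))
  rw [intervalIntegral.integral_sub hi1 hi2, intervalIntegral.integral_sub hi3 hi2] at hswap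
  exact (sub_left_injective hswap).symm

end Pert

end Crest.Agent.R086.DC
end

-- ▼ part R086/DCfree
section

/-!
Row 86, module DC (helper758): the free rescaled Schroedinger semigroup on the weighted Wiener
space `XN N` (densities), formula, norm, semigroup law, strong continuity.
-/

set_option autoImplicit false

open MeasureTheory Complex Set Filter Topology

namespace Crest.Agent.R086.DC

open Crest.Agent.R086.Wie (XG GInt wtV)


theorem ac_muN (N : ℕ) : (volume : Measure R12) ≪ muN N := Wie.ac_mW volume (wtV R12 N)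

/-- a.e. statements are invariant under dilations -/
theorem ae_comp_smul {c : ℝ} (hc : c ≠ 0) {p : R12 → Prop} (h : ∀ᵐ z : R12, p z) :
    ∀ᵐ z : R12, p (c • z) :=
  (Measure.quasiMeasurePreserving_smul (volume : Measure R12) hc).ae h

/-- function level: `a ↦ m(z) a(c z)` -/
def sopT (c : ℝ) (m : R12 → ℂ) (a : R12 → ℂ) (z : R12) : ℂ := m z * a (c • z)

theorem finrank_R12 : Module.finrank ℝ R12 = 12 := by simp [R12]

theorem wt_smul_le {c : ℝ} (hc : 1 ≤ c) (N : ℕ) (z : R12) : wtV R12 N z ≤ wtV R12 N (c • z) := by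
  simp only [Wie.wtV_apply, Wie.wt]
  refine pow_le_pow_left₀ (by positivity) ?_ N
  rw [norm_smul, Real.norm_of_nonneg (by linarith)]
  nlinarith [norm_nonneg z]

theorem gint_comp_smul {c : ℝ} (hc : 1 ≤ c) {N : ℕ} {a : R12 → ℂ}
    (ha : GInt volume (wtV R12 N) a) : GInt volume (wtV R12 N) (fun z => a (c • z)) := by
  have hc0 : c ≠ 0 := by linarith
  have h1 : Integrable (fun z : R12 => wtV R12 N (c • z) * ‖a (c • z)‖) volume :=
    ((integrable_comp_smul_iff (volume : Measure R12)
      (fun z => wtV R12 N z * ‖a z‖) hc0).2 ha.norm_int)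
  have hm : AEStronglyMeasurable (fun z : R12 => a (c • z)) volume :=
    ha.integrable.aestronglyMeasurable.comp_quasiMeasurePreserving
      (Measure.quasiMeasurePreserving_smul (volume : Measure R12) hc0)
  rw [Wie.gint_iff hm]
  refine h1.mono ((wtV R12 N).meas.aestronglyMeasurable.mul hm.norm) (Eventually.of_forall fun z => ?_)
  rw [Real.norm_of_nonneg (mul_nonneg ((wtV R12 N).nonneg z) (norm_nonneg _)),
    Real.norm_of_nonneg (mul_nonneg ((wtV R12 N).nonneg _) (norm_nonneg _))]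
  exact mul_le_mul_of_nonneg_right (wt_smul_le hc N z) (norm_nonneg _)

theorem integral_comp_smul_le {c : ℝ} (hc : 1 ≤ c) {N : ℕ} {a : R12 → ℂ}
    (ha : GInt volume (wtV R12 N) a) :
    ∫ z : R12, wtV R12 N z * ‖a (c • z)‖ ≤ (c ^ 12)⁻¹ * ∫ z : R12, wtV R12 N z * ‖a z‖ := by
  have hc0 : c ≠ 0 := by linarith
  have h1 : Integrable (fun z : R12 => wtV R12 N (c • z) * ‖a (c • z)‖) volume :=
    ((integrable_comp_smul_iff (volume : Measure R12)
      (fun z => wtV R12 N z * ‖a z‖) hc0).2 ha.norm_int)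
  have h2 : ∫ z : R12, wtV R12 N (c • z) * ‖a (c • z)‖ = (c ^ 12)⁻¹ * ∫ z : R12, wtV R12 N z * ‖a z‖ := by
    rw [Measure.integral_comp_smul (volume : Measure R12) (fun z => wtV R12 N z * ‖a z‖) c,
      finrank_R12, abs_of_nonneg (by positivity), smul_eq_mul]
  rw [← h2]
  refine integral_mono (gint_comp_smul hc ha).norm_int h1 fun z => ?_
  exact mul_le_mul_of_nonneg_right (wt_smul_le hc N z) (norm_nonneg _)

/-- the operator `a ↦ m(z) a(c z)` on densities -/
noncomputable def sop (N : ℕ) (c : ℝ) (hc : 1 ≤ c) (m : R12 → ℂ) (hm : Measurable m) (M : ℝ)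
    (hM : ∀ z, ‖m z‖ ≤ M) : XG (volume : Measure R12) (wtV R12 N) →L[ℂ]
      XG (volume : Measure R12) (wtV R12 N) :=
  XG.lift (sopT c m)
    (fun a ha => (gint_comp_smul hc ha).bdd_mul hm.aestronglyMeasurable hM)
    (fun a b _ _ => Eventually.of_forall fun z => by simp only [sopT, mul_add])
    (fun k a _ => Eventually.of_forall fun z => by simp only [sopT]; ring)
    (fun a b _ h => by
      have := ae_comp_smul (c := c) (by linarith) h
      filter_upwards [this] with z hz
      simp only [sopT, hz])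
    (M * (c ^ 12)⁻¹)
    (fun a ha => by
      have hM0 : 0 ≤ M := (norm_nonneg _).trans (hM 0)
      have h1 : ∫ z : R12, wtV R12 N z * ‖sopT c m a z‖ ≤
          ∫ z : R12, M * (wtV R12 N z * ‖a (c • z)‖) := by
        refine integral_mono ((gint_comp_smul hc ha).bdd_mul hm.aestronglyMeasurable hM).norm_int
          ((gint_comp_smul hc ha).norm_int.const_mul M) fun z => ?_
        calc wtV R12 N z * ‖sopT c m a z‖ = ‖m z‖ * (wtV R12 N z * ‖a (c • z)‖) := by
              rw [sopT, norm_mul]; ring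
          _ ≤ M * (wtV R12 N z * ‖a (c • z)‖) := mul_le_mul_of_nonneg_right (hM z)
              (mul_nonneg ((wtV R12 N).nonneg z) (norm_nonneg _))
      refine h1.trans ?_
      rw [integral_const_mul, mul_assoc]
      exact mul_le_mul_of_nonneg_left (integral_comp_smul_le hc ha) hM0)

theorem den_sop (N : ℕ) (c : ℝ) (hc : 1 ≤ c) (m : R12 → ℂ) (hm : Measurable m) (M : ℝ)
    (hM : ∀ z, ‖m z‖ ≤ M) (a : XG (volume : Measure R12) (wtV R12 N)) :
    XG.den (sop N c hc m hm M hM a) =ᵐ[volume] fun z => m z * XG.den a (c • z) :=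
  XG.den_lift _ _ _ _ _ _ _ a

theorem norm_sop_le (N : ℕ) (c : ℝ) (hc : 1 ≤ c) (m : R12 → ℂ) (hm : Measurable m) (M : ℝ)
    (hM : ∀ z, ‖m z‖ ≤ M) : ‖sop N c hc m hm M hM‖ ≤ M * (c ^ 12)⁻¹ :=
  XG.norm_lift_le _ _ _ _ _ _ _ (mul_nonneg ((norm_nonneg _).trans (hM 0))
    (inv_nonneg.2 (pow_nonneg (by linarith) _)))

/-! ### the symbols -/

/-- symbol of `S0 s`; `σ = 1` first component, `σ = -1` second component -/
noncomputable def sym (om ε σ : ℝ) (s : ℝ) (z : R12) : ℂ :=
  exp ((σ * I * om - ε) * s) * exp (6 * (s : ℂ)) *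
      exp (-(σ * I) * (((Real.exp s - 1) * ‖z‖ ^ 2 : ℝ) : ℂ))

theorem measurable_sym (om ε σ s : ℝ) : Measurable (sym om ε σ s) := by
  unfold sym
  fun_prop

theorem continuous_sym2 (om ε σ : ℝ) : Continuous (fun p : ℝ × R12 => sym om ε σ p.1 p.2) := by
  unfold sym
  fun_prop

theorem norm_sym (om ε σ s : ℝ) (z : R12) :
    ‖sym om ε σ s z‖ = Real.exp (-ε * s) * Real.exp (6 * s) := by
  unfold sym
  rw [norm_mul, norm_mul, Complex.norm_exp, Complex.norm_exp, Complex.norm_exp]
  have e1 : ((σ * I * om - ε) * s : ℂ).re = -ε * s := by simp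
  have e2 : (6 * (s : ℂ)).re = 6 * s := by simp
  have e3 : (-(σ * I) * (((Real.exp s - 1) * ‖z‖ ^ 2 : ℝ) : ℂ)).re = 0 := by
    have : -(σ * I) * (((Real.exp s - 1) * ‖z‖ ^ 2 : ℝ) : ℂ) =
        ((-(σ * ((Real.exp s - 1) * ‖z‖ ^ 2)) : ℝ) : ℂ) * I := by push_cast; ring
    rw [this, Complex.re_ofReal_mul, Complex.I_re, mul_zero]
  rw [e1, e2, e3, Real.exp_zero, mul_one]

theorem sym_add (om ε σ s t : ℝ) (z : R12) :
    sym om ε σ (s + t) z = sym om ε σ s z * sym om ε σ t (Real.exp (s / 2) • z) := by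
  unfold sym
  have h1 : ‖Real.exp (s / 2) • z‖ ^ 2 = Real.exp s * ‖z‖ ^ 2 := by
    rw [norm_smul, Real.norm_of_nonneg (Real.exp_pos _).le, mul_pow, ← Real.exp_nat_mul]
    congr 2
    push_cast; ring
  rw [h1]
  simp only [← Complex.exp_add]
  congr 1
  rw [Real.exp_add]
  push_cast
  ring

theorem one_le_exp_half {s : ℝ} (hs : 0 ≤ s) : 1 ≤ Real.exp (s / 2) :=
  Real.one_le_exp (by linarith)

theorem sym_zero (om ε σ : ℝ) (z : R12) : sym om ε σ 0 z = 1 := by
  simp [sym]

/-- one component of the free semigroup -/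
noncomputable def S0c (N : ℕ) (om ε σ : ℝ) (s : ℝ) :
    XG (volume : Measure R12) (wtV R12 N) →L[ℂ] XG (volume : Measure R12) (wtV R12 N) :=
  sop N (Real.exp (max s 0 / 2)) (one_le_exp_half (le_max_right _ _)) (sym om ε σ (max s 0))
    (measurable_sym _ _ _ _) _ (fun z => (norm_sym om ε σ (max s 0) z).le)

theorem den_S0c (N : ℕ) (om ε σ : ℝ) {s : ℝ} (hs : 0 ≤ s)
    (a : XG (volume : Measure R12) (wtV R12 N)) :
    XG.den (S0c N om ε σ s a) =ᵐ[volume] fun z => sym om ε σ s z * XG.den a (Real.exp (s / 2) • z) := by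
  have this : XG.den (S0c N om ε σ s a) =ᵐ[volume] fun z => sym om ε σ (max s 0) z *
      XG.den a (Real.exp (max s 0 / 2) • z) :=
    den_sop N _ (one_le_exp_half (le_max_right s 0)) (sym om ε σ (max s 0))
      (measurable_sym _ _ _ _) _ (fun z => (norm_sym om ε σ (max s 0) z).le) a
  simpa only [max_eq_left hs] using this

theorem norm_S0c_le (N : ℕ) (om ε σ : ℝ) {s : ℝ} (hs : 0 ≤ s) :
    ‖S0c N om ε σ s‖ ≤ Real.exp (-ε * s) := by
  refine (norm_sop_le _ _ _ _ _ _ _).trans (le_of_eq ?_)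
  rw [max_eq_left hs, ← Real.exp_nat_mul, ← Real.exp_neg, ← Real.exp_add, ← Real.exp_add]
  congr 1
  push_cast
  ring

theorem S0c_zero (N : ℕ) (om ε σ : ℝ) : S0c N om ε σ 0 = 1 := by
  ext1 a
  refine XG.ext ?_
  refine (den_S0c N om ε σ le_rfl a).trans (Eventually.of_forall fun z => ?_)
  simp [sym_zero]

theorem S0c_add (N : ℕ) (om ε σ : ℝ) {s t : ℝ} (hs : 0 ≤ s) (ht : 0 ≤ t) :
    S0c N om ε σ (s + t) = (S0c N om ε σ s).comp (S0c N om ε σ t) := by
  ext1 a
  refine XG.ext ?_
  have h1 := den_S0c N om ε σ (add_nonneg hs ht) a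
  have h2 := den_S0c N om ε σ hs (S0c N om ε σ t a)
  have h3 := ae_comp_smul (Real.exp_pos (s / 2)).ne' (den_S0c N om ε σ ht a)
  filter_upwards [h1, h2, h3] with z h1 h2 h3
  show XG.den (S0c N om ε σ (s + t) a) z = XG.den (S0c N om ε σ s (S0c N om ε σ t a)) z
  have e : (s + t) / 2 = t / 2 + s / 2 := by ring
  rw [h1, h2, h3, sym_add, mul_assoc, smul_smul, ← Real.exp_add, e]

/-! ### strong continuity -/

theorem contOn_of_right {X : Type*} [NormedAddCommGroup X] [NormedSpace ℂ X] {T : ℝ → X →L[ℂ] X}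
    (hadd : ∀ s t, 0 ≤ s → 0 ≤ t → T (s + t) = (T s).comp (T t))
    (hb : ∀ s, 0 ≤ s → ‖T s‖ ≤ 1) (x : X)
    (h : Tendsto (fun s => T s x) (𝓝[≥] 0) (𝓝 x)) :
    ContinuousOn (fun s => T s x) (Ici 0) := by
  intro t0 ht0
  have ht0' : (0:ℝ) ≤ t0 := ht0
  rw [ContinuousWithinAt, tendsto_iff_norm_sub_tendsto_zero]
  have hφ : Tendsto (fun s => ‖T s x - x‖) (𝓝[≥] 0) (𝓝 0) :=
    tendsto_iff_norm_sub_tendsto_zero.1 h
  have habs : Tendsto (fun t : ℝ => |t - t0|) (𝓝[≥] t0 ⊔ 𝓝[Ici 0] t0) (𝓝[≥] 0) := by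
    refine tendsto_nhdsWithin_iff.2 ⟨?_, Eventually.of_forall fun t => Set.mem_Ici.2 (abs_nonneg _)⟩
    have : Tendsto (fun t : ℝ => |t - t0|) (𝓝 t0) (𝓝 |t0 - t0|) :=
      Continuous.tendsto (by fun_prop) t0
    rw [sub_self, abs_zero] at this
    exact this.mono_left (sup_le nhdsWithin_le_nhds nhdsWithin_le_nhds)
  have hcomp : Tendsto (fun t : ℝ => ‖T |t - t0| x - x‖) (𝓝[Ici 0] t0) (𝓝 0) :=
    (hφ.comp habs).mono_left le_sup_right
  refine squeeze_zero' (Eventually.of_forall fun t => norm_nonneg _) ?_ hcomp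
  filter_upwards [self_mem_nhdsWithin] with t ht
  have ht' : (0:ℝ) ≤ t := ht
  have key : ∀ a b : ℝ, 0 ≤ a → 0 ≤ b → ‖T (a + b) x - T a x‖ ≤ ‖T b x - x‖ := by
    intro a b ha hb'
    rw [hadd a b ha hb', ContinuousLinearMap.comp_apply, ← map_sub]
    calc ‖T a (T b x - x)‖ ≤ ‖T a‖ * ‖T b x - x‖ := (T a).le_opNorm _
      _ ≤ 1 * ‖T b x - x‖ := mul_le_mul_of_nonneg_right (hb a ha) (norm_nonneg _)
      _ = _ := one_mul _
  rcases le_total t0 t with hle | hle
  · have h1 := key t0 (t - t0) ht0' (by linarith)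
    rw [add_sub_cancel] at h1
    rw [abs_of_nonneg (by linarith)]
    exact h1
  · have h1 := key t (t0 - t) ht' (by linarith)
    rw [add_sub_cancel] at h1
    rw [abs_of_nonpos (by linarith), neg_sub, norm_sub_rev]
    exact h1

instance muN_locFin (N : ℕ) : IsLocallyFiniteMeasure (Wie.mW (volume : Measure R12) (wtV R12 N)) :=
  IsLocallyFiniteMeasure.withDensity_ofReal (Wie.continuous_wt N)

/-- right continuity at `0` for a continuous compactly supported density -/
theorem S0c_right_cc (N : ℕ) (om ε σ : ℝ) {g : R12 → ℂ} (hg : Continuous g)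
    (hgc : HasCompactSupport g) (hgi : GInt volume (wtV R12 N) g) :
    Tendsto (fun s => S0c N om ε σ s (XG.mk g hgi)) (𝓝[≥] 0) (𝓝 (XG.mk g hgi)) := by
  rw [tendsto_iff_norm_sub_tendsto_zero]
  obtain ⟨Cg, hCg⟩ := hgc.exists_bound_of_continuous hg
  have hCg0 : 0 ≤ Cg := (norm_nonneg _).trans (hCg 0)
  obtain ⟨R, hR⟩ := hgc.isCompact.isBounded.subset_closedBall (0 : R12)
  have hsupp : ∀ z, R < ‖z‖ → g z = 0 := by
    intro z hz
    by_contra hne
    have := hR (subset_tsupport g hne)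
    rw [mem_closedBall_zero_iff] at this
    linarith
  set K := Real.exp (|ε| + 6) + 1 with hK
  have hform : ∀ s, 0 ≤ s → ‖S0c N om ε σ s (XG.mk g hgi) - XG.mk g hgi‖ =
      ∫ z : R12, wtV R12 N z * ‖sym om ε σ s z * g (Real.exp (s / 2) • z) - g z‖ := by
    intro s hs
    rw [XG.norm_eq]
    refine integral_congr_ae ?_
    filter_upwards [XG.den_sub (S0c N om ε σ s (XG.mk g hgi)) (XG.mk g hgi),
      den_S0c N om ε σ hs (XG.mk g hgi), XG.den_mk hgi,
      ae_comp_smul (Real.exp_pos (s / 2)).ne' (XG.den_mk hgi)] with z h1 h2 h3 h4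
    rw [h1, h2, h3, h4]
  have hlim : Tendsto (fun s => ∫ z : R12, wtV R12 N z *
      ‖sym om ε σ s z * g (Real.exp (s / 2) • z) - g z‖) (𝓝[≥] 0) (𝓝 (∫ z : R12, (0:ℝ))) := by
    refine tendsto_integral_filter_of_dominated_convergence
      (fun z => (Metric.closedBall (0 : R12) R).indicator (fun z => wtV R12 N z * (K * Cg)) z)
      ?_ ?_ ?_ ?_
    · refine Eventually.of_forall fun s => ?_
      have h1 : Continuous (fun z : R12 => sym om ε σ s z) :=
        (continuous_sym2 om ε σ).comp (continuous_const.prodMk continuous_id)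
      have h2 : Continuous (fun z : R12 => wtV R12 N z) := Wie.continuous_wt N
      exact (h2.mul ((h1.mul (hg.comp (by fun_prop))).sub hg).norm).aestronglyMeasurable
    · have h01 : ∀ᶠ s in 𝓝[≥] (0:ℝ), s ∈ Icc (0:ℝ) 1 := by
        filter_upwards [self_mem_nhdsWithin, mem_nhdsWithin_of_mem_nhds (Iic_mem_nhds one_pos)]
          with s h1 h2
        exact ⟨h1, h2⟩
      filter_upwards [h01] with s hs
      refine Eventually.of_forall fun z => ?_
      rw [Real.norm_of_nonneg (mul_nonneg ((wtV R12 N).nonneg z) (norm_nonneg _))]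
      by_cases hz : z ∈ Metric.closedBall (0 : R12) R
      · rw [indicator_of_mem hz]
        refine mul_le_mul_of_nonneg_left ?_ ((wtV R12 N).nonneg z)
        refine (norm_sub_le _ _).trans ?_
        rw [norm_mul, norm_sym, ← Real.exp_add, hK, add_mul, one_mul]
        refine add_le_add ?_ (hCg z)
        refine mul_le_mul ?_ (hCg _) (norm_nonneg _) (Real.exp_pos _).le
        apply Real.exp_le_exp.2
        have h1 : -ε * s ≤ |ε| := by
          have := neg_abs_le ε
          have h2 : -ε * s ≤ |ε| * s := mul_le_mul_of_nonneg_right (by linarith [neg_abs_le ε]) hs.1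
          have h3 : |ε| * s ≤ |ε| * 1 := mul_le_mul_of_nonneg_left hs.2 (abs_nonneg _)
          linarith
        linarith [hs.2]
      · rw [indicator_of_notMem hz]
        rw [mem_closedBall_zero_iff, not_le] at hz
        have h1 : g z = 0 := hsupp z hz
        have h2 : g (Real.exp (s / 2) • z) = 0 := by
          apply hsupp
          rw [norm_smul, Real.norm_of_nonneg (Real.exp_pos _).le]
          have := one_le_exp_half hs.1
          nlinarith [norm_nonneg z]
        rw [h1, h2]; simp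
    · rw [integrable_indicator_iff Metric.isClosed_closedBall.measurableSet]
      have h2 : Continuous (fun z : R12 => wtV R12 N z * (K * Cg)) :=
        (Wie.continuous_wt N).mul continuous_const
      exact h2.continuousOn.integrableOn_compact (isCompact_closedBall _ _)
    · refine Eventually.of_forall fun z => ?_
      have h1 : Continuous (fun s : ℝ => wtV R12 N z *
          ‖sym om ε σ s z * g (Real.exp (s / 2) • z) - g z‖) := by
        have h1 : Continuous (fun s : ℝ => sym om ε σ s z) :=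
          (continuous_sym2 om ε σ).comp (continuous_id.prodMk continuous_const)
        exact continuous_const.mul ((h1.mul (hg.comp (by fun_prop))).sub continuous_const).norm
      have h3 := h1.tendsto 0
      simp only [sym_zero, zero_div, Real.exp_zero, one_smul, one_mul, sub_self, norm_zero,
        mul_zero] at h3
      exact h3.mono_left nhdsWithin_le_nhds
  rw [integral_zero] at hlim
  refine hlim.congr' ?_
  filter_upwards [self_mem_nhdsWithin] with s hs
  exact (hform s hs).symm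

theorem S0c_right (N : ℕ) (om : ℝ) {ε : ℝ} (hε : 0 ≤ ε) (σ : ℝ)
    (a : XG (volume : Measure R12) (wtV R12 N)) :
    Tendsto (fun s => S0c N om ε σ s a) (𝓝[≥] 0) (𝓝 a) := by
  rw [Metric.tendsto_nhds]
  intro δ hδ
  have hai : Integrable (XG.den a) (Wie.mW (volume : Measure R12) (wtV R12 N)) :=
    Wie.integrable_mW_iff.2 (XG.gint_den a)
  obtain ⟨g, hgc, hgδ, hg, hgi⟩ := hai.exists_hasCompactSupport_integral_sub_le
    (ε := δ / 4) (by positivity)
  have hgi' : GInt volume (wtV R12 N) g := Wie.integrable_mW_iff.1 hgi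
  have hab : ‖a - XG.mk g hgi'‖ ≤ δ / 4 := by
    refine le_trans (le_of_eq ?_) hgδ
    rw [XG.norm_eq, Wie.integral_mW]
    refine integral_congr_ae ?_
    filter_upwards [XG.den_sub a (XG.mk g hgi'), XG.den_mk hgi'] with z h1 h2
    rw [h1, h2, smul_eq_mul]
  have hev := Metric.tendsto_nhds.1 (S0c_right_cc N om ε σ hg hgc hgi') (δ / 4) (by positivity)
  filter_upwards [hev, self_mem_nhdsWithin] with s h1 hs
  have hs' : (0:ℝ) ≤ s := hs
  rw [dist_eq_norm] at h1 ⊢
  have hnorm : ‖S0c N om ε σ s‖ ≤ 1 := by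
    refine (norm_S0c_le N om ε σ hs').trans ?_
    apply Real.exp_le_one_iff.2
    have : 0 ≤ ε * s := mul_nonneg hε hs'
    linarith
  have e : S0c N om ε σ s a - a = S0c N om ε σ s (a - XG.mk g hgi') +
      (S0c N om ε σ s (XG.mk g hgi') - XG.mk g hgi') - (a - XG.mk g hgi') := by
    rw [map_sub]; abel
  have h2 : ‖S0c N om ε σ s (a - XG.mk g hgi')‖ ≤ δ / 4 := by
    refine ((S0c N om ε σ s).le_opNorm _).trans ?_
    calc ‖S0c N om ε σ s‖ * ‖a - XG.mk g hgi'‖ ≤ 1 * (δ / 4) :=
          mul_le_mul hnorm hab (norm_nonneg _) one_pos.le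
      _ = δ / 4 := one_mul _
  rw [e]
  calc _ ≤ ‖S0c N om ε σ s (a - XG.mk g hgi')‖ + ‖S0c N om ε σ s (XG.mk g hgi') - XG.mk g hgi'‖
        + ‖a - XG.mk g hgi'‖ := (norm_sub_le _ _).trans (add_le_add (norm_add_le _ _) le_rfl)
    _ < δ := by linarith

theorem S0c_cont (N : ℕ) (om : ℝ) {ε : ℝ} (hε : 0 ≤ ε) (σ : ℝ)
    (a : XG (volume : Measure R12) (wtV R12 N)) :
    ContinuousOn (fun s => S0c N om ε σ s a) (Ici 0) :=
  contOn_of_right (fun s t hs ht => S0c_add N om ε σ hs ht)
    (fun s hs => (norm_S0c_le N om ε σ hs).trans (by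
      apply Real.exp_le_one_iff.2
      have : 0 ≤ ε * s := mul_nonneg hε hs
      linarith)) a (S0c_right N om hε σ a)

end Crest.Agent.R086.DC
end

-- ▼ part R086/DCtop

/-!
Row 86, module DC (helper758): existence of the linear flow `LinData` (`LinStmt`).
-/

set_option autoImplicit false

open MeasureTheory Complex Set Filter Topology

namespace Crest.Agent.R086.DC

open Crest.Agent.R086.Wie (XG GInt wtV)

/-- abbreviation for the component space -/
abbrev YN (N : ℕ) : Type := XG (volume : Measure R12) (wtV R12 N)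

theorem gint_of_rep {N : ℕ} {a f : R12 → ℂ} (h : Rep N a f) : GInt volume (wtV R12 N) a := by
  refine h.1.congr (Eventually.of_forall fun ξ => ?_)
  simp only [Wie.wtV_apply, Wie.wt, Complex.real_smul]

section gen
variable {V : Type*} [NormedAddCommGroup V] [InnerProductSpace ℝ V] [FiniteDimensional ℝ V]
  [MeasurableSpace V] [BorelSpace V]

/-- convolution operator (general space) -/
noncomputable def CvG (N : ℕ) (v : V → ℂ) (hv : GInt volume (wtV V N) v) :
    Wie.X V N →L[ℂ] Wie.X V N :=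
  (ContinuousLinearMap.mul ℂ (Wie.X V N)).flip (XG.mk v hv)

theorem den_CvG (N : ℕ) (v : V → ℂ) (hv : GInt volume (wtV V N) v) (a : Wie.X V N) :
    XG.den (CvG N v hv a) =ᵐ[volume] fun η => ∫ ξ : V, v (η - ξ) * XG.den a ξ := by
  have h1 : CvG N v hv a = a * XG.mk v hv := rfl
  rw [h1]
  refine (XG.den_mul a (XG.mk v hv)).trans ?_
  rw [XG.cv_congr (EventuallyEq.refl _ (XG.den a)) (XG.den_mk hv)]
  refine Eventually.of_forall fun η => ?_
  simp only [Wie.cv]
  refine integral_congr_ae (Eventually.of_forall fun t => ?_)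
  simp only
  ring

end gen

/-- convolution operator -/
noncomputable def CvL (N : ℕ) (v : R12 → ℂ) (hv : GInt volume (wtV R12 N) v) : YN N →L[ℂ] YN N :=
  CvG (V := R12) N v hv

theorem den_CvL (N : ℕ) (v : R12 → ℂ) (hv : GInt volume (wtV R12 N) v) (a : YN N) :
    XG.den (CvL N v hv a) =ᵐ[volume] cv v (XG.den a) := den_CvG (V := R12) N v hv a

section pot
variable {n : ℕ} {P : Profile n} (T : Pot P) (N : ℕ)

/-- the potential operator on pairs -/
noncomputable def VVop : YN N × YN N →L[ℂ] YN N × YN N :=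
  ((-I) • ((CvL N T.v1 (gint_of_rep (T.rep_v1 N))).comp (ContinuousLinearMap.fst ℂ (YN N) (YN N)) +
      (CvL N T.v2 (gint_of_rep (T.rep_v2 N))).comp (ContinuousLinearMap.snd ℂ (YN N) (YN N)))).prod
  (I • ((CvL N T.v1 (gint_of_rep (T.rep_v1 N))).comp (ContinuousLinearMap.snd ℂ (YN N) (YN N)) +
      (CvL N T.v2c (gint_of_rep (T.rep_v2c N))).comp (ContinuousLinearMap.fst ℂ (YN N) (YN N))))

theorem VVop_fst (x : YN N × YN N) : XG.den (VVop T N x).1 =ᵐ[volume] fun z =>
    -I * (cv T.v1 (XG.den x.1) z + cv T.v2 (XG.den x.2) z) := by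
  have h0 : (VVop T N x).1 = (-I) • (CvL N T.v1 (gint_of_rep (T.rep_v1 N)) x.1 +
    CvL N T.v2 (gint_of_rep (T.rep_v2 N)) x.2) := rfl
  rw [h0]
  filter_upwards [XG.den_smul (-I) (CvL N T.v1 (gint_of_rep (T.rep_v1 N)) x.1 +
    CvL N T.v2 (gint_of_rep (T.rep_v2 N)) x.2),
    XG.den_add (CvL N T.v1 (gint_of_rep (T.rep_v1 N)) x.1) (CvL N T.v2 (gint_of_rep (T.rep_v2 N)) x.2),
    den_CvL N T.v1 (gint_of_rep (T.rep_v1 N)) x.1,
    den_CvL N T.v2 (gint_of_rep (T.rep_v2 N)) x.2] with z h1 h2 h3 h4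
  rw [h1, h2, h3, h4]

theorem VVop_snd (x : YN N × YN N) : XG.den (VVop T N x).2 =ᵐ[volume] fun z =>
    I * (cv T.v1 (XG.den x.2) z + cv T.v2c (XG.den x.1) z) := by
  have h0 : (VVop T N x).2 = I • (CvL N T.v1 (gint_of_rep (T.rep_v1 N)) x.2 +
    CvL N T.v2c (gint_of_rep (T.rep_v2c N)) x.1) := rfl
  rw [h0]
  filter_upwards [XG.den_smul I (CvL N T.v1 (gint_of_rep (T.rep_v1 N)) x.2 +
    CvL N T.v2c (gint_of_rep (T.rep_v2c N)) x.1),
    XG.den_add (CvL N T.v1 (gint_of_rep (T.rep_v1 N)) x.2) (CvL N T.v2c (gint_of_rep (T.rep_v2c N)) x.1),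
    den_CvL N T.v1 (gint_of_rep (T.rep_v1 N)) x.2,
    den_CvL N T.v2c (gint_of_rep (T.rep_v2c N)) x.1] with z h1 h2 h3 h4
  rw [h1, h2, h3, h4]

end pot

/-- the free semigroup on pairs -/
noncomputable def S0p (N : ℕ) (om ε : ℝ) (s : ℝ) : YN N × YN N →L[ℂ] YN N × YN N :=
  (S0c N om ε 1 s).prodMap (S0c N om ε (-1) s)

theorem norm_S0p_le (N : ℕ) (om ε : ℝ) {s : ℝ} (hs : 0 ≤ s) :
    ‖S0p N om ε s‖ ≤ Real.exp (-ε * s) := by
  apply ContinuousLinearMap.opNorm_le_bound _ (Real.exp_pos _).le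
  intro x
  have h1 : ‖S0c N om ε 1 s x.1‖ ≤ Real.exp (-ε * s) * ‖x‖ :=
    ((S0c N om ε 1 s).le_opNorm _).trans (mul_le_mul (norm_S0c_le N om ε 1 hs) (norm_fst_le x)
      (norm_nonneg _) (Real.exp_pos _).le)
  have h2 : ‖S0c N om ε (-1) s x.2‖ ≤ Real.exp (-ε * s) * ‖x‖ :=
    ((S0c N om ε (-1) s).le_opNorm _).trans (mul_le_mul (norm_S0c_le N om ε (-1) hs) (norm_snd_le x)
      (norm_nonneg _) (Real.exp_pos _).le)
  exact max_le h1 h2

theorem isC0_S0p (N : ℕ) (om : ℝ) {ε : ℝ} (hε : 0 ≤ ε) : IsC0 (S0p N om ε) (-ε) where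
  zero := by
    unfold S0p
    rw [S0c_zero, S0c_zero]
    rfl
  add := by
    intro s t hs ht
    unfold S0p
    rw [S0c_add N om ε 1 hs ht, S0c_add N om ε (-1) hs ht]
    rfl
  cont := fun x => ((S0c_cont N om hε 1 x.1).prodMk (S0c_cont N om hε (-1) x.2))
  bound := fun t ht => norm_S0p_le N om ε ht

theorem sym_one (om : ℝ) (n : ℕ) (s : ℝ) (z : R12) : sym om (1 / (n:ℝ)) 1 s z =
    exp ((I * om - 1 / n) * s) * exp (6 * (s : ℂ)) *
      exp (-I * (((Real.exp s - 1) * ‖z‖ ^ 2 : ℝ) : ℂ)) := by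
  unfold sym
  push_cast
  simp only [one_mul]

theorem sym_neg_one (om : ℝ) (n : ℕ) (s : ℝ) (z : R12) : sym om (1 / (n:ℝ)) (-1) s z =
    exp ((-I * om - 1 / n) * s) * exp (6 * (s : ℂ)) *
      exp (I * (((Real.exp s - 1) * ‖z‖ ^ 2 : ℝ) : ℂ)) := by
  unfold sym
  push_cast
  simp only [neg_mul, one_mul, neg_neg]

/-- `YN N` and `XN N` are the same normed space -/
noncomputable def S0X (N : ℕ) (om ε : ℝ) (s : ℝ) : XX N →L[ℂ] XX N := S0p N om ε s

theorem isC0_S0X (N : ℕ) (om : ℝ) {ε : ℝ} (hε : 0 ≤ ε) : IsC0 (S0X N om ε) (-ε) :=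
  isC0_S0p N om hε

variable {n : ℕ} (P : Profile n) (N : ℕ)

noncomputable def VVX (T : Pot P) : XX N →L[ℂ] XX N := VVop T N

theorem VVX_fst (T : Pot P) (x : XX N) : ((VVX P N T x).1 : R12 → ℂ) =ᵐ[volume] fun z =>
    -I * (cv T.v1 x.1 z + cv T.v2 x.2 z) := VVop_fst T N x

theorem VVX_snd (T : Pot P) (x : XX N) : ((VVX P N T x).2 : R12 → ℂ) =ᵐ[volume] fun z =>
    I * (cv T.v1 x.2 z + cv T.v2c x.1 z) := VVop_snd T N x

noncomputable def modeY (T : Pot P) (i : MI) : YN N × YN N :=
  ((XG.mk (T.m1 i) (gint_of_rep (T.rep_m1 i N)) : YN N),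
    (XG.mk (T.m2 i) (gint_of_rep (T.rep_m2 i N)) : YN N))

theorem modeY_fst (T : Pot P) (i : MI) : XG.den (modeY P N T i).1 =ᵐ[volume] T.m1 i :=
  XG.den_mk (gint_of_rep (T.rep_m1 i N))

theorem modeY_snd (T : Pot P) (i : MI) : XG.den (modeY P N T i).2 =ᵐ[volume] T.m2 i :=
  XG.den_mk (gint_of_rep (T.rep_m2 i N))

noncomputable def modeX (T : Pot P) (i : MI) : XX N := modeY P N T i

theorem modeX_fst (T : Pot P) (i : MI) : ((modeX P N T i).1 : R12 → ℂ) =ᵐ[volume] T.m1 i :=
  modeY_fst P N T i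

theorem modeX_snd (T : Pot P) (i : MI) : ((modeX P N T i).2 : R12 → ℂ) =ᵐ[volume] T.m2 i :=
  modeY_snd P N T i

theorem top_S0_fst (s : ℝ) (hs : 0 ≤ s) (x : XX N) :
    ((S0X N P.om (1 / (n:ℝ)) s x).1 : R12 → ℂ) =ᵐ[volume] fun z =>
    exp ((I * P.om - 1 / n) * s) * exp (6 * (s : ℂ)) *
      exp (-I * (((Real.exp s - 1) * ‖z‖ ^ 2 : ℝ) : ℂ)) * (x.1 : R12 → ℂ) (Real.exp (s / 2) • z) := by
  have h := den_S0c N P.om (1 / (n:ℝ)) 1 hs x.1
  simp only [sym_one] at h
  exact h

theorem top_S0_snd (s : ℝ) (hs : 0 ≤ s) (x : XX N) :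
    ((S0X N P.om (1 / (n:ℝ)) s x).2 : R12 → ℂ) =ᵐ[volume] fun z =>
    exp ((-I * P.om - 1 / n) * s) * exp (6 * (s : ℂ)) *
      exp (I * (((Real.exp s - 1) * ‖z‖ ^ 2 : ℝ) : ℂ)) * (x.2 : R12 → ℂ) (Real.exp (s / 2) • z) := by
  have h := den_S0c N P.om (1 / (n:ℝ)) (-1) hs x.2
  simp only [sym_neg_one] at h
  exact h

theorem top_norm (s : ℝ) (hs : 0 ≤ s) :
    ‖S0X N P.om (1 / (n:ℝ)) s‖ ≤ Real.exp (-s / n) := by
  refine (norm_S0p_le N P.om (1 / (n:ℝ)) hs).trans (le_of_eq ?_)
  congr 1
  ring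

theorem eps_nonneg (n : ℕ) : (0:ℝ) ≤ 1 / (n:ℝ) := by positivity

/-- the perturbed semigroup -/
noncomputable def SX (T : Pot P) : ℝ → XX N →L[ℂ] XX N :=
  pert (isC0_S0X N P.om (eps_nonneg n)) (VVX P N T)

theorem isC0_SX (T : Pot P) : IsC0 (SX P N T) (-(1 / (n:ℝ)) + ‖VVX P N T‖) :=
  pert_isC0 (isC0_S0X N P.om (eps_nonneg n)) (VVX P N T)

theorem SX_duh (T : Pot P) (s : ℝ) (hs : 0 ≤ s) (x : XX N) :
    SX P N T s x = S0X N P.om (1 / (n:ℝ)) s x +
      ∫ r in (0 : ℝ)..s, S0X N P.om (1 / (n:ℝ)) (s - r) (VVX P N T (SX P N T r x)) :=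
  pert_duhamel (isC0_S0X N P.om (eps_nonneg n)) (VVX P N T) hs x

theorem SX_duh' (T : Pot P) (s : ℝ) (hs : 0 ≤ s) (x : XX N) :
    SX P N T s x = S0X N P.om (1 / (n:ℝ)) s x +
      ∫ r in (0 : ℝ)..s, SX P N T (s - r) (VVX P N T (S0X N P.om (1 / (n:ℝ)) r x)) :=
  pert_duhamel' (isC0_S0X N P.om (eps_nonneg n)) (VVX P N T) hs x

/-- the linear flow -/
noncomputable def linData (T : Pot P) : LinData P T N where
    S0 := S0X N P.om (1 / (n:ℝ))
    VV := VVX P N T
    S := SX P N T
    mode := modeX P N T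
    S0_fst := top_S0_fst P N
    S0_snd := top_S0_snd P N
    VV_fst := VVX_fst P N T
    VV_snd := VVX_snd P N T
    mode_fst := modeX_fst P N T
    mode_snd := modeX_snd P N T
    S0_zero := (isC0_S0X N P.om (eps_nonneg n)).zero
    S0_add := (isC0_S0X N P.om (eps_nonneg n)).add
    S0_cont := (isC0_S0X N P.om (eps_nonneg n)).cont
    S0_norm := top_norm P N
    S_zero := (isC0_SX P N T).zero
    S_add := (isC0_SX P N T).add
    S_cont := (isC0_SX P N T).cont
    duh := SX_duh P N T
    duh' := SX_duh' P N T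

theorem linStmt : LinStmt := fun _ P T N => ⟨linData P N T⟩

end Crest.Agent.R086.DC
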