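import Mathlib
import Crest.Agent.R086.DLIface

-- ▼ part R086/DF
section

/-!
Row 86 (S0114), Part D, node DF = D6: abstract spectral gap for a strongly continuous semigroup
`S` with `S t0 = A + K`, `‖A‖ < 1`, `K` compact, modulo a finite-dimensional invariant subspace.
(helper544)
-/

set_option autoImplicit false

open MeasureTheory Set Filter Topology
open scoped ENNReal NNReal

namespace Crest.Agent.R086.DF

variable {X : Type*} [NormedAddCommGroup X] [NormedSpace ℂ X]

/-- strongly continuous one-parameter semigroup of bounded operators -/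
structure Semi (S : ℝ → X →L[ℂ] X) : Prop where
  zero : S 0 = 1
  add : ∀ s t : ℝ, 0 ≤ s → 0 ≤ t → S (s + t) = S s * S t
  cont : ∀ x : X, ContinuousOn (fun t => S t x) (Set.Ici 0)

/-! ### powers of an operator whose spectrum lies in the open unit disc -/

theorem pow_bound [CompleteSpace X] (T : X →L[ℂ] X)
    (h : ∀ μ : ℂ, 1 ≤ ‖μ‖ → μ ∈ resolventSet ℂ T) :
    ∃ C ρ : ℝ, 0 ≤ C ∧ 0 < ρ ∧ ρ < 1 ∧ ∀ n : ℕ, ‖T ^ n‖ ≤ C * ρ ^ n := by
  rcases subsingleton_or_nontrivial X with hX | hX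
  · refine ⟨0, 1 / 2, le_rfl, by norm_num, by norm_num, fun n => ?_⟩
    have : T ^ n = 0 := Subsingleton.elim _ _
    rw [this]; simp
  have hlt : spectralRadius ℂ T < (1 : ℝ≥0) := by
    apply spectrum.spectralRadius_lt_of_forall_lt
    intro z hz
    by_contra hcon
    rw [not_lt] at hcon
    exact hz (h z (by exact_mod_cast hcon))
  obtain ⟨ρ, h1, h2⟩ := ENNReal.lt_iff_exists_nnreal_btwn.1 hlt
  have h2' : ρ < 1 := by exact_mod_cast h2
  have hev := (spectrum.pow_nnnorm_pow_one_div_tendsto_nhds_spectralRadius T).eventually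
    (gt_mem_nhds h1)
  obtain ⟨N, hN⟩ := (hev.and (eventually_ge_atTop 1)).exists_forall_of_atTop
  have hρ0 : 0 < ρ := by
    by_contra hcon
    have : ρ = 0 := by simpa using hcon
    rw [this] at h1
    simp at h1
  have hbig : ∀ n, N ≤ n → ‖T ^ n‖ ≤ (ρ : ℝ) ^ n := by
    intro n hn
    obtain ⟨ha, hb⟩ := hN n hn
    have hn0 : (n : ℝ) ≠ 0 := by
      have : (1 : ℝ) ≤ n := by exact_mod_cast hb
      linarith
    have h3 : ((‖T ^ n‖₊ : ℝ≥0∞) ^ (1 / n : ℝ)) ^ (n : ℝ) ≤ (ρ : ℝ≥0∞) ^ (n : ℝ) :=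
      ENNReal.rpow_le_rpow ha.le (by positivity)
    rw [← ENNReal.rpow_mul, one_div, inv_mul_cancel₀ hn0, ENNReal.rpow_one,
      ENNReal.rpow_natCast] at h3
    have h4 : ‖T ^ n‖₊ ≤ ρ ^ n := by exact_mod_cast h3
    exact_mod_cast h4
  refine ⟨1 + ∑ n ∈ Finset.range N, ‖T ^ n‖ / (ρ : ℝ) ^ n, ρ, by positivity, by exact_mod_cast hρ0,
    by exact_mod_cast h2', fun n => ?_⟩
  have hρn : (0 : ℝ) < (ρ : ℝ) ^ n := by positivity
  rcases lt_or_ge n N with hn | hn
  · have h5 : ‖T ^ n‖ / (ρ : ℝ) ^ n ≤ ∑ n ∈ Finset.range N, ‖T ^ n‖ / (ρ : ℝ) ^ n :=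
      Finset.single_le_sum (f := fun n => ‖T ^ n‖ / (ρ : ℝ) ^ n) (fun i _ => by positivity)
        (Finset.mem_range.2 hn)
    have h6 : ‖T ^ n‖ = (‖T ^ n‖ / (ρ : ℝ) ^ n) * (ρ : ℝ) ^ n := by field_simp
    rw [h6]
    gcongr
    linarith
  · have h5 : (0 : ℝ) ≤ ∑ n ∈ Finset.range N, ‖T ^ n‖ / (ρ : ℝ) ^ n :=
      Finset.sum_nonneg (fun i _ => by positivity)
    nlinarith [hbig n hn]

/-! ### Fredholm alternative for `A + K` -/

theorem mem_resolvent_of_no_eigenvector [CompleteSpace X] (A K : X →L[ℂ] X) (hA : ‖A‖ < 1)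
    (hK : IsCompactOperator K) (μ : ℂ) (hμ : 1 ≤ ‖μ‖)
    (hno : ∀ v : X, A v + K v = μ • v → v = 0) : μ ∈ resolventSet ℂ (A + K) := by
  have hu : IsUnit (algebraMap ℂ (X →L[ℂ] X) μ - A) := by
    have : μ ∈ resolventSet ℂ A := by
      apply spectrum.mem_resolventSet_of_norm_lt_mul
      calc ‖A‖ * ‖(1 : X →L[ℂ] X)‖ ≤ ‖A‖ * 1 := by
            gcongr
            exact ContinuousLinearMap.norm_id_le
        _ = ‖A‖ := mul_one _
        _ < 1 := hA
        _ ≤ ‖μ‖ := hμ
    exact this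
  obtain ⟨u, hu⟩ := hu
  set R : X →L[ℂ] X := ((u⁻¹ : (X →L[ℂ] X)ˣ) : X →L[ℂ] X) with hR
  have hC : IsCompactOperator (R * K : X →L[ℂ] X) := by
    have := hK.clm_comp R
    exact this
  have h1 : (1 : ℂ) ∈ resolventSet ℂ (R * K) := by
    rcases hC.hasEigenvalue_or_mem_resolventSet (μ := 1) one_ne_zero with h | h
    · exfalso
      obtain ⟨v, hv⟩ := h.exists_hasEigenvector
      have hv1 : R (K v) = v := by simpa using hv.apply_eq_smul
      have hv2 : (u : X →L[ℂ] X) (R (K v)) = K v := by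
        have : ((u : X →L[ℂ] X) * R) (K v) = K v := by
          rw [hR, Units.mul_inv]; rfl
        exact this
      rw [hv1, hu] at hv2
      apply hv.2
      apply hno v
      have hv3 : μ • v - A v = K v := by
        simpa [Algebra.algebraMap_eq_smul_one] using hv2
      rw [← hv3]; abel
    · exact h
  have h2 : IsUnit ((1 : X →L[ℂ] X) - R * K) := by
    have := h1
    rw [spectrum.mem_resolventSet_iff] at this
    simpa using this
  rw [spectrum.mem_resolventSet_iff]
  have h3 : algebraMap ℂ (X →L[ℂ] X) μ - (A + K) = (u : X →L[ℂ] X) * (1 - R * K) := by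
    rw [mul_sub, mul_one, ← mul_assoc, hR, Units.mul_inv, one_mul, hu]
    abel
  rw [h3]
  exact u.isUnit.mul h2

/-! ### elementary facts about the semigroup -/

section semi

variable {S : ℝ → X →L[ℂ] X}

theorem Semi.cont_max (hS : Semi S) (v : X) : Continuous (fun s : ℝ => S (max s 0) v) := by
  have h := hS.cont v
  exact h.comp_continuous (continuous_id.max continuous_const) (fun s => Set.mem_Ici.2 (le_max_right _ _))

theorem Semi.add_apply (hS : Semi S) {s t : ℝ} (hs : 0 ≤ s) (ht : 0 ≤ t) (v : X) :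
    S (s + t) v = S s (S t v) := by
  rw [hS.add s t hs ht]; rfl


theorem Semi.bdd [CompleteSpace X] (hS : Semi S) (t0 : ℝ) :
    ∃ M : ℝ, 0 ≤ M ∧ ∀ t, 0 ≤ t → t ≤ t0 → ‖S t‖ ≤ M := by
  have h : ∀ x : X, ∃ C, ∀ i : Set.Icc (0 : ℝ) t0, ‖S i x‖ ≤ C := by
    intro x
    have hc : ContinuousOn (fun t => ‖S t x‖) (Set.Icc 0 t0) :=
      ((hS.cont x).mono (fun t ht => ht.1)).norm
    obtain ⟨C, hC⟩ := (isCompact_Icc.image_of_continuousOn hc).bddAbove
    exact ⟨C, fun i => hC ⟨i, i.2, rfl⟩⟩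
  obtain ⟨C', hC'⟩ := banach_steinhaus (g := fun i : Set.Icc (0 : ℝ) t0 => S i) h
  refine ⟨max C' 0, le_max_right _ _, fun t h0 h1 => (hC' ⟨t, h0, h1⟩).trans (le_max_left _ _)⟩


/-- `G t = ∫_0^t S s v ds` translated: `S t (G h) = G (t+h) - G t`. -/
theorem Semi.apply_integral [CompleteSpace X] (hS : Semi S) (v : X) {t h : ℝ} (ht : 0 ≤ t)
    (hh : 0 ≤ h) :
    S t (∫ s in (0 : ℝ)..h, S (max s 0) v) = ∫ s in t..(t + h), S (max s 0) v := by
  rw [← ContinuousLinearMap.intervalIntegral_comp_comm _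
    ((hS.cont_max v).intervalIntegrable _ _)]
  have h1 : ∫ s in (0 : ℝ)..h, S t (S (max s 0) v) = ∫ s in (0 : ℝ)..h, S (max (s + t) 0) v := by
    apply intervalIntegral.integral_congr
    intro s hs
    rw [Set.uIcc_of_le hh] at hs
    have hs0 : 0 ≤ s := hs.1
    simp only
    rw [max_eq_left hs0, max_eq_left (by linarith), ← hS.add_apply ht hs0, add_comm]
  rw [h1, intervalIntegral.integral_comp_add_right (fun s => S (max s 0) v)]
  congr 1
  · ring
  · ring

/-- averaged vectors are in the domain of the generator -/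
theorem Semi.hasDeriv_avg [CompleteSpace X] (hS : Semi S) (v : X) {h : ℝ} (hh : 0 ≤ h) :
    HasDerivWithinAt (fun t => S t (∫ s in (0 : ℝ)..h, S (max s 0) v)) (S h v - v)
      (Set.Ici 0) 0 := by
  have hc := hS.cont_max v
  have hG : ∀ t : ℝ, HasDerivAt (fun t => ∫ s in (0 : ℝ)..t, S (max s 0) v) (S (max t 0) v) t :=
    fun t => intervalIntegral.integral_hasDerivAt_right (hc.intervalIntegrable _ _)
      hc.aestronglyMeasurable.stronglyMeasurableAtFilter hc.continuousAt
  have h1 : HasDerivAt (fun t => (∫ s in (0 : ℝ)..(t + h), S (max s 0) v) -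
      ∫ s in (0 : ℝ)..t, S (max s 0) v) (S h v - v) 0 := by
    have ha : HasDerivAt (fun t => ∫ s in (0 : ℝ)..(t + h), S (max s 0) v)
        (S (max (0 + h) 0) v) 0 := by
      have := (hG (0 + h)).comp_add_const (0 : ℝ) h
      simpa using this
    have hb := hG 0
    have := ha.fun_sub hb
    simpa [hS.zero, max_eq_left hh] using this
  refine (h1.hasDerivWithinAt (s := Set.Ici 0)).congr (fun t ht => ?_) ?_
  · rw [hS.apply_integral v ht hh]
    rw [intervalIntegral.integral_interval_sub_left (hc.intervalIntegrable _ _)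
      (hc.intervalIntegrable _ _)]
  · rw [hS.apply_integral v le_rfl hh]
    rw [intervalIntegral.integral_interval_sub_left (hc.intervalIntegrable _ _)
      (hc.intervalIntegrable _ _)]


/-- **Fourier trick.** If `S t0 g ≡ μ g` modulo `ker Q`, `Q g ≠ 0`, `|μ| ≥ 1`, there is an eigenvector
modulo `ker Q` of the whole semigroup. `Q` is any bounded operator whose kernel is invariant. -/
theorem Semi.exists_eigen [CompleteSpace X] (hS : Semi S) (Q : X →L[ℂ] X)
    (hQ : ∀ t, 0 ≤ t → ∀ x, Q x = 0 → Q (S t x) = 0) {t0 : ℝ} (ht0 : 0 < t0) (g : X)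
    (hg : Q g ≠ 0) (μ : ℂ) (hμ : 1 ≤ ‖μ‖) (hgμ : Q (S t0 g) = μ • Q g) :
    ∃ lam : ℂ, 0 ≤ lam.re ∧ ∃ x : X, Q x ≠ 0 ∧
      ∀ t, 0 ≤ t → Q (S t x) = Complex.exp (lam * t) • Q x := by
  have hμ0 : μ ≠ 0 := by
    intro h; rw [h] at hμ; simp at hμ; linarith
  -- the exponents
  set lam : ℤ → ℂ := fun n => Complex.log μ / t0 + 2 * Real.pi * Complex.I * n / t0 with hlam
  have ht0c : (t0 : ℂ) ≠ 0 := by exact_mod_cast ht0.ne'
  have hexp : ∀ n, Complex.exp (lam n * t0) = μ := by
    intro n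
    have : lam n * t0 = Complex.log μ + n * (2 * Real.pi * Complex.I) := by
      simp only [hlam]; field_simp
    rw [this, Complex.exp_add, Complex.exp_log hμ0, Complex.exp_int_mul_two_pi_mul_I, mul_one]
  have hre : ∀ n, 0 ≤ (lam n).re := by
    intro n
    have h1 : (lam n).re = Real.log ‖μ‖ / t0 := by
      simp only [hlam]
      rw [Complex.add_re]
      have h2 : (2 * (Real.pi : ℂ) * Complex.I * n / t0).re = 0 := by
        have : 2 * (Real.pi : ℂ) * Complex.I * n / t0 = ((2 * Real.pi * n / t0 : ℝ) : ℂ) * Complex.I := by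
          push_cast; ring
        rw [this]; simp
      rw [h2, add_zero, Complex.div_ofReal_re, Complex.log_re]
    rw [h1]
    exact div_nonneg (Real.log_nonneg hμ) ht0.le
  set h : ℤ → ℝ → X := fun n s => Complex.exp (-lam n * s) • S (max s 0) g with hh
  have hcont : ∀ n, Continuous (h n) := by
    intro n
    apply Continuous.smul _ (hS.cont_max g)
    fun_prop
  have hint : ∀ n a b, IntervalIntegrable (h n) volume a b := fun n a b =>
    (hcont n).intervalIntegrable a b
  set x : ℤ → X := fun n => ∫ s in (0 : ℝ)..t0, h n s with hx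
  -- some `Q (x n)` is nonzero
  have hne : ∃ n, Q (x n) ≠ 0 := by
    by_contra hall
    push Not at hall
    obtain ⟨f, hf⟩ := SeparatingDual.exists_ne_zero (R := ℂ) hg
    set φ : ℝ → ℂ := fun s => Complex.exp (-lam 0 * s) * f (Q (S (max s 0) g)) with hφ
    have hφc : Continuous φ := by
      apply Continuous.mul (by fun_prop)
      exact (f.continuous.comp Q.continuous).comp (hS.cont_max g)
    have hmem : MemLp φ 2 (volume.restrict (Ioc 0 t0)) := by
      obtain ⟨C, hC⟩ := (isCompact_Icc (a := (0 : ℝ)) (b := t0)).exists_bound_of_continuousOn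
        hφc.continuousOn
      apply MemLp.of_bound hφc.aestronglyMeasurable C
      rw [ae_restrict_iff' measurableSet_Ioc]
      exact ae_of_all _ (fun s hs => hC s (Ioc_subset_Icc_self hs))
    have hcoef : ∀ n : ℤ, fourierCoeffOn ht0 φ n = 0 := by
      intro n
      rw [fourierCoeffOn_eq_integral]
      have h1 : ∫ s in (0 : ℝ)..t0, fourier (-n) (s : AddCircle (t0 - 0)) • φ s = f (Q (x n)) := by
        have h2 : f (Q (x n)) = ∫ s in (0 : ℝ)..t0, f (Q (h n s)) := by
          have := ContinuousLinearMap.intervalIntegral_comp_comm (f.comp Q) (hint n 0 t0)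
          exact this.symm
        rw [h2]
        apply intervalIntegral.integral_congr
        intro s _
        simp only [hh, hφ, map_smul, smul_eq_mul]
        rw [fourier_coe_apply, ← mul_assoc, ← Complex.exp_add]
        congr 2
        simp only [hlam]
        push_cast
        ring
      rw [h1, hall n]
      simp
    have hP := hasSum_sq_fourierCoeffOn ht0 hmem
    simp only [hcoef, norm_zero, ne_eq, OfNat.ofNat_ne_zero, not_false_eq_true, zero_pow] at hP
    have h0 : (t0 - 0)⁻¹ • ∫ s in (0 : ℝ)..t0, ‖φ s‖ ^ 2 = 0 := hP.unique hasSum_zero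
    have hpos : 0 < ∫ s in (0 : ℝ)..t0, ‖φ s‖ ^ 2 := by
      apply intervalIntegral.integral_pos ht0 (by fun_prop) (fun s _ => by positivity)
      refine ⟨0, ⟨le_rfl, ht0.le⟩, ?_⟩
      have : φ 0 = f (Q g) := by
        simp [hφ, hS.zero]
      rw [this]
      positivity
    rw [sub_zero, smul_eq_mul] at h0
    have : 0 < t0⁻¹ * ∫ s in (0 : ℝ)..t0, ‖φ s‖ ^ 2 := by positivity
    linarith
  obtain ⟨n, hn⟩ := hne
  refine ⟨lam n, hre n, x n, hn, fun t ht => ?_⟩
  -- compute `S t (x n)`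
  have e1 : S t (x n) = Complex.exp (lam n * t) • ∫ s in t..(t0 + t), h n s := by
    simp only [hx]
    rw [← ContinuousLinearMap.intervalIntegral_comp_comm _ (hint n 0 t0)]
    have h1 : ∫ s in (0 : ℝ)..t0, S t (h n s) =
        ∫ s in (0 : ℝ)..t0, Complex.exp (lam n * t) • h n (s + t) := by
      apply intervalIntegral.integral_congr
      intro s hs
      rw [Set.uIcc_of_le ht0.le] at hs
      have hs0 : 0 ≤ s := hs.1
      simp only [hh, map_smul]
      rw [max_eq_left hs0, max_eq_left (by linarith), ← hS.add_apply ht hs0, add_comm t s,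
        smul_smul, ← Complex.exp_add]
      congr 2
      push_cast
      ring
    rw [h1, intervalIntegral.integral_smul, intervalIntegral.integral_comp_add_right (h n),
      zero_add]
  rw [e1, map_smul]
  congr 1
  have hc' : Continuous (fun s : ℝ => h n (s + t0)) :=
    (hcont n).comp (continuous_id.add continuous_const)
  have e2 : ∫ s in t..(t0 + t), h n s = x n + ∫ s in (0 : ℝ)..t, (h n (s + t0) - h n s) := by
    rw [intervalIntegral.integral_sub (hc'.intervalIntegrable _ _)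
      (hint n _ _), intervalIntegral.integral_comp_add_right (h n)]
    simp only [hx]
    have h1 := intervalIntegral.integral_add_adjacent_intervals (hint n 0 t) (hint n t (t0 + t))
    have h2 := intervalIntegral.integral_add_adjacent_intervals (hint n 0 t0) (hint n t0 (t0 + t))
    have h3 : ∫ s in t..(t0 + t), h n s = (∫ s in (0 : ℝ)..(t0 + t), h n s) -
        ∫ s in (0 : ℝ)..t, h n s := by rw [← h1]; abel
    rw [h3, ← h2, zero_add, add_comm t t0]
    abel
  rw [e2, map_add]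
  have e3 : Q (∫ s in (0 : ℝ)..t, (h n (s + t0) - h n s)) = 0 := by
    have hc2 : Continuous (fun s : ℝ => h n (s + t0) - h n s) := hc'.sub (hcont n)
    rw [← ContinuousLinearMap.intervalIntegral_comp_comm _ (hc2.intervalIntegrable _ _)]
    have : ∫ s in (0 : ℝ)..t, Q (h n (s + t0) - h n s) = ∫ s in (0 : ℝ)..t, (0 : X) := by
      apply intervalIntegral.integral_congr
      intro s hs
      rw [Set.uIcc_of_le ht] at hs
      have hs0 : 0 ≤ s := hs.1
      have h4 : h n (s + t0) - h n s =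
          (Complex.exp (-lam n * s) * (Complex.exp (lam n * t0))⁻¹) •
            S s (S t0 g - μ • g) := by
        simp only [hh]
        rw [max_eq_left hs0, max_eq_left (by linarith), hS.add_apply hs0 ht0.le, map_sub, map_smul,
          smul_sub, smul_smul, hexp n, mul_assoc, inv_mul_cancel₀ hμ0, mul_one]
        congr 2
        rw [← hexp n, ← Complex.exp_neg, ← Complex.exp_add]
        congr 1
        push_cast
        ring
      simp only [h4, map_smul]
      rw [hQ s hs0 _ (by rw [map_sub, map_smul, hgμ, sub_self]), smul_zero]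
    rw [this]; simp
  rw [e3, add_zero]


/-- integrals of functions with values in a finite-dimensional subspace -/
theorem integral_mem [CompleteSpace X] (F : Submodule ℂ X) [FiniteDimensional ℂ F] (f : ℝ → X)
    (hf : Continuous f) (a b : ℝ) (h : ∀ s ∈ Set.uIcc a b, f s ∈ F) : ∫ s in a..b, f s ∈ F := by
  obtain ⟨P, hP⟩ := Submodule.ClosedComplemented.of_finiteDimensional F
  have h1 : ∫ s in a..b, f s = (F.subtypeL.comp P) (∫ s in a..b, f s) := by
    rw [← ContinuousLinearMap.intervalIntegral_comp_comm _ (hf.intervalIntegrable _ _)]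
    apply intervalIntegral.integral_congr
    intro s hs
    have := hP ⟨f s, h s hs⟩
    simp only [ContinuousLinearMap.comp_apply, Submodule.subtypeL_apply]
    exact (congrArg Subtype.val this).symm
  rw [h1]
  simp

/-- An eigenvector modulo a finite-dimensional invariant subspace is in the domain of the
generator. -/
theorem Semi.deriv_of_eigen [CompleteSpace X] (hS : Semi S) (E : Submodule ℂ X)
    [FiniteDimensional ℂ E] (hE : ∀ t, 0 ≤ t → ∀ x ∈ E, S t x ∈ E) (x : X) (lam : ℂ)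
    (hx : ∀ t, 0 ≤ t → S t x - Complex.exp (lam * t) • x ∈ E) :
    ∃ y : X, HasDerivWithinAt (fun t => S t x) y (Set.Ici 0) 0 ∧ y - lam • x ∈ E := by
  set F : Submodule ℂ X := E ⊔ Submodule.span ℂ {x} with hF
  have : FiniteDimensional ℂ F := Submodule.finiteDimensional_sup _ _
  have hxF : x ∈ F := Submodule.mem_sup_right (Submodule.mem_span_singleton_self x)
  have hEF : E ≤ F := le_sup_left
  have hFS : ∀ t, 0 ≤ t → ∀ v ∈ F, S t v ∈ F := by
    intro t ht v hv
    rw [hF, Submodule.mem_sup] at hv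
    obtain ⟨e, he, w, hw, rfl⟩ := hv
    obtain ⟨c, rfl⟩ := Submodule.mem_span_singleton.1 hw
    rw [map_add, map_smul]
    refine F.add_mem (hEF (hE t ht e he)) (F.smul_mem c ?_)
    have : S t x = (S t x - Complex.exp (lam * t) • x) + Complex.exp (lam * t) • x := by abel
    rw [this]
    exact F.add_mem (hEF (hx t ht)) (F.smul_mem _ hxF)
  -- the domain inside `F`
  let D : Submodule ℂ X :=
    { carrier := {v | v ∈ F ∧ ∃ y : X, HasDerivWithinAt (fun t => S t v) y (Set.Ici 0) 0}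
      add_mem' := by
        rintro a b ⟨ha, ya, hya⟩ ⟨hb, yb, hyb⟩
        refine ⟨F.add_mem ha hb, ya + yb, ?_⟩
        simpa only [map_add] using hya.fun_add hyb
      zero_mem' := ⟨F.zero_mem, 0, by simpa using hasDerivWithinAt_const (c := (0 : X)) (0 : ℝ) (Set.Ici (0 : ℝ))⟩
      smul_mem' := by
        rintro c a ⟨ha, ya, hya⟩
        refine ⟨F.smul_mem c ha, c • ya, ?_⟩
        simpa only [map_smul] using hya.fun_const_smul c }
  have hDF : D ≤ F := fun v hv => hv.1
  have : FiniteDimensional ℂ D := Submodule.finiteDimensional_of_le hDF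
  have hDc : IsClosed (D : Set X) := D.closed_of_finiteDimensional
  have hFc : IsClosed (F : Set X) := F.closed_of_finiteDimensional
  -- averaged vectors
  have hxD : x ∈ D := by
    have hc := hS.cont_max x
    have hint : ∀ h : ℝ, 0 ≤ h → (∫ s in (0 : ℝ)..h, S (max s 0) x) ∈ F := by
      intro h hh
      apply integral_mem F _ hc
      intro s _
      exact hFS _ (le_max_right _ _) x hxF
    have hmem : ∀ h : ℝ, 0 < h → ((h : ℂ)⁻¹ • ∫ s in (0 : ℝ)..h, S (max s 0) x) ∈ D := by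
      intro h hh
      apply D.smul_mem
      exact ⟨hint h hh.le, _, hS.hasDeriv_avg x hh.le⟩
    have hlim : Tendsto (fun h : ℝ => ((h : ℂ)⁻¹ • ∫ s in (0 : ℝ)..h, S (max s 0) x))
        (𝓝[>] 0) (𝓝 x) := by
      have hG : HasDerivAt (fun t => ∫ s in (0 : ℝ)..t, S (max s 0) x) (S (max 0 0) x) 0 :=
        intervalIntegral.integral_hasDerivAt_right (hc.intervalIntegrable _ _)
          hc.aestronglyMeasurable.stronglyMeasurableAtFilter hc.continuousAt
      have h1 := hG.tendsto_slope_zero_right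
      simp only [zero_add, intervalIntegral.integral_same, sub_zero, max_self, hS.zero] at h1
      refine h1.congr (fun h => ?_)
      rw [← Complex.ofReal_inv]
      exact (Complex.coe_smul _ _).symm
    exact hDc.mem_of_tendsto hlim (eventually_nhdsWithin_of_forall (fun h hh => hmem h hh))
  obtain ⟨-, y, hy⟩ := hxD
  refine ⟨y, hy, ?_⟩
  -- `y - lam x` is a limit of elements of `E`
  have hEc : IsClosed (E : Set X) := E.closed_of_finiteDimensional
  have h1 : HasDerivWithinAt (fun t : ℝ => Complex.exp (lam * t) • x) (lam • x) (Set.Ici 0) 0 := by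
    have h2 : HasDerivAt (fun t : ℝ => Complex.exp (lam * t)) lam 0 := by
      have h3 : HasDerivAt (fun t : ℝ => lam * (t : ℂ)) lam 0 := by
        simpa using (Complex.ofRealCLM.hasDerivAt (x := (0 : ℝ))).const_mul lam
      have := h3.cexp
      simpa using this
    exact (h2.smul_const x).hasDerivWithinAt
  have h2 := hy.fun_sub h1
  have h3 := hasDerivWithinAt_iff_tendsto_slope.1 h2
  have hne : Set.Ici (0 : ℝ) \ {0} = Set.Ioi 0 := by ext z; simp [lt_iff_le_and_ne, eq_comm]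
  rw [hne] at h3
  refine hEc.mem_of_tendsto h3 ?_
  refine eventually_nhdsWithin_of_forall (fun t ht => ?_)
  have ht0 : (0 : ℝ) ≤ t := le_of_lt ht
  rw [slope_def_module]
  have h4 : ((t - 0)⁻¹ : ℝ) • ((S t x - Complex.exp (lam * t) • x) -
      (S 0 x - Complex.exp (lam * (0 : ℝ)) • x)) =
      (((t - 0)⁻¹ : ℝ) : ℂ) • (S t x - Complex.exp (lam * t) • x) := by
    rw [Complex.coe_smul]
    simp [hS.zero]
  rw [h4]
  exact E.smul_mem _ (hx t ht0)


/-- **Spectral gap modulo a finite-dimensional invariant subspace** (node DF). -/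
theorem gap [CompleteSpace X] (hS : Semi S) (E : Submodule ℂ X) [FiniteDimensional ℂ E]
    (hE : ∀ t, 0 ≤ t → ∀ x ∈ E, S t x ∈ E) {t0 : ℝ} (ht0 : 0 < t0) (A K : X →L[ℂ] X)
    (h : S t0 = A + K) (hA : ‖A‖ < 1) (hK : IsCompactOperator K)
    (hspec : ∀ lam : ℂ, 0 ≤ lam.re → ∀ x y : X,
      HasDerivWithinAt (fun t => S t x) y (Set.Ici 0) 0 → y - lam • x ∈ E → x ∈ E)
    (P0 : X →L[ℂ] X) (hP : ∀ x, P0 x ∈ E) (hPE : ∀ x ∈ E, P0 x = x) :
    ∃ C δ : ℝ, 0 ≤ C ∧ 0 < δ ∧
      ∀ t, 0 ≤ t → ∀ x, ‖S t x - P0 (S t x)‖ ≤ C * Real.exp (-δ * t) * ‖x‖ := by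
  set Q : X →L[ℂ] X := 1 - P0 with hQdef
  have hQa : ∀ x, Q x = x - P0 x := fun x => rfl
  have hQ0 : ∀ x, Q x = 0 ↔ x ∈ E := by
    intro x
    rw [hQa, sub_eq_zero]
    constructor
    · intro hx; rw [hx]; exact hP x
    · intro hx; exact (hPE x hx).symm
  have hQP : ∀ x, Q (P0 x) = 0 := fun x => (hQ0 _).2 (hP x)
  have hPQ : ∀ x, P0 (Q x) = 0 := by
    intro x; rw [hQa, map_sub, hPE _ (hP x), sub_self]
  have hQQ : ∀ x, Q (Q x) = Q x := by
    intro x; rw [hQa (Q x), hPQ, sub_zero]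
  have hQS : ∀ t, 0 ≤ t → ∀ x, Q x = 0 → Q (S t x) = 0 := fun t ht x hx =>
    (hQ0 _).2 (hE t ht x ((hQ0 x).1 hx))
  -- compactness of `P0`
  have hP0c : IsCompactOperator P0 := by
    let P1 : X →L[ℂ] E := P0.codRestrict E hP
    have := FiniteDimensional.proper ℂ E
    have h1 : IsCompactOperator (E.subtypeL : E →L[ℂ] X) :=
      isCompactOperator_of_locallyCompactSpace_rng E.subtypeL
    exact h1.comp_clm P1
  -- the compressed operator
  set T : X →L[ℂ] X := Q * S t0 * Q with hT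
  set K' : X →L[ℂ] X := Q * K * Q - P0 * A * Q - A * P0 with hK'
  have hTA : T = A + K' := by
    rw [hT, hK', h, hQdef]
    noncomm_ring
  have hK'c : IsCompactOperator K' := by
    have h1 : IsCompactOperator (Q * K * Q : X →L[ℂ] X) := (hK.clm_comp Q).comp_clm Q
    have h2 : IsCompactOperator (P0 * A * Q : X →L[ℂ] X) := hP0c.comp_clm (A * Q)
    have h3 : IsCompactOperator (A * P0 : X →L[ℂ] X) := hP0c.clm_comp A
    exact (h1.sub h2).sub h3
  have hres : ∀ μ : ℂ, 1 ≤ ‖μ‖ → μ ∈ resolventSet ℂ T := by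
    intro μ hμ
    have hμ0 : μ ≠ 0 := by
      intro h; rw [h] at hμ; simp at hμ; linarith
    rw [hTA]
    refine mem_resolvent_of_no_eigenvector A K' hA hK'c μ hμ (fun v hv => ?_)
    by_contra hv0
    have hTv : T v = μ • v := by rw [hTA]; exact hv
    have hTv' : T v = Q (S t0 (Q v)) := rfl
    have hvQ : Q v = v := by
      have h1 : Q (T v) = T v := by rw [hTv', hQQ]
      rw [hTv, map_smul] at h1
      exact smul_right_injective X hμ0 h1
    rw [hTv', hvQ] at hTv
    have hQv : Q v ≠ 0 := by rwa [hvQ]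
    obtain ⟨lam, hlam, x, hx0, hx⟩ := hS.exists_eigen Q hQS ht0 v hQv μ hμ (by rw [hTv, hvQ])
    obtain ⟨y, hy, hyE⟩ := hS.deriv_of_eigen E hE x lam (fun t ht => by
      rw [← hQ0, map_sub, map_smul, hx t ht, sub_self])
    exact hx0 ((hQ0 x).2 (hspec lam hlam x y hy hyE))
  obtain ⟨C, ρ, hC, hρ, hρ1, hpow⟩ := pow_bound T hres
  obtain ⟨M, hM, hSM⟩ := hS.bdd t0
  -- powers
  have hQSP : ∀ t, 0 ≤ t → ∀ x, Q (S t x) = Q (S t (Q x)) := by
    intro t ht x
    have h1 : Q (S t (P0 x)) = 0 := (hQ0 _).2 (hE t ht _ (hP x))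
    rw [hQa x, map_sub, map_sub, h1, sub_zero]
  have hk : ∀ k : ℕ, ∀ x, Q (S (k * t0) x) = (T ^ k) (Q x) := by
    intro k
    induction k with
    | zero => intro x; simp [hS.zero]
    | succ k ih =>
      intro x
      have h1 : ((k + 1 : ℕ) : ℝ) * t0 = t0 + k * t0 := by push_cast; ring
      rw [h1, hS.add_apply ht0.le (by positivity), hQSP _ ht0.le, pow_succ']
      have h2 : (T * T ^ k) (Q x) = T ((T ^ k) (Q x)) := rfl
      rw [h2, ← ih x]
      have h3 : T (Q (S (k * t0) x)) = Q (S t0 (Q (Q (S (k * t0) x)))) := rfl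
      rw [h3, hQQ]
  refine ⟨C * ρ⁻¹ * ‖Q‖ * M, -Real.log ρ / t0, by positivity,
    div_pos (neg_pos.2 (Real.log_neg hρ hρ1)) ht0, fun t ht x => ?_⟩
  set k : ℕ := ⌊t / t0⌋₊ with hkdef
  have hk1 : (k : ℝ) ≤ t / t0 := Nat.floor_le (by positivity)
  have hk2 : t / t0 < k + 1 := Nat.lt_floor_add_one _
  have hk1' : (k : ℝ) * t0 ≤ t := by rwa [le_div_iff₀ ht0] at hk1
  have hk2' : t < (k + 1) * t0 := by rwa [div_lt_iff₀ ht0] at hk2
  set r : ℝ := t - k * t0 with hr
  have hr0 : 0 ≤ r := by rw [hr]; linarith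
  have hr1 : r ≤ t0 := by rw [hr]; linarith
  have ht' : t = k * t0 + r := by rw [hr]; ring
  have h1 : S t x - P0 (S t x) = (T ^ k) (Q (S r x)) := by
    rw [← hk, ← hS.add_apply (by positivity) hr0, ← ht', hQa]
  rw [h1]
  have h2 : ‖(T ^ k) (Q (S r x))‖ ≤ (C * ρ ^ k) * (‖Q‖ * (M * ‖x‖)) := by
    refine ((T ^ k).le_opNorm _).trans ?_
    gcongr
    · exact hpow k
    · refine (Q.le_opNorm _).trans ?_
      gcongr
      exact ((S r).le_opNorm _).trans (by gcongr; exact hSM r hr0 hr1)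
  refine h2.trans ?_
  have h3 : ρ ^ k ≤ ρ⁻¹ * Real.exp (-(-Real.log ρ / t0) * t) := by
    have h4 : ρ⁻¹ * Real.exp (-(-Real.log ρ / t0) * t) = Real.exp (Real.log ρ * (t / t0 - 1)) := by
      nth_rewrite 1 [← Real.exp_log hρ]
      rw [← Real.exp_neg, ← Real.exp_add]
      congr 1
      field_simp
      ring
    rw [h4]
    have h5 : ρ ^ k = Real.exp (Real.log ρ * k) := by
      rw [← Real.rpow_natCast, Real.rpow_def_of_pos hρ]
    rw [h5]
    apply Real.exp_le_exp.2
    have h6 : Real.log ρ < 0 := Real.log_neg hρ hρ1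
    nlinarith
  calc (C * ρ ^ k) * (‖Q‖ * (M * ‖x‖))
      ≤ (C * (ρ⁻¹ * Real.exp (-(-Real.log ρ / t0) * t))) * (‖Q‖ * (M * ‖x‖)) := by gcongr
    _ = C * ρ⁻¹ * ‖Q‖ * M * Real.exp (-(-Real.log ρ / t0) * t) * ‖x‖ := by ring

end semi

end Crest.Agent.R086.DF
end

-- ▼ part R086/DLLin

set_option autoImplicit false

open MeasureTheory Complex Set Function
open scoped ContDiff

namespace Crest.Agent.R086.DL

/-- 544's gap theorem as a Prop (frozen statement 12449) -/
def GapStmt : Prop := ∀ (X : Type) [NormedAddCommGroup X] [NormedSpace ℂ X] [CompleteSpace X]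
  (S : ℝ → X →L[ℂ] X), S 0 = 1 → (∀ s t, 0 ≤ s → 0 ≤ t → S (s + t) = S s * S t) →
  (∀ x, ContinuousOn (fun t => S t x) (Ici 0)) →
  ∀ (E : Submodule ℂ X) [FiniteDimensional ℂ E], (∀ t, 0 ≤ t → ∀ x ∈ E, S t x ∈ E) →
  ∀ (t0 : ℝ), 0 < t0 → ∀ (A K : X →L[ℂ] X), S t0 = A + K → ‖A‖ < 1 → IsCompactOperator K →
  (∀ lam : ℂ, 0 ≤ lam.re → ∀ x y, HasDerivWithinAt (fun t => S t x) y (Ici 0) 0 →
    y - lam • x ∈ E → x ∈ E) →
  ∀ P0 : X →L[ℂ] X, (∀ x, P0 x ∈ E) → (∀ x ∈ E, P0 x = x) →
  ∃ C δ : ℝ, 0 < δ ∧ ∀ t, 0 ≤ t → ∀ x, ‖S t x - P0 (S t x)‖ ≤ C * Real.exp (-δ * t) * ‖x‖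

theorem gapStmt : GapStmt := by
  intro X _ _ _ S h0 hadd hcont E _ hE t0 ht0 A K hAK hA hK hspec P0 hP0 hP1
  obtain ⟨C, δ, _, hδ, h⟩ := DF.gap (S := S) ⟨h0, hadd, hcont⟩ E hE ht0 A K hAK hA hK hspec P0 hP0 hP1
  exact ⟨C, δ, hδ, h⟩

/-! ### measure facts -/

lemma wt_pos (N : ℕ) (ξ : R12) : 0 < wt N ξ := by unfold wt; positivity

lemma wt_cont (N : ℕ) : Continuous (wt N) := by unfold wt; fun_prop

lemma ae_muN_iff (N : ℕ) {p : R12 → Prop} : (∀ᵐ x ∂(muN N), p x) ↔ ∀ᵐ x ∂(volume : Measure R12), p x := by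
  unfold muN
  rw [ae_withDensity_iff (by have := wt_cont N; fun_prop)]
  constructor
  · intro h
    filter_upwards [h] with x hx
    apply hx
    simp [ENNReal.ofReal_eq_zero, wt_pos N x]
  · intro h
    filter_upwards [h] with x hx _ using hx

lemma integrable_muN_iff (N : ℕ) {a : R12 → ℂ} :
    Integrable a (muN N) ↔ Integrable (fun ξ => (wt N ξ) • a ξ) volume := by
  unfold muN
  rw [integrable_withDensity_iff_integrable_smul₀']
  · apply integrable_congr
    filter_upwards with ξ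
    rw [ENNReal.toReal_ofReal (wt_pos N ξ).le]
  · have := wt_cont N; fun_prop
  · filter_upwards with ξ using ENNReal.ofReal_lt_top


lemma mp_neg (N : ℕ) : MeasurePreserving (Neg.neg : R12 → R12) (muN N) (muN N) := by
  refine ⟨measurable_neg, ?_⟩
  ext s hs
  rw [Measure.map_apply measurable_neg hs]
  unfold muN
  rw [withDensity_apply _ hs, withDensity_apply _ (measurable_neg hs)]
  have h := (Measure.measurePreserving_neg (volume : Measure R12)).setLIntegral_comp_preimage hs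
    (f := fun ξ => ENNReal.ofReal (wt N ξ)) (by have := wt_cont N; fun_prop)
  rw [← h]
  apply setLIntegral_congr_fun (measurable_neg hs)
  intro ξ _
  simp [wt]

/-- conjugation on densities -/
noncomputable def J (N : ℕ) : XN N → XN N :=
  fun a => star (Lp.compMeasurePreserving Neg.neg (mp_neg N) a)

lemma J_coe {N : ℕ} (a : XN N) :
    ((J N a : XN N) : R12 → ℂ) =ᵐ[muN N] fun z => (starRingEnd ℂ) ((a : R12 → ℂ) (-z)) := by
  unfold J
  refine (Lp.coeFn_star _).trans ?_
  filter_upwards [Lp.coeFn_compMeasurePreserving a (mp_neg N)] with z hz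
  simp only [Pi.star_apply]
  rw [hz]
  rfl

lemma J_norm {N : ℕ} (a : XN N) : ‖J N a‖ = ‖a‖ := by
  have h1 : ‖J N a‖ = ‖Lp.compMeasurePreserving Neg.neg (mp_neg N) a‖ := by
    unfold J
    rw [Lp.norm_def, Lp.norm_def]
    congr 1
    apply eLpNorm_congr_norm_ae
    filter_upwards [Lp.coeFn_star (Lp.compMeasurePreserving Neg.neg (mp_neg N) a)] with z hz
    rw [hz]
    simp
  rw [h1, Lp.norm_compMeasurePreserving]

lemma J_sub {N : ℕ} (a b : XN N) : J N (a - b) = J N a - J N b := by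
  apply Lp.ext
  have h1 : ∀ᵐ z ∂(muN N), ((a - b : XN N) : R12 → ℂ) (-z) = (a : R12 → ℂ) (-z) - (b : R12 → ℂ) (-z) :=
    (mp_neg N).quasiMeasurePreserving.ae (Lp.coeFn_sub a b)
  filter_upwards [J_coe (a - b), J_coe a, J_coe b, Lp.coeFn_sub (J N a) (J N b), h1] with z h2 h3 h4 h5 h6
  rw [h2, h5, Pi.sub_apply, h3, h4, h6, map_sub]

lemma J_add {N : ℕ} (a b : XN N) : J N (a + b) = J N a + J N b := by
  apply Lp.ext
  have h1 : ∀ᵐ z ∂(muN N), ((a + b : XN N) : R12 → ℂ) (-z) = (a : R12 → ℂ) (-z) + (b : R12 → ℂ) (-z) :=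
    (mp_neg N).quasiMeasurePreserving.ae (Lp.coeFn_add a b)
  filter_upwards [J_coe (a + b), J_coe a, J_coe b, Lp.coeFn_add (J N a) (J N b), h1] with z h2 h3 h4 h5 h6
  rw [h2, h5, Pi.add_apply, h3, h4, h6, map_add]

lemma J_smul {N : ℕ} (c : ℂ) (a : XN N) : J N (c • a) = (starRingEnd ℂ) c • J N a := by
  apply Lp.ext
  have h1 : ∀ᵐ z ∂(muN N), ((c • a : XN N) : R12 → ℂ) (-z) = c • (a : R12 → ℂ) (-z) :=
    (mp_neg N).quasiMeasurePreserving.ae (Lp.coeFn_smul c a)
  filter_upwards [J_coe (c • a), J_coe a, Lp.coeFn_smul ((starRingEnd ℂ) c) (J N a), h1] with z h2 h3 h4 h5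
  rw [h2, h4, Pi.smul_apply, h3, h5]
  simp [smul_eq_mul]

lemma J_sum {N : ℕ} {ι : Type*} (s : Finset ι) (f : ι → XN N) :
    J N (∑ i ∈ s, f i) = ∑ i ∈ s, J N (f i) := by
  classical
  have h0 : J N 0 = 0 := by have := J_sub (N := N) 0 0; simpa using this
  induction s using Finset.induction_on with
  | empty => simp [h0]
  | insert a s ha ih => rw [Finset.sum_insert ha, J_add, ih, Finset.sum_insert ha]

lemma J_J {N : ℕ} (a : XN N) : J N (J N a) = a := by
  apply Lp.ext
  have h1 : ∀ᵐ z ∂(muN N), ((J N a : XN N) : R12 → ℂ) (-z) = (starRingEnd ℂ) ((a : R12 → ℂ) (- -z)) :=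
    (mp_neg N).quasiMeasurePreserving.ae (J_coe a)
  filter_upwards [J_coe (J N a), h1] with z h2 h3
  rw [h2, h3]
  simp

lemma isReal_iff {N : ℕ} (x : XX N) : IsReal x ↔ x.2 = J N x.1 := by
  unfold IsReal
  rw [← ae_muN_iff N]
  constructor
  · intro h
    apply Lp.ext
    filter_upwards [h, J_coe x.1] with z h1 h2
    rw [h1, h2]
  · intro h
    rw [h]
    exact J_coe x.1

lemma real_avg {N : ℕ} {ι : Type*} [Fintype ι] (m : ι → XX N) (hm : ∀ i, IsReal (m i)) (z : XX N)
    (hz : IsReal z) (c : ι → ℂ) :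
    ‖z - ∑ i, (((c i).re : ℝ) : ℂ) • m i‖ ≤ ‖z - ∑ i, c i • m i‖ := by
  have hz' := (isReal_iff z).1 hz
  have hm' : ∀ i, (m i).2 = J N (m i).1 := fun i => (isReal_iff _).1 (hm i)
  set w := z - ∑ i, c i • m i with hw
  have f1 : ∀ d : ι → ℂ, (∑ i, d i • m i).1 = ∑ i, d i • (m i).1 := fun d => by
    rw [Prod.fst_sum]; rfl
  have f2 : ∀ d : ι → ℂ, (∑ i, d i • m i).2 = ∑ i, d i • (m i).2 := fun d => by
    rw [Prod.snd_sum]; rfl
  have w1 : w.1 = z.1 - ∑ i, c i • (m i).1 := by rw [hw, Prod.fst_sub, f1]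
  have w2 : w.2 = z.2 - ∑ i, c i • (m i).2 := by rw [hw, Prod.snd_sub, f2]
  have Jw2 : J N w.2 = z.1 - ∑ i, (starRingEnd ℂ) (c i) • (m i).1 := by
    rw [w2, J_sub, J_sum, hz', J_J]
    congr 1
    apply Finset.sum_congr rfl
    intro i _
    rw [J_smul, hm' i, J_J]
  have Jw1 : J N w.1 = z.2 - ∑ i, (starRingEnd ℂ) (c i) • (m i).2 := by
    rw [w1, J_sub, J_sum, ← hz']
    congr 1
    apply Finset.sum_congr rfl
    intro i _
    rw [J_smul, hm' i]
  have hre : ∀ i, (((c i).re : ℝ) : ℂ) = (1/2 : ℂ) * (c i + (starRingEnd ℂ) (c i)) := by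
    intro i
    rw [Complex.add_conj]; push_cast; ring
  have g1 : (z - ∑ i, (((c i).re : ℝ) : ℂ) • m i).1 = (1/2 : ℂ) • (w.1 + J N w.2) := by
    rw [Prod.fst_sub, f1, Jw2, w1]
    have : ∑ i, (((c i).re : ℝ) : ℂ) • (m i).1 = (1/2 : ℂ) • (∑ i, c i • (m i).1 + ∑ i, (starRingEnd ℂ) (c i) • (m i).1) := by
      rw [← Finset.sum_add_distrib, Finset.smul_sum]
      apply Finset.sum_congr rfl
      intro i _
      rw [hre i, ← add_smul, smul_smul]
    rw [this]
    module
  have g2 : (z - ∑ i, (((c i).re : ℝ) : ℂ) • m i).2 = (1/2 : ℂ) • (w.2 + J N w.1) := by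
    rw [Prod.snd_sub, f2, Jw1, w2]
    have : ∑ i, (((c i).re : ℝ) : ℂ) • (m i).2 = (1/2 : ℂ) • (∑ i, c i • (m i).2 + ∑ i, (starRingEnd ℂ) (c i) • (m i).2) := by
      rw [← Finset.sum_add_distrib, Finset.smul_sum]
      apply Finset.sum_congr rfl
      intro i _
      rw [hre i, ← add_smul, smul_smul]
    rw [this]
    module
  have n1 : ‖w.1‖ ≤ ‖w‖ := norm_fst_le w
  have n2 : ‖w.2‖ ≤ ‖w‖ := norm_snd_le w
  rw [Prod.norm_def]
  apply max_le
  · rw [g1, norm_smul]
    have := norm_add_le w.1 (J N w.2)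
    rw [J_norm] at this
    have h2 : ‖(1/2 : ℂ)‖ = 1/2 := by norm_num
    rw [h2]; linarith
  · rw [g2, norm_smul]
    have := norm_add_le w.2 (J N w.1)
    rw [J_norm] at this
    have h2 : ‖(1/2 : ℂ)‖ = 1/2 := by norm_num
    rw [h2]; linarith

/-- continuous dual functionals of a finite linearly independent family -/
lemma dual_fun {X : Type*} [NormedAddCommGroup X] [NormedSpace ℂ X] {ι : Type*} [Fintype ι]
    (m : ι → X) (hm : LinearIndependent ℂ m) :
    ∃ φ : ι → (X →L[ℂ] ℂ), ∀ x ∈ Submodule.span ℂ (range m), ∑ i, φ i x • m i = x := by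
  classical
  let E := Submodule.span ℂ (range m)
  let b := Module.Basis.span hm
  haveI : FiniteDimensional ℂ E := FiniteDimensional.span_of_finite ℂ (finite_range m)
  have hex : ∀ i, ∃ g : X →L[ℂ] ℂ, ∀ x : E, g x = b.coord i x := by
    intro i
    obtain ⟨g, hg, _⟩ := exists_extension_norm_eq E (LinearMap.toContinuousLinearMap (b.coord i))
    exact ⟨g, fun x => by rw [hg x]; rfl⟩
  choose φ hφ using hex
  refine ⟨φ, fun x hx => ?_⟩
  have h1 : ∑ i, (b.repr ⟨x, hx⟩) i • b i = ⟨x, hx⟩ := b.sum_repr _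
  have h2 := congrArg (fun y : E => (y : X)) h1
  simp only [Submodule.coe_sum, Submodule.coe_smul] at h2
  rw [← h2]
  apply Finset.sum_congr rfl
  intro i _
  rw [h2]
  have h3 : φ i x = (b.repr ⟨x, hx⟩) i := hφ i ⟨x, hx⟩
  have h4 : ((b i : E) : X) = m i := congrArg Subtype.val (Module.Basis.span_apply hm i)
  rw [h3, h4]

lemma rep_ft {N : ℕ} {a f : R12 → ℂ} (h : Rep N a f) : f = ft a := by
  ext y; exact h.2 y

lemma inX_ft {N M : ℕ} (h : M ≤ N) (x : XN N) : InX M (ft x) := by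
  refine ⟨x, ?_, fun y => rfl⟩
  have h1 : Integrable (x : R12 → ℂ) (muN N) := L1.integrable_coeFn x
  rw [integrable_muN_iff] at h1
  have hm : AEStronglyMeasurable (x : R12 → ℂ) volume := by
    have h1 : AEStronglyMeasurable (fun ξ => (wt N ξ)⁻¹ • (wt N ξ • (x : R12 → ℂ) ξ)) volume :=
      (((wt_cont N).measurable).inv.aestronglyMeasurable).smul h1.aestronglyMeasurable
    refine h1.congr (Filter.Eventually.of_forall fun ξ => ?_)
    simp only [smul_smul, inv_mul_cancel₀ (wt_pos N ξ).ne', one_smul]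
  refine h1.mono ?_ (Filter.Eventually.of_forall fun ξ => ?_)
  · apply AEStronglyMeasurable.mul _ hm
    apply Continuous.aestronglyMeasurable
    fun_prop
  · rw [norm_mul, norm_smul]
    have e1 : ‖(((1 + ‖ξ‖) ^ M : ℝ) : ℂ)‖ = (1 + ‖ξ‖) ^ M := by
      rw [Complex.norm_real, Real.norm_of_nonneg (by positivity)]
    rw [e1, Real.norm_of_nonneg (wt_pos N ξ).le]
    unfold wt
    gcongr
    linarith [norm_nonneg ξ]

lemma ft_congr {a b : R12 → ℂ} (h : a =ᵐ[volume] b) : ft a = ft b := by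
  ext y
  unfold ft
  apply integral_congr_ae
  filter_upwards [h] with ξ hξ
  rw [hξ]

/-- injectivity of the synthesis on `XX N` (Fourier uniqueness) -/
def FtInjStmt : Prop := ∀ (N : ℕ) (a b : XN N), ft a = ft b → a = b

lemma ft_int {N : ℕ} (a : XN N) (y : R12) :
    Integrable (fun ξ : R12 => exp (I * ((inner ℝ ξ y : ℝ) : ℂ)) * (a : R12 → ℂ) ξ) := by
  obtain ⟨_, h1, _⟩ := inX_ft (Nat.zero_le N) a
  have h0 : Integrable (a : R12 → ℂ) volume := by
    have h1 : Integrable (a : R12 → ℂ) (muN N) := L1.integrable_coeFn a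
    rw [integrable_muN_iff] at h1
    have hm : AEStronglyMeasurable (a : R12 → ℂ) volume := by
      have h1 : AEStronglyMeasurable (fun ξ => (wt N ξ)⁻¹ • (wt N ξ • (a : R12 → ℂ) ξ)) volume :=
        (((wt_cont N).measurable).inv.aestronglyMeasurable).smul h1.aestronglyMeasurable
      refine h1.congr (Filter.Eventually.of_forall fun ξ => ?_)
      simp only [smul_smul, inv_mul_cancel₀ (wt_pos N ξ).ne', one_smul]
    refine h1.mono hm (Filter.Eventually.of_forall fun ξ => ?_)
    rw [norm_smul, Real.norm_of_nonneg (wt_pos N ξ).le]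
    have : 1 ≤ wt N ξ := one_le_pow₀ (by linarith [norm_nonneg ξ])
    nlinarith [norm_nonneg ((a : R12 → ℂ) ξ)]
  refine h0.bdd_mul (c := 1) (by apply Continuous.aestronglyMeasurable; fun_prop) ?_
  refine Filter.Eventually.of_forall fun ξ => ?_
  rw [Complex.norm_exp]
  simp

lemma ft_add {N : ℕ} (a b : XN N) (y : R12) : ft (a + b : XN N) y = ft a y + ft b y := by
  rw [show ft (a + b : XN N) = ft (fun ξ => (a : R12 → ℂ) ξ + (b : R12 → ℂ) ξ) from
    ft_congr ((ae_muN_iff N).1 (Lp.coeFn_add a b))]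
  unfold ft
  rw [← integral_add (ft_int a y) (ft_int b y)]
  congr 1
  ext ξ
  ring

lemma ft_smul {N : ℕ} (c : ℂ) (a : XN N) (y : R12) : ft (c • a : XN N) y = c * ft a y := by
  rw [show ft (c • a : XN N) = ft (fun ξ => c * (a : R12 → ℂ) ξ) from
    ft_congr ((ae_muN_iff N).1 (Lp.coeFn_smul c a))]
  unfold ft
  rw [← MeasureTheory.integral_const_mul]
  congr 1
  ext ξ
  ring

lemma ft_zero {N : ℕ} (y : R12) : ft (0 : XN N) y = 0 := by
  have := ft_smul (N := N) 0 0 y
  simpa using this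

lemma ft_sum {N : ℕ} {ι : Type*} (s : Finset ι) (f : ι → XN N) (y : R12) :
    ft (∑ i ∈ s, f i : XN N) y = ∑ i ∈ s, ft (f i) y := by
  classical
  induction s using Finset.induction_on with
  | empty => rw [Finset.sum_empty, Finset.sum_empty]; exact ft_zero y
  | insert a s ha ih => rw [Finset.sum_insert ha, ft_add, ih, Finset.sum_insert ha]

lemma xn_int {N : ℕ} (a : XN N) : Integrable (a : R12 → ℂ) volume := by
  have h1 : Integrable (a : R12 → ℂ) (muN N) := L1.integrable_coeFn a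
  rw [integrable_muN_iff] at h1
  have hm : AEStronglyMeasurable (a : R12 → ℂ) volume := by
    have h1 : AEStronglyMeasurable (fun ξ => (wt N ξ)⁻¹ • (wt N ξ • (a : R12 → ℂ) ξ)) volume :=
      (((wt_cont N).measurable).inv.aestronglyMeasurable).smul h1.aestronglyMeasurable
    refine h1.congr (Filter.Eventually.of_forall fun ξ => ?_)
    simp only [smul_smul, inv_mul_cancel₀ (wt_pos N ξ).ne', one_smul]
  refine h1.mono hm (Filter.Eventually.of_forall fun ξ => ?_)
  rw [norm_smul, Real.norm_of_nonneg (wt_pos N ξ).le]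
  have : 1 ≤ wt N ξ := one_le_pow₀ (by linarith [norm_nonneg ξ])
  nlinarith [norm_nonneg ((a : R12 → ℂ) ξ)]

/-- a real integrable function with zero Fourier transform vanishes a.e. -/
lemma real_zero {u : R12 → ℝ} (hu : Integrable u volume)
    (h : ∀ y : R12, ∫ ξ : R12, exp (((inner ℝ ξ y : ℝ) : ℂ) * I) * (u ξ : ℂ) = 0) :
    u =ᵐ[volume] 0 := by
  have hp : Integrable (fun ξ => max (u ξ) 0) volume := hu.pos_part
  have hn : Integrable (fun ξ => max (-u ξ) 0) volume := hu.neg_part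
  let μ1 : Measure R12 := volume.withDensity fun ξ => ENNReal.ofReal (max (u ξ) 0)
  let μ2 : Measure R12 := volume.withDensity fun ξ => ENNReal.ofReal (max (-u ξ) 0)
  haveI : IsFiniteMeasure μ1 := isFiniteMeasure_withDensity_ofReal hp.2
  haveI : IsFiniteMeasure μ2 := isFiniteMeasure_withDensity_ofReal hn.2
  have hcf : charFun μ1 = charFun μ2 := by
    ext y
    rw [charFun_apply, charFun_apply]
    have e1 : ∫ x, exp (((inner ℝ x y : ℝ) : ℂ) * I) ∂μ1
        = ∫ x, exp (((inner ℝ x y : ℝ) : ℂ) * I) * ((max (u x) 0 : ℝ) : ℂ) := by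
      rw [integral_withDensity_eq_integral_toReal_smul₀ hp.1.aemeasurable.ennreal_ofReal
        (Filter.Eventually.of_forall fun ξ => ENNReal.ofReal_lt_top)]
      apply integral_congr_ae
      filter_upwards with x
      rw [ENNReal.toReal_ofReal (le_max_right _ _), Complex.real_smul, mul_comm]
    have e2 : ∫ x, exp (((inner ℝ x y : ℝ) : ℂ) * I) ∂μ2
        = ∫ x, exp (((inner ℝ x y : ℝ) : ℂ) * I) * ((max (-u x) 0 : ℝ) : ℂ) := by
      rw [integral_withDensity_eq_integral_toReal_smul₀ hn.1.aemeasurable.ennreal_ofReal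
        (Filter.Eventually.of_forall fun ξ => ENNReal.ofReal_lt_top)]
      apply integral_congr_ae
      filter_upwards with x
      rw [ENNReal.toReal_ofReal (le_max_right _ _), Complex.real_smul, mul_comm]
    rw [e1, e2, ← sub_eq_zero, ← integral_sub]
    · rw [← h y]
      apply integral_congr_ae
      filter_upwards with x
      rw [← mul_sub, ← Complex.ofReal_sub]
      congr 2
      rcases le_total 0 (u x) with h | h
      · rw [max_eq_left h, max_eq_right (by linarith)]; ring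
      · rw [max_eq_right h, max_eq_left (by linarith)]; ring
    · refine (hp.ofReal (𝕜 := ℂ)).bdd_mul (c := 1) (by apply Continuous.aestronglyMeasurable; fun_prop) ?_
      refine Filter.Eventually.of_forall fun ξ => ?_
      rw [Complex.norm_exp]; simp
    · refine (hn.ofReal (𝕜 := ℂ)).bdd_mul (c := 1) (by apply Continuous.aestronglyMeasurable; fun_prop) ?_
      refine Filter.Eventually.of_forall fun ξ => ?_
      rw [Complex.norm_exp]; simp
  have hμ : μ1 = μ2 := Measure.ext_of_charFun hcf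
  have hd := (withDensity_eq_iff hp.1.aemeasurable.ennreal_ofReal hn.1.aemeasurable.ennreal_ofReal
    (by
      have h5 := (hasFiniteIntegral_iff_ofReal (f := fun ξ => max (u ξ) 0) (μ := volume)
        (Filter.Eventually.of_forall fun _ => le_max_right _ _)).1 hp.2
      exact h5.ne)).1 hμ
  filter_upwards [hd] with x hx
  have h3 := (ENNReal.ofReal_eq_ofReal_iff (le_max_right _ _) (le_max_right _ _)).1 hx
  simp only [Pi.zero_apply]
  rcases le_total 0 (u x) with h | h
  · rw [max_eq_left h, max_eq_right (by linarith)] at h3; exact h3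
  · rw [max_eq_right h, max_eq_left (by linarith)] at h3; linarith

lemma ft_zero_ae {a : R12 → ℂ} (ha : Integrable a volume) (h : ∀ y, ft a y = 0) : a =ᵐ[volume] 0 := by
  have hconj : ∀ y, ∫ ξ : R12, exp (((inner ℝ ξ y : ℝ) : ℂ) * I) * (starRingEnd ℂ) (a ξ) = 0 := by
    intro y
    have h1 := h (-y)
    unfold ft at h1
    have h2 := congrArg (starRingEnd ℂ) h1
    rw [← integral_conj, map_zero] at h2
    rw [← h2]
    apply integral_congr_ae
    filter_upwards with ξ
    rw [map_mul, ← Complex.exp_conj]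
    simp only [map_mul, Complex.conj_I, Complex.conj_ofReal, inner_neg_right, Complex.ofReal_neg,
      map_neg]
    ring_nf
  have hself : ∀ y, ∫ ξ : R12, exp (((inner ℝ ξ y : ℝ) : ℂ) * I) * a ξ = 0 := by
    intro y
    rw [← h y]
    unfold ft
    apply integral_congr_ae
    filter_upwards with ξ
    rw [mul_comm I]
  have hb : ∀ (b : R12 → ℂ), Integrable b volume → ∀ y, Integrable (fun ξ : R12 => exp (((inner ℝ ξ y : ℝ) : ℂ) * I) * b ξ) := by
    intro b hb y
    refine hb.bdd_mul (c := 1) (by apply Continuous.aestronglyMeasurable; fun_prop) ?_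
    refine Filter.Eventually.of_forall fun ξ => ?_
    rw [Complex.norm_exp]; simp
  have hac : Integrable (fun ξ => (starRingEnd ℂ) (a ξ)) volume := by
    refine ha.congr' (Complex.continuous_conj.comp_aestronglyMeasurable ha.1) ?_
    filter_upwards with ξ
    simp
  have hre := real_zero (u := fun ξ => (a ξ).re) ha.re (fun y => by
    have := congrArg₂ (· + ·) (hself y) (hconj y)
    simp only [add_zero] at this
    rw [← integral_add (hb a ha y) (hb _ hac y)] at this
    have h2 : ∫ ξ : R12, exp (((inner ℝ ξ y : ℝ) : ℂ) * I) * (((a ξ).re : ℝ) : ℂ)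
        = (1/2 : ℂ) * ∫ ξ : R12, (exp (((inner ℝ ξ y : ℝ) : ℂ) * I) * a ξ + exp (((inner ℝ ξ y : ℝ) : ℂ) * I) * (starRingEnd ℂ) (a ξ)) := by
      rw [← MeasureTheory.integral_const_mul]
      apply integral_congr_ae
      filter_upwards with ξ
      rw [← mul_add, Complex.add_conj]
      push_cast; ring
    rw [h2, this, mul_zero])
  have him := real_zero (u := fun ξ => (a ξ).im) ha.im (fun y => by
    have := congrArg₂ (· - ·) (hself y) (hconj y)
    simp only [sub_zero] at this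
    rw [← integral_sub (hb a ha y) (hb _ hac y)] at this
    have h2 : ∫ ξ : R12, exp (((inner ℝ ξ y : ℝ) : ℂ) * I) * (((a ξ).im : ℝ) : ℂ)
        = (-I/2 : ℂ) * ∫ ξ : R12, (exp (((inner ℝ ξ y : ℝ) : ℂ) * I) * a ξ - exp (((inner ℝ ξ y : ℝ) : ℂ) * I) * (starRingEnd ℂ) (a ξ)) := by
      rw [← MeasureTheory.integral_const_mul]
      apply integral_congr_ae
      filter_upwards with ξ
      rw [← mul_sub, Complex.sub_conj]
      push_cast
      linear_combination (exp (((inner ℝ ξ y : ℝ) : ℂ) * I) * ((a ξ).im : ℂ)) * Complex.I_sq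
    rw [h2, this, mul_zero])
  filter_upwards [hre, him] with ξ h1 h2
  apply Complex.ext
  · simpa using h1
  · simpa using h2

theorem ftInj : FtInjStmt := by
  intro N a b hab
  rw [← sub_eq_zero]
  apply Lp.ext
  rw [Filter.EventuallyEq, ae_muN_iff N]
  have h0 := ft_zero_ae (xn_int (a - b)) (fun y => by
    have e : a - b = a + (-1 : ℂ) • b := by module
    rw [e, ft_add, ft_smul, hab]; ring)
  have h1 := (ae_muN_iff N).1 (Lp.coeFn_zero ℂ 1 (muN N))
  filter_upwards [h0, h1] with x h2 h3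
  rw [h2, h3]

/-- ASSEMBLY of LINStmt. -/
theorem lin_of (hDE : DEStmt) (hMode : ModeStmt) (hGen : GenStmt)
    : LINStmt := by
  have hgap := gapStmt
  have hinj := ftInj
  intro n P T hP
  obtain ⟨N1, hN1⟩ := hDE n P T
  refine ⟨max N1 N0, fun N hN D κ hκ => ?_⟩
  have hN1' : N1 ≤ N := le_trans (le_max_left _ _) hN
  have hN0' : N0 ≤ N := le_trans (le_max_right _ _) hN
  have hN2 : 2 ≤ N := le_trans (by norm_num [N0]) hN0'
  obtain ⟨t0, ht0, A, K, hAK, hA, hK⟩ := hN1 N hN1' D
  obtain ⟨hS, hreal, hSreal, hind⟩ := hMode n P T N D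
  have hli : LinearIndependent ℂ D.mode := by
    rw [Fintype.linearIndependent_iff]
    intro c hc i
    exact congrFun (hind c hc) i
  obtain ⟨φ, hφ⟩ := dual_fun D.mode hli
  let E := Submodule.span ℂ (range D.mode)
  haveI : FiniteDimensional ℂ E := FiniteDimensional.span_of_finite ℂ (finite_range D.mode)
  let P0 : XX N →L[ℂ] XX N := ∑ i, (φ i).smulRight (D.mode i)
  have hP0 : ∀ x, P0 x = ∑ i, φ i x • D.mode i := by
    intro x
    simp [P0, ContinuousLinearMap.sum_apply]
  have hinv : ∀ t, 0 ≤ t → ∀ x ∈ E, D.S t x ∈ E := by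
    intro t ht x hx
    induction hx using Submodule.span_induction with
    | mem x hx =>
      obtain ⟨i, rfl⟩ := hx
      rw [hS t ht i]
      exact E.smul_mem _ (Submodule.subset_span ⟨i, rfl⟩)
    | zero => rw [map_zero]; exact E.zero_mem
    | add x y _ _ h1 h2 => rw [map_add]; exact E.add_mem h1 h2
    | smul c x _ h => rw [map_smul]; exact E.smul_mem c h
  have hmode1 : ∀ i, ft (D.mode i).1 = P.mode1 i := fun i => by
    rw [ft_congr (D.mode_fst i)]; exact (rep_ft (T.rep_m1 i N)).symm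
  have hmode2 : ∀ i, ft (D.mode i).2 = P.mode2 i := fun i => by
    rw [ft_congr (D.mode_snd i)]; exact (rep_ft (T.rep_m2 i N)).symm
  have hmem : ∀ x : XX N, P.InE (ft x.1) (ft x.2) → x ∈ E := by
    intro x hx
    obtain ⟨c, hc1, hc2⟩ := hx
    have : x = ∑ i, c i • D.mode i := by
      apply Prod.ext
      · apply hinj N
        rw [Prod.fst_sum]
        ext y
        rw [ft_sum, hc1 y]
        apply Finset.sum_congr rfl
        intro i _
        rw [Prod.smul_fst, ft_smul, hmode1]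
      · apply hinj N
        rw [Prod.snd_sum]
        ext y
        rw [ft_sum, hc2 y]
        apply Finset.sum_congr rfl
        intro i _
        rw [Prod.smul_snd, ft_smul, hmode2]
    rw [this]
    exact E.sum_mem fun i _ => E.smul_mem _ (Submodule.subset_span ⟨i, rfl⟩)
  have hmem' : ∀ x : XX N, x ∈ E → P.InE (ft x.1) (ft x.2) := by
    intro x hx
    refine ⟨fun i => φ i x, ?_, ?_⟩
    · intro y
      conv_lhs => rw [← hφ x hx]
      rw [Prod.fst_sum, ft_sum]
      apply Finset.sum_congr rfl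
      intro i _
      rw [Prod.smul_fst, ft_smul, hmode1]
    · intro y
      conv_lhs => rw [← hφ x hx]
      rw [Prod.snd_sum, ft_sum]
      apply Finset.sum_congr rfl
      intro i _
      rw [Prod.smul_snd, ft_smul, hmode2]
  have hspec : ∀ lam : ℂ, 0 ≤ lam.re → ∀ x y, HasDerivWithinAt (fun t => D.S t x) y (Ici 0) 0 →
      y - lam • x ∈ E → x ∈ E := by
    intro lam hlam x y hxy hyE
    obtain ⟨g1, g2⟩ := hGen n P T N hN2 D x y hxy
    apply hmem
    apply hP lam hlam _ _ (inX_ft hN0' x.1) (inX_ft hN0' x.2)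
    obtain ⟨c, hc1, hc2⟩ := hmem' _ hyE
    refine ⟨c, fun p => ?_, fun p => ?_⟩
    · rw [← hc1 p]
      show P.gen1 (ft x.1) (ft x.2) p - lam * ft x.1 p = _
      rw [← g1 p]
      have h1 : (y - lam • x).1 = y.1 + (-lam) • x.1 := by
        rw [Prod.fst_sub, Prod.smul_fst]; module
      rw [h1, ft_add, ft_smul]; ring
    · rw [← hc2 p]
      show P.gen2 (ft x.1) (ft x.2) p - lam * ft x.2 p = _
      rw [← g2 p]
      have h1 : (y - lam • x).2 = y.2 + (-lam) • x.2 := by
        rw [Prod.snd_sub, Prod.smul_snd]; module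
      rw [h1, ft_add, ft_smul]; ring
  obtain ⟨C, δ, hδ, hCδ⟩ := hgap (XX N) D.S D.S_zero D.S_add D.S_cont E hinv t0 ht0 A K hAK hA hK
    hspec P0 (fun x => by
      rw [hP0]; exact E.sum_mem fun i _ => E.smul_mem _ (Submodule.subset_span ⟨i, rfl⟩))
    (fun x hx => by rw [hP0]; exact hφ x hx)
  -- choose s0
  have hlim : Filter.Tendsto (fun s : ℝ => C * Real.exp (-δ * s)) Filter.atTop (nhds (C * 0)) := by
    apply Filter.Tendsto.const_mul
    apply Real.tendsto_exp_atBot.comp
    exact Filter.tendsto_id.const_mul_atTop_of_neg (by linarith)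
  rw [mul_zero] at hlim
  have hev : ∀ᶠ s in Filter.atTop, C * Real.exp (-δ * s) < κ := hlim.eventually (gt_mem_nhds hκ)
  obtain ⟨s1, hs1⟩ := Filter.eventually_atTop.1 hev
  refine ⟨max s1 1, by positivity, fun s hs => ?_⟩
  have hs0 : 0 ≤ s := le_trans (by positivity) hs
  refine ⟨∑ i, ‖φ i‖ * ‖D.S s‖, fun x hx => ⟨fun i => (φ i (D.S s x)).re, fun i => ?_, ?_⟩⟩
  · calc |(φ i (D.S s x)).re| ≤ ‖φ i (D.S s x)‖ := Complex.abs_re_le_norm _
      _ ≤ ‖φ i‖ * ‖D.S s x‖ := (φ i).le_opNorm _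
      _ ≤ ‖φ i‖ * (‖D.S s‖ * ‖x‖) := by gcongr; exact (D.S s).le_opNorm _
      _ = (‖φ i‖ * ‖D.S s‖) * ‖x‖ := by ring
      _ ≤ (∑ i, ‖φ i‖ * ‖D.S s‖) * ‖x‖ := by
        gcongr
        exact Finset.single_le_sum (f := fun i => ‖φ i‖ * ‖D.S s‖) (fun j _ => by positivity) (Finset.mem_univ i)
  · calc ‖D.S s x - ∑ i, (((φ i (D.S s x)).re : ℝ) : ℂ) • D.mode i‖
        ≤ ‖D.S s x - ∑ i, (φ i (D.S s x)) • D.mode i‖ :=
          real_avg D.mode hreal _ (hSreal s hs0 x hx) _
      _ = ‖D.S s x - P0 (D.S s x)‖ := by rw [hP0]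
      _ ≤ C * Real.exp (-δ * s) * ‖x‖ := hCδ s hs0 x
      _ ≤ κ * ‖x‖ := by
        gcongr
        exact (hs1 s (le_trans (le_max_left _ _) hs)).le

end Crest.Agent.R086.DL
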