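import Crest.Agent.R086.Defs

/-!
Row 86 (helper839): the 14 symmetry modes solve the pointwise eigenvalue equations
`gen1 (mode1 m) (mode2 m) = lam m * mode1 m`, `gen2 (mode1 m) (mode2 m) = lam m * mode2 m`.
-/

set_option autoImplicit false

open MeasureTheory Complex
open scoped ContDiff

namespace Crest.Agent.R086.DM

/-- directional derivative -/
noncomputable def dd (v : R12) (f : R12 → ℂ) (y : R12) : ℂ := fderiv ℝ f y v

variable {f g : R12 → ℂ}

theorem smooth_dd (hf : ContDiff ℝ ∞ f) (v : R12) : ContDiff ℝ ∞ (dd v f) := by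
  unfold dd
  exact (hf.fderiv_right (m := ∞) (by norm_cast)).clm_apply contDiff_const

theorem smooth_eul (hf : ContDiff ℝ ∞ f) : ContDiff ℝ ∞ (eul f) := by
  unfold eul
  exact (hf.fderiv_right (m := ∞) (by norm_cast)).clm_apply contDiff_id

theorem diff_of (hf : ContDiff ℝ ∞ f) : Differentiable ℝ f :=
  hf.differentiable (by simp)

theorem diff_fderiv (hf : ContDiff ℝ ∞ f) : Differentiable ℝ (fderiv ℝ f) :=
  (hf.fderiv_right (m := ∞) (by norm_cast)).differentiable (by simp)

theorem dd_dd (hf : ContDiff ℝ ∞ f) (v w : R12) (y : R12) :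
    dd v (dd w f) y = fderiv ℝ (fderiv ℝ f) y v w := by
  unfold dd
  rw [fderiv_clm_apply (diff_fderiv hf y) (differentiableAt_const w)]
  simp

theorem symm2 (hf : ContDiff ℝ ∞ f) (v w : R12) (y : R12) :
    fderiv ℝ (fderiv ℝ f) y v w = fderiv ℝ (fderiv ℝ f) y w v := by
  have h := (hf.contDiffAt (x := y)).isSymmSndFDerivAt (by simp; exact WithTop.coe_le_coe.2 le_top)
  exact h v w

theorem dd_comm (hf : ContDiff ℝ ∞ f) (v w : R12) : dd v (dd w f) = dd w (dd v f) := by
  funext y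
  rw [dd_dd hf, dd_dd hf, symm2 hf]

theorem lap_eq (hf : ContDiff ℝ ∞ f) (y : R12) : lap f y = ∑ i : Fin 12, dd (ei i) (dd (ei i) f) y := by
  unfold lap
  refine Finset.sum_congr rfl fun i _ => ?_
  rw [dd_dd hf, iteratedFDeriv_two_apply]
  simp

theorem lap_eq' (hf : ContDiff ℝ ∞ f) : lap f = fun y => ∑ i : Fin 12, dd (ei i) (dd (ei i) f) y :=
  funext (lap_eq hf)

theorem smooth_lap (hf : ContDiff ℝ ∞ f) : ContDiff ℝ ∞ (lap f) := by
  rw [lap_eq' hf]
  exact ContDiff.sum fun i _ => smooth_dd (smooth_dd hf _) _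

theorem dd_eul (hf : ContDiff ℝ ∞ f) (v : R12) (y : R12) :
    dd v (eul f) y = eul (dd v f) y + dd v f y := by
  have h1 : dd v (eul f) y = fderiv ℝ (fderiv ℝ f) y v y + fderiv ℝ f y v := by
    unfold dd eul
    rw [fderiv_clm_apply (diff_fderiv hf y) differentiableAt_fun_id]
    simp [add_comm]
  have h2 : eul (dd v f) y = fderiv ℝ (fderiv ℝ f) y y v := by
    have := dd_dd hf y v y
    exact this
  rw [h1, h2, symm2 hf v y]
  rfl

theorem dd_eul' (hf : ContDiff ℝ ∞ f) (v : R12) :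
    dd v (eul f) = fun y => eul (dd v f) y + dd v f y := funext (dd_eul hf v)

theorem dd_add (hf : ContDiff ℝ ∞ f) (hg : ContDiff ℝ ∞ g) (v : R12) :
    dd v (fun y => f y + g y) = fun y => dd v f y + dd v g y := by
  funext y
  unfold dd
  rw [fderiv_fun_add (diff_of hf y) (diff_of hg y)]
  simp

theorem dd_const_mul (hf : ContDiff ℝ ∞ f) (c : ℂ) (v : R12) :
    dd v (fun y => c * f y) = fun y => c * dd v f y := by
  funext y
  unfold dd
  rw [fderiv_const_mul (diff_of hf y)]
  simp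

theorem dd_sum {ι : Type*} (s : Finset ι) (F : ι → R12 → ℂ) (hF : ∀ i, ContDiff ℝ ∞ (F i)) (v : R12) :
    dd v (fun y => ∑ i ∈ s, F i y) = fun y => ∑ i ∈ s, dd v (F i) y := by
  funext y
  unfold dd
  rw [fderiv_fun_sum (fun i _ => diff_of (hF i) y)]
  simp

theorem eul_add (hf : ContDiff ℝ ∞ f) (hg : ContDiff ℝ ∞ g) :
    eul (fun y => f y + g y) = fun y => eul f y + eul g y := by
  funext y
  exact congrFun (dd_add hf hg y) y

theorem eul_const_mul (hf : ContDiff ℝ ∞ f) (c : ℂ) :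
    eul (fun y => c * f y) = fun y => c * eul f y := by
  funext y
  exact congrFun (dd_const_mul hf c y) y

theorem eul_sum {ι : Type*} (s : Finset ι) (F : ι → R12 → ℂ) (hF : ∀ i, ContDiff ℝ ∞ (F i)) :
    eul (fun y => ∑ i ∈ s, F i y) = fun y => ∑ i ∈ s, eul (F i) y := by
  funext y
  exact congrFun (dd_sum s F hF y) y

theorem lap_add (hf : ContDiff ℝ ∞ f) (hg : ContDiff ℝ ∞ g) :
    lap (fun y => f y + g y) = fun y => lap f y + lap g y := by
  rw [lap_eq' (hf.add hg), lap_eq' hf, lap_eq' hg]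
  funext y
  simp only [dd_add hf hg, dd_add (smooth_dd hf _) (smooth_dd hg _), Finset.sum_add_distrib]

theorem lap_const_mul (hf : ContDiff ℝ ∞ f) (c : ℂ) :
    lap (fun y => c * f y) = fun y => c * lap f y := by
  rw [lap_eq' (contDiff_const.mul hf), lap_eq' hf]
  funext y
  simp only [dd_const_mul hf, dd_const_mul (smooth_dd hf _), Finset.mul_sum]

theorem lap_dd (hf : ContDiff ℝ ∞ f) (v : R12) : lap (dd v f) = dd v (lap f) := by
  rw [lap_eq' (smooth_dd hf v), lap_eq' hf, dd_sum _ _ (fun i => smooth_dd (smooth_dd hf _) _)]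
  funext y
  refine Finset.sum_congr rfl fun i _ => ?_
  rw [dd_comm hf (ei i) v, dd_comm (smooth_dd hf _) (ei i) v]

theorem lap_eul (hf : ContDiff ℝ ∞ f) : lap (eul f) = fun y => eul (lap f) y + 2 * lap f y := by
  rw [lap_eq' (smooth_eul hf), lap_eq' hf, eul_sum _ _ (fun i => smooth_dd (smooth_dd hf _) _)]
  funext y
  rw [Finset.mul_sum, ← Finset.sum_add_distrib]
  refine Finset.sum_congr rfl fun i _ => ?_
  rw [dd_eul' hf, dd_add (smooth_eul (smooth_dd hf _)) (smooth_dd hf _), dd_eul' (smooth_dd hf _)]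
  ring

/-! conjugation -/

theorem dd_conj (hf : ContDiff ℝ ∞ f) (v : R12) :
    dd v (fun y => starRingEnd ℂ (f y)) = fun y => starRingEnd ℂ (dd v f y) := by
  funext y
  unfold dd
  have h := (Complex.conjCLE.hasFDerivAt (x := f y)).comp y (diff_of hf y).hasFDerivAt
  have h2 : fderiv ℝ (fun y => starRingEnd ℂ (f y)) y = (Complex.conjCLE : ℂ →L[ℝ] ℂ).comp (fderiv ℝ f y) :=
    h.fderiv
  rw [h2]
  simp

theorem smooth_conj (hf : ContDiff ℝ ∞ f) : ContDiff ℝ ∞ (fun y => starRingEnd ℂ (f y)) :=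
  Complex.conjCLE.contDiff.comp hf

theorem eul_conj (hf : ContDiff ℝ ∞ f) :
    eul (fun y => starRingEnd ℂ (f y)) = fun y => starRingEnd ℂ (eul f y) := by
  funext y
  exact congrFun (dd_conj hf y) y

theorem lap_conj (hf : ContDiff ℝ ∞ f) :
    lap (fun y => starRingEnd ℂ (f y)) = fun y => starRingEnd ℂ (lap f y) := by
  rw [lap_eq' (smooth_conj hf), lap_eq' hf]
  funext y
  simp only [dd_conj hf, dd_conj (smooth_dd hf _), map_sum]


/-! ### the nonlinearity -/

section modes
variable {n : ℕ} (P : Profile n)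

/-- `|Q|^n Q` -/
noncomputable def NQ (y : R12) : ℂ := ((‖P.Q y‖ ^ n : ℝ) : ℂ) * P.Q y

theorem pow_eq (q : ℂ) {m k : ℕ} (h : m = k + k) : ((‖q‖ ^ m : ℝ) : ℂ) = q ^ k * (starRingEnd ℂ q) ^ k := by
  subst h
  rw [← mul_pow, Complex.mul_conj, Complex.normSq_eq_norm_sq]
  push_cast
  rw [← pow_mul]
  congr 1
  ring


theorem NQ_eq : NQ P = fun y => I * (-(I * lap P.Q y - (1 / 2) * eul P.Q y + (I * P.om - 1 / n) * P.Q y)) := by
  funext y
  have h := P.eqn y
  unfold NQ
  rw [← h]
  have hI : I * I = -1 := Complex.I_mul_I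
  linear_combination (lap P.Q y + P.om * P.Q y) * hI

theorem dd_NQ (v y : R12) :
    dd v (NQ P) y = P.V1 y * dd v P.Q y + P.V2 y * (starRingEnd ℂ (dd v P.Q y)) := by
  obtain ⟨k, hk⟩ := P.neven
  have h2 := P.two_le
  obtain ⟨l, rfl⟩ : ∃ l, k = l + 1 := ⟨k - 1, by omega⟩
  have hf := diff_of P.smooth y
  have e : NQ P = fun y => (P.Q y) ^ (l + 2) * (starRingEnd ℂ (P.Q y)) ^ (l + 1) := by
    funext z
    unfold NQ
    rw [pow_eq (P.Q z) hk]
    ring
  have hQ : HasFDerivAt P.Q (fderiv ℝ P.Q y) y := hf.hasFDerivAt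
  have hQc : HasFDerivAt (fun y => starRingEnd ℂ (P.Q y))
      ((Complex.conjCLE : ℂ →L[ℝ] ℂ).comp (fderiv ℝ P.Q y)) y :=
    (Complex.conjCLE.hasFDerivAt (x := P.Q y)).comp y hQ
  have h := (hQ.pow (l + 2)).mul (hQc.pow (l + 1))
  have h4 := congrArg (fun L : R12 →L[ℝ] ℂ => L v) h.fderiv
  have h5 : dd v (NQ P) y = fderiv ℝ ((fun x => P.Q x ^ (l + 2)) *
      fun x => (starRingEnd ℂ) (P.Q x) ^ (l + 1)) y v := by
    unfold dd
    rw [e]
    rfl
  refine h5.trans (h4.trans ?_)
  unfold Profile.V1 Profile.V2 dd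
  rw [pow_eq (P.Q y) hk, pow_eq (P.Q y) (show n - 2 = l + l by omega)]
  have hn : (n : ℂ) = 2 * (l + 1) := by rw [hk]; push_cast; ring
  simp only [hn]
  simp
  ring

theorem V1_Q (y : R12) : P.V1 y * P.Q y = (1 + (n : ℂ) / 2) * NQ P y := by
  unfold Profile.V1 NQ; ring

theorem V2_Qc (y : R12) : P.V2 y * starRingEnd ℂ (P.Q y) = ((n : ℂ) / 2) * NQ P y := by
  unfold Profile.V2 NQ
  have h2 := P.two_le
  have e : ‖P.Q y‖ ^ n = ‖P.Q y‖ ^ (n - 2) * ‖P.Q y‖ ^ 2 := by
    rw [← pow_add]; congr 1; omega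
  have e2 : P.Q y * starRingEnd ℂ (P.Q y) = ((‖P.Q y‖ ^ 2 : ℝ) : ℂ) := by
    rw [Complex.mul_conj, Complex.normSq_eq_norm_sq]
  rw [e]
  push_cast at e2 ⊢
  linear_combination ((n : ℂ) / 2) * (‖P.Q y‖ : ℂ) ^ (n - 2) * P.Q y * e2

theorem smooth_NQ : ContDiff ℝ ∞ (NQ P) := by
  rw [NQ_eq]
  exact contDiff_const.mul ((((contDiff_const.mul (smooth_lap P.smooth)).sub
    (contDiff_const.mul (smooth_eul P.smooth))).add (contDiff_const.mul P.smooth)).neg)

/-- the constant `i om - 1/n` -/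
noncomputable def cc : ℂ := I * P.om - 1 / n

theorem A_eq : (fun y => I * NQ P y) =
    fun y => I * lap P.Q y + ((-(1 / 2) : ℂ) * eul P.Q y + cc P * P.Q y) := by
  funext y
  rw [NQ_eq]
  unfold cc
  linear_combination (-(I * lap P.Q y - (1 / 2) * eul P.Q y + (I * P.om - 1 / n) * P.Q y)) * Complex.I_mul_I

theorem dd_A (v : R12) (y : R12) : I * dd v (NQ P) y =
    I * dd v (lap P.Q) y + ((-(1 / 2) : ℂ) * dd v (eul P.Q) y + cc P * dd v P.Q y) := by
  have h1 := congrFun (dd_const_mul (smooth_NQ P) I v) y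
  rw [A_eq] at h1
  rw [dd_add (contDiff_const.mul (smooth_lap P.smooth))
    ((contDiff_const.mul (smooth_eul P.smooth)).add (contDiff_const.mul P.smooth)),
    dd_const_mul (smooth_lap P.smooth), dd_add (contDiff_const.mul (smooth_eul P.smooth))
    (contDiff_const.mul P.smooth), dd_const_mul (smooth_eul P.smooth),
    dd_const_mul P.smooth] at h1
  exact h1.symm

/-- growth exponents as in `DLIface` -/
noncomputable def ml : Option (Option (Fin 12)) → ℝ
  | none => 0
  | some none => 1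
  | some (some _) => 1 / 2

theorem smooth_mode1 (m : Option (Option (Fin 12))) : ContDiff ℝ ∞ (P.mode1 m) := by
  rcases m with _ | _ | j
  · exact contDiff_const.mul P.smooth
  · exact (contDiff_const.mul P.smooth).add (contDiff_const.mul (smooth_eul P.smooth))
  · exact smooth_dd P.smooth (ei j)

theorem smooth_mode2 (m : Option (Option (Fin 12))) : ContDiff ℝ ∞ (P.mode2 m) :=
  smooth_conj (smooth_mode1 P m)

theorem gen1_mode (m : Option (Option (Fin 12))) (y : R12) :
    P.gen1 (P.mode1 m) (P.mode2 m) y = (ml m : ℂ) * P.mode1 m y := by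
  have hn : (n : ℂ) ≠ 0 := by
    have := P.two_le
    exact_mod_cast (by omega : n ≠ 0)
  rcases m with _ | _ | j
  · have e : P.mode1 none = fun y => I * P.Q y := rfl
    have hA := congrFun (A_eq P) y
    have h1 := V1_Q P y
    have h2 := V2_Qc P y
    simp only [Profile.gen1, Profile.mode2, e, lap_const_mul P.smooth, eul_const_mul P.smooth,
      map_mul, Complex.conj_I, ml]
    unfold cc at hA
    push_cast
    linear_combination (-I) * hA - (I * I) * h1 + (I * I) * h2
  · have e : P.mode1 (some none) = fun y => (-cc P) * P.Q y + (1 / 2) * eul P.Q y := by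
      funext y; simp only [Profile.mode1, cc]; ring
    have hA := congrFun (A_eq P) y
    have hE := dd_A P y y
    have h1 := V1_Q P y
    have h2 := V2_Qc P y
    have h3 := dd_NQ P y y
    have hc : starRingEnd ℂ (cc P) = -I * P.om - 1 / n := by
      simp [cc]
    simp only [Profile.gen1, Profile.mode2, e, ml]
    rw [lap_add (contDiff_const.mul P.smooth) (contDiff_const.mul (smooth_eul P.smooth)),
      eul_add (contDiff_const.mul P.smooth) (contDiff_const.mul (smooth_eul P.smooth)),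
      lap_const_mul P.smooth, lap_const_mul (smooth_eul P.smooth), eul_const_mul P.smooth,
      eul_const_mul (smooth_eul P.smooth), lap_eul P.smooth]
    have hnn : (n : ℂ) * (1 / n) = 1 := by field_simp
    have e1 : ∀ F : R12 → ℂ, dd y F y = eul F y := fun F => rfl
    rw [e1, e1, e1, e1] at hE
    rw [e1, e1] at h3
    simp only [map_add, map_mul, map_neg, hc]
    have h12 : starRingEnd ℂ (1 / 2 : ℂ) = 1 / 2 := by rw [map_div₀, map_one, map_ofNat]
    rw [h12]
    unfold cc at *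
    push_cast
    linear_combination ((I * P.om - 1 / n) - 1) * hA - (1 / 2) * hE + I * (I * P.om - 1 / n) * h1
      + I * (-I * P.om - 1 / n) * h2 + (1 / 2) * I * h3 - I * NQ P y * hnn
  · have e : P.mode1 (some (some j)) = dd (ei j) P.Q := rfl
    have hE := dd_A P (ei j) y
    have h3 := dd_NQ P (ei j) y
    have h4 := dd_eul P.smooth (ei j) y
    simp only [Profile.gen1, Profile.mode2, e, lap_dd P.smooth, ml]
    unfold cc at hE
    push_cast
    linear_combination (-1 : ℂ) * hE + I * h3 + (1 / 2) * h4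

theorem conj_V1 (y : R12) : starRingEnd ℂ (P.V1 y) = P.V1 y := by
  unfold Profile.V1
  rw [map_mul, Complex.conj_ofReal, map_add, map_div₀, map_one, map_natCast, map_ofNat]

theorem conj_V2 (y : R12) : starRingEnd ℂ (P.V2 y) = P.V2c y := by
  unfold Profile.V2 Profile.V2c
  rw [map_mul, map_mul, Complex.conj_ofReal, map_div₀, map_natCast, map_pow, map_ofNat]

theorem conj_gen1 (m : Option (Option (Fin 12))) (y : R12) :
    starRingEnd ℂ (P.gen1 (P.mode1 m) (P.mode2 m) y) = P.gen2 (P.mode1 m) (P.mode2 m) y := by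
  have e : P.mode2 m = fun y => starRingEnd ℂ (P.mode1 m y) := rfl
  unfold Profile.gen1 Profile.gen2
  rw [e, lap_conj (smooth_mode1 P m), eul_conj (smooth_mode1 P m)]
  simp only [map_add, map_sub, map_mul, Complex.conj_I, conj_V1, conj_V2, Complex.conj_conj,
    Complex.conj_ofReal, map_div₀, map_one, map_natCast, map_ofNat]
  ring

theorem gen2_mode (m : Option (Option (Fin 12))) (y : R12) :
    P.gen2 (P.mode1 m) (P.mode2 m) y = (ml m : ℂ) * P.mode2 m y := by
  rw [← conj_gen1, gen1_mode, map_mul, Complex.conj_ofReal]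
  rfl

end modes

end Crest.Agent.R086.DM
private theorem rz_35506a3003 : type_of% @_root_.Crest.Agent.R086.DM.ml.eq_1 := @_root_.Crest.Agent.R086.DM.ml.eq_1 -- L263
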