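import Mathlib
import Crest.Agent.R086.Ext1

-- ▼ part R086/Ext2
section

/-!
Row 86, exterior DtN (helper766), part 2: abstract trapping lemma; algebra of the WKB quantities.
-/

set_option autoImplicit false

open MeasureTheory Complex Set Filter Topology

namespace Crest.Agent.R086.Ext

/-- derivative bound at a point where `‖X‖ = η ‖Y‖`. -/
theorem trap_deriv {x y p m e : ℂ} {η : ℝ} (hη : 0 < η) (hxy : ‖x‖ = η * ‖y‖) (hy : y ≠ 0)
    (hgap : ‖e‖ * (1 + η) ^ 2 < η * (p.re - m.re)) :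
    0 < 2 * inner ℝ x (p * x + e * (x - y)) - η ^ 2 * (2 * inner ℝ y (m * y + e * (x - y))) := by
  have hyp : 0 < ‖y‖ := norm_pos_iff.mpr hy
  have e1 : inner ℝ x (p * x) = p.re * ‖x‖ ^ 2 := by
    rw [Complex.inner, ← Complex.normSq_eq_norm_sq, Complex.normSq_apply]
    simp [Complex.mul_re]
    ring
  have e2 : inner ℝ y (m * y) = m.re * ‖y‖ ^ 2 := by
    rw [Complex.inner, ← Complex.normSq_eq_norm_sq, Complex.normSq_apply]
    simp [Complex.mul_re]
    ring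
  have b0 : ‖e * (x - y)‖ ≤ ‖e‖ * ((1 + η) * ‖y‖) := by
    rw [norm_mul]
    gcongr
    calc ‖x - y‖ ≤ ‖x‖ + ‖y‖ := norm_sub_le _ _
      _ = (1 + η) * ‖y‖ := by rw [hxy]; ring
  have b1 : -(‖x‖ * (‖e‖ * ((1 + η) * ‖y‖))) ≤ inner ℝ x (e * (x - y)) := by
    have h := abs_real_inner_le_norm x (e * (x - y))
    have h2 : ‖x‖ * ‖e * (x - y)‖ ≤ ‖x‖ * (‖e‖ * ((1 + η) * ‖y‖)) := by gcongr
    have h3 := neg_abs_le (inner ℝ x (e * (x - y)))
    linarith
  have b2 : inner ℝ y (e * (x - y)) ≤ ‖y‖ * (‖e‖ * ((1 + η) * ‖y‖)) := by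
    have h := abs_real_inner_le_norm y (e * (x - y))
    have h2 : ‖y‖ * ‖e * (x - y)‖ ≤ ‖y‖ * (‖e‖ * ((1 + η) * ‖y‖)) := by gcongr
    have h3 := le_abs_self (inner ℝ y (e * (x - y)))
    linarith
  rw [inner_add_right, inner_add_right, e1, e2]
  rw [hxy] at b1 ⊢
  have h5 : η ^ 2 * inner ℝ y (e * (x - y)) ≤ η ^ 2 * (‖y‖ * (‖e‖ * ((1 + η) * ‖y‖))) := by
    gcongr
  have h6 : 0 < 2 * η * ‖y‖ ^ 2 * (η * (p.re - m.re) - ‖e‖ * (1 + η) ^ 2) := by
    apply mul_pos (by positivity)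
    linarith
  nlinarith [h6, h5, b1]

/-- Trapping lemma: linear `2×2` system in WKB variables on `[0,∞)`. -/
theorem trap {X Y P M e : ℝ → ℂ} {η : ℝ} (hη : 0 < η)
    (hX : ∀ t, 0 ≤ t → HasDerivAt X (P t * X t + e t * (X t - Y t)) t)
    (hY : ∀ t, 0 ≤ t → HasDerivAt Y (M t * Y t + e t * (X t - Y t)) t)
    (hP : ContinuousOn P (Ici 0)) (hM : ContinuousOn M (Ici 0)) (he : ContinuousOn e (Ici 0))
    (hgap : ∀ t, 0 ≤ t → ‖e t‖ * (1 + η) ^ 2 < η * ((P t).re - (M t).re))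
    (hinf : ∀ᶠ t in atTop, ‖X t‖ < η * ‖Y t‖) :
    ∀ t, 0 ≤ t → ‖X t‖ < η * ‖Y t‖ := by
  obtain ⟨T0, hT0⟩ := eventually_atTop.mp hinf
  have hne : ∀ t, 0 ≤ t → ¬ (X t = 0 ∧ Y t = 0) := by
    intro t1 ht1 ⟨hx, hy⟩
    set T := max T0 (t1 + 1) with hT
    have hT1 : t1 ≤ T := by
      have := le_max_right T0 (t1 + 1)
      linarith
    have hsub : Icc t1 T ⊆ Ici (0 : ℝ) := fun s hs => le_trans ht1 hs.1
    obtain ⟨cP, hcP⟩ := isCompact_Icc.exists_bound_of_continuousOn (hP.mono hsub)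
    obtain ⟨cM, hcM⟩ := isCompact_Icc.exists_bound_of_continuousOn (hM.mono hsub)
    obtain ⟨ce, hce⟩ := isCompact_Icc.exists_bound_of_continuousOn (he.mono hsub)
    have key := norm_le_gronwallBound_of_norm_deriv_right_le
      (f := fun t => (X t, Y t)) (f' := fun t => (P t * X t + e t * (X t - Y t),
        M t * Y t + e t * (X t - Y t))) (δ := 0) (K := cP + cM + 2 * ce) (ε := 0)
      (a := t1) (b := T) ?_ ?_ ?_ ?_ T ⟨hT1, le_rfl⟩
    · have h0 : gronwallBound 0 (cP + cM + 2 * ce) 0 (T - t1) = 0 := by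
        simp [gronwallBound]
      rw [h0] at key
      have h1 : (X T, Y T) = (0 : ℂ × ℂ) := norm_le_zero_iff.mp key
      have h2 := hT0 T (le_max_left _ _)
      have h3 : X T = 0 := congrArg Prod.fst h1
      have h4 : Y T = 0 := congrArg Prod.snd h1
      rw [h3, h4] at h2
      simp at h2
    · intro s hs
      exact (((hX s (hsub hs)).continuousAt).prodMk ((hY s (hsub hs)).continuousAt)).continuousWithinAt
    · intro s hs
      exact ((hX s (hsub ⟨hs.1, hs.2.le⟩)).prodMk (hY s (hsub ⟨hs.1, hs.2.le⟩))).hasDerivWithinAt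
    · simp [hx, hy]
    · intro s hs
      have hs' : s ∈ Icc t1 T := ⟨hs.1, hs.2.le⟩
      have h1 := hcP s hs'
      have h2 := hcM s hs'
      have h3 := hce s hs'
      have hXn : ‖X s‖ ≤ ‖(X s, Y s)‖ := norm_fst_le (X s, Y s)
      have hYn : ‖Y s‖ ≤ ‖(X s, Y s)‖ := norm_snd_le (X s, Y s)
      have n1 : 0 ≤ cP := (norm_nonneg (P s)).trans h1
      have n2 : 0 ≤ cM := (norm_nonneg (M s)).trans h2
      have n3 : 0 ≤ ce := (norm_nonneg (e s)).trans h3
      have hXY : ‖X s - Y s‖ ≤ 2 * ‖(X s, Y s)‖ := by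
        have := norm_sub_le (X s) (Y s)
        linarith
      have nn := norm_nonneg (X s, Y s)
      rw [add_zero]
      apply max_le
      · calc ‖P s * X s + e s * (X s - Y s)‖ ≤ ‖P s‖ * ‖X s‖ + ‖e s‖ * ‖X s - Y s‖ := by
              refine (norm_add_le _ _).trans ?_
              rw [norm_mul, norm_mul]
          _ ≤ cP * ‖(X s, Y s)‖ + ce * (2 * ‖(X s, Y s)‖) := by gcongr
          _ ≤ (cP + cM + 2 * ce) * ‖(X s, Y s)‖ := by nlinarith
      · calc ‖M s * Y s + e s * (X s - Y s)‖ ≤ ‖M s‖ * ‖Y s‖ + ‖e s‖ * ‖X s - Y s‖ := by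
              refine (norm_add_le _ _).trans ?_
              rw [norm_mul, norm_mul]
          _ ≤ cM * ‖(X s, Y s)‖ + ce * (2 * ‖(X s, Y s)‖) := by gcongr
          _ ≤ (cP + cM + 2 * ce) * ‖(X s, Y s)‖ := by nlinarith
  set Φ : ℝ → ℝ := fun t => ‖X t‖ ^ 2 - η ^ 2 * ‖Y t‖ ^ 2 with hΦ
  have hder : ∀ t, 0 ≤ t → HasDerivAt Φ (2 * inner ℝ (X t) (P t * X t + e t * (X t - Y t))
      - η ^ 2 * (2 * inner ℝ (Y t) (M t * Y t + e t * (X t - Y t)))) t := by
    intro t ht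
    exact ((hX t ht).norm_sq).sub (((hY t ht).norm_sq).const_mul (η ^ 2))
  have hiff : ∀ t, Φ t < 0 ↔ ‖X t‖ < η * ‖Y t‖ := by
    intro t
    simp only [hΦ]
    rw [sub_neg, ← mul_pow]
    constructor
    · intro h
      exact lt_of_pow_lt_pow_left₀ 2 (by positivity) h
    · intro h
      gcongr
  intro t0 ht0
  by_contra hcon
  rw [← hiff, not_lt] at hcon
  set S : Set ℝ := {t | t0 ≤ t ∧ 0 ≤ Φ t} with hS
  have hSne : S.Nonempty := ⟨t0, le_rfl, hcon⟩
  have hSb : BddAbove S := by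
    refine ⟨max T0 t0, fun t ht => ?_⟩
    by_contra hlt
    rw [not_le] at hlt
    have h1 : T0 ≤ t := (le_max_left _ _).trans hlt.le
    have := (hiff t).mpr (hT0 t h1)
    linarith [ht.2]
  have hcontΦ : ContinuousOn Φ (Ici 0) := fun t ht => (hder t ht).continuousAt.continuousWithinAt
  have hSc : IsClosed S := by
    have : S = Ici t0 ∩ Φ ⁻¹' (Ici 0) := by
      ext t; simp [hS]
    rw [this]
    exact (hcontΦ.mono (fun t (ht : t0 ≤ t) => (ht0.trans ht : (0:ℝ) ≤ t))).preimage_isClosed_of_isClosed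
      isClosed_Ici isClosed_Ici
  set t1 := sSup S with ht1
  have h1S : t1 ∈ S := hSc.csSup_mem hSne hSb
  have ht1' : 0 ≤ t1 := ht0.trans h1S.1
  have hafter : ∀ t, t1 < t → Φ t < 0 := by
    intro t ht
    by_contra h
    rw [not_lt] at h
    have : t ∈ S := ⟨h1S.1.trans ht.le, h⟩
    exact absurd (le_csSup hSb this) (not_le.mpr ht)
  have hz : Φ t1 = 0 := by
    apply le_antisymm _ h1S.2
    have hc : ContinuousAt Φ t1 := (hder t1 ht1').continuousAt
    have h2 : Tendsto Φ (𝓝[>] t1) (𝓝 (Φ t1)) := hc.tendsto.mono_left nhdsWithin_le_nhds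
    exact le_of_tendsto h2 (by
      filter_upwards [self_mem_nhdsWithin] with t ht
      exact (hafter t ht).le)
  have hxy : ‖X t1‖ = η * ‖Y t1‖ := by
    have h2 : ‖X t1‖ ^ 2 = (η * ‖Y t1‖) ^ 2 := by
      simp only [hΦ] at hz
      rw [mul_pow]
      linarith
    exact (pow_left_inj₀ (norm_nonneg _) (by positivity) two_ne_zero).mp h2
  have hy : Y t1 ≠ 0 := by
    intro hy
    apply hne t1 ht1'
    refine ⟨?_, hy⟩
    rw [hy] at hxy
    simpa using hxy
  have hpos := trap_deriv hη hxy hy (hgap t1 ht1')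
  have hsl := (hasDerivAt_iff_tendsto_slope.mp (hder t1 ht1')).eventually (lt_mem_nhds hpos)
  have hsl2 : ∀ᶠ t in 𝓝[>] t1, 0 < slope Φ t1 t :=
    hsl.filter_mono (nhdsWithin_mono _ (fun t (ht : t1 < t) => ht.ne'))
  obtain ⟨t, hts, htt⟩ := (hsl2.and self_mem_nhdsWithin).exists
  have htt' : t1 < t := htt
  rw [slope_def_field, hz, sub_zero] at hts
  have := hafter t htt'
  have h3 : Φ t / (t - t1) < 0 := div_neg_of_neg_of_pos this (by linarith)
  linarith

end Crest.Agent.R086.Ext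
end

-- ▼ part R086/Ext3
section

/-!
Row 86, exterior DtN (helper766), part 3: WKB quantities on the ray `z = r + (2+i) t`.
-/

set_option autoImplicit false

open MeasureTheory Complex Set Filter Topology

namespace Crest.Agent.R086.Ext

/-- direction of the ray -/
noncomputable def uu : ℂ := 2 + I
/-- the ray -/
noncomputable def zz (r t : ℝ) : ℂ := r + uu * t
/-- `(l+5)^2 - 1/4`, `b = l+6`. -/
noncomputable def msq (b : ℝ) : ℝ := (b - 1 / 2) * (b - 3 / 2)
/-- `V = m²/z² - z²/16 + i(b/2 - a)`. -/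
noncomputable def VV (b : ℝ) (a z : ℂ) : ℂ := msq b / z ^ 2 - z ^ 2 / 16 + I * (b / 2 - a)
noncomputable def VV1 (b : ℝ) (z : ℂ) : ℂ := -(2 * msq b / z ^ 3) - z / 8
noncomputable def VV2 (b : ℝ) (z : ℂ) : ℂ := 6 * msq b / z ^ 4 - 1 / 8
noncomputable def qq (b : ℝ) (a z : ℂ) : ℂ := VV1 b z / (4 * VV b a z)
noncomputable def EE (b : ℝ) (a z : ℂ) : ℂ := 5 * qq b a z ^ 2 - VV2 b z / (4 * VV b a z)
noncomputable def ss (b : ℝ) (z : ℂ) : ℂ := (2 * b - 1) / (2 * z) + I * z / 4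
/-- the root of `V` with `Re (u κ) > 0`, `u = 2+i`. -/
noncomputable def kap (b : ℝ) (a z : ℂ) : ℂ := (uu ^ 2 * VV b a z) ^ (1 / 2 : ℂ) / uu

theorem uu_ne : uu ≠ 0 := by
  intro h
  have := congrArg Complex.re h
  simp [uu] at this

theorem uu_sq : uu ^ 2 = 3 + 4 * I := by
  unfold uu
  ring_nf
  rw [Complex.I_sq]
  ring

theorem norm_uu_sq : ‖uu‖ ^ 2 = 5 := by
  rw [← Complex.normSq_eq_norm_sq, Complex.normSq_apply]
  simp [uu]
  norm_num

theorem sqrt_sq (w : ℂ) : (w ^ (1 / 2 : ℂ)) ^ 2 = w := by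
  rcases eq_or_ne w 0 with rfl | h
  · simp
  · rw [← Complex.cpow_nat_mul]
    rw [show ((2 : ℕ) : ℂ) * (1 / 2 : ℂ) = 1 by push_cast; ring]
    simp

theorem kap_sq (b : ℝ) (a z : ℂ) : kap b a z ^ 2 = VV b a z := by
  unfold kap
  rw [div_pow, sqrt_sq, mul_div_cancel_left₀ _ (pow_ne_zero 2 uu_ne)]

theorem sqrt_re_nonneg (w : ℂ) : 0 ≤ (w ^ (1 / 2 : ℂ)).re := by
  rcases eq_or_ne w 0 with rfl | h
  · simp
  · rw [Complex.cpow_def_of_ne_zero h, Complex.exp_re]
    apply mul_nonneg (Real.exp_pos _).le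
    apply Real.cos_nonneg_of_neg_pi_div_two_le_of_le
    · have := Complex.neg_pi_lt_arg w
      have e : (Complex.log w * (1 / 2)).im = w.arg / 2 := by
        rw [show (1 / 2 : ℂ) = ((1 / 2 : ℝ) : ℂ) by push_cast; rfl, Complex.im_mul_ofReal,
          Complex.log_im]
        ring
      rw [e]
      linarith
    · have := Complex.arg_le_pi w
      have e : (Complex.log w * (1 / 2)).im = w.arg / 2 := by
        rw [show (1 / 2 : ℂ) = ((1 / 2 : ℝ) : ℂ) by push_cast; rfl, Complex.im_mul_ofReal,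
          Complex.log_im]
        ring
      rw [e]
      linarith

/-- `(Re √w)² = (|w| + Re w)/2`. -/
theorem sqrt_re_sq (w : ℂ) : (w ^ (1 / 2 : ℂ)).re ^ 2 = (‖w‖ + w.re) / 2 := by
  set s := w ^ (1 / 2 : ℂ) with hs
  have h1 : s ^ 2 = w := sqrt_sq w
  have h2 : ‖w‖ = s.re ^ 2 + s.im ^ 2 := by
    rw [← h1, norm_pow, ← Complex.normSq_eq_norm_sq, Complex.normSq_apply]
    ring
  have h3 : w.re = s.re ^ 2 - s.im ^ 2 := by
    rw [← h1, sq, Complex.mul_re]
    ring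
  rw [h2, h3]
  ring

theorem norm_kap_sq (b : ℝ) (a z : ℂ) : ‖kap b a z‖ ^ 2 = ‖VV b a z‖ := by
  rw [← norm_pow, kap_sq]

theorem uu_kap (b : ℝ) (a z : ℂ) : uu * kap b a z = (uu ^ 2 * VV b a z) ^ (1 / 2 : ℂ) := by
  unfold kap
  rw [mul_div_cancel₀ _ uu_ne]

/-- `Re(uκ) ≥ |κ|/√2` under the sign condition `Im V ≤ 3`, `|V| ≥ 12`. -/
theorem re_uu_kap {b : ℝ} {a z : ℂ} (h1 : (VV b a z).im ≤ 3) (h2 : 12 ≤ ‖VV b a z‖) :
    ‖VV b a z‖ / 2 ≤ (uu * kap b a z).re ^ 2 ∧ 0 < (uu * kap b a z).re := by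
  have h3 : ‖uu ^ 2 * VV b a z‖ = 5 * ‖VV b a z‖ := by
    rw [norm_mul, norm_pow, norm_uu_sq]
  have h4 : (uu ^ 2 * VV b a z).re = 3 * (VV b a z).re - 4 * (VV b a z).im := by
    rw [uu_sq]
    simp [Complex.mul_re]
  have h5 : -‖VV b a z‖ ≤ (VV b a z).re := by
    have := Complex.abs_re_le_norm (VV b a z)
    exact (abs_le.mp this).1
  have h6 : ‖VV b a z‖ / 2 ≤ (uu * kap b a z).re ^ 2 := by
    rw [uu_kap, sqrt_re_sq, h3, h4]
    linarith
  refine ⟨h6, ?_⟩
  have h7 : 0 ≤ (uu * kap b a z).re := by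
    rw [uu_kap]
    exact sqrt_re_nonneg _
  rcases h7.lt_or_eq with h | h
  · exact h
  · rw [← h] at h6
    norm_num at h6
    linarith

theorem slit {b : ℝ} {a z : ℂ} (h1 : (VV b a z).im ≤ 3) (h2 : 12 ≤ ‖VV b a z‖) :
    uu ^ 2 * VV b a z ∈ slitPlane := by
  rw [Complex.mem_slitPlane_iff]
  by_contra hcon
  push Not at hcon
  obtain ⟨hre, him⟩ := hcon
  have h := (re_uu_kap h1 h2).1
  have h3 : (uu * kap b a z).re ^ 2 = (‖uu ^ 2 * VV b a z‖ + (uu ^ 2 * VV b a z).re) / 2 := by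
    rw [uu_kap, sqrt_re_sq]
  have h4 : ‖uu ^ 2 * VV b a z‖ = -(uu ^ 2 * VV b a z).re := by
    have : ‖uu ^ 2 * VV b a z‖ = |(uu ^ 2 * VV b a z).re| := by
      rw [Complex.abs_re_eq_norm.mpr him]
    rw [this, abs_of_nonpos hre]
  rw [h3, h4] at h
  linarith

/-! ### derivatives in `z` -/

theorem hasDerivAt_VV (b : ℝ) (a : ℂ) {z : ℂ} (hz : z ≠ 0) :
    HasDerivAt (VV b a) (VV1 b z) z := by
  unfold VV VV1
  have h1 : HasDerivAt (fun z : ℂ => (msq b : ℂ) / z ^ 2) (-(2 * msq b / z ^ 3)) z := by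
    have := (hasDerivAt_const z (msq b : ℂ)).div (hasDerivAt_pow 2 z) (pow_ne_zero 2 hz)
    refine this.congr_deriv ?_
    field_simp
    ring
  have h2 : HasDerivAt (fun z : ℂ => z ^ 2 / 16) (z / 8) z := by
    have := (hasDerivAt_pow 2 z).div_const 16
    refine this.congr_deriv ?_
    norm_num
    ring
  exact (h1.sub h2).add_const _

theorem hasDerivAt_VV1 (b : ℝ) {z : ℂ} (hz : z ≠ 0) :
    HasDerivAt (VV1 b) (VV2 b z) z := by
  unfold VV1 VV2
  have h1 : HasDerivAt (fun z : ℂ => -(2 * (msq b : ℂ) / z ^ 3)) (6 * msq b / z ^ 4) z := by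
    have := ((hasDerivAt_const z (2 * msq b : ℂ)).div (hasDerivAt_pow 3 z) (pow_ne_zero 3 hz)).neg
    refine this.congr_deriv ?_
    field_simp
    ring
  have h2 : HasDerivAt (fun z : ℂ => z / 8) (1 / 8) z := (hasDerivAt_id z).div_const 8
  exact h1.sub h2

theorem hasDerivAt_qq (b : ℝ) (a : ℂ) {z : ℂ} (hz : z ≠ 0) (hV : VV b a z ≠ 0) :
    HasDerivAt (qq b a) (qq b a z ^ 2 - EE b a z) z := by
  have h := (hasDerivAt_VV1 b hz).div ((hasDerivAt_VV b a hz).const_mul 4)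
    (mul_ne_zero (by norm_num) hV)
  refine h.congr_deriv ?_
  unfold EE qq
  field_simp
  ring

theorem hasDerivAt_ss (b : ℝ) {z : ℂ} (hz : z ≠ 0) :
    HasDerivAt (ss b) (-((2 * b - 1) / (2 * z ^ 2)) + I / 4) z := by
  unfold ss
  have h1 : HasDerivAt (fun z : ℂ => ((2 * b - 1 : ℂ)) / (2 * z)) (-((2 * b - 1) / (2 * z ^ 2))) z := by
    have := (hasDerivAt_const z (2 * b - 1 : ℂ)).div ((hasDerivAt_id z).const_mul 2)
      (mul_ne_zero two_ne_zero hz)
    refine this.congr_deriv ?_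
    simp only [id]
    field_simp
    ring
  have h2 : HasDerivAt (fun z : ℂ => I * z / 4) (I / 4) z := by
    have := ((hasDerivAt_id z).const_mul I).div_const 4
    simpa using this
  exact h1.add h2

theorem hasDerivAt_kap (b : ℝ) (a : ℂ) {z : ℂ} (hz : z ≠ 0) (hV : VV b a z ≠ 0)
    (hs : uu ^ 2 * VV b a z ∈ slitPlane) :
    HasDerivAt (kap b a) (2 * qq b a z * kap b a z) z := by
  have h := (((hasDerivAt_VV b a hz).const_mul (uu ^ 2)).cpow_const (c := (1 / 2 : ℂ)) hs).div_const uu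
  refine h.congr_deriv ?_
  have e1 : (uu ^ 2 * VV b a z) ^ ((1 / 2 : ℂ) - 1) = (uu ^ 2 * VV b a z) ^ (1 / 2 : ℂ) /
      (uu ^ 2 * VV b a z) := by
    rw [Complex.cpow_sub _ _ (mul_ne_zero (pow_ne_zero 2 uu_ne) hV), Complex.cpow_one]
  rw [e1]
  unfold kap qq
  have := uu_ne
  field_simp
  ring

/-- the outgoing solution without `z^l` -/
noncomputable def y0 (b : ℝ) (a z : ℂ) : ℂ := Jc a (b - 1 - a) (z ^ 2 / 4)
noncomputable def y1 (b : ℝ) (a z : ℂ) : ℂ := -(z / 2) * Jc (a + 1) (b - 1 - a) (z ^ 2 / 4)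

theorem hasDerivAt_y0 (b : ℝ) {a z : ℂ} (ha : 0 < a.re) (hz : 0 < (z ^ 2).re) :
    HasDerivAt (y0 b a) (y1 b a z) z := by
  have hw : 0 < (z ^ 2 / 4).re := by
    rw [show z ^ 2 / 4 = z ^ 2 / ((4 : ℝ) : ℂ) by push_cast; rfl, Complex.div_ofReal_re]
    positivity
  have h1 : HasDerivAt (fun z : ℂ => z ^ 2 / 4) (z / 2) z := by
    have := (hasDerivAt_pow 2 z).div_const 4
    refine this.congr_deriv ?_
    norm_num
    ring
  have h2 := (Jc_hasDerivAt (c := b - 1 - a) ha hw).comp z h1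
  refine h2.congr_deriv ?_
  unfold y1
  ring

theorem hasDerivAt_y1 (b : ℝ) {a z : ℂ} (ha : 0 < a.re) (hz : 0 < (z ^ 2).re) (hz0 : z ≠ 0) :
    HasDerivAt (y1 b a) (-2 * ss b z * y1 b a z - I * a * y0 b a z) z := by
  have hw : 0 < (z ^ 2 / 4).re := by
    rw [show z ^ 2 / 4 = z ^ 2 / ((4 : ℝ) : ℂ) by push_cast; rfl, Complex.div_ofReal_re]
    positivity
  have h1 : HasDerivAt (fun z : ℂ => z ^ 2 / 4) (z / 2) z := by
    have := (hasDerivAt_pow 2 z).div_const 4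
    refine this.congr_deriv ?_
    norm_num
    ring
  have ha1 : 0 < (a + 1).re := by simp; linarith
  have h2 := (Jc_hasDerivAt (c := b - 1 - a) ha1 hw).comp z h1
  have h3 : HasDerivAt (fun z : ℂ => -(z / 2)) (-(1 / 2)) z := ((hasDerivAt_id z).div_const 2).neg
  have h4 := h3.mul h2
  refine h4.congr_deriv ?_
  have ibp := Jc_ibp (c := b - 1 - a) ha hw
  rw [show a + 1 + 1 = a + 2 by ring]
  unfold y1 y0 ss
  simp only [Function.comp]
  have e : z ^ 2 / 4 * Jc (a + 2) (b - 1 - a) (z ^ 2 / 4) =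
    -I * a * Jc a (b - 1 - a) (z ^ 2 / 4) + (b + I * (z ^ 2 / 4)) *
      Jc (a + 1) (b - 1 - a) (z ^ 2 / 4) := by
    rw [ibp]
    ring
  have e3 : -(1 / 2) * Jc (a + 1) (b - 1 - a) (z ^ 2 / 4) +
      -(z / 2) * (-Jc (a + 2) (b - 1 - a) (z ^ 2 / 4) * (z / 2)) =
      -(1 / 2) * Jc (a + 1) (b - 1 - a) (z ^ 2 / 4) + z ^ 2 / 4 * Jc (a + 2) (b - 1 - a) (z ^ 2 / 4) := by
    ring
  rw [e3, e]
  field_simp
  ring

noncomputable def XX (b : ℝ) (a z : ℂ) : ℂ :=
  y1 b a z + (ss b z + kap b a z + qq b a z) * y0 b a z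
noncomputable def YY (b : ℝ) (a z : ℂ) : ℂ :=
  y1 b a z + (ss b z - kap b a z + qq b a z) * y0 b a z

theorem kap_sq' (b : ℝ) (a : ℂ) {z : ℂ} (hz : z ≠ 0) :
    kap b a z ^ 2 = (-((2 * b - 1) / (2 * z ^ 2)) + I / 4) + ss b z ^ 2 - I * a := by
  rw [kap_sq]
  unfold VV ss msq
  push_cast
  field_simp
  ring_nf
  rw [Complex.I_sq]
  ring

theorem hasDerivAt_XX (b : ℝ) {a z : ℂ} (ha : 0 < a.re) (hz : 0 < (z ^ 2).re) (hz0 : z ≠ 0)
    (hV : VV b a z ≠ 0) (hs : uu ^ 2 * VV b a z ∈ slitPlane) :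
    HasDerivAt (XX b a) ((kap b a z + qq b a z - ss b z) * XX b a z - EE b a z * y0 b a z) z := by
  have h1 := hasDerivAt_y1 b ha hz hz0
  have h2 := (((hasDerivAt_ss b hz0).add (hasDerivAt_kap b a hz0 hV hs)).add
    (hasDerivAt_qq b a hz0 hV)).mul (hasDerivAt_y0 b ha hz)
  refine (h1.add h2).congr_deriv ?_
  have h3 := kap_sq' b a hz0
  unfold XX
  simp only [Pi.add_apply]
  linear_combination (-(y0 b a z)) * h3

theorem hasDerivAt_YY (b : ℝ) {a z : ℂ} (ha : 0 < a.re) (hz : 0 < (z ^ 2).re) (hz0 : z ≠ 0)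
    (hV : VV b a z ≠ 0) (hs : uu ^ 2 * VV b a z ∈ slitPlane) :
    HasDerivAt (YY b a) ((-kap b a z + qq b a z - ss b z) * YY b a z - EE b a z * y0 b a z) z := by
  have h1 := hasDerivAt_y1 b ha hz hz0
  have h2 := (((hasDerivAt_ss b hz0).sub (hasDerivAt_kap b a hz0 hV hs)).add
    (hasDerivAt_qq b a hz0 hV)).mul (hasDerivAt_y0 b ha hz)
  refine (h1.add h2).congr_deriv ?_
  have h3 := kap_sq' b a hz0
  unfold YY
  simp only [Pi.add_apply, Pi.sub_apply]
  linear_combination (-(y0 b a z)) * h3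

theorem XX_sub_YY (b : ℝ) (a z : ℂ) : XX b a z - YY b a z = 2 * kap b a z * y0 b a z := by
  unfold XX YY
  ring

end Crest.Agent.R086.Ext
end

-- ▼ part R086/Ext4
section

/-!
Row 86, exterior DtN (helper766), part 4: estimates on the ray.
-/

set_option autoImplicit false

open MeasureTheory Complex Set Filter Topology

namespace Crest.Agent.R086.Ext

noncomputable def NN (r t : ℝ) : ℝ := r ^ 2 + 4 * r * t + 5 * t ^ 2
noncomputable def XR (r t : ℝ) : ℝ := r ^ 2 + 4 * r * t + 3 * t ^ 2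
noncomputable def YI (r t : ℝ) : ℝ := 2 * r * t + 4 * t ^ 2

theorem zz_re (r t : ℝ) : (zz r t).re = r + 2 * t := by simp [zz, uu]
theorem zz_im (r t : ℝ) : (zz r t).im = t := by simp [zz, uu]
theorem zz_sq_re (r t : ℝ) : ((zz r t) ^ 2).re = XR r t := by
  rw [sq, Complex.mul_re, zz_re, zz_im]
  unfold XR
  ring
theorem zz_sq_im (r t : ℝ) : ((zz r t) ^ 2).im = YI r t := by
  rw [sq, Complex.mul_im, zz_re, zz_im]
  unfold YI
  ring
theorem norm_zz_sq (r t : ℝ) : ‖zz r t‖ ^ 2 = NN r t := by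
  rw [← Complex.normSq_eq_norm_sq, Complex.normSq_apply, zz_re, zz_im]
  unfold NN
  ring

variable {r t : ℝ}

theorem NN_pos (hr : 0 < r) (ht : 0 ≤ t) : 0 < NN r t := by unfold NN; positivity
theorem NN_ge (hr : 0 < r) (ht : 0 ≤ t) : r ^ 2 ≤ NN r t := by
  unfold NN
  have : 0 ≤ r * t := by positivity
  nlinarith [sq_nonneg t]
theorem XR_pos (hr : 0 < r) (ht : 0 ≤ t) : 0 < XR r t := by unfold XR; positivity
theorem YI_nonneg (hr : 0 < r) (ht : 0 ≤ t) : 0 ≤ YI r t := by unfold YI; positivity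

theorem zz_ne (hr : 0 < r) (ht : 0 ≤ t) : zz r t ≠ 0 := by
  intro h
  have := norm_zz_sq r t
  rw [h] at this
  simp at this
  linarith [NN_pos hr ht]

theorem normSq_zz_sq (r t : ℝ) : Complex.normSq ((zz r t) ^ 2) = NN r t ^ 2 := by
  rw [Complex.normSq_eq_norm_sq, norm_pow, norm_zz_sq]

theorem div_re' (m : ℝ) (w : ℂ) : ((m : ℂ) / w).re = m * w.re / Complex.normSq w := by
  rw [Complex.div_re]
  simp
theorem div_im' (m : ℝ) (w : ℂ) : ((m : ℂ) / w).im = -(m * w.im / Complex.normSq w) := by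
  rw [Complex.div_im]
  simp

/-- `S = m²/|z|² + |z|²/16`. -/
noncomputable def SS (b r t : ℝ) : ℝ := msq b / NN r t + NN r t / 16

theorem msq_pos {b : ℝ} (hb : 6 ≤ b) : 0 < msq b := by
  unfold msq
  apply mul_pos <;> linarith

theorem SS_pos {b : ℝ} (hb : 6 ≤ b) (hr : 0 < r) (ht : 0 ≤ t) : 0 < SS b r t := by
  have := msq_pos hb
  have := NN_pos hr ht
  unfold SS
  positivity

noncomputable def zeta (b : ℝ) (a : ℂ) : ℂ := I * (b / 2 - a)

theorem zeta_im (b : ℝ) (a : ℂ) : (zeta b a).im = b / 2 - a.re := by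
  unfold zeta
  simp

theorem norm_zeta (b : ℝ) (a : ℂ) : ‖zeta b a‖ = ‖(b : ℂ) / 2 - a‖ := by
  unfold zeta
  simp

theorem sixteen_re (w : ℂ) : (w / 16).re = w.re / 16 := by
  rw [show (16 : ℂ) = ((16 : ℝ) : ℂ) by push_cast; rfl, Complex.div_ofReal_re]
theorem sixteen_im (w : ℂ) : (w / 16).im = w.im / 16 := by
  rw [show (16 : ℂ) = ((16 : ℝ) : ℂ) by push_cast; rfl, Complex.div_ofReal_im]

theorem VV_im (b : ℝ) (a : ℂ) (hr : 0 < r) (ht : 0 ≤ t) :
    (VV b a (zz r t)).im = -(YI r t / NN r t * SS b r t) + (zeta b a).im := by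
  have hN := NN_pos hr ht
  unfold VV
  rw [Complex.add_im, Complex.sub_im, div_im', sixteen_im, normSq_zz_sq, zz_sq_im]
  change _ + (zeta b a).im = _
  unfold SS
  field_simp
  ring

theorem VV_re (b : ℝ) (a : ℂ) (hr : 0 < r) (ht : 0 ≤ t) :
    (VV b a (zz r t)).re = msq b * XR r t / NN r t ^ 2 - XR r t / 16 + (zeta b a).re := by
  unfold VV
  rw [Complex.add_re, Complex.sub_re, div_re', sixteen_re, normSq_zz_sq, zz_sq_re]
  rfl

theorem VV_im_le {b : ℝ} {a : ℂ} (hb : 6 ≤ b) (ha : b / 2 - 3 ≤ a.re) (hr : 0 < r) (ht : 0 ≤ t) :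
    (VV b a (zz r t)).im ≤ 3 := by
  rw [VV_im b a hr ht, zeta_im]
  have h1 := YI_nonneg hr ht
  have h2 := NN_pos hr ht
  have h3 := SS_pos hb hr ht
  have : 0 ≤ YI r t / NN r t * SS b r t := by positivity
  linarith

theorem XR_le (hr : 0 < r) (ht : 0 ≤ t) : XR r t ≤ NN r t := by
  unfold XR NN
  nlinarith [sq_nonneg t]

theorem VV_re_bound {b : ℝ} (a : ℂ) (hb : 6 ≤ b) (hr : 0 < r) (ht : 0 ≤ t) :
    |(zeta b a).re| - SS b r t ≤ ‖VV b a (zz r t)‖ := by
  have h1 := VV_re b a hr ht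
  have hN := NN_pos hr ht
  have hX := XR_pos hr ht
  have hXN := XR_le hr ht
  have hm := msq_pos hb
  have h2 : 0 ≤ msq b * XR r t / NN r t ^ 2 := by positivity
  have h3 : msq b * XR r t / NN r t ^ 2 ≤ msq b / NN r t := by
    rw [div_le_div_iff₀ (by positivity) hN]
    have : msq b * XR r t * NN r t ≤ msq b * NN r t * NN r t := by gcongr
    nlinarith
  have h4 : XR r t / 16 ≤ NN r t / 16 := by linarith
  have h5 := Complex.abs_re_le_norm (VV b a (zz r t))
  rw [h1] at h5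
  have h6 : |(zeta b a).re| ≤ |msq b * XR r t / NN r t ^ 2 - XR r t / 16 + (zeta b a).re| +
      |msq b * XR r t / NN r t ^ 2 - XR r t / 16| := by
    have := abs_sub (msq b * XR r t / NN r t ^ 2 - XR r t / 16 + (zeta b a).re)
      (msq b * XR r t / NN r t ^ 2 - XR r t / 16)
    rwa [show msq b * XR r t / NN r t ^ 2 - XR r t / 16 + (zeta b a).re -
      (msq b * XR r t / NN r t ^ 2 - XR r t / 16) = (zeta b a).re by ring] at this
  have h7 : |msq b * XR r t / NN r t ^ 2 - XR r t / 16| ≤ SS b r t := by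
    unfold SS
    rw [abs_le]
    have h8 : 0 < msq b / NN r t := by positivity
    constructor <;> linarith
  linarith

/-- AM-GM. -/
theorem SS_ge {b : ℝ} (hb : 6 ≤ b) (hr : 0 < r) (ht : 0 ≤ t) : Real.sqrt (msq b) / 2 ≤ SS b r t := by
  have hm := msq_pos hb
  have hN := NN_pos hr ht
  unfold SS
  have h1 : Real.sqrt (msq b) ^ 2 = msq b := Real.sq_sqrt hm.le
  set s := Real.sqrt (msq b) with hs
  rw [← h1]
  rw [div_add_div _ _ hN.ne' (by norm_num), div_le_div_iff₀ (by norm_num) (by positivity)]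
  nlinarith [sq_nonneg (4 * s - NN r t)]

/-- difference of `V` near the base point. -/
theorem VV_near {b : ℝ} (a : ℂ) (hb : 6 ≤ b) (hr : 0 < r) (ht : 0 ≤ t) (htr : t ≤ r) :
    ‖VV b a (zz r t) - VV b a r‖ ≤ t * (10 / r ^ 3 + r) * (msq b + 1) := by
  have hm := msq_pos hb
  have hz := zz_ne hr ht
  have hr' : (r : ℂ) ≠ 0 := by exact_mod_cast hr.ne'
  have e : VV b a (zz r t) - VV b a r = -((msq b : ℂ) * ((zz r t) ^ 2 - r ^ 2) /
      ((zz r t) ^ 2 * r ^ 2)) - ((zz r t) ^ 2 - r ^ 2) / 16 := by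
    unfold VV
    field_simp
    ring
  have hd : ‖(zz r t) ^ 2 - (r : ℂ) ^ 2‖ ≤ 10 * r * t := by
    have e2 : (zz r t) ^ 2 - (r : ℂ) ^ 2 = uu * t * (2 * r + uu * t) := by
      unfold zz; ring
    have hu : ‖uu‖ ≤ 9 / 4 := by
      have := norm_uu_sq
      have h0 := norm_nonneg uu
      nlinarith
    rw [e2, norm_mul, norm_mul]
    have h1 : ‖(t : ℂ)‖ = t := by simp [abs_of_nonneg ht]
    have h2 : ‖(2 * r + uu * t : ℂ)‖ ≤ 2 * r + 9 / 4 * t := by
      refine (norm_add_le _ _).trans ?_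
      rw [norm_mul, norm_mul, h1]
      have h3 : ‖(r : ℂ)‖ = r := by simp [abs_of_pos hr]
      rw [h3]
      simp
      gcongr
    rw [h1]
    calc ‖uu‖ * t * ‖(2 * r + uu * t : ℂ)‖ ≤ 9 / 4 * t * (2 * r + 9 / 4 * t) := by gcongr
      _ ≤ 9 / 4 * t * (2 * r + 9 / 4 * r) := by gcongr
      _ ≤ 10 * r * t := by nlinarith [mul_nonneg hr.le ht]
  rw [e]
  have hN := NN_ge hr ht
  have hNp := NN_pos hr ht
  have h4 : ‖-((msq b : ℂ) * ((zz r t) ^ 2 - r ^ 2) / ((zz r t) ^ 2 * r ^ 2))‖ ≤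
      msq b * (10 * r * t) / r ^ 4 := by
    rw [norm_neg, norm_div, norm_mul, norm_mul, norm_pow, norm_zz_sq, norm_pow]
    have h5 : ‖(msq b : ℂ)‖ = msq b := by simp [abs_of_pos hm]
    have h6 : ‖(r : ℂ)‖ = r := by simp [abs_of_pos hr]
    rw [h5, h6]
    apply div_le_div₀ (by positivity) (by gcongr) (by positivity)
    calc r ^ 4 = r ^ 2 * r ^ 2 := by ring
      _ ≤ NN r t * r ^ 2 := by gcongr
  have h7 : ‖((zz r t) ^ 2 - (r : ℂ) ^ 2) / 16‖ ≤ 10 * r * t / 16 := by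
    rw [norm_div]
    simp only [RCLike.norm_ofNat]
    gcongr
  calc _ ≤ msq b * (10 * r * t) / r ^ 4 + 10 * r * t / 16 := (norm_sub_le _ _).trans (add_le_add h4 h7)
    _ ≤ t * (10 / r ^ 3) * msq b + t * r := by
        have e3 : msq b * (10 * r * t) / r ^ 4 = t * (10 / r ^ 3) * msq b := by
          field_simp
        rw [e3]
        nlinarith [mul_nonneg hr.le ht]
    _ ≤ _ := by
        have p1 : 0 ≤ t * (10 / r ^ 3) := by positivity
        have p2 : 0 ≤ t * r * msq b := by positivity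
        nlinarith

/-- **Lower bound for `V` on the whole ray** under the non-glancing condition at `r`. -/
theorem VV_lower {δ : ℝ} (hr : 0 < r) (hδ : 0 < δ) : ∃ K Λ : ℝ, 1 ≤ K ∧ 1 ≤ Λ ∧
    ∀ (b : ℝ) (a : ℂ), 6 ≤ b → b / 2 - 3 ≤ a.re → Λ ≤ msq b + ‖zeta b a‖ →
      δ * (msq b + ‖zeta b a‖) ≤ ‖VV b a r‖ → ∀ t, 0 ≤ t →
      SS b r t + ‖zeta b a‖ ≤ K * ‖VV b a (zz r t)‖ := by
  set c1 : ℝ := 10 / r ^ 3 + r with hc1
  have hc1p : 0 < c1 := by positivity
  set τ : ℝ := min r (δ / (4 * c1)) with hτ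
  have hτp : 0 < τ := by
    apply lt_min hr
    positivity
  set K1 : ℝ := r / (2 * τ) + 2 with hK1
  have hK1p : 2 ≤ K1 := by
    have : 0 ≤ r / (2 * τ) := by positivity
    linarith
  set c2 : ℝ := 1 / r ^ 2 + r ^ 2 + 1 with hc2
  have hc2p : 0 < c2 := by positivity
  refine ⟨max 1 (max (4 / δ * c2) (2 * (2 * K1 + 1))), max 1 (18 * K1 + (36 * K1) ^ 2),
    le_max_left _ _, le_max_left _ _, ?_⟩
  intro b a hb ha hΛ hng t ht
  have hm := msq_pos hb
  have hz0 : 0 ≤ ‖zeta b a‖ := norm_nonneg _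
  have hV0 : 0 ≤ ‖VV b a (zz r t)‖ := norm_nonneg _
  have h1 : 1 ≤ msq b + ‖zeta b a‖ := (le_max_left _ _).trans hΛ
  have h2 : 18 * K1 + (36 * K1) ^ 2 ≤ msq b + ‖zeta b a‖ := (le_max_right _ _).trans hΛ
  rcases le_total t τ with htτ | htτ
  · -- near the base point
    have htr : t ≤ r := htτ.trans (min_le_left _ _)
    have h3 := VV_near a hb hr ht htr
    have h4 : t * c1 ≤ δ / 4 := by
      have : t ≤ δ / (4 * c1) := htτ.trans (min_le_right _ _)
      calc t * c1 ≤ δ / (4 * c1) * c1 := by gcongr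
        _ = δ / 4 := by field_simp
    have h5 : ‖VV b a (zz r t) - VV b a r‖ ≤ δ / 4 * (msq b + 1) := by
      refine h3.trans ?_
      rw [← hc1]
      gcongr
    have h6 : ‖VV b a r‖ ≤ ‖VV b a (zz r t)‖ + ‖VV b a (zz r t) - VV b a r‖ := by
      have := norm_sub_norm_le (VV b a r) (VV b a (zz r t))
      rw [norm_sub_rev] at this
      linarith
    have h7 : δ / 4 * (msq b + 1) ≤ δ / 2 * (msq b + ‖zeta b a‖) := by
      have : msq b + 1 ≤ 2 * (msq b + ‖zeta b a‖) := by linarith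
      calc δ / 4 * (msq b + 1) ≤ δ / 4 * (2 * (msq b + ‖zeta b a‖)) := by gcongr
        _ = _ := by ring
    have h8 : δ / 2 * (msq b + ‖zeta b a‖) ≤ ‖VV b a (zz r t)‖ := by linarith
    have h9 : SS b r t + ‖zeta b a‖ ≤ c2 * (2 * (msq b + ‖zeta b a‖)) := by
      have hN := NN_ge hr ht
      have hNp := NN_pos hr ht
      have hN2 : NN r t ≤ 10 * r ^ 2 := by
        unfold NN
        nlinarith [mul_nonneg hr.le ht]
      have h10 : msq b / NN r t ≤ msq b / r ^ 2 := by gcongr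
      have h11 : NN r t / 16 ≤ r ^ 2 := by nlinarith [sq_nonneg r]
      have h12 : SS b r t ≤ 1 / r ^ 2 * msq b + r ^ 2 := by
        unfold SS
        have : msq b / r ^ 2 = 1 / r ^ 2 * msq b := by ring
        linarith
      have p1 : 0 < 1 / r ^ 2 := by positivity
      have p2 : 0 < r ^ 2 := by positivity
      have : c2 * (2 * (msq b + ‖zeta b a‖)) = 1 / r ^ 2 * (2 * (msq b + ‖zeta b a‖)) +
        r ^ 2 * (2 * (msq b + ‖zeta b a‖)) + 2 * (msq b + ‖zeta b a‖) := by rw [hc2]; ring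
      rw [this]
      have q1 : 1 / r ^ 2 * msq b ≤ 1 / r ^ 2 * (2 * (msq b + ‖zeta b a‖)) := by
        gcongr
        linarith
      have q2 : r ^ 2 * 1 ≤ r ^ 2 * (2 * (msq b + ‖zeta b a‖)) := by
        gcongr
        linarith
      linarith
    calc SS b r t + ‖zeta b a‖ ≤ c2 * (2 * (msq b + ‖zeta b a‖)) := h9
      _ = 4 / δ * c2 * (δ / 2 * (msq b + ‖zeta b a‖)) := by field_simp; ring
      _ ≤ 4 / δ * c2 * ‖VV b a (zz r t)‖ := by gcongr
      _ ≤ _ := by
          gcongr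
          exact (le_max_left _ _).trans (le_max_right _ _)
  · -- away
    have hN := NN_pos hr ht
    have hS := SS_pos hb hr ht
    have hYN : NN r t ≤ K1 * YI r t := by
      have htp : 0 < t := lt_of_lt_of_le hτp htτ
      have h3 : r ^ 2 ≤ r / (2 * τ) * (2 * r * t) := by
        have : r / (2 * τ) * (2 * r * t) = r ^ 2 * (t / τ) := by field_simp
        rw [this]
        have h4 : 1 ≤ t / τ := (one_le_div hτp).mpr htτ
        nlinarith [sq_nonneg r]
      have h5 : 0 ≤ r / (2 * τ) * (4 * t ^ 2) := by positivity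
      unfold NN YI
      rw [hK1]
      nlinarith [mul_nonneg hr.le ht, sq_nonneg t]
    have h3 : SS b r t ≤ K1 * (YI r t / NN r t * SS b r t) := by
      have : K1 * (YI r t / NN r t * SS b r t) = (K1 * YI r t) / NN r t * SS b r t := by ring
      rw [this]
      have h4 : 1 ≤ (K1 * YI r t) / NN r t := (one_le_div hN).mpr hYN
      nlinarith
    have h4 := VV_im b a hr ht
    have h5 := Complex.abs_im_le_norm (VV b a (zz r t))
    have h6 : -(VV b a (zz r t)).im ≤ ‖VV b a (zz r t)‖ := (neg_le_abs _).trans h5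
    have h7 := VV_re_bound a hb hr ht
    have hzi : (zeta b a).im ≤ 3 := by rw [zeta_im]; linarith
    have h8 : ‖zeta b a‖ ≤ |(zeta b a).re| + |(zeta b a).im| := Complex.norm_le_abs_re_add_abs_im _
    have h9 : SS b r t - K1 * (zeta b a).im ≤ K1 * ‖VV b a (zz r t)‖ := by
      have : K1 * (-(VV b a (zz r t)).im) ≤ K1 * ‖VV b a (zz r t)‖ := by gcongr
      rw [h4] at this
      nlinarith
    have h10 : |(zeta b a).im| - 6 * K1 ≤ - K1 * (zeta b a).im := by
      rcases le_total 0 (zeta b a).im with h | h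
      · rw [abs_of_nonneg h]
        nlinarith
      · rw [abs_of_nonpos h]
        nlinarith
    have h11 : - (3 * K1) ≤ - K1 * (zeta b a).im := by nlinarith
    have h12 : SS b r t + ‖zeta b a‖ - 9 * K1 ≤ (2 * K1 + 1) * ‖VV b a (zz r t)‖ := by
      nlinarith
    have h13 : 18 * K1 ≤ SS b r t + ‖zeta b a‖ := by
      rcases le_total (18 * K1) ‖zeta b a‖ with h | h
      · linarith
      · have h14 : (36 * K1) ^ 2 ≤ msq b := by linarith
        have h15 : 36 * K1 ≤ Real.sqrt (msq b) := by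
          rw [Real.le_sqrt (by positivity) hm.le]
          exact h14
        have := SS_ge hb hr ht
        linarith
    calc SS b r t + ‖zeta b a‖ ≤ 2 * (2 * K1 + 1) * ‖VV b a (zz r t)‖ := by linarith
      _ ≤ _ := by
          gcongr
          exact (le_max_right _ _).trans (le_max_right _ _)

end Crest.Agent.R086.Ext
end

-- ▼ part R086/Ext5
section

/-!
Row 86, exterior DtN (helper766), part 5: the exterior Dirichlet-to-Neumann asymptotics.
-/

set_option autoImplicit false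

open MeasureTheory Complex Set Filter Topology

namespace Crest.Agent.R086.Ext

variable {r : ℝ}

theorem norm_zz_pos {t : ℝ} (hr : 0 < r) (ht : 0 ≤ t) : 0 < ‖zz r t‖ :=
  norm_pos_iff.mpr (zz_ne hr ht)

/-- `|V'| ≤ 2 S/|z|`. -/
theorem VV1_le {b t : ℝ} (hb : 6 ≤ b) (hr : 0 < r) (ht : 0 ≤ t) :
    ‖VV1 b (zz r t)‖ ≤ 2 * SS b r t / ‖zz r t‖ := by
  have hz := norm_zz_pos hr ht
  have hm := msq_pos hb
  have h5 : ‖(msq b : ℂ)‖ = msq b := by simp [abs_of_pos hm]
  have h1 : ‖VV1 b (zz r t)‖ ≤ 2 * msq b / ‖zz r t‖ ^ 3 + ‖zz r t‖ / 8 := by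
    unfold VV1
    refine (norm_sub_le _ _).trans ?_
    rw [norm_neg, norm_div, norm_div, norm_mul, norm_pow, h5]
    simp
  refine h1.trans (le_of_eq ?_)
  unfold SS
  rw [← norm_zz_sq]
  field_simp
  ring

/-- `|V''| ≤ 6 S/|z|²`. -/
theorem VV2_le {b t : ℝ} (hb : 6 ≤ b) (hr : 0 < r) (ht : 0 ≤ t) :
    ‖VV2 b (zz r t)‖ ≤ 6 * SS b r t / ‖zz r t‖ ^ 2 := by
  have hz := norm_zz_pos hr ht
  have hm := msq_pos hb
  have h5 : ‖(msq b : ℂ)‖ = msq b := by simp [abs_of_pos hm]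
  have h1 : ‖VV2 b (zz r t)‖ ≤ 6 * msq b / ‖zz r t‖ ^ 4 + 1 / 8 := by
    unfold VV2
    refine (norm_sub_le _ _).trans ?_
    rw [norm_div, norm_mul, norm_pow, h5]
    simp
  refine h1.trans ?_
  unfold SS
  rw [← norm_zz_sq]
  have : 6 * (msq b / ‖zz r t‖ ^ 2 + ‖zz r t‖ ^ 2 / 16) / ‖zz r t‖ ^ 2 =
      6 * msq b / ‖zz r t‖ ^ 4 + 6 / 16 := by
    field_simp
  rw [this]
  linarith

/-- `|E| ≤ 3 K²/|z|²`. -/
theorem EE_le {b t K : ℝ} {a : ℂ} (hb : 6 ≤ b) (hr : 0 < r) (ht : 0 ≤ t) (hK : 1 ≤ K)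
    (hS : SS b r t ≤ K * ‖VV b a (zz r t)‖) (hV : 0 < ‖VV b a (zz r t)‖) :
    ‖EE b a (zz r t)‖ ≤ 3 * K ^ 2 / NN r t := by
  have hz := norm_zz_pos hr ht
  have h1 := VV1_le hb hr ht
  have h2 := VV2_le hb hr ht
  set v := ‖VV b a (zz r t)‖ with hv
  set z := ‖zz r t‖ with hzz
  have hq : ‖qq b a (zz r t)‖ ≤ K / (2 * z) := by
    unfold qq
    rw [norm_div, norm_mul]
    simp only [RCLike.norm_ofNat]
    rw [← hv, div_le_div_iff₀ (by positivity) (by positivity)]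
    have h3 : ‖VV1 b (zz r t)‖ * z ≤ 2 * SS b r t := by
      rw [le_div_iff₀ hz] at h1
      exact h1
    nlinarith
  have hw : ‖VV2 b (zz r t) / (4 * VV b a (zz r t))‖ ≤ (3 / 2) * K / z ^ 2 := by
    rw [norm_div, norm_mul]
    simp only [RCLike.norm_ofNat]
    rw [← hv, div_le_div_iff₀ (by positivity) (by positivity)]
    have h3 : ‖VV2 b (zz r t)‖ * z ^ 2 ≤ 6 * SS b r t := by
      rw [le_div_iff₀ (by positivity)] at h2
      exact h2
    nlinarith
  rw [← norm_zz_sq, ← hzz]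
  unfold EE
  refine (norm_sub_le _ _).trans ?_
  rw [norm_mul, norm_pow]
  simp only [RCLike.norm_ofNat]
  have h4 : ‖qq b a (zz r t)‖ ^ 2 ≤ (K / (2 * z)) ^ 2 := by gcongr
  have h5 : (5 : ℝ) * (K / (2 * z)) ^ 2 + (3 / 2) * K / z ^ 2 = (5 / 4 * K ^ 2 + 3 / 2 * K) / z ^ 2 := by
    field_simp
    ring
  have h6 : (5 / 4 * K ^ 2 + 3 / 2 * K) / z ^ 2 ≤ 3 * K ^ 2 / z ^ 2 := by
    gcongr
    nlinarith
  linarith

/-! ### behaviour at infinity on the ray -/

theorem zz_tendsto (hr : 0 < r) : Tendsto (fun t => ‖zz r t‖) atTop atTop := by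
  refine tendsto_atTop_mono' atTop ?_ tendsto_id
  filter_upwards [eventually_ge_atTop 0] with t ht
  have h1 := Complex.abs_im_le_norm (zz r t)
  rw [zz_im, abs_of_nonneg ht] at h1
  exact h1

theorem w_sector (hr : 0 < r) : ∀ᶠ t in atTop, (3 / 5 : ℝ) * ‖(zz r t) ^ 2 / 4‖ ≤ ((zz r t) ^ 2 / 4).re := by
  filter_upwards [eventually_ge_atTop (0 : ℝ)] with t ht
  rw [show (zz r t) ^ 2 / 4 = (zz r t) ^ 2 / ((4 : ℝ) : ℂ) by push_cast; rfl, Complex.div_ofReal_re,
    zz_sq_re, norm_div, norm_pow, norm_zz_sq]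
  simp only [Complex.norm_real, Real.norm_ofNat]
  unfold XR NN
  nlinarith [mul_nonneg hr.le ht, sq_nonneg t, sq_nonneg r]

theorem w_tendsto (hr : 0 < r) : Tendsto (fun t => ‖(zz r t) ^ 2 / 4‖) atTop atTop := by
  have h := zz_tendsto hr
  have h2 : Tendsto (fun t => ‖zz r t‖ ^ 2 / 4) atTop atTop :=
    ((tendsto_pow_atTop two_ne_zero).comp h).atTop_div_const (by norm_num)
  refine h2.congr fun t => ?_
  rw [norm_div, norm_pow]
  simp

theorem y0_ne_eventually (b : ℝ) {a : ℂ} (ha : 0 < a.re) (hr : 0 < r) :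
    ∀ᶠ t in atTop, y0 b a (zz r t) ≠ 0 := by
  have h := tendsto_Jc ha (b - 1 - a) (by norm_num : (0 : ℝ) < 3 / 5) (w_sector hr) (w_tendsto hr)
  have hG : Complex.Gamma a ≠ 0 := Complex.Gamma_ne_zero_of_re_pos ha
  filter_upwards [h.eventually_ne hG] with t ht
  unfold y0
  exact right_ne_zero_of_mul ht

/-- `y1/y0 → 0`. -/
theorem ratio_tendsto (b : ℝ) {a : ℂ} (ha : 0 < a.re) (hr : 0 < r) :
    Tendsto (fun t => y1 b a (zz r t) / y0 b a (zz r t)) atTop (𝓝 0) := by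
  have ha1 : 0 < (a + 1).re := by simp; linarith
  have h0 := tendsto_Jc ha (b - 1 - a) (by norm_num : (0 : ℝ) < 3 / 5) (w_sector hr) (w_tendsto hr)
  have h1 := tendsto_Jc ha1 (b - 1 - a) (by norm_num : (0 : ℝ) < 3 / 5) (w_sector hr) (w_tendsto hr)
  have hG : Complex.Gamma a ≠ 0 := Complex.Gamma_ne_zero_of_re_pos ha
  have h2 := h1.div h0 hG
  have h3 : Tendsto (fun t => -2 * (zz r t)⁻¹) atTop (𝓝 0) := by
    have : Tendsto (fun t => (zz r t)⁻¹) atTop (𝓝 0) := by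
      rw [tendsto_zero_iff_norm_tendsto_zero]
      simp only [norm_inv]
      exact tendsto_inv_atTop_zero.comp (zz_tendsto hr)
    have := this.const_mul (-2)
    simpa using this
  have h4 := h3.mul h2
  rw [zero_mul] at h4
  refine h4.congr' ?_
  filter_upwards [eventually_ge_atTop (0 : ℝ), y0_ne_eventually b ha hr] with t ht hy
  have hz := zz_ne hr ht
  have hw : (zz r t) ^ 2 / 4 ≠ 0 := div_ne_zero (pow_ne_zero 2 hz) (by norm_num)
  unfold y0 at hy
  unfold y1 y0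
  simp only [Pi.div_apply]
  rw [Complex.cpow_add _ _ hw, Complex.cpow_one]
  have hwa : ((zz r t) ^ 2 / 4) ^ a ≠ 0 := by
    rw [Complex.cpow_def_of_ne_zero hw]
    exact Complex.exp_ne_zero _
  generalize ((zz r t) ^ 2 / 4) ^ a = W at hwa
  generalize Jc a (b - 1 - a) (zz r t ^ 2 / 4) = J0 at hy
  generalize Jc (a + 1) (b - 1 - a) (zz r t ^ 2 / 4) = J1
  field_simp
  ring

theorem VV_norm_ge_eventually {b : ℝ} {a : ℂ} : ∀ M : ℝ, 0 < r →
    ∀ᶠ t in atTop, M ≤ ‖VV b a (zz r t)‖ := by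
  intro M hr
  have h := (zz_tendsto hr)
  filter_upwards [h.eventually_ge_atTop (16 * (|M| + |msq b| + ‖zeta b a‖ + 1)),
    eventually_ge_atTop (0 : ℝ)] with t h1 ht
  have hz := zz_ne hr ht
  have hn : 1 ≤ ‖zz r t‖ := by
    have := abs_nonneg M
    have := abs_nonneg (msq b)
    have := norm_nonneg (zeta b a)
    linarith
  have e : VV b a (zz r t) = -(zz r t ^ 2 / 16) + ((msq b : ℂ) / zz r t ^ 2 + zeta b a) := by
    unfold VV zeta
    ring
  have h2 : ‖(msq b : ℂ) / zz r t ^ 2 + zeta b a‖ ≤ |msq b| + ‖zeta b a‖ := by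
    refine (norm_add_le _ _).trans ?_
    gcongr
    rw [norm_div, norm_pow]
    simp only [Complex.norm_real, Real.norm_eq_abs]
    apply div_le_self (abs_nonneg _)
    exact one_le_pow₀ hn
  have h3 : ‖zz r t‖ ^ 2 / 16 - (|msq b| + ‖zeta b a‖) ≤ ‖VV b a (zz r t)‖ := by
    rw [e]
    have h4 := norm_sub_norm_le (-(zz r t ^ 2 / 16)) (-((msq b : ℂ) / zz r t ^ 2 + zeta b a))
    rw [sub_neg_eq_add, norm_neg, norm_neg, norm_div, norm_pow] at h4
    simp only [RCLike.norm_ofNat] at h4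
    linarith
  have h5 : 16 * (|M| + |msq b| + ‖zeta b a‖ + 1) ≤ ‖zz r t‖ ^ 2 := by
    have : ‖zz r t‖ * 1 ≤ ‖zz r t‖ * ‖zz r t‖ := by gcongr
    nlinarith
  have := le_abs_self M
  linarith

/-- `κ + i z/4 → 0` on the ray. -/
theorem kap_tendsto {b : ℝ} {a : ℂ} (hb : 6 ≤ b) (ha : b / 2 - 3 ≤ a.re) (hr : 0 < r) :
    Tendsto (fun t => kap b a (zz r t) + I * zz r t / 4) atTop (𝓝 0) := by
  have hlim : Tendsto (fun t : ℝ => ‖uu‖ * (|msq b| + ‖zeta b a‖) / ((r + 4 * t) / 4)) atTop (𝓝 0) := by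
    apply Tendsto.div_atTop tendsto_const_nhds
    apply Tendsto.atTop_div_const (by norm_num)
    apply tendsto_atTop_add_const_left
    exact Tendsto.const_mul_atTop (by norm_num) tendsto_id
  refine squeeze_zero_norm' ?_ hlim
  filter_upwards [eventually_ge_atTop (0 : ℝ), VV_norm_ge_eventually (b := b) (a := a) 12 hr,
    (zz_tendsto hr).eventually_ge_atTop 1] with t ht hV hn
  have hz := zz_ne hr ht
  have hre := (re_uu_kap (VV_im_le hb ha hr ht) hV).2
  set k := kap b a (zz r t) with hk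
  have h1 : (uu * (k - I * zz r t / 4)).re = (uu * k).re + (r + 4 * t) / 4 := by
    have e1 : uu * (k - I * zz r t / 4) = uu * k + -(uu * I * zz r t) / ((4 : ℝ) : ℂ) := by
      push_cast
      ring
    rw [e1, Complex.add_re, Complex.div_ofReal_re]
    congr 2
    unfold zz uu
    simp [Complex.mul_re, Complex.mul_im]
    ring
  have h2 : (r + 4 * t) / 4 ≤ ‖uu‖ * ‖k - I * zz r t / 4‖ := by
    rw [← norm_mul]
    refine le_trans ?_ (Complex.re_le_norm _)
    rw [h1]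
    linarith
  have h3 : (k + I * zz r t / 4) * (k - I * zz r t / 4) = (msq b : ℂ) / zz r t ^ 2 + zeta b a := by
    have e2 : (k + I * zz r t / 4) * (k - I * zz r t / 4) = k ^ 2 - I ^ 2 * (zz r t ^ 2 / 16) := by ring
    rw [e2, hk, kap_sq, Complex.I_sq]
    unfold VV zeta
    ring
  have h4 : ‖(msq b : ℂ) / zz r t ^ 2 + zeta b a‖ ≤ |msq b| + ‖zeta b a‖ := by
    refine (norm_add_le _ _).trans ?_
    gcongr
    rw [norm_div, norm_pow]
    simp only [Complex.norm_real, Real.norm_eq_abs]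
    apply div_le_self (abs_nonneg _)
    exact one_le_pow₀ hn
  rw [← h3, norm_mul] at h4
  have h5 : 0 < (r + 4 * t) / 4 := by positivity
  rw [le_div_iff₀ h5]
  calc ‖k + I * zz r t / 4‖ * ((r + 4 * t) / 4) ≤ ‖k + I * zz r t / 4‖ * (‖uu‖ * ‖k - I * zz r t / 4‖) := by
        gcongr
    _ = ‖uu‖ * (‖k + I * zz r t / 4‖ * ‖k - I * zz r t / 4‖) := by ring
    _ ≤ _ := by gcongr

theorem inv_tendsto (hr : 0 < r) : Tendsto (fun t => (zz r t)⁻¹) atTop (𝓝 0) := by
  rw [tendsto_zero_iff_norm_tendsto_zero]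
  simp only [norm_inv]
  exact tendsto_inv_atTop_zero.comp (zz_tendsto hr)

theorem qq_tendsto {b : ℝ} {a : ℂ} (hb : 6 ≤ b) (hr : 0 < r) :
    Tendsto (fun t => qq b a (zz r t)) atTop (𝓝 0) := by
  -- `|q| ≤ (2S/|z|)/(4|V|)`, `S ≤ 2|V|` eventually
  have hlim : Tendsto (fun t : ℝ => ‖(zz r t)⁻¹‖) atTop (𝓝 0) := by
    have := (inv_tendsto hr).norm
    simpa using this
  refine squeeze_zero_norm' ?_ hlim
  filter_upwards [eventually_ge_atTop (0 : ℝ), VV_norm_ge_eventually (b := b) (a := a) 12 hr,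
    (zz_tendsto hr).eventually_ge_atTop (1 + 64 * (|msq b| + ‖zeta b a‖))] with t ht hV hn
  have h1 := VV1_le hb hr ht
  have hzp := norm_zz_pos hr ht
  have hm := msq_pos hb
  have hS : SS b r t ≤ 2 * ‖VV b a (zz r t)‖ := by
    have h2 := norm_zeta b a
    have e : VV b a (zz r t) = -(zz r t ^ 2 / 16) + ((msq b : ℂ) / zz r t ^ 2 + zeta b a) := by
      unfold VV zeta
      ring
    have hn1 : 1 ≤ ‖zz r t‖ := by
      have := abs_nonneg (msq b)
      have := norm_nonneg (zeta b a)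
      linarith
    have h2 : ‖(msq b : ℂ) / zz r t ^ 2 + zeta b a‖ ≤ |msq b| + ‖zeta b a‖ := by
      refine (norm_add_le _ _).trans ?_
      gcongr
      rw [norm_div, norm_pow]
      simp only [Complex.norm_real, Real.norm_eq_abs]
      apply div_le_self (abs_nonneg _)
      exact one_le_pow₀ hn1
    have h3 : ‖zz r t‖ ^ 2 / 16 - (|msq b| + ‖zeta b a‖) ≤ ‖VV b a (zz r t)‖ := by
      rw [e]
      have h4 := norm_sub_norm_le (-(zz r t ^ 2 / 16)) (-((msq b : ℂ) / zz r t ^ 2 + zeta b a))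
      rw [sub_neg_eq_add, norm_neg, norm_neg, norm_div, norm_pow] at h4
      simp only [RCLike.norm_ofNat] at h4
      linarith
    have h5 : 64 * (|msq b| + ‖zeta b a‖) ≤ ‖zz r t‖ ^ 2 := by
      have : ‖zz r t‖ * 1 ≤ ‖zz r t‖ * ‖zz r t‖ := by gcongr
      nlinarith
    have h6 : msq b / NN r t ≤ |msq b| := by
      rw [← norm_zz_sq]
      have : msq b / ‖zz r t‖ ^ 2 ≤ msq b := by
        apply div_le_self hm.le
        exact one_le_pow₀ hn1
      exact this.trans (le_abs_self _)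
    unfold SS
    rw [← norm_zz_sq] at h6 ⊢
    have := norm_nonneg (zeta b a)
    linarith
  unfold qq
  rw [norm_div, norm_mul, norm_inv]
  simp only [RCLike.norm_ofNat]
  have hVp : 0 < ‖VV b a (zz r t)‖ := by linarith
  rw [div_le_iff₀ (by positivity)]
  calc ‖VV1 b (zz r t)‖ ≤ 2 * SS b r t / ‖zz r t‖ := h1
    _ ≤ 2 * (2 * ‖VV b a (zz r t)‖) / ‖zz r t‖ := by gcongr
    _ = ‖zz r t‖⁻¹ * (4 * ‖VV b a (zz r t)‖) := by
        field_simp
        ring

/-- smallness of `X` against `Y` at infinity. -/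
theorem XY_eventually {b : ℝ} {a : ℂ} (hb : 6 ≤ b) (ha0 : 0 < a.re) (ha : b / 2 - 3 ≤ a.re)
    (hr : 0 < r) {η : ℝ} (hη : 0 < η) :
    ∀ᶠ t in atTop, ‖XX b a (zz r t)‖ < η * ‖YY b a (zz r t)‖ := by
  have h1 := ratio_tendsto b ha0 hr
  have h2 := kap_tendsto hb ha hr
  have h3 := qq_tendsto (a := a) hb hr
  have h4 : Tendsto (fun t => ((2 * b - 1 : ℂ) / 2) * (zz r t)⁻¹) atTop (𝓝 0) := by
    have := (inv_tendsto hr).const_mul ((2 * b - 1 : ℂ) / 2)
    simpa using this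
  have hsum : Tendsto (fun t => y1 b a (zz r t) / y0 b a (zz r t) +
      (((2 * b - 1 : ℂ) / 2) * (zz r t)⁻¹ + (kap b a (zz r t) + I * zz r t / 4) + qq b a (zz r t)))
      atTop (𝓝 0) := by
    have := h1.add ((h4.add h2).add h3)
    simpa using this
  have hsmall := hsum.norm
  rw [norm_zero] at hsmall
  have hev := hsmall.eventually (gt_mem_nhds (show (0 : ℝ) < 1 by norm_num))
  have hev2 := hsmall.eventually (gt_mem_nhds hη)
  have hkbig : ∀ᶠ t in atTop, 4 ≤ ‖VV b a (zz r t)‖ := VV_norm_ge_eventually 4 hr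
  filter_upwards [hev, hev2, y0_ne_eventually b ha0 hr, hkbig, eventually_ge_atTop (0 : ℝ)] with
    t e1 e2 hy hk ht
  have hz := zz_ne hr ht
  have hyp : 0 < ‖y0 b a (zz r t)‖ := norm_pos_iff.mpr hy
  set R := y1 b a (zz r t) / y0 b a (zz r t) +
      (((2 * b - 1 : ℂ) / 2) * (zz r t)⁻¹ + (kap b a (zz r t) + I * zz r t / 4) + qq b a (zz r t)) with hR
  have hX : XX b a (zz r t) = R * y0 b a (zz r t) := by
    rw [hR]
    unfold XX ss
    field_simp
    ring
  have hY : YY b a (zz r t) = (R - 2 * kap b a (zz r t)) * y0 b a (zz r t) := by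
    have := XX_sub_YY b a (zz r t)
    rw [hX] at this
    linear_combination -this
  have hk2 : 2 ≤ ‖kap b a (zz r t)‖ := by
    have := norm_kap_sq b a (zz r t)
    have h0 := norm_nonneg (kap b a (zz r t))
    nlinarith
  have h5 : 1 < ‖R - 2 * kap b a (zz r t)‖ := by
    have h6 := norm_sub_norm_le (2 * kap b a (zz r t)) R
    rw [norm_sub_rev, norm_mul] at h6
    simp only [RCLike.norm_ofNat] at h6
    linarith
  rw [hX, hY, norm_mul, norm_mul, ← mul_assoc]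
  apply mul_lt_mul_of_pos_right _ hyp
  calc ‖R‖ < η := e2
    _ = η * 1 := (mul_one _).symm
    _ < η * ‖R - 2 * kap b a (zz r t)‖ := by gcongr

end Crest.Agent.R086.Ext
end

-- ▼ part R086/Ext6

/-!
Row 86, exterior DtN (helper766), part 6: main theorem.
-/

set_option autoImplicit false

open MeasureTheory Complex Set Filter Topology

namespace Crest.Agent.R086.Ext

variable {r : ℝ}


theorem comp_zz {f : ℂ → ℂ} {f' : ℂ} {r t : ℝ} (h : HasDerivAt f f' (zz r t)) :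
    HasDerivAt (fun t : ℝ => f (zz r t)) (f' * uu) t := by
  have h1 : HasDerivAt (fun w : ℂ => r + uu * w) uu (t : ℂ) := by
    have := ((hasDerivAt_id (t : ℂ)).const_mul uu).const_add (r : ℂ)
    simpa using this
  have h2 : HasDerivAt (fun w : ℂ => f (r + uu * w)) (f' * uu) (t : ℂ) :=
    HasDerivAt.comp (t : ℂ) (h₂ := f) (h := fun w : ℂ => r + uu * w) h h1
  exact h2.comp_ofReal

/-- WKB comparison on the ray, all constants explicit. -/
theorem trapped {b : ℝ} {a : ℂ} {K η : ℝ} (hr : 0 < r) (hb : 6 ≤ b) (ha0 : 0 < a.re)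
    (ha : b / 2 - 3 ≤ a.re) (hK : 1 ≤ K) (hη : 0 < η) (hη1 : η ≤ 1 / 2)
    (hlow : ∀ t, 0 ≤ t → SS b r t + ‖zeta b a‖ ≤ K * ‖VV b a (zz r t)‖)
    (hbig : ∀ t, 0 ≤ t → 12 ≤ ‖VV b a (zz r t)‖)
    (hgap : ∀ t, 0 ≤ t → 6 * K ^ 2 < η * (NN r t * ‖VV b a (zz r t)‖)) :
    ∀ t, 0 ≤ t → ‖XX b a (zz r t)‖ < η * ‖YY b a (zz r t)‖ := by
  have hV0 : ∀ t, 0 ≤ t → VV b a (zz r t) ≠ 0 := fun t ht h => by
    have := hbig t ht
    rw [h] at this
    norm_num at this
  have hsl : ∀ t, 0 ≤ t → uu ^ 2 * VV b a (zz r t) ∈ slitPlane := fun t ht =>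
    slit (VV_im_le hb ha hr ht) (hbig t ht)
  have hk0 : ∀ t, 0 ≤ t → kap b a (zz r t) ≠ 0 := fun t ht h => by
    have := kap_sq b a (zz r t)
    rw [h] at this
    exact hV0 t ht (by rw [← this]; ring)
  have hzsq : ∀ t, 0 ≤ t → 0 < ((zz r t) ^ 2).re := fun t ht => by
    rw [zz_sq_re]
    exact XR_pos hr ht
  have cz : Continuous (fun t : ℝ => zz r t) := by
    unfold zz
    fun_prop
  have ck : ContinuousOn (fun t => kap b a (zz r t)) (Ici 0) := fun t ht =>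
    (comp_zz (hasDerivAt_kap b a (zz_ne hr ht) (hV0 t ht) (hsl t ht))).continuousAt.continuousWithinAt
  have cq : ContinuousOn (fun t => qq b a (zz r t)) (Ici 0) := fun t ht =>
    (comp_zz (hasDerivAt_qq b a (zz_ne hr ht) (hV0 t ht))).continuousAt.continuousWithinAt
  have cs : ContinuousOn (fun t => ss b (zz r t)) (Ici 0) := fun t ht =>
    (comp_zz (hasDerivAt_ss b (zz_ne hr ht))).continuousAt.continuousWithinAt
  have cV : ContinuousOn (fun t => VV b a (zz r t)) (Ici 0) := fun t ht =>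
    (comp_zz (hasDerivAt_VV b a (zz_ne hr ht))).continuousAt.continuousWithinAt
  have cV2 : ContinuousOn (fun t => VV2 b (zz r t)) (Ici 0) := by
    unfold VV2
    intro t ht
    have hz := zz_ne hr ht
    have : ContinuousAt (fun t => 6 * (msq b : ℂ) / zz r t ^ 4 - 1 / 8) t := by
      have h1 := cz.continuousAt (x := t)
      exact (continuousAt_const.div (h1.pow 4) (pow_ne_zero 4 hz)).sub continuousAt_const
    exact this.continuousWithinAt
  have cE : ContinuousOn (fun t => EE b a (zz r t)) (Ici 0) := by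
    unfold EE
    intro t ht
    have h1 := cq t ht
    have h2 := cV t ht
    have h3 := cV2 t ht
    exact (continuousWithinAt_const.mul (h1.pow 2)).sub
      (h3.div (continuousWithinAt_const.mul h2) (mul_ne_zero (by norm_num) (hV0 t ht)))
  refine trap (X := fun t => XX b a (zz r t)) (Y := fun t => YY b a (zz r t))
    (P := fun t => uu * (kap b a (zz r t) + qq b a (zz r t) - ss b (zz r t)))
    (M := fun t => uu * (-kap b a (zz r t) + qq b a (zz r t) - ss b (zz r t)))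
    (e := fun t => -(uu * EE b a (zz r t) / (2 * kap b a (zz r t)))) hη ?_ ?_ ?_ ?_ ?_ ?_
    (XY_eventually hb ha0 ha hr hη)
  · intro t ht
    refine (comp_zz (hasDerivAt_XX b ha0 (hzsq t ht) (zz_ne hr ht) (hV0 t ht) (hsl t ht))).congr_deriv ?_
    have hk := hk0 t ht
    rw [XX_sub_YY]
    field_simp
    ring
  · intro t ht
    refine (comp_zz (hasDerivAt_YY b ha0 (hzsq t ht) (zz_ne hr ht) (hV0 t ht) (hsl t ht))).congr_deriv ?_
    have hk := hk0 t ht
    rw [XX_sub_YY]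
    field_simp
    ring
  · exact continuousOn_const.mul ((ck.add cq).sub cs)
  · exact continuousOn_const.mul ((ck.neg.add cq).sub cs)
  · intro t ht
    have := hk0 t ht
    exact ((continuousWithinAt_const.mul (cE t ht)).div (continuousWithinAt_const.mul (ck t ht))
      (mul_ne_zero two_ne_zero this)).neg
  · intro t ht
    have hN := NN_pos hr ht
    have hS := SS_pos hb hr ht
    have hz0 : 0 ≤ ‖zeta b a‖ := norm_nonneg _
    have hVp : 0 < ‖VV b a (zz r t)‖ := by linarith [hbig t ht]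
    have hE := EE_le hb hr ht hK (by linarith [hlow t ht]) hVp
    have hg := hgap t ht
    have hre := re_uu_kap (VV_im_le hb ha hr ht) (hbig t ht)
    have hkn := norm_kap_sq b a (zz r t)
    have hkp : 0 < ‖kap b a (zz r t)‖ := norm_pos_iff.mpr (hk0 t ht)
    have e1 : (uu * (kap b a (zz r t) + qq b a (zz r t) - ss b (zz r t))).re -
      (uu * (-kap b a (zz r t) + qq b a (zz r t) - ss b (zz r t))).re = 2 * (uu * kap b a (zz r t)).re := by
      rw [← Complex.sub_re, show uu * (kap b a (zz r t) + qq b a (zz r t) - ss b (zz r t)) -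
        uu * (-kap b a (zz r t) + qq b a (zz r t) - ss b (zz r t)) =
        ((2 : ℝ) : ℂ) * (uu * kap b a (zz r t)) by push_cast; ring, Complex.re_ofReal_mul]
    change ‖-(uu * EE b a (zz r t) / (2 * kap b a (zz r t)))‖ * (1 + η) ^ 2 <
      η * ((uu * (kap b a (zz r t) + qq b a (zz r t) - ss b (zz r t))).re -
      (uu * (-kap b a (zz r t) + qq b a (zz r t) - ss b (zz r t))).re)
    rw [e1]
    set k := ‖kap b a (zz r t)‖ with hkdef
    set ρ := (uu * kap b a (zz r t)).re with hρ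
    have hρk : 7 / 10 * k ≤ ρ := by
      have h1 : (7 / 10 * k) ^ 2 ≤ ρ ^ 2 := by
        rw [mul_pow, hkn]
        linarith [hre.1]
      exact le_of_sq_le_sq h1 hre.2.le
    have hu : ‖uu‖ ≤ 9 / 4 := by
      have := norm_uu_sq
      have h0 := norm_nonneg uu
      nlinarith
    have hen : ‖-(uu * EE b a (zz r t) / (2 * kap b a (zz r t)))‖ ≤
        (9 / 4) * (3 * K ^ 2 / NN r t) / (2 * k) := by
      rw [norm_neg, norm_div, norm_mul, norm_mul]
      simp only [RCLike.norm_ofNat]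
      gcongr
    have h94 : (1 + η) ^ 2 ≤ 9 / 4 := by nlinarith
    have hfin : (9 / 4) * (3 * K ^ 2 / NN r t) / (2 * k) * (9 / 4) < η * (2 * (7 / 10 * k)) := by
      have hk2 : k ^ 2 = ‖VV b a (zz r t)‖ := hkn
      rw [← hk2] at hg
      have e3 : (9 / 4) * (3 * K ^ 2 / NN r t) / (2 * k) * (9 / 4) =
        (243 / 32) * K ^ 2 / (NN r t * k) := by
        field_simp
        ring
      rw [e3, div_lt_iff₀ (by positivity)]
      nlinarith
    calc _ ≤ (9 / 4) * (3 * K ^ 2 / NN r t) / (2 * k) * (9 / 4) := by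
          apply mul_le_mul hen h94 (by positivity)
          positivity
      _ < η * (2 * (7 / 10 * k)) := hfin
      _ ≤ η * (2 * ρ) := by gcongr

theorem zz_zero (r : ℝ) : zz r 0 = r := by simp [zz]

/-- **MAIN THEOREM (exterior DtN).** For every radius `r > 0` and non-glancing margin `δ > 0`
there are `C, Λ` such that for all `b ≥ 6`, all `a` with `Re a > 0`, `Re a ≥ b/2 - 3`,
`m² + |b/2 - a| ≥ Λ` and `|V(r)| ≥ δ (m² + |b/2 - a|)`:
the outgoing solution does not vanish at `r` and its logarithmic derivative has the WKB form. -/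
theorem dtn {r δ : ℝ} (hr : 0 < r) (hδ : 0 < δ) : ∃ C Λ : ℝ, 0 < C ∧ 1 ≤ Λ ∧
    ∀ (b : ℝ) (a : ℂ), 6 ≤ b → 0 < a.re → b / 2 - 3 ≤ a.re → Λ ≤ msq b + ‖(b : ℂ) / 2 - a‖ →
      δ * (msq b + ‖(b : ℂ) / 2 - a‖) ≤ ‖VV b a r‖ →
      y0 b a r ≠ 0 ∧ 12 ≤ ‖VV b a r‖ ∧ 0 < (uu * kap b a r).re ∧
      ‖y1 b a r / y0 b a r + ss b r + kap b a r + qq b a r‖ ≤ C / ‖kap b a r‖ := by
  obtain ⟨K, Λ, hK, hΛ1, hlow⟩ := VV_lower hr hδ
  set c0 : ℝ := min 1 (r ^ 2) with hc0
  have hc0p : 0 < c0 := lt_min one_pos (by positivity)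
  have hc01 : c0 ≤ 1 := min_le_left _ _
  set c3 : ℝ := 1 / r ^ 2 + r ^ 2 + 1 with hc3
  have hc3p : 0 < c3 := by positivity
  refine ⟨28 * K ^ 3 / c0 * c3, max Λ (max (24 ^ 2 * K ^ 2 + 12 * K) (14 * K ^ 3 / c0)), by positivity,
    hΛ1.trans (le_max_left _ _), ?_⟩
  intro b a hb ha0 ha hΛ' hng
  rw [← norm_zeta] at hΛ' hng
  set sz := msq b + ‖zeta b a‖ with hsz
  have hm := msq_pos hb
  have hz0 : 0 ≤ ‖zeta b a‖ := norm_nonneg _
  have hΛ : Λ ≤ sz := (le_max_left _ _).trans hΛ'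
  have hΛ2 : 24 ^ 2 * K ^ 2 + 12 * K ≤ sz := (le_max_left _ _).trans ((le_max_right _ _).trans hΛ')
  have hΛ3 : 14 * K ^ 3 / c0 ≤ sz := (le_max_right _ _).trans ((le_max_right _ _).trans hΛ')
  have hszp : 0 < sz := by linarith
  have hl := hlow b a hb ha hΛ hng
  -- `|V| ≥ 12` on the ray
  have hbig : ∀ t, 0 ≤ t → 12 ≤ ‖VV b a (zz r t)‖ := by
    intro t ht
    have h1 := hl t ht
    have h2 := SS_ge hb hr ht
    have h3 : 12 * K ≤ SS b r t + ‖zeta b a‖ := by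
      rcases le_total (12 * K) ‖zeta b a‖ with h | h
      · linarith [SS_pos hb hr ht]
      · have h14 : (24 * K) ^ 2 ≤ msq b := by
          rw [mul_pow]
          linarith
        have h15 : 24 * K ≤ Real.sqrt (msq b) := by
          rw [Real.le_sqrt (by positivity) hm.le]
          exact h14
        linarith
    have h4 : K * 12 ≤ K * ‖VV b a (zz r t)‖ := by linarith
    exact le_of_mul_le_mul_left h4 (by linarith)
  set η : ℝ := 7 * K ^ 3 / (c0 * sz) with hη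
  have hηp : 0 < η := by positivity
  have hη1 : η ≤ 1 / 2 := by
    rw [hη, div_le_div_iff₀ (by positivity) (by norm_num)]
    rw [div_le_iff₀ hc0p] at hΛ3
    linarith
  have hgap : ∀ t, 0 ≤ t → 6 * K ^ 2 < η * (NN r t * ‖VV b a (zz r t)‖) := by
    intro t ht
    have hN := NN_pos hr ht
    have hNr := NN_ge hr ht
    have h1 := hl t ht
    have h2 : msq b + NN r t * ‖zeta b a‖ ≤ NN r t * (SS b r t + ‖zeta b a‖) := by
      have : NN r t * SS b r t = msq b + NN r t ^ 2 / 16 := by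
        unfold SS
        field_simp
      have h0 : 0 ≤ NN r t ^ 2 / 16 := by positivity
      nlinarith
    have h3 : c0 * sz ≤ msq b + NN r t * ‖zeta b a‖ := by
      have e1 : c0 * msq b ≤ 1 * msq b := by gcongr
      have e2 : c0 * ‖zeta b a‖ ≤ NN r t * ‖zeta b a‖ := by
        gcongr
        exact (min_le_right _ _).trans hNr
      rw [hsz]
      linarith
    have h4 : NN r t * (SS b r t + ‖zeta b a‖) ≤ K * (NN r t * ‖VV b a (zz r t)‖) := by
      calc NN r t * (SS b r t + ‖zeta b a‖) ≤ NN r t * (K * ‖VV b a (zz r t)‖) := by gcongr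
        _ = _ := by ring
    have h5 : c0 * sz / K ≤ NN r t * ‖VV b a (zz r t)‖ := by
      rw [div_le_iff₀ (by linarith)]
      linarith
    calc 6 * K ^ 2 < 7 * K ^ 2 := by nlinarith
      _ = η * (c0 * sz / K) := by
          rw [hη]
          field_simp
      _ ≤ _ := by gcongr
  have key := trapped hr hb ha0 ha hK hηp hη1 hl hbig hgap 0 le_rfl
  rw [zz_zero] at key
  have hb0 := hbig 0 le_rfl
  rw [zz_zero] at hb0
  have hVim := VV_im_le hb ha hr (le_refl (0 : ℝ))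
  rw [zz_zero] at hVim
  have hre := re_uu_kap hVim hb0
  have hkn := norm_kap_sq b a r
  have hkp : 0 < ‖kap b a r‖ := by
    rw [norm_pos_iff]
    intro h
    rw [h] at hkn
    simp at hkn
    rw [← hkn] at hb0
    norm_num at hb0
  have hxy := XX_sub_YY b a r
  have hYp : 0 < ‖YY b a r‖ := by
    by_contra hcon
    have : ‖YY b a r‖ = 0 := le_antisymm (not_lt.mp hcon) (norm_nonneg _)
    rw [this, mul_zero] at key
    linarith [norm_nonneg (XX b a r)]
  have hdiff : ‖YY b a r‖ / 2 ≤ 2 * ‖kap b a r‖ * ‖y0 b a r‖ := by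
    have h1 : ‖2 * kap b a r * y0 b a r‖ = 2 * ‖kap b a r‖ * ‖y0 b a r‖ := by
      rw [norm_mul, norm_mul]
      simp
    rw [← h1, ← hxy, norm_sub_rev]
    have h2 := norm_sub_norm_le (YY b a r) (XX b a r)
    have h3 : η * ‖YY b a r‖ ≤ 1 / 2 * ‖YY b a r‖ := by gcongr
    linarith
  have hy0 : y0 b a r ≠ 0 := by
    intro h
    rw [h] at hdiff
    simp at hdiff
    linarith
  have hy0p : 0 < ‖y0 b a r‖ := norm_pos_iff.mpr hy0
  refine ⟨hy0, hb0, hre.2, ?_⟩
  have e : y1 b a r / y0 b a r + ss b r + kap b a r + qq b a r = XX b a r / y0 b a r := by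
    unfold XX
    field_simp
    ring
  rw [e, norm_div, div_le_div_iff₀ hy0p hkp]
  have h1 : ‖XX b a r‖ ≤ η * (4 * ‖kap b a r‖ * ‖y0 b a r‖) := by
    calc ‖XX b a r‖ ≤ η * ‖YY b a r‖ := key.le
      _ ≤ η * (4 * ‖kap b a r‖ * ‖y0 b a r‖) := by
          gcongr
          linarith
  -- `|V(r)| ≤ c3 sz`
  have hVup : ‖VV b a r‖ ≤ c3 * sz := by
    have h2 : ‖VV b a r‖ ≤ msq b / r ^ 2 + r ^ 2 / 16 + ‖zeta b a‖ := by
      have e2 : VV b a r = (msq b : ℂ) / r ^ 2 - r ^ 2 / 16 + zeta b a := by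
        unfold VV zeta
        ring
      rw [e2]
      refine (norm_add_le _ _).trans ?_
      gcongr
      refine (norm_sub_le _ _).trans ?_
      rw [norm_div, norm_div, norm_pow]
      simp only [Complex.norm_real, Real.norm_eq_abs, RCLike.norm_ofNat]
      rw [abs_of_pos hm, sq_abs]
    have h3 : 1 ≤ sz := hΛ1.trans hΛ
    have q1 : msq b / r ^ 2 ≤ 1 / r ^ 2 * sz := by
      rw [div_mul_eq_mul_div, one_mul]
      gcongr
      linarith
    have q2 : r ^ 2 / 16 ≤ r ^ 2 * sz := by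
      nlinarith [sq_nonneg r]
    have q3 : ‖zeta b a‖ ≤ 1 * sz := by linarith
    rw [hc3]
    nlinarith
  have hfin : η * (4 * ‖kap b a r‖ * ‖kap b a r‖) ≤ 28 * K ^ 3 / c0 * c3 := by
    have : 4 * ‖kap b a r‖ * ‖kap b a r‖ = 4 * ‖VV b a r‖ := by rw [← hkn]; ring
    rw [this]
    calc η * (4 * ‖VV b a r‖) ≤ η * (4 * (c3 * sz)) := by gcongr
      _ = 28 * K ^ 3 / c0 * c3 := by
          rw [hη]
          field_simp
          ring
  calc ‖XX b a r‖ * ‖kap b a r‖ ≤ η * (4 * ‖kap b a r‖ * ‖y0 b a r‖) * ‖kap b a r‖ := by gcongr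
    _ = η * (4 * ‖kap b a r‖ * ‖kap b a r‖) * ‖y0 b a r‖ := by ring
    _ ≤ _ := by gcongr

end Crest.Agent.R086.Ext
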