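import Mathlib
import Crest.Agent.R086.Disk
import Crest.Agent.R086.A4Alg

-- ▼ part R086/Fx
section

/-!
Row 86, Part A4 (helper444): kernel-evaluated fixed-point disc arithmetic (scale `2^32`) and the
driver for the certificates `A4.CertR`.
-/

set_option autoImplicit false

open Complex
open scoped ComplexConjugate

namespace Crest.Agent.R086.Fx

/-- disc `{w : |w·2^32 - (x + i y)| ≤ r}` -/
structure Dk where
  x : Int
  y : Int
  r : Nat

def S : Nat := 4294967296
def S2 : Nat := 18446744073709551616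
def H : Nat := 2147483648

def nb (x y : Int) : Nat :=
  let a := x.natAbs
  let b := y.natAbs
  bif Nat.ble a b then b + (a + 1) / 2 else a + (b + 1) / 2

def add (d e : Dk) : Dk := ⟨d.x + e.x, d.y + e.y, d.r + e.r⟩
def sub (d e : Dk) : Dk := ⟨d.x - e.x, d.y - e.y, d.r + e.r⟩
def cj (d : Dk) : Dk := ⟨d.x, -d.y, d.r⟩
def addi (d : Dk) (n : Int) : Dk := ⟨d.x + n, d.y, d.r⟩
def mul (d e : Dk) : Dk :=
  ⟨(d.x * e.x - d.y * e.y) / (S : Int), (d.x * e.y + d.y * e.x) / (S : Int),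
   (nb d.x d.y * e.r + nb e.x e.y * d.r + d.r * e.r) / S + 3⟩
def den (d : Dk) : Int := d.x * d.x + d.y * d.y - (d.r : Int) * d.r
def inv (d : Dk) : Dk :=
  ⟨(d.x * (S2 : Int)) / den d, (-d.y * (S2 : Int)) / den d, (d.r * S2) / (den d).toNat + 3⟩

def omc : Int := 1437852402
def rhoc : Int := 11618179439
def zD : Dk := ⟨0, -rhoc, 1000⟩
/-- enclosure of `a_k` -/
def aD (l : Nat) (lam : Dk) (k : Nat) : Dk :=
  ⟨lam.x + ((l * H + k * S : Nat) : Int), lam.y - omc, lam.r + 1000⟩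
def bI (l : Nat) : Int := (((l + 6) * S : Nat) : Int)

def stepK (l : Nat) (a iK : Dk) : Dk :=
  let am := addi a (-(S : Int))
  let ab := addi a (-(bI l))
  sub (addi (add zD (add am am)) (-(bI l))) (mul (mul am ab) iK)

/-- `run n iK`: `iK` encloses `1/K_{n+3}`; the result encloses `K_3` -/
def run (l : Nat) (lam : Dk) : Nat → Dk → Option Dk
  | 0, _ => none
  | 1, iK => some (stepK l (aD l lam 4) iK)
  | (m + 2), iK =>
    let K := stepK l (aD l lam (m + 5)) iK
    bif decide (0 < den K) then run l lam (m + 1) (inv K) else none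

def start (M : Nat) : Dk := ⟨((S / (2 * (M - 4)) : Nat) : Int), 0, S / (2 * (M - 4)) + 2⟩

def uyD (l : Nat) (lam K : Dk) : Dk × Dk :=
  let a3 := aD l lam 3
  let a2 := aD l lam 2
  let a1 := aD l lam 1
  let y2 := mul (addi a3 (-(S : Int))) (sub K (addi a3 (-(bI l))))
  let u1 := add (mul (add (addi a2 (-(bI l))) zD) K) y2
  let y1 := mul (addi a2 (-(S : Int))) (add y2 (mul zD K))
  let u0 := add (mul (add (addi a1 (-(bI l))) zD) u1) y1
  let y0 := mul (addi a1 (-(S : Int))) (add y1 (mul zD u1))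
  (u0, y0)

def PPd (l : Nat) (lam : Dk) : Dk :=
  let p := addi lam (S : Int)
  let p2 := mul p p
  match l with
  | 0 => mul (mul lam (addi lam (-(S : Int)))) (mul p2 p2)
  | 1 => mul (addi lam (-(H : Int))) (mul (mul p2 p2) p)
  | _ =>
    let q := addi lam ((S + H : Nat) : Int)
    let q2 := mul q q
    mul p2 (mul q2 q2)

def box (l M : Nat) (lam : Dk) : Bool :=
  match run l lam (M - 3) (start M), run l (cj lam) (M - 3) (start M) with
  | some K, some K' =>
    let p := uyD l lam K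
    let p' := uyD l (cj lam) K'
    let W := add (mul p.2 (cj p'.1)) (mul (cj p'.2) p.1)
    let v := mul W (cj (PPd l lam))
    decide ((v.r : Int) < v.x)
  | _, _ => false

/-- vertical side: half-widths -/
def vseg (l M : Nat) (x : Int) : Int → List Nat → Bool
  | _, [] => true
  | y, w :: ws => bif box l M ⟨x, y + w, w + 1⟩ then vseg l M x (y + 2 * w) ws else false

/-- horizontal side: half-widths -/
def hseg (l M : Nat) (y : Int) : Int → List Nat → Bool
  | _, [] => true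
  | x, w :: ws => bif box l M ⟨x + w, y, w + 1⟩ then hseg l M y (x + 2 * w) ws else false

/-! ### Soundness -/

noncomputable def ctr (d : Dk) : ℂ := (d.x : ℂ) + (d.y : ℂ) * I

def Mem (w : ℂ) (d : Dk) : Prop := ‖w * (S : ℂ) - ctr d‖ ≤ (d.r : ℝ)

theorem S_pos : (0 : ℝ) < (S : ℝ) := by norm_num [S]
theorem S_ne : (S : ℂ) ≠ 0 := by norm_num [S]
theorem norm_S : ‖(S : ℂ)‖ = (S : ℝ) := by simp

theorem norm_ctr_sq (d : Dk) : ‖ctr d‖ ^ 2 = (d.x : ℝ) ^ 2 + (d.y : ℝ) ^ 2 := by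
  rw [← Complex.normSq_eq_norm_sq, normSq_apply]
  simp [ctr]
  ring

theorem nb_le (d : Dk) : ‖ctr d‖ ≤ (nb d.x d.y : ℝ) := by
  apply le_of_sq_le_sq _ (Nat.cast_nonneg _)
  rw [norm_ctr_sq]
  have hx : ((d.x.natAbs : ℝ)) ^ 2 = (d.x : ℝ) ^ 2 := by
    rw [Nat.cast_natAbs]; push_cast; exact sq_abs _
  have hy : ((d.y.natAbs : ℝ)) ^ 2 = (d.y : ℝ) ^ 2 := by
    rw [Nat.cast_natAbs]; push_cast; exact sq_abs _
  rw [← hx, ← hy]
  unfold nb
  set a := d.x.natAbs
  set b := d.y.natAbs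
  have half : ∀ c : ℕ, (c : ℝ) / 2 ≤ ((c + 1) / 2 : ℕ) := by
    intro c
    have : c ≤ 2 * ((c + 1) / 2) := by omega
    have : (c : ℝ) ≤ 2 * (((c + 1) / 2 : ℕ) : ℝ) := by exact_mod_cast this
    linarith
  have ha0 : (0 : ℝ) ≤ a := Nat.cast_nonneg _
  have hb0 : (0 : ℝ) ≤ b := Nat.cast_nonneg _
  by_cases hab : a ≤ b
  · have h1 : Nat.ble a b = true := Nat.ble_eq.mpr hab
    simp only [h1, cond_true]
    have h2 := half a
    have h3 : (a : ℝ) ≤ b := by exact_mod_cast hab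
    push_cast
    nlinarith
  · have h1 : Nat.ble a b = false := by
      rw [← Bool.not_eq_true, Nat.ble_eq]; exact hab
    simp only [h1, cond_false]
    have h2 := half b
    have h3 : (b : ℝ) ≤ a := by
      have : b ≤ a := by omega
      exact_mod_cast this
    push_cast
    nlinarith

theorem floor_err (a b : Int) (hb : 0 < b) : |((a / b : Int) : ℝ) - (a : ℝ) / b| ≤ 1 := by
  have hb' : (0 : ℝ) < b := by exact_mod_cast hb
  have h1 : (a / b) * b ≤ a := Int.ediv_mul_le a hb.ne'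
  have h2 : a < (a / b + 1) * b := Int.lt_ediv_add_one_mul_self a hb
  have h1' : ((a / b : Int) : ℝ) * b ≤ a := by exact_mod_cast h1
  have h2' : (a : ℝ) < (((a / b : Int) : ℝ) + 1) * b := by exact_mod_cast h2
  rw [abs_le]
  constructor
  · have : (a : ℝ) / b ≤ ((a / b : Int) : ℝ) + 1 := by
      rw [div_le_iff₀ hb']; exact h2'.le
    linarith
  · have : ((a / b : Int) : ℝ) ≤ (a : ℝ) / b := by
      rw [le_div_iff₀ hb']; exact h1'
    linarith

theorem ctr_round (a c b : Int) (hb : 0 < b) :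
    ‖(((a : ℂ) + (c : ℂ) * I) / (b : ℂ)) - (((a / b : Int) : ℂ) + ((c / b : Int) : ℂ) * I)‖ ≤ 2 := by
  have e : (((a : ℂ) + (c : ℂ) * I) / (b : ℂ)) - (((a / b : Int) : ℂ) + ((c / b : Int) : ℂ) * I)
      = -(((((a / b : Int) : ℝ) - (a : ℝ) / b : ℝ) : ℂ)) +
        (-((((c / b : Int) : ℝ) - (c : ℝ) / b : ℝ) : ℂ)) * I := by
    push_cast
    ring
  rw [e]
  refine (norm_add_le _ _).trans ?_
  rw [norm_mul, norm_neg, norm_neg, Complex.norm_I, mul_one, Complex.norm_real, Complex.norm_real,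
    Real.norm_eq_abs, Real.norm_eq_abs]
  have h1 := floor_err a b hb
  have h2 := floor_err c b hb
  linarith

theorem nat_floor (a b : ℕ) (hb : 0 < b) : (a : ℝ) / b ≤ ((a / b : ℕ) : ℝ) + 1 := by
  have hb' : (0 : ℝ) < b := by exact_mod_cast hb
  rw [div_le_iff₀ hb']
  have : a < (a / b + 1) * b := by
    have := Nat.lt_div_mul_add (a := a) hb
    rw [add_mul, one_mul]; exact this
  exact_mod_cast this.le

theorem mem_add {w v : ℂ} {d e : Dk} (h1 : Mem w d) (h2 : Mem v e) : Mem (w + v) (add d e) := by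
  unfold Mem at *
  have e1 : (w + v) * (S : ℂ) - ctr (add d e) = (w * S - ctr d) + (v * S - ctr e) := by
    simp only [ctr, add]; push_cast; ring
  rw [e1]
  refine (norm_add_le _ _).trans ?_
  simp only [add]; push_cast
  linarith

theorem mem_sub {w v : ℂ} {d e : Dk} (h1 : Mem w d) (h2 : Mem v e) : Mem (w - v) (sub d e) := by
  unfold Mem at *
  have e1 : (w - v) * (S : ℂ) - ctr (sub d e) = (w * S - ctr d) - (v * S - ctr e) := by
    simp only [ctr, sub]; push_cast; ring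
  rw [e1]
  refine (norm_sub_le _ _).trans ?_
  simp only [sub]; push_cast
  linarith

theorem mem_cj {w : ℂ} {d : Dk} (h1 : Mem w d) : Mem (conj w) (cj d) := by
  unfold Mem at *
  have e1 : conj w * (S : ℂ) - ctr (cj d) = conj (w * S - ctr d) := by
    simp only [ctr, cj, map_sub, map_mul, map_add, conj_I, map_natCast, map_intCast]
    push_cast; ring
  rw [e1, Complex.norm_conj]
  exact h1

theorem mem_addi {w : ℂ} {d : Dk} (n : Int) (h1 : Mem w d) : Mem (w + (n : ℂ) / S) (addi d n) := by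
  unfold Mem at *
  have e1 : (w + (n : ℂ) / S) * (S : ℂ) - ctr (addi d n) = w * S - ctr d := by
    have := S_ne
    simp only [ctr, addi]; push_cast; field_simp; ring
  rw [e1]
  exact h1

theorem mem_mul {w v : ℂ} {d e : Dk} (h1 : Mem w d) (h2 : Mem v e) : Mem (w * v) (mul d e) := by
  unfold Mem at *
  set α := w * (S : ℂ) - ctr d with hα
  set β := v * (S : ℂ) - ctr e with hβ
  have hS := S_ne
  have hSp := S_pos
  have e0 : w * v * (S : ℂ) = (ctr d * ctr e) / S + (ctr d * β + ctr e * α + α * β) / S := by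
    have : (w * S) * (v * S) = (ctr d + α) * (ctr e + β) := by rw [hα, hβ]; ring
    field_simp
    linear_combination this
  have e1 : ctr d * ctr e = ((d.x * e.x - d.y * e.y : Int) : ℂ) + ((d.x * e.y + d.y * e.x : Int) : ℂ) * I := by
    have hI : I * I = -1 := Complex.I_mul_I
    simp only [ctr]; push_cast
    linear_combination ((d.y : ℂ) * e.y) * hI
  have e2 : w * v * (S : ℂ) - ctr (mul d e) =
      (ctr d * ctr e / S - ctr (mul d e)) + (ctr d * β + ctr e * α + α * β) / S := by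
    rw [e0]; ring
  rw [e2]
  have hr := ctr_round (d.x * e.x - d.y * e.y) (d.x * e.y + d.y * e.x) (S : Int) (by norm_num [S])
  have hr' : ‖ctr d * ctr e / S - ctr (mul d e)‖ ≤ 2 := by
    rw [e1]
    simp only [ctr, mul]
    have : ((S : Int) : ℂ) = (S : ℂ) := by push_cast; rfl
    rw [this] at hr
    exact hr
  set R : ℕ := nb d.x d.y * e.r + nb e.x e.y * d.r + d.r * e.r with hR
  have hbd : ‖(ctr d * β + ctr e * α + α * β) / (S : ℂ)‖ ≤ (R : ℝ) / S := by
    rw [norm_div, norm_S]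
    apply div_le_div_of_nonneg_right _ hSp.le
    have n1 := nb_le d
    have n2 := nb_le e
    calc ‖ctr d * β + ctr e * α + α * β‖ ≤ ‖ctr d * β‖ + ‖ctr e * α‖ + ‖α * β‖ := norm_add₃_le
      _ = ‖ctr d‖ * ‖β‖ + ‖ctr e‖ * ‖α‖ + ‖α‖ * ‖β‖ := by simp only [norm_mul]
      _ ≤ (nb d.x d.y : ℝ) * e.r + (nb e.x e.y : ℝ) * d.r + (d.r : ℝ) * e.r := by gcongr
      _ = (R : ℝ) := by rw [hR]; push_cast; ring
  have hfl := nat_floor R S (by norm_num [S])
  have hrad : (((mul d e).r : ℕ) : ℝ) = ((R / S : ℕ) : ℝ) + 3 := by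
    simp only [mul]; push_cast; rfl
  rw [hrad]
  refine (norm_add_le _ _).trans ?_
  linarith

theorem mem_inv {w : ℂ} {d : Dk} (hd : 0 < den d) (h1 : Mem w d) : w ≠ 0 ∧ Mem w⁻¹ (inv d) := by
  unfold Mem at *
  have hSp := S_pos
  have hden : ((den d : Int) : ℝ) = ‖ctr d‖ ^ 2 - (d.r : ℝ) ^ 2 := by
    rw [norm_ctr_sq]; simp only [den]; push_cast; ring
  have hdenp : (0 : ℝ) < (den d : Int) := by exact_mod_cast hd
  have hlt : ((d.r : ℝ)) ^ 2 < ‖ctr d‖ ^ 2 := by rw [hden] at hdenp; linarith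
  obtain ⟨h2, h3⟩ := Disk.inv_disk (Nat.cast_nonneg d.r) h1 hlt
  rw [← hden] at h3
  have hw : w ≠ 0 := by
    rintro rfl; simp at h2
  refine ⟨hw, ?_⟩
  have hS := S_ne
  set N : Int := den d with hN
  have hNc : ((N : Int) : ℂ) ≠ 0 := by exact_mod_cast hd.ne'
  have hS2 : ((S2 : ℕ) : ℂ) = (S : ℂ) * S := by norm_num [S, S2]
  have e0 : w⁻¹ * (S : ℂ) - ctr (inv d) =
      (S2 : ℂ) * ((w * S)⁻¹ - conj (ctr d) / (N : ℂ)) +
      ((S2 : ℂ) * conj (ctr d) / (N : ℂ) - ctr (inv d)) := by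
    rw [hS2]; field_simp; ring
  rw [e0]
  have hr := ctr_round (d.x * (S2 : Int)) (-d.y * (S2 : Int)) N hd
  have hr' : ‖(S2 : ℂ) * conj (ctr d) / (N : ℂ) - ctr (inv d)‖ ≤ 2 := by
    have e1 : (S2 : ℂ) * conj (ctr d) / (N : ℂ) =
        (((d.x * (S2 : Int) : Int) : ℂ) + ((-d.y * (S2 : Int) : Int) : ℂ) * I) / (N : ℂ) := by
      simp only [ctr, map_add, map_mul, conj_I, map_intCast]
      push_cast
      ring
    rw [e1]
    simp only [ctr, inv]
    exact hr
  have h3' : ‖(S2 : ℂ) * ((w * S)⁻¹ - conj (ctr d) / (N : ℂ))‖ ≤ (d.r * S2 : ℝ) / N := by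
    rw [norm_mul]
    have : ‖(S2 : ℂ)‖ = (S2 : ℝ) := by simp
    rw [this]
    have hcast : ((N : ℝ) : ℂ) = (N : ℂ) := by push_cast; rfl
    rw [hcast] at h3
    calc (S2 : ℝ) * _ ≤ (S2 : ℝ) * ((d.r : ℝ) / N) := by gcongr
      _ = _ := by ring
  have hNt : ((N.toNat : ℕ) : ℝ) = (N : ℝ) := by
    have : ((N.toNat : ℕ) : Int) = N := Int.toNat_of_nonneg hd.le
    exact_mod_cast congrArg (fun z : Int => (z : ℝ)) this
  have hfl := nat_floor (d.r * S2) N.toNat (by
    have : 0 < N := hd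
    omega)
  rw [hNt] at hfl
  have hrad : (((inv d).r : ℕ) : ℝ) = ((d.r * S2 / N.toNat : ℕ) : ℝ) + 3 := by
    simp only [inv]; push_cast; rfl
  rw [hrad]
  refine (norm_add_le _ _).trans ?_
  push_cast at hfl
  linarith

end Crest.Agent.R086.Fx
private theorem rz_3ebc368d4b : type_of% @_root_.Crest.Agent.R086.Fx.hseg.eq_def := @_root_.Crest.Agent.R086.Fx.hseg.eq_def -- L104
private theorem rz_5676b189ac : type_of% @_root_.Crest.Agent.R086.Fx.hseg.eq_1 := @_root_.Crest.Agent.R086.Fx.hseg.eq_1 -- L104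
private theorem rz_940f55158a : type_of% @_root_.Crest.Agent.R086.Fx.run.eq_def := @_root_.Crest.Agent.R086.Fx.run.eq_def -- L57
private theorem rz_4cce10a695 : type_of% @_root_.Crest.Agent.R086.Fx.run.eq_1 := @_root_.Crest.Agent.R086.Fx.run.eq_1 -- L57
private theorem rz_b676830463 : type_of% @_root_.Crest.Agent.R086.Fx.vseg.eq_def := @_root_.Crest.Agent.R086.Fx.vseg.eq_def -- L99
private theorem rz_10740d59c2 : type_of% @_root_.Crest.Agent.R086.Fx.vseg.eq_1 := @_root_.Crest.Agent.R086.Fx.vseg.eq_1 -- L99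
end

-- ▼ part R086/Fx2

/-!
Row 86, Part A4 (helper444): soundness of the certificate driver.
-/

set_option autoImplicit false

open Complex
open scoped ComplexConjugate

namespace Crest.Agent.R086.Fx

open Crest.Agent.R086.A4 (ak zz stp uy Wr Chain PP BdR CertR)

theorem div_S_one : (((-(S : Int) : Int)) : ℂ) / (S : ℂ) = -1 := by
  have := S_ne
  push_cast
  field_simp

theorem div_S_b (l : ℕ) : (((-(bI l) : Int)) : ℂ) / (S : ℂ) = -((l : ℂ) + 6) := by
  have := S_ne
  unfold bI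
  push_cast
  field_simp

theorem mem_sub_one {w : ℂ} {d : Dk} (h : Mem w d) : Mem (w - 1) (addi d (-(S : Int))) := by
  have := mem_addi (-(S : Int)) h
  rw [div_S_one] at this
  exact this

theorem mem_sub_b {w : ℂ} {d : Dk} (l : ℕ) (h : Mem w d) : Mem (w - ((l : ℂ) + 6)) (addi d (-(bI l))) := by
  have := mem_addi (-(bI l)) h
  rw [div_S_b] at this
  exact this

theorem mem_zz {rho : ℝ} (h1 : (2.7050680 : ℝ) ≤ rho) (h2 : rho ≤ 2.7050684) :
    Mem (zz rho) zD := by
  unfold Mem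
  have e : zz rho * (S : ℂ) - ctr zD = (((rhoc : ℝ) - rho * S : ℝ) : ℂ) * I := by
    simp only [zz, ctr, zD]; push_cast; ring
  rw [e, norm_mul, Complex.norm_I, mul_one, Complex.norm_real, Real.norm_eq_abs, abs_le]
  simp only [zD, rhoc, S]
  push_cast
  constructor <;> nlinarith

theorem mem_ak {om : ℝ} (h1 : (0.3347760 : ℝ) ≤ om) (h2 : om ≤ 0.3347762) {lam : ℂ} {d : Dk}
    (h : Mem lam d) (l k : ℕ) : Mem (ak l om lam k) (aD l d k) := by
  unfold Mem at *
  have hH : ((H : ℕ) : ℂ) = (S : ℂ) / 2 := by norm_num [H, S]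
  have e : ak l om lam k * (S : ℂ) - ctr (aD l d k) =
      (lam * (S : ℂ) - ctr d) + (((omc : ℝ) - om * S : ℝ) : ℂ) * I := by
    simp only [ak, ctr, aD]; push_cast; rw [hH]; ring
  rw [e]
  refine (norm_add_le _ _).trans ?_
  have h3 : ‖(((omc : ℝ) - om * S : ℝ) : ℂ) * I‖ ≤ 1000 := by
    rw [norm_mul, Complex.norm_I, mul_one, Complex.norm_real, Real.norm_eq_abs, abs_le]
    simp only [omc, S]
    push_cast
    constructor <;> nlinarith
  have hr : (((aD l d k).r : ℕ) : ℝ) = (d.r : ℝ) + 1000 := by simp [aD]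
  rw [hr]
  exact add_le_add h h3

theorem mem_stepK {l : ℕ} {z a w : ℂ} {ad wd : Dk} (hz : Mem z zD) (ha : Mem a ad) (hw : Mem w wd) :
    Mem ((z + ((a - 1) + (a - 1))) - ((l : ℂ) + 6) - (a - 1) * (a - ((l : ℂ) + 6)) * w)
      (stepK l ad wd) := by
  unfold stepK
  have h1 := mem_sub_one ha
  have h2 := mem_sub_b l ha
  exact mem_sub (mem_sub_b l (mem_add hz (mem_add h1 h1))) (mem_mul (mem_mul h1 h2) hw)

/-- `K_k` -/
noncomputable def Kf (l : ℕ) (om rho : ℝ) (lam : ℂ) (g : ℕ → ℂ) (k : ℕ) : ℂ :=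
  g k + zz rho + ak l om lam k - ((l : ℂ) + 6)

theorem Kf_rec {l : ℕ} {om rho : ℝ} {lam : ℂ} {g : ℕ → ℂ} {k : ℕ}
    (hg : g k = (ak l om lam (k + 1) - 1) * (g (k + 1) + zz rho) /
      (g (k + 1) + zz rho + ak l om lam (k + 1) - (l + 6)))
    (hK : Kf l om rho lam g (k + 1) ≠ 0) :
    Kf l om rho lam g k = (zz rho + ((ak l om lam (k + 1) - 1) + (ak l om lam (k + 1) - 1)))
      - ((l : ℂ) + 6) - (ak l om lam (k + 1) - 1) * (ak l om lam (k + 1) - ((l : ℂ) + 6)) *
        (Kf l om rho lam g (k + 1))⁻¹ := by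
  have ha : ak l om lam k = ak l om lam (k + 1) - 1 := by
    unfold ak; push_cast; ring
  have hK' : g (k + 1) + zz rho + ak l om lam (k + 1) - (l + 6) ≠ 0 := hK
  unfold Kf at *
  rw [hg, ha]
  field_simp
  ring

theorem run_sound {l : ℕ} {om rho : ℝ} {lam : ℂ} {ld : Dk} (hz : Mem (zz rho) zD)
    (ha : ∀ k, Mem (ak l om lam k) (aD l ld k)) {g : ℕ → ℂ} :
    ∀ (n : ℕ) (iK K3 : Dk),
      (∀ k : ℕ, 3 ≤ k → k < n + 3 → g k = (ak l om lam (k + 1) - 1) * (g (k + 1) + zz rho) /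
        (g (k + 1) + zz rho + ak l om lam (k + 1) - (l + 6))) →
      Kf l om rho lam g (n + 3) ≠ 0 → Mem (Kf l om rho lam g (n + 3))⁻¹ iK →
      run l ld n iK = some K3 → Mem (Kf l om rho lam g 3) K3 := by
  intro n
  induction n with
  | zero => intro iK K3 _ _ _ h; simp [run] at h
  | succ n ih =>
    intro iK K3 hg hK hM h
    rcases n with _ | m
    · have hr := Kf_rec (hg 3 le_rfl (by norm_num)) hK
      simp only [run, Option.some.injEq] at h
      rw [hr, ← h]
      exact mem_stepK hz (ha 4) hM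
    · have hr := Kf_rec (hg (m + 4) (by omega) (by omega)) hK
      have hM' : Mem (Kf l om rho lam g (m + 4)) (stepK l (aD l ld (m + 5)) iK) := by
        rw [hr]
        exact mem_stepK hz (ha (m + 5)) hM
      simp only [run] at h
      by_cases hd : 0 < den (stepK l (aD l ld (m + 5)) iK)
      · simp only [hd, decide_true, cond_true] at h
        obtain ⟨h1, h2⟩ := mem_inv hd hM'
        exact ih _ K3 (fun k hk1 hk2 => hg k hk1 (by omega)) h1 h2 h
      · simp [hd] at h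

theorem mem_start {K : ℂ} {M : ℕ} (hM : 5 ≤ M) (hK : (M : ℝ) - 4 ≤ K.re) :
    K ≠ 0 ∧ Mem K⁻¹ (start M) := by
  have hM' : (5 : ℝ) ≤ M := by exact_mod_cast hM
  set c : ℝ := (M : ℝ) - 4 with hc
  have hc1 : 1 ≤ c := by linarith
  have hK0 : K ≠ 0 := by rintro rfl; simp at hK; linarith
  refine ⟨hK0, ?_⟩
  have hKn : 0 < ‖K‖ := norm_pos_iff.mpr hK0
  have h1 : ‖(2 * c : ℂ) - K‖ ≤ ‖K‖ := by
    apply le_of_sq_le_sq _ hKn.le
    rw [← Complex.normSq_eq_norm_sq, ← Complex.normSq_eq_norm_sq, normSq_apply, normSq_apply]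
    simp only [Complex.sub_re, Complex.sub_im, Complex.mul_re, Complex.mul_im, Complex.ofReal_re,
      Complex.ofReal_im, Complex.re_ofNat, Complex.im_ofNat]
    nlinarith
  have hcc : ((c : ℝ) : ℂ) ≠ 0 := by
    have : c ≠ 0 := by linarith
    exact_mod_cast this
  have h2 : ‖K⁻¹ - 1 / (2 * (c : ℂ))‖ ≤ 1 / (2 * c) := by
    have e : K⁻¹ - 1 / (2 * (c : ℂ)) = ((2 * c : ℂ) - K) / (2 * c * K) := by field_simp
    rw [e, norm_div, norm_mul, norm_mul, Complex.norm_real, Real.norm_of_nonneg (by linarith),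
      div_le_div_iff₀ (by simp; positivity) (by linarith)]
    simp only [Complex.norm_ofNat]
    nlinarith
  unfold Mem
  have hnat : ((2 * (M - 4) : ℕ) : ℝ) = 2 * c := by
    rw [hc]; push_cast [Nat.cast_sub (show 4 ≤ M by omega)]; ring
  have hpos : 0 < 2 * (M - 4) := by omega
  have hfl := nat_floor S (2 * (M - 4)) hpos
  rw [hnat] at hfl
  have hfe := floor_err (S : Int) ((2 * (M - 4) : ℕ) : Int) (by exact_mod_cast hpos)
  have hcast : (((S : Int) / ((2 * (M - 4) : ℕ) : Int) : Int) : ℝ) = ((S / (2 * (M - 4)) : ℕ) : ℝ) := by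
    norm_cast
  rw [hcast] at hfe
  have hcast2 : ((((2 * (M - 4) : ℕ) : Int)) : ℝ) = 2 * c := by
    rw [← hnat]; norm_cast
  rw [hcast2] at hfe
  have e : K⁻¹ * (S : ℂ) - ctr (start M) =
      (S : ℂ) * (K⁻¹ - 1 / (2 * (c : ℂ))) -
        ((((S / (2 * (M - 4)) : ℕ) : ℝ) - ((S : Int) : ℝ) / (2 * c) : ℝ) : ℂ) := by
    simp only [ctr, start, Int.cast_natCast, Complex.ofReal_sub, Complex.ofReal_natCast,
      Complex.ofReal_div, Complex.ofReal_mul, Complex.ofReal_ofNat, Int.cast_zero, zero_mul,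
      add_zero]
    ring
  rw [e]
  refine (norm_sub_le _ _).trans ?_
  rw [norm_mul, norm_S, Complex.norm_real, Real.norm_eq_abs]
  have h3 : (S : ℝ) * ‖K⁻¹ - 1 / (2 * (c : ℂ))‖ ≤ (S : ℝ) / (2 * c) := by
    have := mul_le_mul_of_nonneg_left h2 S_pos.le
    calc _ ≤ (S : ℝ) * (1 / (2 * c)) := this
      _ = _ := by ring
  have hrad : (((start M).r : ℕ) : ℝ) = ((S / (2 * (M - 4)) : ℕ) : ℝ) + 2 := by
    simp only [start]; push_cast; rfl
  rw [hrad]
  linarith

theorem mem_uy {l : ℕ} {om rho : ℝ} {lam : ℂ} {ld K : Dk} (hz : Mem (zz rho) zD)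
    (ha : ∀ k, Mem (ak l om lam k) (aD l ld k)) {g : ℕ → ℂ} (hK : Mem (Kf l om rho lam g 3) K) :
    Mem (uy l om rho lam (g 3)).1 (uyD l ld K).1 ∧ Mem (uy l om rho lam (g 3)).2 (uyD l ld K).2 := by
  set a1 := ak l om lam 1
  set a2 := ak l om lam 2
  set a3 := ak l om lam 3 with ha3
  set z := zz rho
  set k3 := Kf l om rho lam g 3 with hk3
  have hy2 : Mem ((a3 - 1) * (k3 - (a3 - ((l : ℂ) + 6))))
      (mul (addi (aD l ld 3) (-(S : Int))) (sub K (addi (aD l ld 3) (-(bI l))))) :=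
    mem_mul (mem_sub_one (ha 3)) (mem_sub hK (mem_sub_b l (ha 3)))
  set y2 := (a3 - 1) * (k3 - (a3 - ((l : ℂ) + 6))) with hy2e
  have hu1 := mem_add (mem_mul (mem_add (mem_sub_b l (ha 2)) hz) hK) hy2
  have hy1 := mem_mul (mem_sub_one (ha 2)) (mem_add hy2 (mem_mul hz hK))
  have hu0 := mem_add (mem_mul (mem_add (mem_sub_b l (ha 1)) hz) hu1) hy1
  have hy0 := mem_mul (mem_sub_one (ha 1)) (mem_add hy1 (mem_mul hz hu1))
  have e : uy l om rho lam (g 3) =
      ((a1 - ((l : ℂ) + 6) + z) * ((a2 - ((l : ℂ) + 6) + z) * k3 + y2) + (a2 - 1) * (y2 + z * k3),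
       (a1 - 1) * ((a2 - 1) * (y2 + z * k3) + z * ((a2 - ((l : ℂ) + 6) + z) * k3 + y2))) := by
    have e3 : stp l z a3 (1, g 3) = (k3, y2) := by
      rw [hy2e, hk3]
      unfold stp Kf
      ext1
      · simp only; ring
      · simp only; ring
    unfold uy
    rw [e3]
    rfl
  rw [e]
  exact ⟨hu0, hy0⟩

theorem mem_PP {l : ℕ} (hl : l ≤ 2) {lam : ℂ} {ld : Dk} (h : Mem lam ld) :
    Mem (PP l lam) (PPd l ld) := by
  have hp : Mem (lam + 1) (addi ld (S : Int)) := by
    have := mem_addi (S : Int) h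
    have e : (((S : Int)) : ℂ) / (S : ℂ) = 1 := by
      have := S_ne; push_cast; field_simp
    rw [e] at this; exact this
  have hp2 := mem_mul hp hp
  interval_cases l
  · have h1 := mem_mul (mem_mul h (mem_sub_one h)) (mem_mul hp2 hp2)
    have e : PP 0 lam = lam * (lam - 1) * ((lam + 1) * (lam + 1) * ((lam + 1) * (lam + 1))) := by
      simp only [PP]; ring
    rw [e]; exact h1
  · have hh : Mem (lam - 1 / 2) (addi ld (-(H : Int))) := by
      have := mem_addi (-(H : Int)) h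
      have e : (((-(H : Int) : Int)) : ℂ) / (S : ℂ) = -(1 / 2) := by
        norm_num [H, S]
      rw [e] at this; exact this
    have h1 := mem_mul hh (mem_mul (mem_mul hp2 hp2) hp)
    have e : PP 1 lam = (lam - 1 / 2) *
        ((lam + 1) * (lam + 1) * ((lam + 1) * (lam + 1)) * (lam + 1)) := by
      simp only [PP]; ring
    rw [e]; exact h1
  · have hq : Mem (lam + 3 / 2) (addi ld ((S + H : Nat) : Int)) := by
      have := mem_addi ((S + H : Nat) : Int) h
      have e : ((((S + H : Nat) : Int)) : ℂ) / (S : ℂ) = 3 / 2 := by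
        norm_num [H, S]
      rw [e] at this; exact this
    have hq2 := mem_mul hq hq
    have h1 := mem_mul hp2 (mem_mul hq2 hq2)
    have e : PP 2 lam = (lam + 1) * (lam + 1) *
        ((lam + 3 / 2) * (lam + 3 / 2) * ((lam + 3 / 2) * (lam + 3 / 2))) := by
      simp only [PP]; ring
    rw [e]; exact h1

theorem pos_of_mem {w : ℂ} {d : Dk} (h : Mem w d) (hd : (d.r : Int) < d.x) : 0 < w.re := by
  unfold Mem at h
  have h1 := (Complex.abs_re_le_norm _).trans h
  have h2 : (w * (S : ℂ) - ctr d).re = w.re * S - d.x := by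
    simp only [ctr, Complex.sub_re, Complex.mul_re, Complex.add_re, Complex.natCast_re,
      Complex.natCast_im, Complex.intCast_re, Complex.intCast_im, Complex.I_re, Complex.I_im]
    ring
  rw [h2, abs_le] at h1
  have h3 : (d.r : ℝ) < (d.x : ℝ) := by exact_mod_cast hd
  have h4 : 0 < w.re * (S : ℝ) := by linarith [h1.1]
  exact pos_of_mul_pos_left h4 S_pos.le

theorem ak_re (l : ℕ) (om : ℝ) (lam : ℂ) (k : ℕ) :
    (ak l om lam k).re = lam.re + (l : ℝ) / 2 + k := by
  have : ((l : ℂ) / 2) = (((l : ℝ) / 2 : ℝ) : ℂ) := by push_cast; ring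
  unfold ak
  rw [this]
  simp

theorem Kf_start {l M : ℕ} {om rho : ℝ} {lam : ℂ} {g : ℕ → ℂ} (hre : -(1 / 2) ≤ lam.re)
    (hg : ((l : ℝ) + 5) / 2 ≤ (g M).re) : (M : ℝ) - 4 ≤ (Kf l om rho lam g M).re := by
  have hz : (zz rho).re = 0 := by simp [zz]
  have hl : (((l : ℂ) + 6)).re = (l : ℝ) + 6 := by simp
  unfold Kf
  rw [Complex.sub_re, Complex.add_re, Complex.add_re, hz, ak_re, hl]
  linarith

theorem box_sound {l M : ℕ} (hl : l ≤ 2) (hM : 5 ≤ M) {om rho : ℝ}
    (ho1 : (0.3347760 : ℝ) ≤ om) (ho2 : om ≤ 0.3347762)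
    (hr1 : (2.7050680 : ℝ) ≤ rho) (hr2 : rho ≤ 2.7050684) {lam : ℂ} {ld : Dk}
    (h : Mem lam ld) (hre : -(1 / 2) ≤ lam.re) (hb : box l M ld = true) {g g' : ℕ → ℂ}
    (hc : Chain l om rho lam M g) (hc' : Chain l om rho (conj lam) M g') :
    0 < (Wr l om rho lam (g 3) (g' 3) * conj (PP l lam)).re := by
  have hz := mem_zz hr1 hr2
  have ha := fun k => mem_ak ho1 ho2 h l k
  have h' := mem_cj h
  have ha' := fun k => mem_ak ho1 ho2 h' l k
  have hre' : -(1 / 2) ≤ (conj lam).re := by rw [Complex.conj_re]; exact hre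
  obtain ⟨k0, s0⟩ := mem_start hM (Kf_start (om := om) (rho := rho) hre hc.1)
  obtain ⟨k0', s0'⟩ := mem_start hM (Kf_start (om := om) (rho := rho) hre' hc'.1)
  have hMe : M - 3 + 3 = M := by omega
  unfold box at hb
  rcases hK : run l ld (M - 3) (start M) with _ | K
  · simp [hK] at hb
  rcases hK' : run l (cj ld) (M - 3) (start M) with _ | K'
  · simp [hK, hK'] at hb
  simp only [hK, hK', decide_eq_true_eq] at hb
  have m1 := run_sound hz ha (g := g) (M - 3) (start M) K (by rw [hMe]; exact hc.2)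
    (by rw [hMe]; exact k0) (by rw [hMe]; exact s0) hK
  have m2 := run_sound hz ha' (g := g') (M - 3) (start M) K' (by rw [hMe]; exact hc'.2)
    (by rw [hMe]; exact k0') (by rw [hMe]; exact s0') hK'
  obtain ⟨u1, y1⟩ := mem_uy hz ha m1
  obtain ⟨u2, y2⟩ := mem_uy hz ha' m2
  have hW := mem_add (mem_mul y1 (mem_cj u2)) (mem_mul (mem_cj y2) u1)
  exact pos_of_mem (mem_mul hW (mem_cj (mem_PP hl h))) hb

/-! ### covering the sides -/

theorem mem_box_v {lam : ℂ} {x y : Int} {w : ℕ} (hx : |lam.re * S - x| ≤ 1)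
    (h1 : (y : ℝ) ≤ lam.im * S) (h2 : lam.im * S ≤ y + 2 * w) : Mem lam ⟨x, y + w, w + 1⟩ := by
  unfold Mem
  have e : lam * (S : ℂ) - ctr ⟨x, y + w, w + 1⟩ =
      ((lam.re * S - x : ℝ) : ℂ) + ((lam.im * S - (y + w) : ℝ) : ℂ) * I := by
    apply Complex.ext <;> simp [ctr]
  rw [e]
  refine (norm_add_le _ _).trans ?_
  rw [norm_mul, Complex.norm_I, mul_one, Complex.norm_real, Complex.norm_real, Real.norm_eq_abs,
    Real.norm_eq_abs]
  have : |lam.im * (S : ℝ) - (y + w)| ≤ w := by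
    rw [abs_le]; constructor <;> linarith
  push_cast
  linarith

theorem mem_box_h {lam : ℂ} {x y : Int} {w : ℕ} (hy : |lam.im * S - y| ≤ 1)
    (h1 : (x : ℝ) ≤ lam.re * S) (h2 : lam.re * S ≤ x + 2 * w) : Mem lam ⟨x + w, y, w + 1⟩ := by
  unfold Mem
  have e : lam * (S : ℂ) - ctr ⟨x + w, y, w + 1⟩ =
      ((lam.re * S - (x + w) : ℝ) : ℂ) + ((lam.im * S - y : ℝ) : ℂ) * I := by
    apply Complex.ext <;> simp [ctr]
  rw [e]
  refine (norm_add_le _ _).trans ?_
  rw [norm_mul, Complex.norm_I, mul_one, Complex.norm_real, Complex.norm_real, Real.norm_eq_abs,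
    Real.norm_eq_abs]
  have : |lam.re * (S : ℝ) - (x + w)| ≤ w := by
    rw [abs_le]; constructor <;> linarith
  push_cast
  linarith

/-- a point covered by a good box -/
def Good (l M : ℕ) (lam : ℂ) : Prop := ∃ d : Dk, Mem lam d ∧ box l M d = true

theorem vseg_sound {l M : ℕ} {lam : ℂ} {x : Int} (hx : |lam.re * S - x| ≤ 1) :
    ∀ (ws : List ℕ) (y : Int), vseg l M x y ws = true → (y : ℝ) ≤ lam.im * S →
      lam.im * S ≤ y + 2 * (ws.sum : ℝ) → ws ≠ [] → Good l M lam := by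
  intro ws
  induction ws with
  | nil => intro y _ _ _ h; exact absurd rfl h
  | cons w ws ih =>
    intro y h h1 h2 _
    simp only [vseg] at h
    by_cases hb : box l M ⟨x, y + w, w + 1⟩ = true
    · simp only [hb, cond_true] at h
      by_cases h3 : lam.im * S ≤ y + 2 * w
      · exact ⟨_, mem_box_v hx h1 h3, hb⟩
      · push Not at h3
        have h2' : lam.im * (S : ℝ) ≤ ((y + 2 * w : Int) : ℝ) + 2 * (ws.sum : ℝ) := by
          push_cast
          simp only [List.sum_cons] at h2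
          push_cast at h2
          linarith
        refine ih (y + 2 * w) h (by push_cast; linarith) h2' ?_
        rintro rfl
        simp at h2'
        linarith
    · simp only [Bool.not_eq_true] at hb
      simp [hb] at h

theorem hseg_sound {l M : ℕ} {lam : ℂ} {y : Int} (hy : |lam.im * S - y| ≤ 1) :
    ∀ (ws : List ℕ) (x : Int), hseg l M y x ws = true → (x : ℝ) ≤ lam.re * S →
      lam.re * S ≤ x + 2 * (ws.sum : ℝ) → ws ≠ [] → Good l M lam := by
  intro ws
  induction ws with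
  | nil => intro x _ _ _ h; exact absurd rfl h
  | cons w ws ih =>
    intro x h h1 h2 _
    simp only [hseg] at h
    by_cases hb : box l M ⟨x + w, y, w + 1⟩ = true
    · simp only [hb, cond_true] at h
      by_cases h3 : lam.re * S ≤ x + 2 * w
      · exact ⟨_, mem_box_h hy h1 h3, hb⟩
      · push Not at h3
        have h2' : lam.re * (S : ℝ) ≤ ((x + 2 * w : Int) : ℝ) + 2 * (ws.sum : ℝ) := by
          push_cast
          simp only [List.sum_cons] at h2
          push_cast at h2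
          linarith
        refine ih (x + 2 * w) h (by push_cast; linarith) h2' ?_
        rintro rfl
        simp at h2'
        linarith
    · simp only [Bool.not_eq_true] at hb
      simp [hb] at h

theorem PP_conj (l : ℕ) (lam : ℂ) : PP l (conj lam) = conj (PP l lam) := by
  match l with
  | 0 => simp [PP]
  | 1 => simp [PP, Complex.conj_ofNat]
  | 2 => simp [PP, Complex.conj_ofNat]
  | (n + 3) => simp [PP, Complex.conj_ofNat]

theorem Wr_conj (l : ℕ) (om rho : ℝ) (lam g g' : ℂ) :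
    Wr l om rho (conj lam) g' g = conj (Wr l om rho lam g g') := by
  unfold Wr
  simp only [map_add, map_mul, Complex.conj_conj]
  ring

/-- all points of the half boundary `im ≥ 0` good ⇒ certificate -/
theorem certR_of {l M : ℕ} (hl : l ≤ 2) (hM : 5 ≤ M) {x0 x1 T : ℝ} (hx0 : -(1 / 2) ≤ x0)
    (hx01 : x0 ≤ x1)
    (hgood : ∀ lam : ℂ, lam ∈ BdR x0 x1 T → 0 ≤ lam.im → Good l M lam) {om rho : ℝ}
    (ho1 : (0.3347760 : ℝ) ≤ om) (ho2 : om ≤ 0.3347762)
    (hr1 : (2.7050680 : ℝ) ≤ rho) (hr2 : rho ≤ 2.7050684) : CertR l om rho x0 x1 T M := by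
  intro lam hlam g g' hc hc'
  have hre : ∀ lam : ℂ, lam ∈ BdR x0 x1 T → -(1 / 2) ≤ lam.re := by
    intro lam h
    rcases h with h | h | h
    · rw [h.1]; exact hx0
    · linarith [h.2.1]
    · rw [h.1]; linarith
  rcases le_total 0 lam.im with hi | hi
  · obtain ⟨d, hd, hb⟩ := hgood lam hlam hi
    exact box_sound hl hM ho1 ho2 hr1 hr2 hd (hre lam hlam) hb hc hc'
  · have hlam' : conj lam ∈ BdR x0 x1 T := by
      unfold BdR at *
      simp only [Set.mem_ofPred_eq, Complex.conj_re, Complex.conj_im, abs_neg] at *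
      exact hlam
    obtain ⟨d, hd, hb⟩ := hgood (conj lam) hlam' (by rw [Complex.conj_im]; linarith)
    have hcc : Chain l om rho (conj (conj lam)) M g := by rw [Complex.conj_conj]; exact hc
    have := box_sound hl hM ho1 ho2 hr1 hr2 hd (hre _ hlam') hb hc' hcc
    rw [Wr_conj, PP_conj, Complex.conj_conj] at this
    have e : (Wr l om rho lam (g 3) (g' 3) * conj (PP l lam)).re
        = (conj (Wr l om rho lam (g 3) (g' 3)) * PP l lam).re := by
      rw [← Complex.conj_re]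
      simp only [map_mul, Complex.conj_conj]
    rw [e]
    exact this

end Crest.Agent.R086.Fx
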