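import Mathlib

-- ▼ part R086/TorA
section

/-!
Row 86, part D, torus side (helper327), file A.
Fourier series of continuous / smooth `2π`-periodic functions on `EuclideanSpace ℝ (Fin d)`.
-/

set_option autoImplicit false

noncomputable section

open scoped BigOperators ComplexConjugate ContDiff ENNReal
open Filter MeasureTheory Complex

namespace Crest.Agent.R086.Tor

/-- normalised measure on `ℝ / ℤ`. -/
local instance : MeasureSpace UnitAddCircle := ⟨AddCircle.haarAddCircle⟩
local instance : Measure.IsAddHaarMeasure (volume : Measure UnitAddCircle) :=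
  inferInstanceAs (Measure.IsAddHaarMeasure AddCircle.haarAddCircle)
local instance : IsProbabilityMeasure (volume : Measure UnitAddCircle) :=
  inferInstanceAs (IsProbabilityMeasure AddCircle.haarAddCircle)

variable {d : ℕ}

/-- integer frequency as a vector. -/
def kv (k : Fin d → ℤ) : EuclideanSpace ℝ (Fin d) := WithLp.toLp 2 fun i => (k i : ℝ)

@[simp] lemma kv_apply (k : Fin d → ℤ) (i : Fin d) : kv k i = (k i : ℝ) := rfl


lemma kv_neg (k : Fin d → ℤ) : kv (-k) = - kv k := by
  ext i; simp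

@[simp] lemma kv_zero : kv (0 : Fin d → ℤ) = 0 := by
  ext i; simp


/-- the weight `1 + |k|`. -/
def wt (k : Fin d → ℤ) : ℝ := 1 + ‖kv k‖

lemma one_le_wt (k : Fin d → ℤ) : 1 ≤ wt k := by unfold wt; linarith [norm_nonneg (kv k)]
lemma wt_pos (k : Fin d → ℤ) : 0 < wt k := lt_of_lt_of_le one_pos (one_le_wt k)


lemma abs_le_wt (k : Fin d → ℤ) (i : Fin d) : |(k i : ℝ)| ≤ ‖kv k‖ := by
  have := PiLp.norm_apply_le (kv k) i
  simpa using this

/-- the character `exp(i k·x)`. -/
def ek (k : Fin d → ℤ) (x : EuclideanSpace ℝ (Fin d)) : ℂ :=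
  Complex.exp (I * ((inner ℝ (kv k) x : ℝ) : ℂ))

lemma ek_eq (k : Fin d → ℤ) (x : EuclideanSpace ℝ (Fin d)) :
    ek k x = Complex.exp (((inner ℝ (kv k) x : ℝ) : ℂ) * I) := by
  unfold ek; rw [mul_comm]

lemma inner_kv (k : Fin d → ℤ) (x : EuclideanSpace ℝ (Fin d)) :
    inner ℝ (kv k) x = ∑ i, (k i : ℝ) * x i := by
  rw [PiLp.inner_apply]
  refine Finset.sum_congr rfl fun i _ => ?_
  simp [kv, mul_comm]

@[simp] lemma norm_ek (k : Fin d → ℤ) (x : EuclideanSpace ℝ (Fin d)) : ‖ek k x‖ = 1 := by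
  rw [ek_eq, Complex.norm_exp_ofReal_mul_I]




lemma ek_arg_add (k : Fin d → ℤ) (x y : EuclideanSpace ℝ (Fin d)) :
    ek k (x + y) = ek k x * ek k y := by
  unfold ek
  rw [← Complex.exp_add, inner_add_right]
  congr 1; push_cast; ring

lemma contDiff_ek (k : Fin d → ℤ) : ContDiff ℝ ∞ (ek (d := d) k) := by
  unfold ek
  refine ContDiff.cexp ?_
  refine contDiff_const.mul ?_
  exact Complex.ofRealCLM.contDiff.comp (contDiff_const.inner ℝ contDiff_id)

lemma continuous_ek (k : Fin d → ℤ) : Continuous (ek (d := d) k) := (contDiff_ek k).continuous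

/-- `2π`-periodicity in every coordinate. -/
def Per {E : Type*} (v : EuclideanSpace ℝ (Fin d) → E) : Prop :=
  ∀ x : EuclideanSpace ℝ (Fin d), ∀ i : Fin d, v (x + EuclideanSpace.single i (2 * Real.pi)) = v x

lemma ek_per (k : Fin d → ℤ) : Per (ek (d := d) k) := by
  intro x i
  rw [ek_arg_add]
  have : ek k (EuclideanSpace.single i (2 * Real.pi)) = 1 := by
    rw [ek_eq, inner_kv]
    have h : ∑ j, (k j : ℝ) * (EuclideanSpace.single i (2 * Real.pi) : EuclideanSpace ℝ (Fin d)) j
        = (k i : ℝ) * (2 * Real.pi) := by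
      rw [Finset.sum_eq_single i]
      · simp
      · intro j _ hj; simp [hj]
      · simp
    rw [h]
    have := Complex.exp_int_mul_two_pi_mul_I (k i)
    rw [← this]; congr 1; push_cast; ring
  rw [this, mul_one]

section per
variable {E : Type*} {v : EuclideanSpace ℝ (Fin d) → E}

lemma Per.sub_single (hv : Per v) (x : EuclideanSpace ℝ (Fin d)) (i : Fin d) (m : ℤ) :
    v (x + EuclideanSpace.single i (2 * Real.pi * m)) = v x := by
  have h : Function.Periodic v (EuclideanSpace.single i (2 * Real.pi)) := fun x => hv x i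
  have h2 := h.zsmul m x
  rw [← h2]; congr 2
  ext j
  by_cases hj : j = i
  · subst hj; simp [mul_comm]
  · simp [hj]

lemma Per.add_int (hv : Per v) (m : Fin d → ℤ) (x : EuclideanSpace ℝ (Fin d)) :
    v (x + (2 * Real.pi) • kv m) = v x := by
  classical
  have key : ∀ s : Finset (Fin d),
      v (x + ∑ i ∈ s, EuclideanSpace.single i (2 * Real.pi * (m i : ℝ))) = v x := by
    intro s
    induction s using Finset.induction_on with
    | empty => simp
    | insert a s ha ih =>
      rw [Finset.sum_insert ha, add_comm (EuclideanSpace.single a _), ← add_assoc,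
        hv.sub_single, ih]
  have h := key Finset.univ
  rw [← h]; congr 2
  ext j
  simp [Finset.sum_apply]

end per

/-- projection of `ℝ^d` to the unit torus. -/
def prj (x : Fin d → ℝ) : UnitAddTorus (Fin d) := fun i => ((x i : ℝ) : UnitAddCircle)

lemma prj_quot : IsOpenQuotientMap (prj (d := d)) := by
  have h : IsOpenQuotientMap (fun x : ℝ => (x : UnitAddCircle)) := by
    exact QuotientAddGroup.isOpenQuotientMap_mk
  exact IsOpenQuotientMap.piMap (fun _ : Fin d => h)

/-- representative in `(0,1]^d`. -/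
def rep (t : UnitAddTorus (Fin d)) : Fin d → ℝ :=
  fun i => ((AddCircle.equivIoc (1 : ℝ) 0 (t i) : Set.Ioc _ _) : ℝ)

lemma prj_rep (t : UnitAddTorus (Fin d)) : prj (rep t) = t := by
  funext i
  exact AddCircle.coe_equivIoc

/-- the scaled point `2π x`. -/
def sc (x : Fin d → ℝ) : EuclideanSpace ℝ (Fin d) := WithLp.toLp 2 fun i => 2 * Real.pi * x i

lemma continuous_sc : Continuous (sc (d := d)) := by
  unfold sc
  refine (PiLp.continuous_toLp 2 _).comp ?_
  fun_prop

section torus
variable {E : Type*} {v : EuclideanSpace ℝ (Fin d) → E}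

/-- function on the torus associated with a periodic function. -/
def tf (v : EuclideanSpace ℝ (Fin d) → E) (t : UnitAddTorus (Fin d)) : E := v (sc (rep t))

lemma exists_int (x : Fin d → ℝ) :
    ∃ m : Fin d → ℤ, sc x = sc (rep (prj x)) + (2 * Real.pi) • kv m := by
  have h : ∀ i, ∃ m : ℤ, x i = rep (prj x) i + m := by
    intro i
    have h1 : ((rep (prj x) i : ℝ) : UnitAddCircle) = ((x i : ℝ) : UnitAddCircle) :=
      congrFun (prj_rep (prj x)) i
    have h2 : ((x i - rep (prj x) i : ℝ) : UnitAddCircle) = 0 := by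
      rw [AddCircle.coe_sub, h1, sub_self]
    obtain ⟨m, hm⟩ := (AddCircle.coe_eq_zero_iff (1 : ℝ)).1 h2
    refine ⟨m, ?_⟩
    have : (m : ℝ) = x i - rep (prj x) i := by simpa using hm
    linarith
  choose m hm using h
  refine ⟨m, ?_⟩
  ext i
  have h3 := hm i
  simp only [sc, PiLp.add_apply, PiLp.smul_apply, kv_apply, smul_eq_mul]
  rw [← mul_add, ← h3]

lemma tf_prj (hv : Per v) (x : Fin d → ℝ) : tf v (prj x) = v (sc x) := by
  obtain ⟨m, hm⟩ := exists_int x
  unfold tf
  rw [hm, hv.add_int]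

lemma continuous_tf [TopologicalSpace E] (hv : Per v) (hc : Continuous v) : Continuous (tf v) := by
  rw [prj_quot.isQuotientMap.continuous_iff]
  have : tf v ∘ prj = fun x => v (sc x) := by
    funext x; exact tf_prj hv x
  rw [this]
  exact hc.comp continuous_sc

lemma mFourier_prj (k : Fin d → ℤ) (x : Fin d → ℝ) :
    UnitAddTorus.mFourier k (prj x) = ek k (sc x) := by
  unfold prj ek sc UnitAddTorus.mFourier
  simp only [ContinuousMap.coe_mk]
  rw [inner_kv]
  push_cast
  rw [Finset.mul_sum, Complex.exp_sum]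
  refine Finset.prod_congr rfl fun i _ => ?_
  rw [fourier_coe_apply]
  congr 1
  push_cast
  ring

lemma tf_ek (k : Fin d → ℤ) (t : UnitAddTorus (Fin d)) :
    tf (ek k) t = UnitAddTorus.mFourier k t := by
  obtain ⟨x, rfl⟩ := prj_quot.surjective t
  rw [tf_prj (ek_per k), mFourier_prj]

/-- the continuous function on the torus. -/
def tfc (v : EuclideanSpace ℝ (Fin d) → ℂ) (hv : Per v) (hc : Continuous v) :
    C(UnitAddTorus (Fin d), ℂ) := ⟨tf v, continuous_tf hv hc⟩

end torus

/-- Fourier coefficient of a `2π`-periodic function. -/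
def cf (v : EuclideanSpace ℝ (Fin d) → ℂ) (k : Fin d → ℤ) : ℂ :=
  UnitAddTorus.mFourierCoeff (tf v) k

/-- the half-open unit box. -/
def ubox : Set (Fin d → ℝ) := {x | ∀ i, x i ∈ Set.Ioc (0 : ℝ) (0 + 1)}

lemma cf_eq_integral {v : EuclideanSpace ℝ (Fin d) → ℂ} (hv : Per v) (k : Fin d → ℤ) :
    cf v k = ∫ x in ubox (d := d), ek (-k) (sc x) * v (sc x) := by
  unfold cf
  rw [UnitAddTorus.mFourierCoeff_eq_integral _ k (fun _ => (0 : ℝ))]
  refine integral_congr_ae (Eventually.of_forall fun x => ?_)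
  have h1 : (fun i => ((x i : ℝ) : UnitAddCircle)) = prj x := rfl
  simp only [h1]
  rw [mFourier_prj, tf_prj hv, smul_eq_mul]

/-- Fourier inversion when the coefficients are summable. -/
theorem hasSum_cf {v : EuclideanSpace ℝ (Fin d) → ℂ} (hv : Per v) (hc : Continuous v)
    (hs : Summable (cf v)) (x : EuclideanSpace ℝ (Fin d)) :
    HasSum (fun k => cf v k * ek k x) (v x) := by
  have h := UnitAddTorus.hasSum_mFourier_series_apply_of_summable (f := tfc v hv hc) hs
  let y : Fin d → ℝ := fun i => x i / (2 * Real.pi)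
  have hy : sc y = x := by
    ext i
    simp only [sc, y]
    field_simp
  have h2 := h (prj y)
  have e1 : (tfc v hv hc) (prj y) = v x := by
    show tf v (prj y) = v x
    rw [tf_prj hv, hy]
  rw [e1] at h2
  have e2 : (fun i => UnitAddTorus.mFourierCoeff (⇑(tfc v hv hc)) i •
      (UnitAddTorus.mFourier i) (prj y)) = fun k => cf v k * ek k x := by
    funext k
    rw [mFourier_prj, hy, smul_eq_mul]; rfl
  rwa [e2] at h2

lemma Per.bdd {E : Type*} [NormedAddCommGroup E] {v : EuclideanSpace ℝ (Fin d) → E}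
    (hv : Per v) (hc : Continuous v) : ∃ M, 0 ≤ M ∧ ∀ x, ‖v x‖ ≤ M := by
  have h1 : IsCompact (Set.range fun t => ‖tf v t‖) :=
    isCompact_range (continuous_tf hv hc).norm
  obtain ⟨M, hM⟩ := h1.bddAbove
  refine ⟨max M 0, le_max_right _ _, fun x => le_trans ?_ (le_max_left _ _)⟩
  let y : Fin d → ℝ := fun i => x i / (2 * Real.pi)
  have hy : sc y = x := by
    ext i
    simp only [sc, y]
    field_simp
  refine hM ⟨prj y, ?_⟩
  show ‖tf v (prj y)‖ = ‖v x‖
  rw [tf_prj hv, hy]

lemma Per.translate {E : Type*} {v : EuclideanSpace ℝ (Fin d) → E} (hv : Per v)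
    (y : EuclideanSpace ℝ (Fin d)) : Per (fun x => v (x + y)) := by
  intro x i
  have := hv (x + y) i
  rw [add_right_comm] at this
  exact this

lemma prj_add (x y : Fin d → ℝ) : prj (x + y) = prj x + prj y := by
  funext i
  simp [prj]

lemma sc_add (x y : Fin d → ℝ) : sc (x + y) = sc x + sc y := by
  ext i
  simp [sc, mul_add]

lemma exists_sc (x : EuclideanSpace ℝ (Fin d)) : ∃ y, sc y = x := by
  refine ⟨fun i => x i / (2 * Real.pi), ?_⟩
  ext i
  simp only [sc]
  field_simp

lemma mFourier_neg_arg (k : Fin d → ℤ) (t : UnitAddTorus (Fin d)) :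
    UnitAddTorus.mFourier (-k) (-t) = UnitAddTorus.mFourier k t := by
  obtain ⟨x, rfl⟩ := prj_quot.surjective t
  have h : - prj x = prj (-x) := by funext i; simp [prj]
  rw [h, mFourier_prj, mFourier_prj]
  have h2 : sc (-x) = - sc x := by ext i; simp [sc]
  rw [h2]
  unfold ek
  rw [kv_neg, inner_neg_left, inner_neg_right, neg_neg]

lemma mFourier_arg_add (k : Fin d → ℤ) (t u : UnitAddTorus (Fin d)) :
    UnitAddTorus.mFourier k (t + u) = UnitAddTorus.mFourier k t * UnitAddTorus.mFourier k u := by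
  obtain ⟨x, rfl⟩ := prj_quot.surjective t
  obtain ⟨y, rfl⟩ := prj_quot.surjective u
  rw [← prj_add, mFourier_prj, mFourier_prj, mFourier_prj, sc_add, ek_arg_add]

lemma cf_translate {v : EuclideanSpace ℝ (Fin d) → ℂ} (hv : Per v)
    (y : EuclideanSpace ℝ (Fin d)) (k : Fin d → ℤ) :
    cf (fun x => v (x + y)) k = ek k y * cf v k := by
  obtain ⟨y', hy'⟩ := exists_sc y
  have h1 : ∀ t, tf (fun x => v (x + y)) t = tf v (t + prj y') := by
    intro t
    obtain ⟨x, rfl⟩ := prj_quot.surjective t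
    rw [tf_prj (hv.translate y), ← prj_add, tf_prj hv, sc_add, hy']
  unfold cf UnitAddTorus.mFourierCoeff
  have h2 : (fun t => UnitAddTorus.mFourier (-k) t • tf (fun x => v (x + y)) t) =
      fun t => (fun u => (UnitAddTorus.mFourier (-k) (u - prj y')) • tf v u) (t + prj y') := by
    funext t
    simp only [add_sub_cancel_right]
    rw [h1]
  rw [h2, integral_add_right_eq_self (μ := (volume : Measure (UnitAddTorus (Fin d))))
    (fun u => (UnitAddTorus.mFourier (-k) (u - prj y')) • tf v u) (prj y')]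
  rw [← hy', ← mFourier_prj, ← integral_const_mul]
  refine integral_congr_ae (Eventually.of_forall fun t => ?_)
  simp only [smul_eq_mul]
  rw [sub_eq_add_neg, mFourier_arg_add, mFourier_neg_arg]
  ring


lemma volume_ubox : volume (ubox (d := d)) = 1 := by
  have : ubox (d := d) = Set.univ.pi fun _ => Set.Ioc (0 : ℝ) (0 + 1) := by
    ext x; simp [ubox]
  rw [this, volume_pi_pi]
  simp

instance : IsProbabilityMeasure ((volume : Measure (Fin d → ℝ)).restrict ubox) :=
  ⟨by rw [Measure.restrict_apply_univ, volume_ubox]⟩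

lemma Per.fderiv {v : EuclideanSpace ℝ (Fin d) → ℂ} (hv : Per v) : Per (fderiv ℝ v) := by
  intro x i
  have h : v = fun x => v (x + EuclideanSpace.single i (2 * Real.pi)) := by
    funext x; exact (hv x i).symm
  conv_rhs => rw [h]
  rw [fderiv_comp_add_right]

lemma cf_fderiv {v : EuclideanSpace ℝ (Fin d) → ℂ} (hv : Per v) (h1 : ContDiff ℝ 1 v)
    (e : EuclideanSpace ℝ (Fin d)) (k : Fin d → ℤ) :
    cf (fun x => fderiv ℝ v x e) k = I * ((inner ℝ (kv k) e : ℝ) : ℂ) * cf v k := by
  have hper : Per (fun x => fderiv ℝ v x e) := fun x i => by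
    show fderiv ℝ v _ e = _
    rw [hv.fderiv x i]
  have hcd : Continuous (fun x => fderiv ℝ v x e) :=
    (h1.continuous_fderiv (by norm_num)).clm_apply continuous_const
  obtain ⟨M, hM0, hM⟩ := hper.bdd hcd
  set μ := (volume : Measure (Fin d → ℝ)).restrict ubox with hμ
  let F : ℝ → (Fin d → ℝ) → ℂ := fun h x => ek (-k) (sc x) * v (sc x + h • e)
  let F' : ℝ → (Fin d → ℝ) → ℂ := fun h x => ek (-k) (sc x) * fderiv ℝ v (sc x + h • e) e
  have hFc : ∀ h, Continuous (F h) := fun h =>
    ((continuous_ek _).comp continuous_sc).mul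
      (h1.continuous.comp (continuous_sc.add continuous_const))
  have hF'c : ∀ h, Continuous (F' h) := fun h =>
    ((continuous_ek _).comp continuous_sc).mul
      (hcd.comp (continuous_sc.add continuous_const))
  have hv0 : ∀ h : ℝ, ∫ x, F h x ∂μ = ek k (h • e) * cf v k := by
    intro h
    rw [← cf_translate hv, cf_eq_integral (hv.translate _)]
  obtain ⟨Mv, _, hMv⟩ := hv.bdd h1.continuous
  have key := (hasDerivAt_integral_of_dominated_loc_of_deriv_le (μ := μ) (F := F) (F' := F')
    (x₀ := (0 : ℝ)) (s := Set.univ) (bound := fun _ => M) Filter.univ_mem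
    (Eventually.of_forall fun h => (hFc h).aestronglyMeasurable)
    (by
      refine Integrable.of_bound (hFc 0).aestronglyMeasurable Mv (Eventually.of_forall fun x => ?_)
      simp only [F, norm_mul, norm_ek, one_mul]
      exact hMv _)
    (hF'c 0).aestronglyMeasurable
    (Eventually.of_forall fun x h _ => by
      simp only [F', norm_mul, norm_ek, one_mul]
      exact hM _)
    (integrable_const M)
    (Eventually.of_forall fun x h _ => by
      have h2 : HasDerivAt (fun h : ℝ => v (sc x + h • e)) (fderiv ℝ v (sc x + h • e) e) h := by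
        have h3 := (h1.differentiable (by norm_num) (sc x + h • e)).hasFDerivAt
        have h4 : HasDerivAt (fun h : ℝ => sc x + h • e) e h := by
          simpa using ((hasDerivAt_id h).smul_const e).const_add (sc x)
        exact h3.comp_hasDerivAt h h4
      exact h2.const_mul _)).2
  have h5 : (fun h => ∫ x, F h x ∂μ) = fun h : ℝ => ek k (h • e) * cf v k := funext hv0
  rw [h5] at key
  have h6 : HasDerivAt (fun h : ℝ => ek k (h • e) * cf v k)
      (I * ((inner ℝ (kv k) e : ℝ) : ℂ) * cf v k) 0 := by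
    have h7 : HasDerivAt (fun h : ℝ => ek k (h • e)) (I * ((inner ℝ (kv k) e : ℝ) : ℂ)) 0 := by
      have h8 : HasDerivAt (fun h : ℝ => I * ((inner ℝ (kv k) (h • e) : ℝ) : ℂ))
          (I * ((inner ℝ (kv k) e : ℝ) : ℂ)) 0 := by
        have h9 : HasDerivAt (fun h : ℝ => ((inner ℝ (kv k) (h • e) : ℝ) : ℂ))
            ((inner ℝ (kv k) e : ℝ) : ℂ) 0 := by
          have h10 : HasDerivAt (fun h : ℝ => (inner ℝ (kv k) (h • e) : ℝ))
              (inner ℝ (kv k) e) 0 := by
            simp only [inner_smul_right]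
            simpa using (hasDerivAt_id (0 : ℝ)).mul_const (inner ℝ (kv k) e)
          exact h10.ofReal_comp
        exact h9.const_mul I
      have h11 := h8.cexp
      unfold ek
      simpa using h11
    exact h7.mul_const _
  have h12 := key.unique h6
  rw [← h12, cf_eq_integral hper]
  simp only [F', zero_smul, add_zero]
  rfl

end Crest.Agent.R086.Tor
end
end

-- ▼ part R086/TorB

/-!
Row 86, part D, torus side (helper327), file B.
Synthesis `synth c x = ∑' k, c k * ek k x`, derivatives, uniqueness of coefficients.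
-/

set_option autoImplicit false

noncomputable section

open scoped BigOperators ComplexConjugate ContDiff ENNReal
open Filter MeasureTheory Complex

namespace Crest.Agent.R086.Tor

/-- normalised measure on `ℝ / ℤ`. -/
local instance : MeasureSpace UnitAddCircle := ⟨AddCircle.haarAddCircle⟩
local instance : Measure.IsAddHaarMeasure (volume : Measure UnitAddCircle) :=
  inferInstanceAs (Measure.IsAddHaarMeasure AddCircle.haarAddCircle)
local instance : IsProbabilityMeasure (volume : Measure UnitAddCircle) :=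
  inferInstanceAs (IsProbabilityMeasure AddCircle.haarAddCircle)

variable {d : ℕ}

/-! ### summability of the weight -/

lemma summable_prod {g : ℤ → ℝ} (hg0 : ∀ m, 0 ≤ g m) (hg : Summable g) :
    ∀ n : ℕ, Summable fun k : Fin n → ℤ => ∏ i, g (k i) := by
  intro n
  induction n with
  | zero => exact summable_of_hasFiniteSupport (Set.toFinite _)
  | succ n ih =>
    rw [← (Fin.consEquiv fun _ => ℤ).summable_iff]
    have h := hg.mul_of_nonneg ih hg0 (fun k => Finset.prod_nonneg fun i _ => hg0 _)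
    refine h.congr fun p => ?_
    simp [Fin.prod_univ_succ, Fin.consEquiv]

lemma summable_one_add_abs_inv_sq : Summable fun m : ℤ => ((1 + |(m : ℝ)|) ^ 2)⁻¹ := by
  have h1 : Summable fun m : ℕ => ((1 + (m : ℝ)) ^ 2)⁻¹ := by
    have := (summable_nat_add_iff 1).2 (Real.summable_nat_pow_inv.2 (by norm_num : 1 < 2))
    refine this.congr fun m => ?_
    push_cast
    rw [add_comm]
  refine Summable.of_nat_of_neg (h1.congr fun m => ?_) (h1.congr fun m => ?_)
  · simp
  · simp

lemma prod_le_wt_pow (k : Fin d → ℤ) : ∏ i, (1 + |(k i : ℝ)|) ^ 2 ≤ wt k ^ (2 * d) := by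
  have h : ∀ i ∈ (Finset.univ : Finset (Fin d)), (1 + |(k i : ℝ)|) ^ 2 ≤ wt k ^ 2 := by
    intro i _
    refine pow_le_pow_left₀ (by positivity) ?_ 2
    unfold wt
    have := abs_le_wt k i
    linarith
  calc ∏ i, (1 + |(k i : ℝ)|) ^ 2 ≤ ∏ _i : Fin d, wt k ^ 2 :=
        Finset.prod_le_prod (fun i _ => by positivity) h
    _ = wt k ^ (2 * d) := by simp [← pow_mul]

/-- `∑ (1+|k|)^(-M) < ∞` for `M ≥ 2 d`. -/
lemma summable_wt_inv {M : ℕ} (hM : 2 * d ≤ M) : Summable fun k : Fin d → ℤ => (wt k ^ M)⁻¹ := by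
  have h := summable_prod (fun m => by positivity) summable_one_add_abs_inv_sq d
  refine Summable.of_nonneg_of_le (fun k => by have := wt_pos k; positivity) (fun k => ?_) h
  have h1 := prod_le_wt_pow k
  have h2 : wt k ^ (2 * d) ≤ wt k ^ M := pow_le_pow_right₀ (one_le_wt k) hM
  rw [Finset.prod_inv_distrib]
  exact inv_anti₀ (Finset.prod_pos fun i _ => by positivity) (h1.trans h2)

/-! ### derivatives of the characters -/

/-- the linear form `h ↦ i k·h`. -/
def lk (k : Fin d → ℤ) : EuclideanSpace ℝ (Fin d) →L[ℝ] ℂ :=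
  (I • Complex.ofRealCLM).comp (innerSL ℝ (kv k))

@[simp] lemma lk_apply (k : Fin d → ℤ) (h : EuclideanSpace ℝ (Fin d)) :
    lk k h = I * ((inner ℝ (kv k) h : ℝ) : ℂ) := by
  simp [lk]

lemma norm_lk_le (k : Fin d → ℤ) : ‖lk k‖ ≤ ‖kv k‖ := by
  refine ContinuousLinearMap.opNorm_le_bound _ (norm_nonneg _) fun h => ?_
  rw [lk_apply, norm_mul, Complex.norm_I, one_mul, Complex.norm_real]
  exact norm_inner_le_norm _ _

lemma hasFDerivAt_ek (k : Fin d → ℤ) (x : EuclideanSpace ℝ (Fin d)) :
    HasFDerivAt (ek k) (ek k x • lk k) x := by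
  have h : HasFDerivAt (fun y => lk k y) (lk k) x := (lk k).hasFDerivAt
  have h2 := h.cexp
  have e : (fun y => Complex.exp (lk k y)) = ek k := by
    funext y; rw [lk_apply]; rfl
  have e2 : Complex.exp (lk k x) = ek k x := congrFun e x
  rw [e, e2] at h2
  exact h2

lemma fderiv_ek (k : Fin d → ℤ) : fderiv ℝ (ek (d := d) k) = fun x => ek k x • lk k := by
  funext x; exact (hasFDerivAt_ek k x).fderiv

/-- `z ↦ z • L` as a continuous real-linear map. -/
def smulL (L : EuclideanSpace ℝ (Fin d) →L[ℝ] ℂ) :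
    ℂ →L[ℝ] (EuclideanSpace ℝ (Fin d) →L[ℝ] ℂ) :=
  (ContinuousLinearMap.toSpanSingleton ℂ L).restrictScalars ℝ

lemma norm_smulL (L : EuclideanSpace ℝ (Fin d) →L[ℝ] ℂ) : ‖smulL L‖ ≤ ‖L‖ := by
  refine ContinuousLinearMap.opNorm_le_bound _ (norm_nonneg _) fun z => ?_
  show ‖z • L‖ ≤ _
  rw [norm_smul, mul_comm]

lemma norm_iteratedFDeriv_ek (k : Fin d → ℤ) (m : ℕ) (x : EuclideanSpace ℝ (Fin d)) :
    ‖iteratedFDeriv ℝ m (ek k) x‖ ≤ ‖kv k‖ ^ m := by
  induction m generalizing x with
  | zero => simp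
  | succ m ih =>
    rw [← norm_iteratedFDeriv_fderiv, fderiv_ek]
    have h : (fun x => ek k x • lk k) = (smulL (lk k)) ∘ (ek k) := by
      funext y; rfl
    rw [h]
    refine ((smulL (lk k)).norm_iteratedFDeriv_comp_left (n := m)
      ((contDiff_ek k).contDiffAt.of_le (by exact_mod_cast le_top)) le_rfl).trans ?_
    calc ‖smulL (lk k)‖ * ‖iteratedFDeriv ℝ m (ek k) x‖ ≤ ‖kv k‖ * ‖kv k‖ ^ m := by
          gcongr
          · exact (norm_smulL _).trans (norm_lk_le k)
          · exact ih x
      _ = ‖kv k‖ ^ (m + 1) := by ring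


/-! ### synthesis -/

/-- the function with Fourier coefficients `c`. -/
def synth (c : (Fin d → ℤ) → ℂ) (x : EuclideanSpace ℝ (Fin d)) : ℂ := ∑' k, c k * ek k x


lemma synth_per (c : (Fin d → ℤ) → ℂ) : Per (synth c) := by
  intro x i
  unfold synth
  refine tsum_congr fun k => ?_
  rw [ek_per k x i]


lemma weight_mono {c : (Fin d → ℤ) → ℂ} {M N : ℕ} (hMN : M ≤ N)
    (hc : Summable fun k => wt k ^ N * ‖c k‖) : Summable fun k => wt k ^ M * ‖c k‖ := by
  refine Summable.of_nonneg_of_le (fun k => by have := wt_pos k; positivity) (fun k => ?_) hc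
  have := pow_le_pow_right₀ (one_le_wt k) hMN
  gcongr

lemma weight_zero {c : (Fin d → ℤ) → ℂ} {N : ℕ}
    (hc : Summable fun k => wt k ^ N * ‖c k‖) : Summable fun k => ‖c k‖ := by
  have := weight_mono (Nat.zero_le N) hc
  simpa using this

lemma kv_le_wt (k : Fin d → ℤ) : ‖kv k‖ ≤ wt k := by unfold wt; linarith

lemma contDiff_term (c : (Fin d → ℤ) → ℂ) (N : ℕ∞) (k : Fin d → ℤ) :
    ContDiff ℝ N (fun x => c k * ek k x) :=
  contDiff_const.mul ((contDiff_ek k).of_le (by exact_mod_cast le_top))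

lemma norm_iteratedFDeriv_term (c : (Fin d → ℤ) → ℂ) (m : ℕ) (k : Fin d → ℤ)
    (x : EuclideanSpace ℝ (Fin d)) :
    ‖iteratedFDeriv ℝ m (fun x => c k * ek k x) x‖ ≤ wt k ^ m * ‖c k‖ := by
  have h : (fun x => c k * ek k x) =
      (ContinuousLinearMap.restrictScalars ℝ (ContinuousLinearMap.mul ℂ ℂ (c k))) ∘ (ek k) := by
    funext y; rfl
  rw [h]
  refine ((ContinuousLinearMap.restrictScalars ℝ
    (ContinuousLinearMap.mul ℂ ℂ (c k))).norm_iteratedFDeriv_comp_left (n := m)
      ((contDiff_ek k).contDiffAt.of_le (by exact_mod_cast le_top)) le_rfl).trans ?_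
  have h1 : ‖ContinuousLinearMap.restrictScalars ℝ (ContinuousLinearMap.mul ℂ ℂ (c k))‖ ≤ ‖c k‖ := by
    refine ContinuousLinearMap.opNorm_le_bound _ (norm_nonneg _) fun z => ?_
    show ‖c k * z‖ ≤ _
    rw [norm_mul]
  calc _ ≤ ‖c k‖ * ‖kv k‖ ^ m := by
        gcongr
        exact norm_iteratedFDeriv_ek k m x
    _ ≤ ‖c k‖ * wt k ^ m := by
        gcongr
        exact kv_le_wt k
    _ = _ := by ring

/-- weighted summability gives `C^N`. -/
theorem contDiff_synth {c : (Fin d → ℤ) → ℂ} {N : ℕ}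
    (hc : Summable fun k => wt k ^ N * ‖c k‖) : ContDiff ℝ N (synth c) := by
  unfold synth
  have h := contDiff_tsum (𝕜 := ℝ) (f := fun k x => c k * ek k x) (N := (N : ℕ∞))
    (v := fun m k => wt k ^ m * ‖c k‖) (fun k => contDiff_term c _ k)
    (fun m hm => weight_mono (by exact_mod_cast hm) hc)
    (fun m k x _ => norm_iteratedFDeriv_term c m k x)
  exact h

theorem contDiff_synth_infty {c : (Fin d → ℤ) → ℂ}
    (hc : ∀ N : ℕ, Summable fun k => wt k ^ N * ‖c k‖) : ContDiff ℝ ∞ (synth c) := by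
  rw [contDiff_infty]
  exact fun n => contDiff_synth (hc n)



/-! ### coefficients of the synthesis -/


lemma cf_ek (l k : Fin d → ℤ) : cf (ek l) k = if l = k then 1 else 0 := by
  have h1 : cf (ek l) k = UnitAddTorus.mFourierCoeff (⇑(UnitAddTorus.mFourier l)) k := by
    unfold cf
    have : tf (ek l) = ⇑(UnitAddTorus.mFourier l) := funext (tf_ek l)
    rw [this]
  rw [h1]
  have h := UnitAddTorus.mFourierBasis_repr (UnitAddTorus.mFourierBasis (d := Fin d) l) k
  rw [HilbertBasis.repr_self, UnitAddTorus.coe_mFourierBasis,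
    UnitAddTorus.mFourierCoeff_toLp] at h
  rw [← h]
  by_cases hm : l = k
  · subst hm; simp
  · simp [hm, Ne.symm hm]

lemma cf_synth {c : (Fin d → ℤ) → ℂ} (hc : Summable fun k => ‖c k‖) (k : Fin d → ℤ) :
    cf (synth c) k = c k := by
  rw [cf_eq_integral (synth_per c)]
  have h1 : ∀ x : Fin d → ℝ, ek (-k) (sc x) * synth c (sc x) =
      ∑' l, c l * (ek (-k) (sc x) * ek l (sc x)) := by
    intro x
    unfold synth
    rw [← tsum_mul_left]
    refine tsum_congr fun l => by ring
  simp_rw [h1]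
  have hcont : ∀ l, Continuous fun x : Fin d → ℝ => c l * (ek (-k) (sc x) * ek l (sc x)) := by
    intro l
    exact continuous_const.mul (((continuous_ek _).comp continuous_sc).mul
      ((continuous_ek _).comp continuous_sc))
  have hn : ∀ l x, ‖c l * (ek (-k) (sc x) * ek l (sc x))‖ = ‖c l‖ := by
    intro l x
    rw [norm_mul, norm_mul, norm_ek, norm_ek]; ring
  rw [← integral_tsum_of_summable_integral_norm]
  · have h2 : ∀ l, ∫ x in ubox (d := d), c l * (ek (-k) (sc x) * ek l (sc x)) =
        c l * cf (ek l) k := by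
      intro l
      rw [cf_eq_integral (ek_per l), ← integral_const_mul]
    simp_rw [h2, cf_ek]
    rw [tsum_eq_single k]
    · simp
    · intro l hl; simp [hl]
  · intro l
    refine Integrable.of_bound (hcont l).aestronglyMeasurable ‖c l‖
      (Eventually.of_forall fun x => (hn l x).le)
  · have h3 : ∀ l, ∫ x in ubox (d := d), ‖c l * (ek (-k) (sc x) * ek l (sc x))‖ = ‖c l‖ := by
      intro l
      simp_rw [hn]
      simp
    simpa only [h3] using hc

/-- periodic continuous functions with summable coefficients are the synthesis of them. -/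
lemma synth_cf {v : EuclideanSpace ℝ (Fin d) → ℂ} (hv : Per v) (hc : Continuous v)
    (hs : Summable (cf v)) : synth (cf v) = v := by
  funext x
  exact (hasSum_cf hv hc hs x).tsum_eq

end Crest.Agent.R086.Tor
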