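import Crest.Agent.R086.TorDefs

/-!
Row 86, node TS (helper264): change of variables `ResSol ↔ IsSol`.
-/

set_option autoImplicit false

open MeasureTheory Complex Set
open scoped ContDiff Topology
open Crest.AnalysisR.PDE.NLS (IsSmoothPeriodic periodCell sobolevDistSq IsClassicalSolution)

namespace Crest.Agent.R086.TS

/-! ### smooth periodic functions -/

lemma isp_const (c : ℂ) : IsSmoothPeriodic (fun _ : R12 => c) :=
  ⟨contDiff_const, fun _ _ => rfl⟩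


lemma isp_sub {v w : R12 → ℂ} (hv : IsSmoothPeriodic v) (hw : IsSmoothPeriodic w) :
    IsSmoothPeriodic (fun x => v x - w x) :=
  ⟨hv.1.sub hw.1, fun x i => by simp only [hv.2 x i, hw.2 x i]⟩

lemma isp_mul {v w : R12 → ℂ} (hv : IsSmoothPeriodic v) (hw : IsSmoothPeriodic w) :
    IsSmoothPeriodic (fun x => v x * w x) :=
  ⟨hv.1.mul hw.1, fun x i => by simp only [hv.2 x i, hw.2 x i]⟩

lemma isp_smul {v : R12 → ℂ} (hv : IsSmoothPeriodic v) (c : ℂ) :
    IsSmoothPeriodic (fun x => c * v x) := isp_mul (isp_const c) hv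

lemma isp_sum {ι : Type*} (s : Finset ι) {v : ι → R12 → ℂ} (hv : ∀ i, IsSmoothPeriodic (v i)) :
    IsSmoothPeriodic (fun x => ∑ i ∈ s, v i x) :=
  ⟨ContDiff.sum fun i _ => (hv i).1, fun x j => Finset.sum_congr rfl fun i _ => (hv i).2 x j⟩

lemma isp_trans {v : R12 → ℂ} (hv : IsSmoothPeriodic v) (a : R12) :
    IsSmoothPeriodic (fun x => v (x + a)) := by
  refine ⟨hv.1.comp (contDiff_id.add contDiff_const), fun x i => ?_⟩
  have := hv.2 (x + a) i
  show v (x + EuclideanSpace.single i (2 * Real.pi) + a) = v (x + a)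
  rw [← this]; congr 1; abel

lemma isp_trans' {v : R12 → ℂ} (hv : IsSmoothPeriodic v) (a : R12) :
    IsSmoothPeriodic (fun x => v (x - a)) := by
  have := isp_trans hv (-a)
  simpa only [sub_eq_add_neg] using this

lemma isp_conj {v : R12 → ℂ} (hv : IsSmoothPeriodic v) :
    IsSmoothPeriodic (fun x => (starRingEnd ℂ) (v x)) := by
  refine ⟨?_, fun x i => by simp only [hv.2 x i]⟩
  exact (Complex.conjCLE.contDiff).comp hv.1

/-- the nonlinearity preserves smooth periodic functions, `n` even -/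
lemma isp_nl {n : ℕ} (hn : Even n) {v : R12 → ℂ} (hv : IsSmoothPeriodic v) :
    IsSmoothPeriodic (fun x => nl n (v x)) := by
  obtain ⟨m, rfl⟩ := hn
  have h : (fun x => nl (m + m) (v x)) = fun x => (v x * (starRingEnd ℂ) (v x)) ^ m * v x := by
    funext x
    unfold nl
    congr 1
    rw [Complex.mul_conj, Complex.normSq_eq_norm_sq]
    push_cast
    ring
  rw [h]
  refine ⟨((hv.1.mul (isp_conj hv).1).pow m).mul hv.1, fun x i => by simp only [hv.2 x i]⟩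

/-! ### Fourier coefficients -/

lemma cf_smul (v : R12 → ℂ) (c : ℂ) (k : Z12) : cf (fun x => c * v x) k = c * cf v k := by
  unfold cf
  have : (fun x => c * v x * exp (-(I * ((inner ℝ (zv k) x : ℝ) : ℂ))))
      = fun x => c * (v x * exp (-(I * ((inner ℝ (zv k) x : ℝ) : ℂ)))) := by
    funext x; ring
  rw [this, integral_const_mul]
  ring

lemma cf_trans (h1 : TF1) (h2 : TF2) {v : R12 → ℂ} (hv : IsSmoothPeriodic v) (a : R12) (k : Z12) :
    cf (fun x => v (x + a)) k = exp (I * ((inner ℝ (zv k) a : ℝ) : ℂ)) * cf v k := by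
  obtain ⟨hs, hx⟩ := h1 v hv
  set c : Z12 → ℂ := fun k => exp (I * ((inner ℝ (zv k) a : ℝ) : ℂ)) * cf v k with hc
  have hn : ∀ k, ‖c k‖ = ‖cf v k‖ := by
    intro k
    simp only [hc, norm_mul]
    have : ‖exp (I * ((inner ℝ (zv k) a : ℝ) : ℂ))‖ = 1 := by
      rw [mul_comm, Complex.norm_exp_ofReal_mul_I]
    rw [this, one_mul]
  obtain ⟨w, hw, hcw, hwx⟩ := h2 c (fun N => by simpa only [hn] using hs N)
  have : (fun x => v (x + a)) = w := by
    funext x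
    rw [hwx x, hx (x + a)]
    refine tsum_congr fun k => ?_
    simp only [hc]
    rw [inner_add_right]
    push_cast
    rw [mul_add, Complex.exp_add]
    ring
  rw [this, hcw k]

lemma cf_trans' (h1 : TF1) (h2 : TF2) {v : R12 → ℂ} (hv : IsSmoothPeriodic v) (a : R12) (k : Z12) :
    cf (fun x => v (x - a)) k = exp (-(I * ((inner ℝ (zv k) a : ℝ) : ℂ))) * cf v k := by
  have := cf_trans h1 h2 hv (-a) k
  simp only [← sub_eq_add_neg] at this
  rw [this, inner_neg_right]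
  push_cast
  rw [mul_neg]

lemma nl_mul (n : ℕ) (c z : ℂ) : nl n (c * z) = ((‖c‖ ^ n : ℝ) : ℂ) * c * nl n z := by
  unfold nl
  rw [norm_mul, mul_pow]
  push_cast
  ring

/-! ### the amplitude -/

section amp
variable {n : ℕ} (P : Profile n) (a : Par) (t : ℝ)

lemma norm_amp (h : 0 < a.T - t) : ‖P.amp a t‖ = (a.T - t) ^ (-(1 / (n : ℝ))) := by
  unfold Profile.amp
  rw [norm_mul]
  have h1 : ‖exp (I * (a.th : ℂ))‖ = 1 := by rw [mul_comm, Complex.norm_exp_ofReal_mul_I]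
  rw [h1, one_mul, Complex.norm_cpow_eq_rpow_re_of_pos h]
  congr 1
  simp

lemma amp_ne_zero (h : 0 < a.T - t) : P.amp a t ≠ 0 := by
  intro h0
  have := norm_amp P a t h
  rw [h0, norm_zero] at this
  exact absurd this (Real.rpow_pos_of_pos h _).ne

lemma norm_amp_pow (hn : n ≠ 0) (h : 0 < a.T - t) : ‖P.amp a t‖ ^ n = (a.T - t)⁻¹ := by
  rw [norm_amp P a t h, ← Real.rpow_natCast, ← Real.rpow_mul h.le]
  have : -(1 / (n : ℝ)) * (n : ℝ) = -1 := by
    have : (n : ℝ) ≠ 0 := Nat.cast_ne_zero.2 hn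
    field_simp
  rw [this, Real.rpow_neg_one]

lemma rpow_mul_norm_amp (h : 0 < a.T - t) : (a.T - t) ^ (1 / (n : ℝ)) * ‖P.amp a t‖ = 1 := by
  rw [norm_amp P a t h, ← Real.rpow_add h]
  simp

lemma hasDerivAt_amp (h : 0 < a.T - t) :
    HasDerivAt (fun t => P.amp a t)
      ((1 / (n : ℂ) - I * (P.om : ℂ)) * (((a.T - t)⁻¹ : ℝ) : ℂ) * P.amp a t) t := by
  unfold Profile.amp
  set w : ℂ := -(1 / (n : ℂ)) + I * (P.om : ℂ) with hw
  have h1 : HasDerivAt (fun z : ℂ => z ^ w) (w * ((a.T - t : ℝ) : ℂ) ^ (w - 1)) ((a.T - t : ℝ) : ℂ) := by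
    have := (hasDerivAt_id (((a.T - t : ℝ) : ℂ))).cpow_const (c := w)
      (by simpa using Complex.ofReal_mem_slitPlane.2 h)
    simpa using this
  have h2 : HasDerivAt (fun y : ℝ => (y : ℂ) ^ w) (w * ((a.T - t : ℝ) : ℂ) ^ (w - 1)) (a.T - t) :=
    h1.comp_ofReal
  have h3 : HasDerivAt (fun t : ℝ => a.T - t) (-1) t := by
    simpa using (hasDerivAt_id t).const_sub a.T
  have h4 := h2.scomp t h3
  have h5 := h4.const_mul (exp (I * (a.th : ℂ)))
  refine h5.congr_deriv ?_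
  have hne : ((a.T - t : ℝ) : ℂ) ≠ 0 := by exact_mod_cast h.ne'
  rw [Complex.cpow_sub _ _ hne, Complex.cpow_one]
  simp only [hw, real_smul]
  push_cast
  have hne' : (a.T : ℂ) - (t : ℂ) ≠ 0 := by
    have := hne; push_cast at this; exact this
  field_simp
  ring

end amp

/-! ### gauge -/

lemma cf_gauge (h1 : TF1) (h2 : TF2) {v : R12 → ℂ} (hv : IsSmoothPeriodic v) (c : ℂ) (a : R12)
    (k : Z12) : cf (fun x => c * v (x - a)) k
      = c * (exp (-(I * ((inner ℝ (zv k) a : ℝ) : ℂ))) * cf v k) := by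
  rw [cf_smul, cf_trans' h1 h2 hv]

lemma norm_phase (r : ℝ) : ‖exp (-(I * (r : ℂ)))‖ = 1 := by
  have : -(I * (r : ℂ)) = ((-r : ℝ) : ℂ) * I := by push_cast; ring
  rw [this, Complex.norm_exp_ofReal_mul_I]

lemma norm_cf_gauge (h1 : TF1) (h2 : TF2) {v : R12 → ℂ} (hv : IsSmoothPeriodic v) (c : ℂ) (a : R12)
    (k : Z12) : ‖cf (fun x => c * v (x - a)) k‖ = ‖c‖ * ‖cf v k‖ := by
  rw [cf_gauge h1 h2 hv, norm_mul, norm_mul, norm_phase, one_mul]

lemma wn_gauge (h1 : TF1) (h2 : TF2) {v : R12 → ℂ} (hv : IsSmoothPeriodic v) (c : ℂ) (a : R12)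
    (N : ℕ) (h : ℝ) : wn N h (fun x => c * v (x - a)) = ‖c‖ * wn N h v := by
  unfold wn
  rw [← tsum_mul_left]
  refine tsum_congr fun k => ?_
  rw [norm_cf_gauge h1 h2 hv]; ring

lemma hi_gauge (h1 : TF1) (h2 : TF2) {v : R12 → ℂ} (hv : IsSmoothPeriodic v) (c : ℂ) (a : R12)
    (s : ℕ) (h : ℝ) : hi s h (fun x => c * v (x - a)) = ‖c‖ * hi s h v := by
  unfold hi
  rw [← tsum_mul_left]
  refine tsum_congr fun k => ?_
  rw [norm_cf_gauge h1 h2 hv]; ring

lemma nn_gauge (h1 : TF1) (h2 : TF2) {v : R12 → ℂ} (hv : IsSmoothPeriodic v) (c : ℂ) (a : R12)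
    (N s : ℕ) (μ h : ℝ) : nn N s μ h (fun x => c * v (x - a)) = ‖c‖ * nn N s μ h v := by
  unfold nn
  rw [wn_gauge h1 h2 hv, hi_gauge h1 h2 hv]; ring

/-- the scale invariant norm in gauge variables -/
lemma nrm_gauge (h1 : TF1) (h2 : TF2) {n : ℕ} (P : Profile n) {v : R12 → ℂ}
    (hv : IsSmoothPeriodic v) (a : Par) {t : ℝ} (h : 0 < a.T - t) (N s : ℕ) (μ : ℝ) :
    nrm n N s μ (a.T - t) (fun x => P.amp a t * v (x - a.x)) = nn N s μ (Real.sqrt (a.T - t)) v := by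
  unfold nrm
  rw [nn_gauge h1 h2 hv, ← mul_assoc, rpow_mul_norm_amp P a t h, one_mul]

/-- rescaled time -/
noncomputable def sg (T τ₀ t : ℝ) : ℝ := Real.log (τ₀ / (T - t))

lemma exp_neg_sg {T τ₀ t : ℝ} (hτ : 0 < τ₀) (h : 0 < T - t) :
    τ₀ * Real.exp (-(sg T τ₀ t)) = T - t := by
  unfold sg
  rw [Real.exp_neg, Real.exp_log (div_pos hτ h)]
  field_simp

lemma hasDerivAt_sg {T τ₀ t : ℝ} (hτ : 0 < τ₀) (h : 0 < T - t) :
    HasDerivAt (fun t => sg T τ₀ t) ((T - t)⁻¹) t := by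
  unfold sg
  have h3 : HasDerivAt (fun t : ℝ => T - t) (-1) t := by
    simpa using (hasDerivAt_id t).const_sub T
  have h4 : HasDerivAt (fun t : ℝ => τ₀ / (T - t)) (τ₀ / (T - t) ^ 2) t := by
    have := (hasDerivAt_const t τ₀).div h3 h.ne'
    refine this.congr_deriv ?_
    field_simp; ring
  have h5 := h4.log (div_pos hτ h).ne'
  refine h5.congr_deriv ?_
  field_simp

lemma sg_mem {T τ₀ t₀ t₁ S t : ℝ} (hτ : 0 < τ₀) (ha : T - t₀ = τ₀) (h1 : t₁ = T - Real.exp (-S) * τ₀)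
    (ht : t ∈ Icc t₀ t₁) : 0 < T - t ∧ sg T τ₀ t ∈ Icc 0 S := by
  have hpos : 0 < Real.exp (-S) * τ₀ := by positivity
  have hT : 0 < T - t := by linarith [ht.2]
  refine ⟨hT, ?_, ?_⟩
  · unfold sg
    apply Real.log_nonneg
    rw [le_div_iff₀ hT]; linarith [ht.1]
  · unfold sg
    rw [Real.log_le_iff_le_exp (div_pos hτ hT), div_le_iff₀ hT]
    have h2 : Real.exp (-S) * τ₀ ≤ T - t := by linarith [ht.2]
    calc τ₀ = Real.exp S * (Real.exp (-S) * τ₀) := by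
          rw [← mul_assoc, ← Real.exp_add]; simp
      _ ≤ Real.exp S * (T - t) := by gcongr

/-- from self-similar time to original time -/
theorem isSol_of_resSol {n : ℕ} (P : Profile n) (h1 : TF1) (h2 : TF2) {τ₀ S : ℝ} (hτ : 0 < τ₀)
    {U : ℝ → R12 → ℂ} (hU : P.ResSol τ₀ S U) (a : Par) {t₀ t₁ : ℝ}
    (ha : a.T - t₀ = τ₀) (ht1 : t₁ = a.T - Real.exp (-S) * τ₀) :
    IsSol n (Icc t₀ t₁) (fun t x => P.amp a t * U (sg a.T τ₀ t) (x - a.x)) := by
  have hn : n ≠ 0 := by have := P.two_le; omega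
  refine ⟨?_, ?_, ?_⟩
  · intro t ht
    obtain ⟨hT, hs⟩ := sg_mem hτ ha ht1 ht
    exact isp_smul (isp_trans' (hU.smooth _ hs) _) _
  · intro N K hKJ hK
    obtain ⟨B, hB⟩ := hU.bdd N
    -- the amplitude is bounded
    refine ⟨(Real.exp (-S) * τ₀) ^ (-(1 / (n : ℝ))) * |B|, fun t ht => ?_⟩
    obtain ⟨hT, hs⟩ := sg_mem hτ ha ht1 (hKJ ht)
    show wn N 1 (fun x => P.amp a t * U (sg a.T τ₀ t) (x - a.x)) ≤ _
    rw [wn_gauge h1 h2 (hU.smooth _ hs), norm_amp P a t hT]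
    have hwn : 0 ≤ wn N 1 (U (sg a.T τ₀ t)) := by
      unfold wn nk
      positivity
    refine mul_le_mul ?_ ((hB _ hs).trans (le_abs_self _)) hwn (by positivity)
    apply Real.rpow_le_rpow_of_nonpos (by positivity)
    · linarith [(hKJ ht).2]
    · simp
  · intro t ht k
    obtain ⟨hT, hs⟩ := sg_mem hτ ha ht1 ht
    have hmaps : MapsTo (fun t => sg a.T τ₀ t) (Icc t₀ t₁) (Icc 0 S) :=
      fun t ht => (sg_mem hτ ha ht1 ht).2
    have hode := (hU.ode _ hs k).scomp t (hasDerivAt_sg hτ hT).hasDerivWithinAt hmaps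
    have hA := (hasDerivAt_amp P a t hT).hasDerivWithinAt (s := Icc t₀ t₁)
    set ph : ℂ := exp (-(I * ((inner ℝ (zv k) a.x : ℝ) : ℂ))) with hph
    have hprod := hA.mul (hode.const_mul ph)
    have hcf : ∀ t ∈ Icc t₀ t₁, cf (fun x => P.amp a t * U (sg a.T τ₀ t) (x - a.x)) k
        = P.amp a t * (ph * cf (U (sg a.T τ₀ t)) k) := fun t ht =>
      cf_gauge h1 h2 (hU.smooth _ (sg_mem hτ ha ht1 ht).2) _ _ _
    have hnl : cf (fun x => nl n (P.amp a t * U (sg a.T τ₀ t) (x - a.x))) k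
        = (((a.T - t)⁻¹ : ℝ) : ℂ) * P.amp a t * (ph * cf (fun x => nl n (U (sg a.T τ₀ t) x)) k) := by
      have e : (fun x => nl n (P.amp a t * U (sg a.T τ₀ t) (x - a.x)))
          = fun x => ((((a.T - t)⁻¹ : ℝ) : ℂ) * P.amp a t)
              * (fun x => nl n (U (sg a.T τ₀ t) x)) (x - a.x) := by
        funext x
        simp only []
        rw [nl_mul, norm_amp_pow P a t hn hT]
      rw [e, cf_gauge h1 h2 (isp_nl P.neven (hU.smooth _ hs))]
    refine (hprod.congr_of_mem (f₁ := fun t => cf (fun x => P.amp a t * U (sg a.T τ₀ t) (x - a.x)) k)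
      ?_ ht).congr_deriv ?_
    · intro t ht
      rw [hcf t ht]; rfl
    · show _ = -(I * ((nk k ^ 2 : ℝ) : ℂ)) * cf (fun x => P.amp a t * U (sg a.T τ₀ t) (x - a.x)) k
        - I * cf (fun x => nl n (P.amp a t * U (sg a.T τ₀ t) (x - a.x))) k
      rw [hcf t ht, hnl]
      simp only [Function.comp_apply, real_smul]
      rw [exp_neg_sg hτ hT]
      have hne : ((a.T - t : ℝ) : ℂ) ≠ 0 := by exact_mod_cast hT.ne'
      have hinv : (((a.T - t)⁻¹ : ℝ) : ℂ) * ((a.T - t : ℝ) : ℂ) = 1 := by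
        rw [← Complex.ofReal_mul, inv_mul_cancel₀ hT.ne', Complex.ofReal_one]
      have e1 : (((a.T - t) * nk k ^ 2 : ℝ) : ℂ) = ((a.T - t : ℝ) : ℂ) * ((nk k ^ 2 : ℝ) : ℂ) := by
        push_cast; ring
      rw [e1]
      generalize (((a.T - t)⁻¹ : ℝ) : ℂ) = r at *
      generalize ((a.T - t : ℝ) : ℂ) = τ at *
      generalize ((nk k ^ 2 : ℝ) : ℂ) = K at *
      linear_combination (-(I * K * P.amp a t * ph * cf (U (sg a.T τ₀ t)) k)) * hinv

/-- from original time to self-similar time -/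
theorem resSol_of_isSol {n : ℕ} (P : Profile n) (h1 : TF1) (h2 : TF2) {τ₀ S : ℝ} (hτ : 0 < τ₀)
    {u : ℝ → R12 → ℂ} (a : Par) {t₀ t₁ : ℝ} (hu : IsSol n (Icc t₀ t₁) u)
    (ha : a.T - t₀ = τ₀) (ht1 : t₁ = a.T - Real.exp (-S) * τ₀) :
    P.ResSol τ₀ S (fun σ x => (P.amp a (a.T - τ₀ * Real.exp (-σ)))⁻¹
      * u (a.T - τ₀ * Real.exp (-σ)) (x + a.x)) := by
  have hn : n ≠ 0 := by have := P.two_le; omega
  have hmem : ∀ σ ∈ Icc 0 S, a.T - τ₀ * Real.exp (-σ) ∈ Icc t₀ t₁ := by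
    intro σ hσ
    have e1 : Real.exp (-σ) ≤ 1 := by rw [Real.exp_le_one_iff]; linarith [hσ.1]
    have e2 : Real.exp (-S) ≤ Real.exp (-σ) := by apply Real.exp_le_exp.2; linarith [hσ.2]
    constructor
    · nlinarith
    · rw [ht1]; nlinarith
  have hpos : ∀ σ : ℝ, 0 < a.T - (a.T - τ₀ * Real.exp (-σ)) := by
    intro σ
    have : 0 < τ₀ * Real.exp (-σ) := by positivity
    linarith
  have hgau : ∀ {v : R12 → ℂ}, IsSmoothPeriodic v → ∀ (c : ℂ) (k : Z12),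
      cf (fun x => c * v (x + a.x)) k = c * (exp (I * ((inner ℝ (zv k) a.x : ℝ) : ℂ)) * cf v k) := by
    intro v hv c k
    rw [cf_smul, cf_trans h1 h2 hv]
  have hph1 : ∀ k : Z12, ‖exp (I * ((inner ℝ (zv k) a.x : ℝ) : ℂ))‖ = 1 := by
    intro k; rw [mul_comm, Complex.norm_exp_ofReal_mul_I]
  refine ⟨?_, ?_, ?_⟩
  · intro σ hσ
    exact isp_smul (isp_trans (hu.smooth _ (hmem σ hσ)) _) _
  · intro N
    obtain ⟨B, hB⟩ := hu.bdd N (Icc t₀ t₁) le_rfl isCompact_Icc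
    refine ⟨τ₀ ^ (1 / (n : ℝ)) * |B|, fun σ hσ => ?_⟩
    have hw : wn N 1 (fun x => (P.amp a (a.T - τ₀ * Real.exp (-σ)))⁻¹
        * u (a.T - τ₀ * Real.exp (-σ)) (x + a.x))
        = ‖(P.amp a (a.T - τ₀ * Real.exp (-σ)))⁻¹‖ * wn N 1 (u (a.T - τ₀ * Real.exp (-σ))) := by
      unfold wn
      rw [← tsum_mul_left]
      refine tsum_congr fun k => ?_
      rw [hgau (hu.smooth _ (hmem σ hσ)), norm_mul, norm_mul, hph1]; ring
    show wn N 1 (fun x => (P.amp a (a.T - τ₀ * Real.exp (-σ)))⁻¹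
        * u (a.T - τ₀ * Real.exp (-σ)) (x + a.x)) ≤ _
    rw [hw]
    have hwn : 0 ≤ wn N 1 (u (a.T - τ₀ * Real.exp (-σ))) := by
      unfold wn nk
      positivity
    refine mul_le_mul ?_ ((hB _ (hmem σ hσ)).trans (le_abs_self _)) hwn (by positivity)
    rw [norm_inv, norm_amp P a _ (hpos σ), ← Real.rpow_neg (hpos σ).le, neg_neg]
    apply Real.rpow_le_rpow (hpos σ).le
    · have e1 : Real.exp (-σ) ≤ 1 := by rw [Real.exp_le_one_iff]; linarith [hσ.1]
      nlinarith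
    · positivity
  · intro σ hσ k
    set t := a.T - τ₀ * Real.exp (-σ) with ht
    have hT : 0 < a.T - t := hpos σ
    have hTt : a.T - t = τ₀ * Real.exp (-σ) := by rw [ht]; ring
    have htd : HasDerivAt (fun σ : ℝ => a.T - τ₀ * Real.exp (-σ)) (τ₀ * Real.exp (-σ)) σ := by
      have := ((((hasDerivAt_id σ).neg).exp).const_mul τ₀).const_sub a.T
      refine this.congr_deriv ?_
      simp
    have hmaps : MapsTo (fun σ : ℝ => a.T - τ₀ * Real.exp (-σ)) (Icc 0 S) (Icc t₀ t₁) := hmem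
    have hode := (hu.ode t (hmem σ hσ) k).scomp σ htd.hasDerivWithinAt hmaps
    have hA0 := ((hasDerivAt_amp P a t hT).inv (amp_ne_zero P a t hT)).scomp σ htd
    have hA := hA0.hasDerivWithinAt (s := Icc 0 S)
    set ph : ℂ := exp (I * ((inner ℝ (zv k) a.x : ℝ) : ℂ)) with hph
    have hprod := hA.mul (hode.const_mul ph)
    have hcf : ∀ σ ∈ Icc 0 S, cf (fun x => (P.amp a (a.T - τ₀ * Real.exp (-σ)))⁻¹
        * u (a.T - τ₀ * Real.exp (-σ)) (x + a.x)) k
        = (P.amp a (a.T - τ₀ * Real.exp (-σ)))⁻¹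
          * (ph * cf (u (a.T - τ₀ * Real.exp (-σ))) k) := fun σ hσ =>
      hgau (hu.smooth _ (hmem σ hσ)) _ _
    have hnl : cf (fun x => nl n ((P.amp a t)⁻¹ * u t (x + a.x))) k
        = ((a.T - t : ℝ) : ℂ) * (P.amp a t)⁻¹ * (ph * cf (fun x => nl n (u t x)) k) := by
      have e : (fun x => nl n ((P.amp a t)⁻¹ * u t (x + a.x)))
          = fun x => (((a.T - t : ℝ) : ℂ) * (P.amp a t)⁻¹)
              * (fun x => nl n (u t x)) (x + a.x) := by
        funext x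
        simp only []
        rw [nl_mul, norm_inv, inv_pow, norm_amp_pow P a t hn hT, inv_inv]
      rw [e, hgau (isp_nl P.neven (hu.smooth _ (hmem σ hσ)))]
    refine (hprod.congr_of_mem (f₁ := fun σ => cf (fun x => (P.amp a (a.T - τ₀ * Real.exp (-σ)))⁻¹
        * u (a.T - τ₀ * Real.exp (-σ)) (x + a.x)) k)
      ?_ hσ).congr_deriv ?_
    · intro σ hσ
      rw [hcf σ hσ]; rfl
    · show _ = (-(I * ((τ₀ * Real.exp (-σ) * nk k ^ 2 : ℝ) : ℂ)) + (I * (P.om : ℂ) - 1 / (n : ℂ)))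
        * cf (fun x => (P.amp a t)⁻¹ * u t (x + a.x)) k
        - I * cf (fun x => nl n ((P.amp a t)⁻¹ * u t (x + a.x))) k
      rw [show cf (fun x => (P.amp a t)⁻¹ * u t (x + a.x)) k = (P.amp a t)⁻¹ * (ph * cf (u t) k)
        from hcf σ hσ, hnl]
      simp only [Function.comp_apply, real_smul, ← ht, Pi.inv_apply]
      have e1 : ((τ₀ * Real.exp (-σ) * nk k ^ 2 : ℝ) : ℂ)
          = ((a.T - t : ℝ) : ℂ) * ((nk k ^ 2 : ℝ) : ℂ) := by
        rw [hTt]; push_cast; ring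
      rw [e1, ← hTt]
      have hinv : (((a.T - t)⁻¹ : ℝ) : ℂ) * ((a.T - t : ℝ) : ℂ) = 1 := by
        rw [← Complex.ofReal_mul, inv_mul_cancel₀ hT.ne', Complex.ofReal_one]
      have hamp := amp_ne_zero P a t hT
      generalize (((a.T - t)⁻¹ : ℝ) : ℂ) = r at *
      generalize ((a.T - t : ℝ) : ℂ) = τ at *
      generalize ((nk k ^ 2 : ℝ) : ℂ) = K at *
      generalize P.amp a t = A at *
      field_simp
      linear_combination (ph * cf (u t) k * (I * (P.om : ℂ) * n - 1)) * hinv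

end Crest.Agent.R086.TS
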