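import Mathlib
import Crest.Agent.R086.GrowA
import Crest.Agent.R086.TSVar

-- ▼ part R086/GrowB
section

/-!
Row 86 (S0114), node GrowStep (helper263), file B: scalar Duhamel inequality, Gronwall inequality with
exponential forcing, a bootstrap lemma.
-/

set_option autoImplicit false

open MeasureTheory Set
open scoped Topology

namespace Crest.Agent.R086.Grow

/-- Duhamel inequality for a scalar equation with dissipative multiplier. -/
lemma norm_le_duhamel {S : ℝ} {c F Ψ μ : ℝ → ℂ} {b : ℝ → ℝ}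
    (hΨ : ∀ σ ∈ Icc 0 S, HasDerivWithinAt Ψ (μ σ) (Icc 0 S) σ)
    (hre : ∀ σ ∈ Icc 0 S, ∀ σ' ∈ Icc 0 S, σ' ≤ σ → (Ψ σ).re ≤ (Ψ σ').re)
    (hc : ∀ σ ∈ Icc 0 S, HasDerivWithinAt c (μ σ * c σ + F σ) (Icc 0 S) σ)
    (hb : ContinuousOn b (Icc 0 S)) (hF : ∀ σ ∈ Icc 0 S, ‖F σ‖ ≤ b σ) :
    ∀ σ ∈ Icc 0 S, ‖c σ‖ ≤ ‖c 0‖ + ∫ r in (0 : ℝ)..σ, b r := by
  intro σ hσ
  have hS : 0 ≤ σ := hσ.1
  have hsub : Icc 0 σ ⊆ Icc 0 S := Icc_subset_Icc_right hσ.2
  have h0 : (0 : ℝ) ∈ Icc 0 S := ⟨le_rfl, hσ.1.trans hσ.2⟩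
  -- integrating factor
  set y : ℝ → ℂ := fun r => Complex.exp (-Ψ r) * c r with hy
  have hy' : ∀ r ∈ Icc 0 S, HasDerivWithinAt y (Complex.exp (-Ψ r) * F r) (Icc 0 S) r := by
    intro r hr
    have h1 : HasDerivWithinAt y (Complex.exp (-Ψ r) * (-μ r) * c r
        + Complex.exp (-Ψ r) * (μ r * c r + F r)) (Icc 0 S) r :=
      (((hΨ r hr).neg).cexp).mul (hc r hr)
    exact h1.congr_deriv (by ring)
  have hyc : ContinuousOn y (Icc 0 σ) := fun r hr =>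
    ((hy' r (hsub hr)).continuousWithinAt).mono hsub
  have hΨc : ContinuousOn Ψ (Icc 0 S) := fun r hr => (hΨ r hr).continuousWithinAt
  set g : ℝ → ℝ := fun r => Real.exp (-(Ψ r).re) * b r with hg
  have hgc : ContinuousOn g (Icc 0 S) :=
    (Real.continuous_exp.comp_continuousOn
      ((Complex.continuous_re.comp_continuousOn hΨc).neg)).mul hb
  have hgi : ∀ r ∈ Icc 0 S, IntervalIntegrable g volume 0 r := fun r hr =>
    (hgc.mono (by rw [uIcc_of_le hr.1]; exact Icc_subset_Icc_right hr.2)).intervalIntegrable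
  -- comparison function
  have key : ‖y σ‖ ≤ ‖y 0‖ + ∫ r in (0 : ℝ)..σ, g r := by
    have hB : ContinuousOn (fun r => ‖y 0‖ + ∫ x in (0 : ℝ)..r, g x) (Icc 0 σ) := by
      refine continuousOn_const.add ?_
      have := intervalIntegral.continuousOn_primitive_interval' (hgi σ hσ) (left_mem_uIcc)
      rwa [uIcc_of_le hS] at this
    refine image_norm_le_of_norm_deriv_right_le_deriv_boundary' (f := y)
      (f' := fun r => Complex.exp (-Ψ r) * F r) (a := 0) (b := σ) hyc ?_ ?_ hB ?_ ?_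
      (right_mem_Icc.2 hS) (B' := g)
    · intro r hr
      have hr' : r ∈ Icc 0 S := hsub ⟨hr.1, hr.2.le⟩
      refine (hy' r hr').mono_of_mem_nhdsWithin ?_
      have : r < S := lt_of_lt_of_le hr.2 hσ.2
      exact Filter.mem_of_superset (Icc_mem_nhdsGE this) (Icc_subset_Icc_left hr.1)
    · simp
    · intro r hr
      have hr' : r ∈ Icc 0 S := hsub ⟨hr.1, hr.2.le⟩
      have hlt : r < S := lt_of_lt_of_le hr.2 hσ.2
      have h1 : HasDerivWithinAt (fun u => ∫ x in (0 : ℝ)..u, g x) (g r) (Ici r) r := by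
        refine intervalIntegral.integral_hasDerivWithinAt_right (hgi r hr') ?_ ?_
        · exact (hgc.stronglyMeasurableAtFilter_nhdsWithin measurableSet_Icc r).filter_mono
            (nhdsWithin_le_of_mem (Filter.mem_of_superset (Ioc_mem_nhdsGT hlt)
              (fun x hx => ⟨hr.1.trans hx.1.le, hx.2⟩)))
        · exact (hgc r hr').mono_of_mem_nhdsWithin
            (Filter.mem_of_superset (Icc_mem_nhdsGE hlt) (Icc_subset_Icc_left hr.1)) |>.mono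
              (Ioi_subset_Ici_self)
      exact h1.const_add _
    · intro r hr
      have hr' : r ∈ Icc 0 S := hsub ⟨hr.1, hr.2.le⟩
      rw [norm_mul, Complex.norm_exp, Complex.neg_re]
      exact mul_le_mul_of_nonneg_left (hF r hr') (Real.exp_pos _).le
  -- unwind
  have e1 : ‖c σ‖ = Real.exp ((Ψ σ).re) * ‖y σ‖ := by
    rw [hy]
    simp only [norm_mul, Complex.norm_exp, Complex.neg_re]
    rw [← mul_assoc, ← Real.exp_add]
    simp
  have e2 : Real.exp ((Ψ σ).re) * ‖y 0‖ ≤ ‖c 0‖ := by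
    rw [hy]
    simp only [norm_mul, Complex.norm_exp, Complex.neg_re]
    rw [← mul_assoc, ← Real.exp_add]
    have : Real.exp ((Ψ σ).re + -(Ψ 0).re) ≤ 1 := by
      rw [Real.exp_le_one_iff]
      linarith [hre σ hσ 0 h0 hS]
    nlinarith [norm_nonneg (c 0)]
  have e3 : Real.exp ((Ψ σ).re) * ∫ r in (0 : ℝ)..σ, g r ≤ ∫ r in (0 : ℝ)..σ, b r := by
    rw [← intervalIntegral.integral_const_mul]
    refine intervalIntegral.integral_mono_on hS ((hgi σ hσ).const_mul _) ?_ ?_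
    · exact (hb.mono (by rw [uIcc_of_le hS]; exact hsub)).intervalIntegrable
    · intro r hr
      have hr' := hsub hr
      rw [hg]
      simp only
      rw [← mul_assoc, ← Real.exp_add]
      have h1 : Real.exp ((Ψ σ).re + -(Ψ r).re) ≤ 1 := by
        rw [Real.exp_le_one_iff]
        linarith [hre σ hσ r hr' hr.2]
      have h2 : 0 ≤ b r := (norm_nonneg _).trans (hF r hr')
      nlinarith
  rw [e1]
  calc Real.exp ((Ψ σ).re) * ‖y σ‖
      ≤ Real.exp ((Ψ σ).re) * (‖y 0‖ + ∫ r in (0 : ℝ)..σ, g r) :=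
        mul_le_mul_of_nonneg_left key (Real.exp_pos _).le
    _ ≤ _ := by rw [mul_add]; exact add_le_add e2 e3

/-- Gronwall inequality with exponential forcing. -/
lemma gronwall_exp {S K lam a β : ℝ} {f : ℝ → ℝ} (hK : 0 ≤ K) (hlam : K + 1 ≤ lam) (hβ : 0 ≤ β)
    (hf : ContinuousOn f (Icc 0 S))
    (h : ∀ σ ∈ Icc 0 S, f σ ≤ a + ∫ r in (0 : ℝ)..σ, (K * f r + β * Real.exp (lam * r))) :
    ∀ σ ∈ Icc 0 S, f σ ≤ a * Real.exp (K * σ) + β * Real.exp (lam * σ) := by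
  intro σ hσ
  have hS : 0 ≤ σ := hσ.1
  set w : ℝ → ℝ := fun r => K * f r + β * Real.exp (lam * r) with hw
  have hwc : ContinuousOn w (Icc 0 S) :=
    (continuousOn_const.mul hf).add (by fun_prop)
  have hwi : ∀ r ∈ Icc 0 S, IntervalIntegrable w volume 0 r := fun r hr =>
    (hwc.mono (by rw [uIcc_of_le hr.1]; exact Icc_subset_Icc_right hr.2)).intervalIntegrable
  set g : ℝ → ℝ := fun r => a + ∫ x in (0 : ℝ)..r, w x with hg
  -- B is a supersolution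
  set B : ℝ → ℝ := fun r => a * Real.exp (K * r)
    + β / (lam - K) * (Real.exp (lam * r) - Real.exp (K * r)) with hB
  have hlK : 0 < lam - K := by linarith
  have key : g σ ≤ B σ := by
    have hgc : ContinuousOn g (Icc 0 σ) := by
      refine continuousOn_const.add ?_
      have := intervalIntegral.continuousOn_primitive_interval' (hwi σ hσ) (left_mem_uIcc)
      rwa [uIcc_of_le hS] at this
    set z : ℝ → ℝ := fun r => Real.exp (-(K * r)) * (g r - B r) with hz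
    have hzc : ContinuousOn z (Icc 0 σ) := by
      refine ContinuousOn.mul (by fun_prop) (hgc.sub ?_)
      rw [hB]
      fun_prop
    have hBd : ∀ r, HasDerivAt B (K * B r + β * Real.exp (lam * r)) r := by
      intro r
      have h1 : HasDerivAt (fun r => Real.exp (K * r)) (Real.exp (K * r) * K) r := by
        have := ((hasDerivAt_id r).const_mul K).exp
        simpa using this
      have h2 : HasDerivAt (fun r => Real.exp (lam * r)) (Real.exp (lam * r) * lam) r := by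
        have := ((hasDerivAt_id r).const_mul lam).exp
        simpa using this
      have h3 : HasDerivAt B (a * (Real.exp (K * r) * K)
          + β / (lam - K) * (Real.exp (lam * r) * lam - Real.exp (K * r) * K)) r :=
        (h1.const_mul a).add ((h2.sub h1).const_mul (β / (lam - K)))
      refine h3.congr_deriv ?_
      have hBr : B r = a * Real.exp (K * r)
        + β / (lam - K) * (Real.exp (lam * r) - Real.exp (K * r)) := rfl
      rw [hBr]
      field_simp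
      ring
    have hgd : ∀ r ∈ Ico 0 σ, HasDerivWithinAt g (w r) (Ici r) r := by
      intro r hr
      have hr' : r ∈ Icc 0 S := ⟨hr.1, hr.2.le.trans hσ.2⟩
      have hlt : r < S := lt_of_lt_of_le hr.2 hσ.2
      have h1 : HasDerivWithinAt (fun u => ∫ x in (0 : ℝ)..u, w x) (w r) (Ici r) r := by
        refine intervalIntegral.integral_hasDerivWithinAt_right (hwi r hr') ?_ ?_
        · exact (hwc.stronglyMeasurableAtFilter_nhdsWithin measurableSet_Icc r).filter_mono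
            (nhdsWithin_le_of_mem (Filter.mem_of_superset (Ioc_mem_nhdsGT hlt)
              (fun x hx => ⟨hr.1.trans hx.1.le, hx.2⟩)))
        · exact (hwc r hr').mono_of_mem_nhdsWithin
            (Filter.mem_of_superset (Icc_mem_nhdsGE hlt) (Icc_subset_Icc_left hr.1)) |>.mono
              (Ioi_subset_Ici_self)
      exact h1.const_add _
    have hzd : ∀ r ∈ Ico 0 σ, HasDerivWithinAt z
        (Real.exp (-(K * r)) * (w r - (K * B r + β * Real.exp (lam * r)) - K * (g r - B r)))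
        (Ici r) r := by
      intro r hr
      have h1 : HasDerivAt (fun r => Real.exp (-(K * r))) (Real.exp (-(K * r)) * (-K)) r := by
        have := (((hasDerivAt_id r).const_mul K).neg).exp
        simpa using this
      have h2 : HasDerivWithinAt z (Real.exp (-(K * r)) * (-K) * (g r - B r)
          + Real.exp (-(K * r)) * (w r - (K * B r + β * Real.exp (lam * r)))) (Ici r) r :=
        h1.hasDerivWithinAt.mul ((hgd r hr).sub (hBd r).hasDerivWithinAt)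
      exact h2.congr_deriv (by ring)
    have hz0 : z 0 = 0 := by
      rw [hz, hg, hB]
      simp
    have := image_le_of_deriv_right_le_deriv_boundary (f := z)
      (f' := fun r => Real.exp (-(K * r)) * (w r - (K * B r + β * Real.exp (lam * r))
        - K * (g r - B r))) (a := 0) (b := σ) hzc hzd (B := fun _ => 0) (B' := fun _ => 0)
      (by rw [hz0]) continuousOn_const (fun r _ => hasDerivWithinAt_const _ _ _) ?_
      (right_mem_Icc.2 hS)
    · have h1 : 0 < Real.exp (-(K * σ)) := Real.exp_pos _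
      have h2 : Real.exp (-(K * σ)) * (g σ - B σ) ≤ 0 := this
      nlinarith
    · intro r hr
      have hr' : r ∈ Icc 0 S := ⟨hr.1, hr.2.le.trans hσ.2⟩
      have h1 : f r ≤ g r := h r hr'
      have h2 : w r = K * f r + β * Real.exp (lam * r) := rfl
      have h3 : w r - (K * B r + β * Real.exp (lam * r)) - K * (g r - B r) ≤ 0 := by
        rw [h2]
        nlinarith
      have h4 := Real.exp_pos (-(K * r))
      nlinarith
  refine (h σ hσ).trans (key.trans ?_)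
  rw [hB]
  have h1 : β / (lam - K) * (Real.exp (lam * σ) - Real.exp (K * σ)) ≤ β * Real.exp (lam * σ) := by
    have h2 : β / (lam - K) ≤ β := div_le_self hβ (by linarith)
    have h3 : 0 ≤ β / (lam - K) := by positivity
    have h4 := Real.exp_pos (K * σ)
    have h5 := Real.exp_pos (lam * σ)
    nlinarith
  simp only
  linarith

/-- Bootstrap: a continuous function which is `< 1` at `0` and which improves to `≤ 1/2` on every
interval where it is `≤ 1` stays `≤ 1`. -/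
lemma bootstrap {S : ℝ} {f : ℝ → ℝ} (hf : ContinuousOn f (Icc 0 S)) (h0 : f 0 < 1)
    (h : ∀ σ ∈ Icc 0 S, (∀ r ∈ Icc 0 σ, f r ≤ 1) → f σ ≤ 1 / 2) :
    ∀ σ ∈ Icc 0 S, f σ ≤ 1 := by
  by_contra hcon
  push Not at hcon
  obtain ⟨σ, hσ, hσ1⟩ := hcon
  -- first time where f ≥ 1
  set A : Set ℝ := {r ∈ Icc 0 σ | 1 ≤ f r} with hA
  have hsub : Icc 0 σ ⊆ Icc 0 S := Icc_subset_Icc_right hσ.2
  have hAc : IsCompact A := by
    have hcl : IsClosed A := by
      exact (hf.mono hsub).preimage_isClosed_of_isClosed isClosed_Icc (isClosed_Ici (a := (1 : ℝ)))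
    exact isCompact_Icc.of_isClosed_subset hcl (fun r hr => hr.1)
  have hAn : A.Nonempty := ⟨σ, ⟨hσ.1, le_rfl⟩, hσ1.le⟩
  have hm := hAc.sInf_mem hAn
  set m := sInf A with hmdef
  have hmS : m ∈ Icc 0 S := hsub hm.1
  have hbelow : ∀ r ∈ Ico 0 m, f r < 1 := by
    intro r hr
    by_contra hr1
    push Not at hr1
    have : m ≤ r := csInf_le hAc.bddBelow ⟨⟨hr.1, hr.2.le.trans hm.1.2⟩, hr1⟩
    exact absurd hr.2 (not_lt.2 this)
  have hm0 : 0 < m := by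
    rcases eq_or_lt_of_le hm.1.1 with h1 | h1
    · rw [← h1] at hm
      exact absurd hm.2 (not_le.2 h0)
    · exact h1
  -- f m ≤ 1 by continuity
  have hfm : f m ≤ 1 := by
    have hcw : ContinuousWithinAt f (Ico 0 m) m :=
      (hf m hmS).mono (fun r hr => ⟨hr.1, hr.2.le.trans hmS.2⟩)
    have : (𝓝[Ico 0 m] m).NeBot := by
      rw [← mem_closure_iff_nhdsWithin_neBot, closure_Ico hm0.ne]
      exact ⟨hm0.le, le_rfl⟩
    exact le_of_tendsto hcw (Filter.eventually_of_mem self_mem_nhdsWithin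
      (fun r hr => (hbelow r hr).le))
  have := h m hmS (fun r hr => by
    rcases eq_or_lt_of_le hr.2 with h1 | h1
    · rw [h1]; exact hfm
    · exact (hbelow r ⟨hr.1, h1⟩).le)
  linarith [hm.2]

end Crest.Agent.R086.Grow
end

-- ▼ part R086/GrowC
section

/-!
Row 86 (S0114), node GrowStep (helper263), file C: a-priori estimates on one step.
-/

set_option autoImplicit false

open MeasureTheory Complex Set
open scoped ContDiff Topology ComplexConjugate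
open Crest.AnalysisR.PDE.NLS (IsSmoothPeriodic periodCell)

namespace Crest.Agent.R086.Grow

noncomputable section

/-! ### abstract weighted sums -/

lemma sum_bound {Z : Type*} {S : ℝ} {c : ℝ → Z → ℂ} {b w : ℝ → Z → ℝ} {G : ℝ → ℝ}
    (hd : ∀ k, ∀ σ ∈ Icc 0 S, ‖c σ k‖ ≤ ‖c 0 k‖ + ∫ r in (0 : ℝ)..σ, b r k)
    (hb : ∀ k, ContinuousOn (fun r => b r k) (Icc 0 S)) (hb0 : ∀ r ∈ Icc 0 S, ∀ k, 0 ≤ b r k)
    (hw : ∀ k, ContinuousOn (fun r => w r k) (Icc 0 S)) (hw0 : ∀ r ∈ Icc 0 S, ∀ k, 0 ≤ w r k)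
    (hanti : ∀ k, ∀ σ ∈ Icc 0 S, ∀ r ∈ Icc 0 S, r ≤ σ → w σ k ≤ w r k)
    (hG : ContinuousOn G (Icc 0 S))
    (hsum : ∀ A : Finset Z, ∀ r ∈ Icc 0 S, ∑ k ∈ A, w r k * b r k ≤ G r)
    {L : ℝ} (h0 : ∀ A : Finset Z, ∑ k ∈ A, w 0 k * ‖c 0 k‖ ≤ L) :
    ∀ σ ∈ Icc 0 S, ∀ A : Finset Z, ∑ k ∈ A, w σ k * ‖c σ k‖ ≤ L + ∫ r in (0 : ℝ)..σ, G r := by
  intro σ hσ A
  have hS0 : (0 : ℝ) ∈ Icc 0 S := ⟨le_rfl, hσ.1.trans hσ.2⟩
  have hsub : Icc 0 σ ⊆ Icc 0 S := Icc_subset_Icc_right hσ.2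
  have hint : ∀ f : ℝ → ℝ, ContinuousOn f (Icc 0 S) → IntervalIntegrable f volume 0 σ := fun f hf =>
    (hf.mono (by rw [uIcc_of_le hσ.1]; exact hsub)).intervalIntegrable
  have h1 : ∀ k, w σ k * ‖c σ k‖ ≤ w 0 k * ‖c 0 k‖ + ∫ r in (0 : ℝ)..σ, w r k * b r k := by
    intro k
    have e1 : w σ k * ‖c σ k‖ ≤ w σ k * ‖c 0 k‖ + w σ k * ∫ r in (0 : ℝ)..σ, b r k := by
      rw [← mul_add]
      exact mul_le_mul_of_nonneg_left (hd k σ hσ) (hw0 σ hσ k)
    have e2 : w σ k * ‖c 0 k‖ ≤ w 0 k * ‖c 0 k‖ :=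
      mul_le_mul_of_nonneg_right (hanti k σ hσ 0 hS0 hσ.1) (norm_nonneg _)
    have e3 : w σ k * ∫ r in (0 : ℝ)..σ, b r k ≤ ∫ r in (0 : ℝ)..σ, w r k * b r k := by
      rw [← intervalIntegral.integral_const_mul]
      refine intervalIntegral.integral_mono_on hσ.1 ((hint _ (hb k)).const_mul _)
        (hint _ ((hw k).mul (hb k))) fun r hr => ?_
      exact mul_le_mul_of_nonneg_right (hanti k σ hσ r (hsub hr) hr.2) (hb0 r (hsub hr) k)
    linarith
  calc ∑ k ∈ A, w σ k * ‖c σ k‖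
      ≤ ∑ k ∈ A, (w 0 k * ‖c 0 k‖ + ∫ r in (0 : ℝ)..σ, w r k * b r k) :=
        Finset.sum_le_sum fun k _ => h1 k
    _ = ∑ k ∈ A, w 0 k * ‖c 0 k‖ + ∫ r in (0 : ℝ)..σ, ∑ k ∈ A, w r k * b r k := by
        rw [Finset.sum_add_distrib, intervalIntegral.integral_finsetSum]
        intro k _
        exact hint _ ((hw k).mul (hb k))
    _ ≤ L + ∫ r in (0 : ℝ)..σ, G r := by
        refine add_le_add (h0 A) ?_
        refine intervalIntegral.integral_mono_on hσ.1 (hint _ ?_) (hint _ hG)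
          fun r hr => hsum A r (hsub hr)
        exact continuousOn_finsetSum A fun k _ => (hw k).mul (hb k)

/-- `∑ (1+|k|)^(-24)` -/
def K24 : ℝ := ∑' k : Z12, ((1 + nk k) ^ 24)⁻¹

lemma K24_nonneg : 0 ≤ K24 := tsum_nonneg fun k => by have := one_add_nk_pos k; positivity

lemma sum_le_K24 (A : Finset Z12) : ∑ k ∈ A, ((1 + nk k) ^ 24)⁻¹ ≤ K24 :=
  summable_inv24.sum_le_tsum A fun k _ => by have := one_add_nk_pos k; positivity

/-- weighted sums of rapidly decaying continuous families are continuous. -/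
lemma continuousOn_wsum {S : ℝ} {c : ℝ → Z12 → ℂ} {w : ℝ → Z12 → ℝ} {N : ℕ} {B : ℝ}
    (hc : ∀ k, ContinuousOn (fun r => c r k) (Icc 0 S))
    (hB : ∀ r ∈ Icc 0 S, ∀ k, (1 + nk k) ^ (N + 24) * ‖c r k‖ ≤ B)
    (hw : ∀ k, ContinuousOn (fun r => w r k) (Icc 0 S))
    (hw0 : ∀ r ∈ Icc 0 S, ∀ k, 0 ≤ w r k)
    (hwN : ∀ r ∈ Icc 0 S, ∀ k, w r k ≤ (1 + nk k) ^ N) :
    ContinuousOn (fun r => ∑' k, w r k * ‖c r k‖) (Icc 0 S) := by
  refine continuousOn_tsum (u := fun k => B * ((1 + nk k) ^ 24)⁻¹) (fun k => (hw k).mul (hc k).norm)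
    (summable_inv24.mul_left B) fun k r hr => ?_
  have hp : 0 < (1 + nk k) ^ 24 := pow_pos (one_add_nk_pos k) _
  rw [Real.norm_of_nonneg (mul_nonneg (hw0 r hr k) (norm_nonneg _)), ← div_eq_mul_inv,
    le_div_iff₀ hp]
  calc w r k * ‖c r k‖ * (1 + nk k) ^ 24
      ≤ (1 + nk k) ^ N * ‖c r k‖ * (1 + nk k) ^ 24 := by
        gcongr
        exact hwN r hr k
    _ = (1 + nk k) ^ (N + 24) * ‖c r k‖ := by ring
    _ ≤ B := hB r hr k

/-- uniform rapid decay of a family of smooth periodic functions -/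
def UDec (S : ℝ) (V : ℝ → R12 → ℂ) : Prop :=
  ∀ M : ℕ, ∃ B : ℝ, 0 ≤ B ∧ ∀ r ∈ Icc 0 S, ∀ k, (1 + nk k) ^ M * ‖cf (V r) k‖ ≤ B

lemma UDec.sub {S : ℝ} {V W : ℝ → R12 → ℂ} (hV : UDec S V) (hW : UDec S W)
    (sV : ∀ r ∈ Icc 0 S, Continuous (V r)) (sW : ∀ r ∈ Icc 0 S, Continuous (W r)) :
    UDec S (fun r x => V r x - W r x) := by
  intro M
  obtain ⟨B, hB0, hB⟩ := hV M
  obtain ⟨B', hB'0, hB'⟩ := hW M
  refine ⟨B + B', by positivity, fun r hr k => ?_⟩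
  rw [cf_sub (sV r hr) (sW r hr)]
  have h0 : 0 ≤ (1 + nk k) ^ M := (pow_pos (one_add_nk_pos k) _).le
  calc (1 + nk k) ^ M * ‖cf (V r) k - cf (W r) k‖
      ≤ (1 + nk k) ^ M * (‖cf (V r) k‖ + ‖cf (W r) k‖) :=
        mul_le_mul_of_nonneg_left (norm_sub_le _ _) h0
    _ ≤ B + B' := by rw [mul_add]; exact add_le_add (hB r hr k) (hB' r hr k)

/-- plain Wiener norm of a difference tends to zero -/
lemma tendsto_l1_sub {S : ℝ} {V : ℝ → R12 → ℂ} (sV : ∀ r ∈ Icc 0 S, IsSmoothPeriodic (V r))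
    (hV : UDec S V) (hc : ∀ k, ContinuousOn (fun r => cf (V r) k) (Icc 0 S)) {r₀ : ℝ}
    (hr₀ : r₀ ∈ Icc 0 S) :
    Filter.Tendsto (fun r => l1 (fun x => V r x - V r₀ x)) (𝓝[Icc 0 S] r₀) (𝓝 0) := by
  obtain ⟨B, hB0, hB⟩ := hV 24
  have h1 : ContinuousOn (fun r => ∑' k, (1 : ℝ) * ‖(fun r k => cf (V r) k - cf (V r₀) k) r k‖)
      (Icc 0 S) := by
    refine continuousOn_wsum (w := fun _ _ => 1) (N := 0) (B := B + B)
      (fun k => (hc k).sub continuousOn_const) (fun r hr k => ?_) (fun k => continuousOn_const)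
      (fun _ _ _ => zero_le_one) (fun _ _ _ => by simp)
    have h0 : 0 ≤ (1 + nk k) ^ 24 := (pow_pos (one_add_nk_pos k) _).le
    rw [zero_add]
    calc (1 + nk k) ^ 24 * ‖cf (V r) k - cf (V r₀) k‖
        ≤ (1 + nk k) ^ 24 * (‖cf (V r) k‖ + ‖cf (V r₀) k‖) :=
          mul_le_mul_of_nonneg_left (norm_sub_le _ _) h0
      _ ≤ B + B := by rw [mul_add]; exact add_le_add (hB r hr k) (hB r₀ hr₀ k)
  have h2 := h1 r₀ hr₀
  unfold ContinuousWithinAt at h2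
  simp only [sub_self, norm_zero, mul_zero, tsum_zero, one_mul] at h2
  refine h2.congr' ?_
  filter_upwards [self_mem_nhdsWithin] with r hr
  unfold l1
  refine tsum_congr fun k => ?_
  rw [cf_sub (sp_cont (sV r hr)) (sp_cont (sV r₀ hr₀))]

/-- the Fourier coefficients of the nonlinearity are continuous -/
lemma continuousOn_cf_pm (hN : TN) (hT : TF1) {S : ℝ} {V : ℝ → R12 → ℂ}
    (sV : ∀ r ∈ Icc 0 S, IsSmoothPeriodic (V r)) (hV : UDec S V)
    (hc : ∀ k, ContinuousOn (fun r => cf (V r) k) (Icc 0 S)) (m : ℕ) (k : Z12) :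
    ContinuousOn (fun r => cf (fun x => pm m (V r x)) k) (Icc 0 S) := by
  obtain ⟨B, hB0, hB⟩ := hV 24
  have hl : ∀ r ∈ Icc 0 S, l1 (V r) ≤ B * K24 := by
    intro r hr
    unfold l1 K24
    rw [← tsum_mul_left]
    have hs := (hT (V r) (sV r hr)).1 0
    simp only [pow_zero, one_mul] at hs
    refine hs.tsum_le_tsum (fun j => ?_) (summable_inv24.mul_left B)
    have hp : 0 < (1 + nk j) ^ 24 := pow_pos (one_add_nk_pos j) _
    rw [← div_eq_mul_inv, le_div_iff₀ hp]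
    linarith [hB r hr j]
  intro r₀ hr₀
  have ht := tendsto_l1_sub sV hV hc hr₀
  have h1 : Filter.Tendsto (fun r => (2 * m + 1) * (B * K24) ^ (2 * m)
      * l1 (fun x => V r x - V r₀ x)) (𝓝[Icc 0 S] r₀) (𝓝 0) := by
    have := ht.const_mul ((2 * m + 1) * (B * K24) ^ (2 * m))
    simpa using this
  unfold ContinuousWithinAt
  rw [tendsto_iff_norm_sub_tendsto_zero]
  refine squeeze_zero' (Filter.Eventually.of_forall fun _ => norm_nonneg _) ?_ h1
  filter_upwards [self_mem_nhdsWithin] with r hr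
  rw [← cf_sub (sp_cont (sp_pm (sV r hr) m)) (sp_cont (sp_pm (sV r₀ hr₀) m))]
  refine (cf_le_l1 hT (sp_sub (sp_pm (sV r hr) m) (sp_pm (sV r₀ hr₀) m)) k).trans ?_
  exact l1_pm_diff hN (sV r hr) (sV r₀ hr₀) (hl r hr) (hl r₀ hr₀) m

/-! ### the scale -/

lemma hs_pos {τ₀ : ℝ} (h : 0 < τ₀) (σ : ℝ) : 0 < Profile.hs τ₀ σ :=
  Real.sqrt_pos.2 (by positivity)

lemma hs_le_one {τ₀ : ℝ} (h : 0 < τ₀) (h1 : τ₀ ≤ 1) {σ : ℝ} (hσ : 0 ≤ σ) : Profile.hs τ₀ σ ≤ 1 := by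
  unfold Profile.hs
  have : Real.exp (-σ) ≤ 1 := by rw [Real.exp_le_one_iff]; linarith
  have h2 : τ₀ * Real.exp (-σ) ≤ 1 := by nlinarith [Real.exp_pos (-σ)]
  exact (Real.sqrt_le_sqrt h2).trans_eq Real.sqrt_one

lemma hs_eq {τ₀ : ℝ} (h : 0 < τ₀) (σ : ℝ) :
    Profile.hs τ₀ σ = Real.exp (-(σ / 2)) * Real.sqrt τ₀ := by
  unfold Profile.hs
  rw [Real.sqrt_mul h.le, mul_comm]
  congr 1
  rw [Real.sqrt_eq_iff_mul_self_eq (Real.exp_pos _).le (Real.exp_pos _).le, ← Real.exp_add]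
  congr 1
  ring

lemma hs_anti {τ₀ : ℝ} (h : 0 < τ₀) {r σ : ℝ} (hr : r ≤ σ) : Profile.hs τ₀ σ ≤ Profile.hs τ₀ r := by
  unfold Profile.hs
  apply Real.sqrt_le_sqrt
  have : Real.exp (-σ) ≤ Real.exp (-r) := by apply Real.exp_le_exp.2; linarith
  nlinarith

lemma hs_zero (τ₀ : ℝ) : Profile.hs τ₀ 0 = Real.sqrt τ₀ := by simp [Profile.hs]

lemma continuous_hs (τ₀ : ℝ) : Continuous (Profile.hs τ₀) := by
  unfold Profile.hs; fun_prop

lemma hi_scale {τ₀ : ℝ} (h : 0 < τ₀) (s : ℕ) (σ : ℝ) (v : R12 → ℂ) :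
    hi s (Profile.hs τ₀ σ) v = Real.exp (-((s : ℝ) / 2 * σ)) * hi s (Real.sqrt τ₀) v := by
  unfold hi
  rw [← tsum_mul_left]
  refine tsum_congr fun k => ?_
  rw [hs_eq h, mul_assoc, mul_pow, ← Real.exp_nat_mul, mul_assoc]
  congr 2
  ring

end

end Crest.Agent.R086.Grow
end

-- ▼ part R086/GrowD
section

/-!
Row 86 (S0114), node GrowStep (helper263), file D: the perturbation of a solution of the rescaled
equation: Duhamel, continuity, decay.
-/

set_option autoImplicit false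

open MeasureTheory Complex Set
open scoped ContDiff Topology ComplexConjugate
open Crest.AnalysisR.PDE.NLS (IsSmoothPeriodic periodCell)

namespace Crest.Agent.R086.Grow

noncomputable section

open Profile

/-- the profile along the step -/
def qq {n : ℕ} (P : Profile n) (τ₀ r : ℝ) : R12 → ℂ := P.qt (τ₀ * Real.exp (-r))

/-- the equation of the periodised profile (content of TP2) for one error family `gt` -/
def EqT {n : ℕ} (P : Profile n) (gt : ℝ → R12 → ℂ) : Prop :=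
  ∀ (τ₀ : ℝ), 0 < τ₀ → ∀ (s : ℝ) (k : Z12), HasDerivAt (fun s => cf (P.qt (τ₀ * Real.exp (-s))) k)
    ((-(I * ((τ₀ * Real.exp (-s) * nk k ^ 2 : ℝ) : ℂ)) + (I * (P.om : ℂ) - 1 / (n : ℂ)))
        * cf (P.qt (τ₀ * Real.exp (-s))) k - I * cf (fun x => nl n (P.qt (τ₀ * Real.exp (-s)) x)) k
      - cf (gt (τ₀ * Real.exp (-s))) k) s

lemma tau_pos {τ₀ : ℝ} (h : 0 < τ₀) (r : ℝ) : 0 < τ₀ * Real.exp (-r) := by positivity

lemma tau_le {τ₀ : ℝ} (h : 0 < τ₀) {r : ℝ} (hr : 0 ≤ r) : τ₀ * Real.exp (-r) ≤ τ₀ := by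
  have : Real.exp (-r) ≤ 1 := by rw [Real.exp_le_one_iff]; linarith
  nlinarith

section

variable {n : ℕ} (P : Profile n) {τ₀ S : ℝ} {U : ℝ → R12 → ℂ} {gt : ℝ → R12 → ℂ}

lemma sp_qq (h1 : TP1 P) (hτ : 0 < τ₀) (r : ℝ) : IsSmoothPeriodic (qq P τ₀ r) :=
  (h1.1 _ (tau_pos hτ r)).1

lemma sp_pert (h1 : TP1 P) (hτ : 0 < τ₀) (hU : P.ResSol τ₀ S U) :
    ∀ r ∈ Icc 0 S, IsSmoothPeriodic (P.pert τ₀ U r) := fun r hr =>
  sp_sub (hU.smooth r hr) (sp_qq P h1 hτ r)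

/-- the difference of the nonlinearities -/
def DN (m : ℕ) (U : ℝ → R12 → ℂ) (q : ℝ → R12 → ℂ) (r : ℝ) : R12 → ℂ :=
  fun x => pm m (U r x) - pm m (q r x)

lemma udec_U (hT : TF1) (hU : P.ResSol τ₀ S U) : UDec S U := by
  intro M
  obtain ⟨B, hB⟩ := hU.bdd M
  refine ⟨max B 0, le_max_right _ _, fun r hr k => ?_⟩
  exact ((term_le_wn hT (hU.smooth r hr) M k).trans (hB r hr)).trans (le_max_left _ _)

lemma udec_q (hT : TF1) (h1 : TP1 P) (hτ : 0 < τ₀) (hτ1 : τ₀ ≤ 1) : UDec S (qq P τ₀) := by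
  intro M
  obtain ⟨C, hC0, hC⟩ := h1.2 M
  refine ⟨((hs τ₀ S)⁻¹) ^ M * C, by have := hs_pos hτ S; positivity, fun r hr k => ?_⟩
  have hsp := sp_qq P h1 hτ r
  have hp := hs_pos hτ r
  have hp1 := hs_le_one hτ hτ1 hr.1
  have hpS := hs_pos hτ S
  refine (term_le_wn hT hsp M k).trans ((wn_one_le hT hsp M hp hp1).trans ?_)
  have h2 : wn M (hs τ₀ r) (qq P τ₀ r) ≤ C :=
    (hC _ (tau_pos hτ r) ((tau_le hτ hr.1).trans hτ1)).1
  have h3 : (hs τ₀ r)⁻¹ ≤ (hs τ₀ S)⁻¹ := inv_anti₀ hpS (hs_anti hτ hr.2)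
  have h4 := wn_nonneg M hp.le (qq P τ₀ r)
  gcongr

lemma cont_cf_U (hU : P.ResSol τ₀ S U) (k : Z12) :
    ContinuousOn (fun r => cf (U r) k) (Icc 0 S) := fun r hr =>
  (hU.ode r hr k).continuousWithinAt

lemma cont_cf_q (hg : EqT P gt) (hτ : 0 < τ₀) (k : Z12) :
    ContinuousOn (fun r => cf (qq P τ₀ r) k) (Icc 0 S) := fun r _ =>
  (hg τ₀ hτ r k).continuousAt.continuousWithinAt

lemma udec_pert (hT : TF1) (h1 : TP1 P) (hτ : 0 < τ₀) (hτ1 : τ₀ ≤ 1) (hU : P.ResSol τ₀ S U) :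
    UDec S (P.pert τ₀ U) :=
  (udec_U P hT hU).sub (udec_q P hT h1 hτ hτ1) (fun r hr => sp_cont (hU.smooth r hr))
    (fun r _ => sp_cont (sp_qq P h1 hτ r))

lemma cont_cf_pert (h1 : TP1 P) (hg : EqT P gt) (hτ : 0 < τ₀) (hU : P.ResSol τ₀ S U) (k : Z12) :
    ContinuousOn (fun r => cf (P.pert τ₀ U r) k) (Icc 0 S) := by
  refine ((cont_cf_U P hU k).sub (cont_cf_q P hg hτ k)).congr fun r hr => ?_
  exact cf_sub (sp_cont (hU.smooth r hr)) (sp_cont (sp_qq P h1 hτ r)) k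

lemma cont_cf_DN (hN : TN) (hT : TF1) (h1 : TP1 P) (hg : EqT P gt) (hτ : 0 < τ₀) (hτ1 : τ₀ ≤ 1)
    (hU : P.ResSol τ₀ S U) (m : ℕ) (k : Z12) :
    ContinuousOn (fun r => cf (DN m U (qq P τ₀) r) k) (Icc 0 S) := by
  refine ((continuousOn_cf_pm hN hT hU.smooth (udec_U P hT hU) (cont_cf_U P hU) m k).sub
    (continuousOn_cf_pm hN hT (fun r _ => sp_qq P h1 hτ r) (udec_q P hT h1 hτ hτ1)
      (cont_cf_q P hg hτ) m k)).congr fun r hr => ?_
  exact cf_sub (sp_cont (sp_pm (hU.smooth r hr) m)) (sp_cont (sp_pm (sp_qq P h1 hτ r) m)) k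

/-- Duhamel for every coefficient of the perturbation -/
lemma duhamel_pert (hN : TN) (hT : TF1) (h1 : TP1 P) (hg : EqT P gt) (hτ : 0 < τ₀) (hτ1 : τ₀ ≤ 1)
    (hU : P.ResSol τ₀ S U) {m : ℕ} (hm : n = 2 * m) {γ : Z12 → ℝ}
    (hγ : ∀ r ∈ Icc 0 S, ∀ k, ‖cf (gt (τ₀ * Real.exp (-r))) k‖ ≤ γ k) :
    ∀ k, ∀ σ ∈ Icc 0 S, ‖cf (P.pert τ₀ U σ) k‖ ≤ ‖cf (P.pert τ₀ U 0) k‖
      + ∫ r in (0 : ℝ)..σ, (‖cf (DN m U (qq P τ₀) r) k‖ + γ k) := by
  intro k
  have hn : n ≠ 0 := by have := P.two_le; omega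
  have hnr : (0 : ℝ) < (n : ℝ) := Nat.cast_pos.2 (Nat.pos_of_ne_zero hn)
  -- multiplier and its primitive
  set μ : ℝ → ℂ := fun r => -(I * ((τ₀ * Real.exp (-r) * nk k ^ 2 : ℝ) : ℂ))
    + (I * (P.om : ℂ) - 1 / (n : ℂ)) with hμ
  set Ψ : ℝ → ℂ := fun r => I * ((τ₀ * nk k ^ 2 * Real.exp (-r) : ℝ) : ℂ)
    + (I * (P.om : ℂ) - 1 / (n : ℂ)) * (r : ℂ) with hΨ
  have hΨd : ∀ r, HasDerivAt Ψ (μ r) r := by
    intro r
    have e1 : HasDerivAt (fun r : ℝ => τ₀ * nk k ^ 2 * Real.exp (-r))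
        (τ₀ * nk k ^ 2 * (Real.exp (-r) * (-1))) r :=
      (((hasDerivAt_id r).neg).exp).const_mul _
    have e2 : HasDerivAt (fun r : ℝ => (r : ℂ)) 1 r := by
      simpa using (hasDerivAt_id r).ofReal_comp
    have e3 := (e1.ofReal_comp.const_mul I).add (e2.const_mul (I * (P.om : ℂ) - 1 / (n : ℂ)))
    refine HasDerivAt.congr_deriv (f := Ψ) e3 ?_
    rw [hμ]
    push_cast
    ring
  have hΨre : ∀ r : ℝ, (Ψ r).re = -(1 / (n : ℝ)) * r := by
    intro r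
    have e0 : Ψ r = I * ((τ₀ * nk k ^ 2 * Real.exp (-r) : ℝ) : ℂ)
      + (I * (P.om : ℂ) - 1 / (n : ℂ)) * (r : ℂ) := rfl
    have e1 : (1 / (n : ℂ)) = (((1 / (n : ℝ)) : ℝ) : ℂ) := by push_cast; rfl
    rw [e0, e1]
    generalize τ₀ * nk k ^ 2 * Real.exp (-r) = a
    generalize 1 / (n : ℝ) = b
    simp [Complex.add_re, Complex.mul_re, Complex.sub_re]
  set F : ℝ → ℂ := fun r => -(I * cf (DN m U (qq P τ₀) r) k) + cf (gt (τ₀ * Real.exp (-r))) k with hF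
  refine norm_le_duhamel (c := fun r => cf (P.pert τ₀ U r) k) (F := F) (Ψ := Ψ) (μ := μ)
    (fun r _ => (hΨd r).hasDerivWithinAt) ?_ ?_ ?_ ?_
  · intro σ _ r _ hr
    rw [hΨre, hΨre]
    have : 0 < 1 / (n : ℝ) := by positivity
    nlinarith
  · intro r hr
    have e1 := (hU.ode r hr k).sub ((hg τ₀ hτ r k).hasDerivWithinAt (s := Icc 0 S))
    have e2 : HasDerivWithinAt (fun r => cf (P.pert τ₀ U r) k) _ (Icc 0 S) r :=
      e1.congr (fun y hy => cf_sub (sp_cont (hU.smooth y hy)) (sp_cont (sp_qq P h1 hτ y)) k)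
        (cf_sub (sp_cont (hU.smooth r hr)) (sp_cont (sp_qq P h1 hτ r)) k)
    refine e2.congr_deriv ?_
    have e3 : cf (P.pert τ₀ U r) k = cf (U r) k - cf (P.qt (τ₀ * Real.exp (-r))) k :=
      cf_sub (sp_cont (hU.smooth r hr)) (sp_cont (sp_qq P h1 hτ r)) k
    have e4 : cf (DN m U (qq P τ₀) r) k = cf (fun x => nl n (U r x)) k
        - cf (fun x => nl n (P.qt (τ₀ * Real.exp (-r)) x)) k := by
      have e5 : cf (DN m U (qq P τ₀) r) k = cf (fun x => pm m (U r x)) k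
          - cf (fun x => pm m (qq P τ₀ r x)) k :=
        cf_sub (sp_cont (sp_pm (hU.smooth r hr) m)) (sp_cont (sp_pm (sp_qq P h1 hτ r) m)) k
      have hnl : ∀ z : ℂ, nl n z = pm m z := fun z => by
        rw [← nl_eq_pm m z]; exact congrArg (fun j => nl j z) hm
      rw [e5]
      simp only [hnl, qq]
    rw [hμ, hF]
    simp only
    rw [e3, e4]
    ring
  · exact (cont_cf_DN P hN hT h1 hg hτ hτ1 hU m k).norm.add continuousOn_const
  · intro r hr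
    rw [hF]
    simp only
    refine (norm_add_le _ _).trans (add_le_add (le_of_eq ?_) (hγ r hr k))
    rw [norm_neg, norm_mul, Complex.norm_I, one_mul]

end

end

end Crest.Agent.R086.Grow
end

-- ▼ part R086/GrowE
section

/-!
Row 86 (S0114), node GrowStep (helper263), file E: low and high norm a-priori estimates.
-/

set_option autoImplicit false

open MeasureTheory Complex Set
open scoped ContDiff Topology ComplexConjugate
open Crest.AnalysisR.PDE.NLS (IsSmoothPeriodic periodCell)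

namespace Crest.Agent.R086.Grow

noncomputable section

open Profile

section

variable {n : ℕ} (P : Profile n) {τ₀ S : ℝ} {U : ℝ → R12 → ℂ} {gt : ℝ → R12 → ℂ}

/-- pointwise bound of the coefficients of the error -/
lemma gt_coef (hT : TF1) {M : ℕ} {Cg : ℝ} (hgs : ∀ τ : ℝ, 0 < τ → IsSmoothPeriodic (gt τ))
    (hCg : ∀ τ : ℝ, 0 < τ → τ ≤ 1 → wn M 1 (gt τ) ≤ Cg * τ) (hCg0 : 0 ≤ Cg)
    (hτ : 0 < τ₀) (hτ1 : τ₀ ≤ 1) : ∀ r ∈ Icc 0 S, ∀ k,
      ‖cf (gt (τ₀ * Real.exp (-r))) k‖ ≤ Cg * τ₀ * ((1 + nk k) ^ M)⁻¹ := by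
  intro r hr k
  have hp := tau_pos hτ r
  have hl := tau_le hτ hr.1
  refine (cf_le hT (hgs _ hp) M k).trans ?_
  have h1 : wn M 1 (gt (τ₀ * Real.exp (-r))) ≤ Cg * τ₀ :=
    (hCg _ hp (hl.trans hτ1)).trans (mul_le_mul_of_nonneg_left hl hCg0)
  have h2 : 0 ≤ ((1 + nk k) ^ M)⁻¹ := by have := one_add_nk_pos k; positivity
  exact mul_le_mul_of_nonneg_right h1 h2

/-- LOW NORM: linear bound as long as it is `≤ 1`. -/
lemma low_bound (hN : TN) (hT : TF1) (h1 : TP1 P) (hg : EqT P gt) (hτ : 0 < τ₀) (hτ1 : τ₀ ≤ 1)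
    (hU : P.ResSol τ₀ S U) {m : ℕ} (hm : n = 2 * m) (N : ℕ) {Cq Cg : ℝ} (hCq0 : 0 ≤ Cq)
    (hCq : ∀ τ : ℝ, 0 < τ → τ ≤ 1 → wn N (Real.sqrt τ) (P.qt τ) ≤ Cq)
    (hgs : ∀ τ : ℝ, 0 < τ → IsSmoothPeriodic (gt τ)) (hCg0 : 0 ≤ Cg)
    (hCg : ∀ τ : ℝ, 0 < τ → τ ≤ 1 → wn (N + 24) 1 (gt τ) ≤ Cg * τ)
    (hle : ∀ r ∈ Icc 0 S, wn N (hs τ₀ r) (P.pert τ₀ U r) ≤ 1) :
    ∀ σ ∈ Icc 0 S, wn N (hs τ₀ σ) (P.pert τ₀ U σ)
      ≤ (wn N (hs τ₀ 0) (P.pert τ₀ U 0) + Cg * K24 * τ₀)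
        * Real.exp (((2 * m + 1) * (Cq + 1) ^ (2 * m) + 1) * σ) := by
  intro σ₁ hσ₁
  set K : ℝ := (2 * m + 1) * (Cq + 1) ^ (2 * m) with hK
  have hK0 : 0 ≤ K := by positivity
  have h0S : (0 : ℝ) ∈ Icc 0 S := ⟨le_rfl, hσ₁.1.trans hσ₁.2⟩
  have hsp := sp_pert P h1 hτ hU
  have hdec := udec_pert P hT h1 hτ hτ1 hU
  have hcc := cont_cf_pert P h1 hg hτ hU
  -- continuity of the low norm
  obtain ⟨B, hB0, hB⟩ := hdec (N + 24)
  have hw : ∀ k : Z12, ContinuousOn (fun r => (1 + hs τ₀ r * nk k) ^ N) (Icc 0 S) := fun k =>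
    ((continuous_const.add ((continuous_hs τ₀).mul continuous_const)).pow N).continuousOn
  have hw0 : ∀ r ∈ Icc 0 S, ∀ k : Z12, 0 ≤ (1 + hs τ₀ r * nk k) ^ N := fun r _ k => by
    have := nk_nonneg k; have := hs_pos hτ r; positivity
  have hwN : ∀ r ∈ Icc 0 S, ∀ k : Z12, (1 + hs τ₀ r * nk k) ^ N ≤ (1 + nk k) ^ N := by
    intro r hr k
    have h2 := nk_nonneg k
    have h3 := hs_pos hτ r
    have h4 := hs_le_one hτ hτ1 hr.1
    gcongr
    nlinarith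
  set f : ℝ → ℝ := fun r => wn N (hs τ₀ r) (P.pert τ₀ U r) with hf
  have hfc : ContinuousOn f (Icc 0 S) :=
    continuousOn_wsum (c := fun r k => cf (P.pert τ₀ U r) k)
      (w := fun r k => (1 + hs τ₀ r * nk k) ^ N) hcc hB hw hw0 hwN
  set β : ℝ := Cg * K24 * τ₀ with hβ
  have hβ0 : 0 ≤ β := by have := K24_nonneg; positivity
  have hγ := gt_coef (S := S) hT hgs hCg hCg0 hτ hτ1
  -- integral inequality
  have key : ∀ σ ∈ Icc 0 S, f σ ≤ f 0 + ∫ r in (0 : ℝ)..σ, (K * f r + β * Real.exp ((K + 1) * r)) := by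
    intro σ hσ
    have hs1 := sum_bound (S := S) (c := fun r k => cf (P.pert τ₀ U r) k)
      (b := fun r k => ‖cf (DN m U (qq P τ₀) r) k‖ + Cg * τ₀ * ((1 + nk k) ^ (N + 24))⁻¹)
      (w := fun r k => (1 + hs τ₀ r * nk k) ^ N)
      (G := fun r => K * f r + β * Real.exp ((K + 1) * r)) (L := f 0)
      (duhamel_pert P hN hT h1 hg hτ hτ1 hU hm hγ)
      (fun k => (cont_cf_DN P hN hT h1 hg hτ hτ1 hU m k).norm.add continuousOn_const)
      (fun r _ k => by have := one_add_nk_pos k; positivity) hw hw0 ?_ ?_ ?_ ?_ σ hσ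
    · refine Real.tsum_le_of_sum_le (fun k => ?_) hs1
      exact mul_nonneg (hw0 σ hσ k) (norm_nonneg _)
    · intro k σ hσ r hr hrσ
      have h2 := nk_nonneg k
      have h3 := hs_pos hτ σ
      have h4 := hs_anti hτ hrσ
      show (1 + hs τ₀ σ * nk k) ^ N ≤ (1 + hs τ₀ r * nk k) ^ N
      gcongr
    · exact (continuousOn_const.mul hfc).add (by fun_prop)
    · intro A r hr
      have hh := hs_pos hτ r
      have hh1 := hs_le_one hτ hτ1 hr.1
      have hDs : IsSmoothPeriodic (DN m U (qq P τ₀) r) :=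
        sp_sub (sp_pm (hU.smooth r hr) m) (sp_pm (sp_qq P h1 hτ r) m)
      -- part 1
      have e1 : ∑ k ∈ A, (1 + hs τ₀ r * nk k) ^ N * ‖cf (DN m U (qq P τ₀) r) k‖ ≤ K * f r := by
        refine ((summable_wn hT hDs N hh.le hh1).sum_le_tsum A (fun k _ =>
          mul_nonneg (hw0 r hr k) (norm_nonneg _))).trans ?_
        have hq1 : wn N (hs τ₀ r) (qq P τ₀ r) ≤ Cq + 1 := by
          have := hCq _ (tau_pos hτ r) ((tau_le hτ hr.1).trans hτ1)
          have h5 : wn N (hs τ₀ r) (qq P τ₀ r) ≤ Cq := this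
          linarith
        have hU1 : wn N (hs τ₀ r) (U r) ≤ Cq + 1 := by
          have e : U r = fun x => qq P τ₀ r x + P.pert τ₀ U r x := by
            funext x; simp only [qq, Profile.pert]; ring
          rw [e]
          refine (hN.wn_add _ _ (sp_qq P h1 hτ r) (hsp r hr) N _ hh.le).trans ?_
          have h5 : wn N (hs τ₀ r) (qq P τ₀ r) ≤ Cq :=
            hCq _ (tau_pos hτ r) ((tau_le hτ hr.1).trans hτ1)
          linarith [hle r hr]
        exact wn_pm_diff hN (hU.smooth r hr) (sp_qq P h1 hτ r) N hh.le hU1 hq1 m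
      -- part 2
      have e2 : ∑ k ∈ A, (1 + hs τ₀ r * nk k) ^ N * (Cg * τ₀ * ((1 + nk k) ^ (N + 24))⁻¹) ≤ β := by
        calc ∑ k ∈ A, (1 + hs τ₀ r * nk k) ^ N * (Cg * τ₀ * ((1 + nk k) ^ (N + 24))⁻¹)
            ≤ ∑ k ∈ A, Cg * τ₀ * ((1 + nk k) ^ 24)⁻¹ := by
              refine Finset.sum_le_sum fun k _ => ?_
              have hp := one_add_nk_pos k
              have e3 : Cg * τ₀ * ((1 + nk k) ^ 24)⁻¹
                  = (1 + nk k) ^ N * (Cg * τ₀ * ((1 + nk k) ^ (N + 24))⁻¹) := by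
                rw [pow_add]; field_simp
              rw [e3]
              exact mul_le_mul_of_nonneg_right (hwN r hr k) (by positivity)
          _ = Cg * τ₀ * ∑ k ∈ A, ((1 + nk k) ^ 24)⁻¹ := by rw [Finset.mul_sum]
          _ ≤ Cg * τ₀ * K24 := mul_le_mul_of_nonneg_left (sum_le_K24 A) (by positivity)
          _ = β := by rw [hβ]; ring
      have e4 : β ≤ β * Real.exp ((K + 1) * r) := by
        have : 1 ≤ Real.exp ((K + 1) * r) := Real.one_le_exp (mul_nonneg (by linarith) hr.1)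
        nlinarith
      simp only [mul_add, Finset.sum_add_distrib]
      exact add_le_add e1 (e2.trans e4)
    · intro A
      exact (summable_wn hT (hsp 0 h0S) N (hs_pos hτ 0).le (hs_le_one hτ hτ1 le_rfl)).sum_le_tsum A
        (fun k _ => mul_nonneg (hw0 0 h0S k) (norm_nonneg _))
  have hgr := gronwall_exp hK0 le_rfl hβ0 hfc key σ₁ hσ₁
  refine hgr.trans ?_
  have hf0 : 0 ≤ f 0 := wn_nonneg N (hs_pos hτ 0).le _
  have h5 : Real.exp (K * σ₁) ≤ Real.exp ((K + 1) * σ₁) := by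
    apply Real.exp_le_exp.2; nlinarith [hσ₁.1]
  have h6 : f 0 * Real.exp (K * σ₁) ≤ f 0 * Real.exp ((K + 1) * σ₁) :=
    mul_le_mul_of_nonneg_left h5 hf0
  calc f 0 * Real.exp (K * σ₁) + β * Real.exp ((K + 1) * σ₁)
      ≤ f 0 * Real.exp ((K + 1) * σ₁) + β * Real.exp ((K + 1) * σ₁) := by linarith
    _ = (f 0 + β) * Real.exp ((K + 1) * σ₁) := by ring

/-- LOW NORM with bootstrap. -/
lemma low_boot (hN : TN) (hT : TF1) (h1 : TP1 P) (hg : EqT P gt) (hτ : 0 < τ₀) (hτ1 : τ₀ ≤ 1)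
    (hU : P.ResSol τ₀ S U) {m : ℕ} (hm : n = 2 * m) (N : ℕ) {Cq Cg : ℝ} (hCq0 : 0 ≤ Cq)
    (hCq : ∀ τ : ℝ, 0 < τ → τ ≤ 1 → wn N (Real.sqrt τ) (P.qt τ) ≤ Cq)
    (hgs : ∀ τ : ℝ, 0 < τ → IsSmoothPeriodic (gt τ)) (hCg0 : 0 ≤ Cg)
    (hCg : ∀ τ : ℝ, 0 < τ → τ ≤ 1 → wn (N + 24) 1 (gt τ) ≤ Cg * τ)
    (h0 : wn N (hs τ₀ 0) (P.pert τ₀ U 0) < 1)
    (hsm : (wn N (hs τ₀ 0) (P.pert τ₀ U 0) + Cg * K24 * τ₀)
        * Real.exp (((2 * m + 1) * (Cq + 1) ^ (2 * m) + 1) * S) ≤ 1 / 2) :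
    ∀ σ ∈ Icc 0 S, wn N (hs τ₀ σ) (P.pert τ₀ U σ) ≤ 1 := by
  have hdec := udec_pert P hT h1 hτ hτ1 hU
  have hcc := cont_cf_pert P h1 hg hτ hU
  obtain ⟨B, hB0, hB⟩ := hdec (N + 24)
  have hfc : ContinuousOn (fun r => wn N (hs τ₀ r) (P.pert τ₀ U r)) (Icc 0 S) := by
    refine continuousOn_wsum (c := fun r k => cf (P.pert τ₀ U r) k)
      (w := fun r k => (1 + hs τ₀ r * nk k) ^ N) hcc hB ?_ ?_ ?_
    · exact fun k =>
        ((continuous_const.add ((continuous_hs τ₀).mul continuous_const)).pow N).continuousOn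
    · exact fun r _ k => by have := nk_nonneg k; have := hs_pos hτ r; positivity
    · intro r hr k
      have h2 := nk_nonneg k
      have h3 := hs_pos hτ r
      have h4 := hs_le_one hτ hτ1 hr.1
      gcongr
      nlinarith
  refine bootstrap hfc h0 fun σ hσ hle => ?_
  have hsub : Icc 0 σ ⊆ Icc 0 S := Icc_subset_Icc_right hσ.2
  have hU' : P.ResSol τ₀ σ U :=
    ⟨fun r hr => hU.smooth r (hsub hr),
      fun M => (hU.bdd M).imp fun B hB r hr => hB r (hsub hr),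
      fun r hr k => (hU.ode r (hsub hr) k).mono hsub⟩
  refine (low_bound P hN hT h1 hg hτ hτ1 hU' hm N hCq0 hCq hgs hCg0 hCg hle σ
    (right_mem_Icc.2 hσ.1)).trans (le_trans ?_ hsm)
  have hf0 : 0 ≤ wn N (hs τ₀ 0) (P.pert τ₀ U 0) := wn_nonneg N (hs_pos hτ 0).le _
  have := K24_nonneg
  have hK : 0 ≤ (2 * m + 1) * (Cq + 1) ^ (2 * m) + 1 := by positivity
  refine mul_le_mul_of_nonneg_left (Real.exp_le_exp.2 ?_) (by positivity)
  exact mul_le_mul_of_nonneg_left hσ.2 hK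

end

end

end Crest.Agent.R086.Grow
end

-- ▼ part R086/GrowF
section

/-!
Row 86 (S0114), node GrowStep (helper263), file F: high norm a-priori estimate.
-/

set_option autoImplicit false

open MeasureTheory Complex Set
open scoped ContDiff Topology ComplexConjugate
open Crest.AnalysisR.PDE.NLS (IsSmoothPeriodic periodCell)

namespace Crest.Agent.R086.Grow

noncomputable section

open Profile

section

variable {n : ℕ} (P : Profile n) {τ₀ S : ℝ} {U : ℝ → R12 → ℂ} {gt : ℝ → R12 → ℂ}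

/-- HIGH NORM. -/
lemma high_bound (hN : TN) (hT : TF1) (h1 : TP1 P) (hg : EqT P gt) (hτ : 0 < τ₀) (hτ1 : τ₀ ≤ 1)
    (hU : P.ResSol τ₀ S U) {m : ℕ} (hm : n = 2 * m) (N s : ℕ) {Cq Cqs Cg Ch L : ℝ} (hCq0 : 0 ≤ Cq)
    (hCqs0 : 0 ≤ Cqs)
    (hCq : ∀ τ : ℝ, 0 < τ → τ ≤ 1 → wn N (Real.sqrt τ) (P.qt τ) ≤ Cq)
    (hCqs : ∀ τ : ℝ, 0 < τ → τ ≤ 1 → wn s (Real.sqrt τ) (P.qt τ) ≤ Cqs)
    (hgs : ∀ τ : ℝ, 0 < τ → IsSmoothPeriodic (gt τ)) (hCg0 : 0 ≤ Cg)
    (hCg : ∀ τ : ℝ, 0 < τ → τ ≤ 1 → wn (s + 24) 1 (gt τ) ≤ Cg * τ)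
    (hCh0 : 0 ≤ Ch)
    (hCh : ∀ a b : R12 → ℂ, IsSmoothPeriodic a →
      IsSmoothPeriodic b → ∀ h : ℝ, 0 ≤ h → ∀ M : ℝ, 1 ≤ M → l1 a ≤ M → l1 b ≤ M →
        hi s h (fun x => pm m (a x) - pm m (b x))
          ≤ cc m * M ^ (2 * m) * hi s h (fun x => a x - b x)
            + Ch * M ^ (2 * m) * (hi s h a + hi s h b) * l1 (fun x => a x - b x))
    (hs2 : cc m * (Cq + 1) ^ (2 * m) + 1 + 1 ≤ (s : ℝ) / 2)
    (hle : ∀ r ∈ Icc 0 S, wn N (hs τ₀ r) (P.pert τ₀ U r) ≤ 1)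
    (hL0 : 0 ≤ L) (hLle : ∀ r ∈ Icc 0 S, wn N (hs τ₀ r) (P.pert τ₀ U r) ≤ L)
    (hLsm : Ch * (Cq + 1) ^ (2 * m) * L ≤ 1) :
    ∀ σ ∈ Icc 0 S, hi s (hs τ₀ σ) (P.pert τ₀ U σ)
      ≤ Real.exp (-σ) * hi s (hs τ₀ 0) (P.pert τ₀ U 0)
        + (2 * Ch * (Cq + 1) ^ (2 * m) * Cqs * L + Cg * K24 * τ₀) := by
  intro σ₁ hσ₁
  set M : ℝ := Cq + 1 with hM
  have hM1 : 1 ≤ M := by linarith
  set K : ℝ := cc m * M ^ (2 * m) + 1 with hK
  have hcc0 := cc_nonneg m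
  have hK0 : 0 ≤ K := by positivity
  have h0S : (0 : ℝ) ∈ Icc 0 S := ⟨le_rfl, hσ₁.1.trans hσ₁.2⟩
  have hsp := sp_pert P h1 hτ hU
  have hdec := udec_pert P hT h1 hτ hτ1 hU
  have hccf := cont_cf_pert P h1 hg hτ hU
  set ρ : ℝ := Real.sqrt τ₀ with hρ
  have hρ0 : 0 < ρ := Real.sqrt_pos.2 hτ
  have hρ1 : ρ ≤ 1 := (Real.sqrt_le_sqrt hτ1).trans_eq Real.sqrt_one
  obtain ⟨B, hB0, hB⟩ := hdec (s + 24)
  have hw : ∀ k : Z12, ContinuousOn (fun _ : ℝ => (ρ * nk k) ^ s) (Icc 0 S) := fun k =>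
    continuousOn_const
  have hw0 : ∀ r ∈ Icc 0 S, ∀ k : Z12, 0 ≤ (ρ * nk k) ^ s := fun r _ k => by
    have := nk_nonneg k; positivity
  have hwN' : ∀ k : Z12, (ρ * nk k) ^ s ≤ (1 + nk k) ^ s := by
    intro k
    have h2 := nk_nonneg k
    gcongr
    nlinarith
  set f : ℝ → ℝ := fun r => hi s ρ (P.pert τ₀ U r) with hf
  have hfc : ContinuousOn f (Icc 0 S) :=
    continuousOn_wsum (c := fun r k => cf (P.pert τ₀ U r) k)
      (w := fun _ k => (ρ * nk k) ^ s) hccf hB hw hw0 (fun _ _ k => hwN' k)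
  have hK24 := K24_nonneg
  set β : ℝ := 2 * Ch * M ^ (2 * m) * Cqs * L + Cg * K24 * τ₀ with hβ
  have hβ0 : 0 ≤ β := by positivity
  have hγ := gt_coef (S := S) hT hgs hCg hCg0 hτ hτ1
  set lam : ℝ := (s : ℝ) / 2 with hlam
  -- integral inequality
  have key : ∀ σ ∈ Icc 0 S, f σ ≤ f 0 + ∫ r in (0 : ℝ)..σ, (K * f r + β * Real.exp (lam * r)) := by
    intro σ hσ
    have hs1 := sum_bound (S := S) (c := fun r k => cf (P.pert τ₀ U r) k)
      (b := fun r k => ‖cf (DN m U (qq P τ₀) r) k‖ + Cg * τ₀ * ((1 + nk k) ^ (s + 24))⁻¹)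
      (w := fun _ k => (ρ * nk k) ^ s)
      (G := fun r => K * f r + β * Real.exp (lam * r)) (L := f 0)
      (duhamel_pert P hN hT h1 hg hτ hτ1 hU hm hγ)
      (fun k => (cont_cf_DN P hN hT h1 hg hτ hτ1 hU m k).norm.add continuousOn_const)
      (fun r _ k => by have := one_add_nk_pos k; positivity) hw hw0 ?_ ?_ ?_ ?_ σ hσ
    · refine Real.tsum_le_of_sum_le (fun k => ?_) hs1
      exact mul_nonneg (hw0 σ hσ k) (norm_nonneg _)
    · intro k σ hσ r hr hrσ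
      exact le_rfl
    · exact (continuousOn_const.mul hfc).add (by fun_prop)
    · intro A r hr
      have hh := hs_pos hτ r
      have hh1 := hs_le_one hτ hτ1 hr.1
      have hDs : IsSmoothPeriodic (DN m U (qq P τ₀) r) :=
        sp_sub (sp_pm (hU.smooth r hr) m) (sp_pm (sp_qq P h1 hτ r) m)
      have hE1 : 1 ≤ Real.exp (lam * r) := Real.one_le_exp (mul_nonneg (by positivity) hr.1)
      -- sizes
      have hlq : l1 (qq P τ₀ r) ≤ Cq :=
        (hN.l1_le _ (sp_qq P h1 hτ r) N _ hh.le).trans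
          (hCq _ (tau_pos hτ r) ((tau_le hτ hr.1).trans hτ1))
      have hlW : l1 (P.pert τ₀ U r) ≤ L :=
        (hN.l1_le _ (hsp r hr) N _ hh.le).trans (hLle r hr)
      have hlW1 : l1 (P.pert τ₀ U r) ≤ 1 :=
        (hN.l1_le _ (hsp r hr) N _ hh.le).trans (hle r hr)
      have e : U r = fun x => qq P τ₀ r x + P.pert τ₀ U r x := by
        funext x; simp only [qq, Profile.pert]; ring
      have hlU : l1 (U r) ≤ M := by
        rw [e]
        have h6 := hN.wn_add _ _ (sp_qq P h1 hτ r) (hsp r hr) 0 0 le_rfl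
        simp only [wn_zero] at h6
        linarith
      have hhq : hi s ρ (qq P τ₀ r) ≤ Real.exp (lam * r) * Cqs := by
        have h6 := hi_scale hτ s r (qq P τ₀ r)
        have h7 : hi s (hs τ₀ r) (qq P τ₀ r) ≤ Cqs :=
          (hi_le_wn hT (sp_qq P h1 hτ r) s hh.le hh1).trans
            (hCqs _ (tau_pos hτ r) ((tau_le hτ hr.1).trans hτ1))
        have h8 : hi s ρ (qq P τ₀ r) = Real.exp (lam * r) * hi s (hs τ₀ r) (qq P τ₀ r) := by
          rw [h6, ← mul_assoc, ← Real.exp_add]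
          have h80 : lam * r + -((s : ℝ) / 2 * r) = 0 := by rw [hlam]; ring
          rw [h80, Real.exp_zero, one_mul]
        rw [h8]
        exact mul_le_mul_of_nonneg_left h7 (Real.exp_pos _).le
      have hhU : hi s ρ (U r) ≤ Real.exp (lam * r) * Cqs + f r := by
        rw [e]
        refine (hN.hi_add _ _ (sp_qq P h1 hτ r) (hsp r hr) s _ hρ0.le).trans ?_
        exact add_le_add hhq le_rfl
      have hfr : 0 ≤ f r := hi_nonneg s hρ0.le _
      have hl0 := l1_nonneg (P.pert τ₀ U r)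
      -- part 1
      have e1 : ∑ k ∈ A, (ρ * nk k) ^ s * ‖cf (DN m U (qq P τ₀) r) k‖
          ≤ K * f r + 2 * Ch * M ^ (2 * m) * Cqs * L * Real.exp (lam * r) := by
        refine ((summable_hi hT hDs s hρ0.le hρ1).sum_le_tsum A (fun k _ =>
          mul_nonneg (hw0 r hr k) (norm_nonneg _))).trans ?_
        have h9 := hCh (U r) (qq P τ₀ r) (hU.smooth r hr) (sp_qq P h1 hτ r) ρ hρ0.le M hM1 hlU
          (by linarith)
        refine h9.trans ?_
        have h10 : (fun x => U r x - qq P τ₀ r x) = P.pert τ₀ U r := rfl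
        rw [h10]
        have h11 : Ch * M ^ (2 * m) * (hi s ρ (U r) + hi s ρ (qq P τ₀ r)) * l1 (P.pert τ₀ U r)
            ≤ Ch * M ^ (2 * m) * (2 * (Real.exp (lam * r) * Cqs) + f r) * L := by
          refine mul_le_mul (mul_le_mul_of_nonneg_left (by linarith) (by positivity)) hlW hl0
            (by positivity)
        have h12 : Ch * M ^ (2 * m) * (2 * (Real.exp (lam * r) * Cqs) + f r) * L
            = 2 * Ch * M ^ (2 * m) * Cqs * L * Real.exp (lam * r) + (Ch * M ^ (2 * m) * L) * f r := by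
          ring
        have h13 : (Ch * M ^ (2 * m) * L) * f r ≤ 1 * f r := mul_le_mul_of_nonneg_right hLsm hfr
        have h14 : K * f r = cc m * M ^ (2 * m) * f r + 1 * f r := by rw [hK]; ring
        rw [h14]
        have h15 : hi s ρ (P.pert τ₀ U r) = f r := rfl
        rw [h15]
        linarith
      -- part 2
      have e2 : ∑ k ∈ A, (ρ * nk k) ^ s * (Cg * τ₀ * ((1 + nk k) ^ (s + 24))⁻¹)
          ≤ Cg * K24 * τ₀ := by
        calc ∑ k ∈ A, (ρ * nk k) ^ s * (Cg * τ₀ * ((1 + nk k) ^ (s + 24))⁻¹)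
            ≤ ∑ k ∈ A, Cg * τ₀ * ((1 + nk k) ^ 24)⁻¹ := by
              refine Finset.sum_le_sum fun k _ => ?_
              have hp := one_add_nk_pos k
              have e3 : Cg * τ₀ * ((1 + nk k) ^ 24)⁻¹
                  = (1 + nk k) ^ s * (Cg * τ₀ * ((1 + nk k) ^ (s + 24))⁻¹) := by
                rw [pow_add]; field_simp
              rw [e3]
              exact mul_le_mul_of_nonneg_right (hwN' k) (by positivity)
          _ = Cg * τ₀ * ∑ k ∈ A, ((1 + nk k) ^ 24)⁻¹ := by rw [Finset.mul_sum]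
          _ ≤ Cg * τ₀ * K24 := mul_le_mul_of_nonneg_left (sum_le_K24 A) (by positivity)
          _ = Cg * K24 * τ₀ := by ring
      have e4 : Cg * K24 * τ₀ ≤ Cg * K24 * τ₀ * Real.exp (lam * r) := by
        have : 0 ≤ Cg * K24 * τ₀ := by positivity
        nlinarith
      simp only [mul_add, Finset.sum_add_distrib]
      refine (add_le_add e1 (e2.trans e4)).trans (le_of_eq ?_)
      rw [hβ]
      ring
    · intro A
      exact (summable_hi hT (hsp 0 h0S) s hρ0.le hρ1).sum_le_tsum A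
        (fun k _ => mul_nonneg (hw0 0 h0S k) (norm_nonneg _))
  have hgr := gronwall_exp hK0 hs2 hβ0 hfc key σ₁ hσ₁
  have hf0 : 0 ≤ f 0 := hi_nonneg s hρ0.le _
  rw [hi_scale hτ s σ₁, hs_zero]
  have h5 : Real.exp (-(lam * σ₁)) * f σ₁
      ≤ Real.exp (-(lam * σ₁)) * (f 0 * Real.exp (K * σ₁) + β * Real.exp (lam * σ₁)) :=
    mul_le_mul_of_nonneg_left hgr (Real.exp_pos _).le
  refine h5.trans ?_
  have h6 : Real.exp (-(lam * σ₁)) * (f 0 * Real.exp (K * σ₁) + β * Real.exp (lam * σ₁))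
      = Real.exp (-(lam * σ₁) + K * σ₁) * f 0 + β * Real.exp (-(lam * σ₁) + lam * σ₁) := by
    rw [Real.exp_add, Real.exp_add]; ring
  rw [h6]
  have h7 : -(lam * σ₁) + lam * σ₁ = 0 := by ring
  rw [h7, Real.exp_zero, mul_one]
  refine add_le_add (mul_le_mul_of_nonneg_right (Real.exp_le_exp.2 ?_) hf0) le_rfl
  have : K + 1 ≤ lam := hs2
  nlinarith [hσ₁.1]

end

end

end Crest.Agent.R086.Grow
end

-- ▼ part R086/GrowG

/-!
Row 86 (S0114), node GrowStep (helper263), file G: existence on the step and the final theorem.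
-/

set_option autoImplicit false

open MeasureTheory Complex Set
open scoped ContDiff Topology ComplexConjugate
open Crest.AnalysisR.PDE.NLS (IsSmoothPeriodic periodCell)

namespace Crest.Agent.R086.Grow

noncomputable section

open Profile

set_option maxHeartbeats 1000000 in
/-- All a-priori estimates of one step. -/
theorem apriori {n : ℕ} (P : Profile n) (N : ℕ) (hN : TN) (hT : TF1) (h1 : TP1 P) (h2 : TP2 P) :
    ∃ s : ℕ, N + 1 ≤ s ∧ ∀ S : ℝ, 1 ≤ S → ∃ C r τ₁ : ℝ, 1 ≤ C ∧ 0 < r ∧ 0 < τ₁ ∧ τ₁ ≤ 1 ∧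
      ∀ τ₀ : ℝ, 0 < τ₀ → τ₀ ≤ τ₁ → ∀ S' : ℝ, S' ≤ S → ∀ U, P.ResSol τ₀ S' U →
        wn N (Real.sqrt τ₀) (P.pert τ₀ U 0) ≤ r →
        (∀ σ ∈ Set.Icc 0 S', wn N (hs τ₀ σ) (P.pert τ₀ U σ) ≤ 1 ∧
          wn N (hs τ₀ σ) (P.pert τ₀ U σ) ≤ C * (wn N (Real.sqrt τ₀) (P.pert τ₀ U 0) + τ₀)) ∧
        (∀ σ ∈ Set.Icc 0 S', hi s (hs τ₀ σ) (P.pert τ₀ U σ) ≤
          Real.exp (-σ) * hi s (Real.sqrt τ₀) (P.pert τ₀ U 0)
            + C * (wn N (Real.sqrt τ₀) (P.pert τ₀ U 0) + τ₀)) := by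
  obtain ⟨m, hm0⟩ := P.neven
  have hm : n = 2 * m := by omega
  obtain ⟨gt, hgs, hgb, hg⟩ := h2
  have hgE : EqT P gt := hg
  obtain ⟨Cq, hCq0, hCq'⟩ := h1.2 N
  have hCq : ∀ τ : ℝ, 0 < τ → τ ≤ 1 → wn N (Real.sqrt τ) (P.qt τ) ≤ Cq := fun τ a b =>
    (hCq' τ a b).1
  set M : ℝ := Cq + 1 with hM
  have hM1 : 1 ≤ M := by linarith
  have hcc0 := cc_nonneg m
  set Kh : ℝ := cc m * M ^ (2 * m) + 1 with hKh
  have hKh0 : 0 ≤ Kh := by positivity
  obtain ⟨s, hs1, hs2⟩ : ∃ s : ℕ, N + 1 ≤ s ∧ Kh + 1 ≤ (s : ℝ) / 2 := by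
    refine ⟨max (N + 1) ⌈2 * (Kh + 1)⌉₊, le_max_left _ _, ?_⟩
    have e1 : 2 * (Kh + 1) ≤ (⌈2 * (Kh + 1)⌉₊ : ℝ) := Nat.le_ceil _
    have e2 : ((⌈2 * (Kh + 1)⌉₊ : ℕ) : ℝ) ≤ ((max (N + 1) ⌈2 * (Kh + 1)⌉₊ : ℕ) : ℝ) := by
      exact_mod_cast le_max_right _ _
    linarith
  obtain ⟨Ch, hCh0, hCh⟩ := hi_pm_diff hN s m
  obtain ⟨Cqs, hCqs0, hCqs'⟩ := h1.2 s
  have hCqs : ∀ τ : ℝ, 0 < τ → τ ≤ 1 → wn s (Real.sqrt τ) (P.qt τ) ≤ Cqs := fun τ a b =>
    (hCqs' τ a b).1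
  obtain ⟨Cg1, hCg10, hCg1⟩ := hgb (N + 24)
  obtain ⟨Cg2, hCg20, hCg2⟩ := hgb (s + 24)
  have hK24 := K24_nonneg
  refine ⟨s, hs1, fun S hS => ?_⟩
  set K : ℝ := (2 * m + 1) * M ^ (2 * m) with hK
  have hK0 : 0 ≤ K := by positivity
  set E : ℝ := Real.exp ((K + 1) * S) with hE
  have hE1 : 1 ≤ E := Real.one_le_exp (by positivity)
  set C1 : ℝ := (1 + Cg1 * K24) * E with hC1
  have hC11 : 1 ≤ C1 := by
    have : 0 ≤ Cg1 * K24 := by positivity
    exact one_le_mul_of_one_le_of_one_le (le_add_of_nonneg_right this) hE1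
  set C2 : ℝ := 2 * Ch * M ^ (2 * m) * Cqs * C1 + Cg2 * K24 with hC2
  have hC20 : 0 ≤ C2 := by positivity
  set D : ℝ := Ch * M ^ (2 * m) + 2 with hD
  have hD2 : 2 ≤ D := by have : 0 ≤ Ch * M ^ (2 * m) := by positivity
                         linarith
  -- size parameter
  obtain ⟨r, hr⟩ : ∃ r : ℝ, r = 1 / (2 * C1 * D) := ⟨_, rfl⟩
  have hr0 : 0 < r := by rw [hr]; positivity
  have hr1 : r ≤ 1 / 4 := by
    rw [hr, div_le_div_iff₀ (by positivity) (by norm_num)]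
    nlinarith
  have hrD : C1 * (r + r) = 1 / D := by
    rw [hr]; field_simp; norm_num
  refine ⟨C1 + C2, r, r, by linarith, hr0, hr0, by linarith, ?_⟩
  intro τ₀ hτ hτr S' hS' U hU hW
  have hτ1 : τ₀ ≤ 1 := by linarith
  rcases lt_or_ge S' 0 with hneg | hS'0
  · constructor
    · intro σ hσ; exact absurd (hσ.1.trans hσ.2) (not_le.2 hneg)
    · intro σ hσ; exact absurd (hσ.1.trans hσ.2) (not_le.2 hneg)
  set w0 : ℝ := wn N (Real.sqrt τ₀) (P.pert τ₀ U 0) with hw0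
  have hz : wn N (hs τ₀ 0) (P.pert τ₀ U 0) = w0 := by rw [hs_zero]
  have hw00 : 0 ≤ w0 := wn_nonneg N (Real.sqrt_nonneg _) _
  -- smallness
  have hlin : ∀ T : ℝ, T ≤ S → (w0 + Cg1 * K24 * τ₀) * Real.exp ((K + 1) * T) ≤ C1 * (w0 + τ₀) := by
    intro T hT'
    have e1 : Real.exp ((K + 1) * T) ≤ E :=
      Real.exp_le_exp.2 (mul_le_mul_of_nonneg_left hT' (by positivity))
    have e2 : 0 ≤ Cg1 * K24 := by positivity
    have e3 : w0 + Cg1 * K24 * τ₀ ≤ (1 + Cg1 * K24) * (w0 + τ₀) := by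
      have : 0 ≤ Cg1 * K24 * w0 := by positivity
      nlinarith
    calc (w0 + Cg1 * K24 * τ₀) * Real.exp ((K + 1) * T)
        ≤ ((1 + Cg1 * K24) * (w0 + τ₀)) * E :=
          mul_le_mul e3 e1 (Real.exp_pos _).le (by positivity)
      _ = C1 * (w0 + τ₀) := by rw [hC1]; ring
  have hsmall : C1 * (w0 + τ₀) ≤ 1 / D := by
    rw [← hrD]
    exact mul_le_mul_of_nonneg_left (add_le_add hW hτr) (by linarith)
  have hD12 : 1 / D ≤ 1 / 2 := by
    rw [div_le_div_iff₀ (by linarith) (by norm_num)]; linarith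
  have hboot := low_boot P hN hT h1 hgE hτ hτ1 hU hm N hCq0 hCq hgs hCg10 hCg1
    (by rw [hz]; linarith) (by rw [hz]; exact (hlin S' hS').trans (hsmall.trans hD12))
  have hlow : ∀ σ ∈ Icc 0 S', wn N (hs τ₀ σ) (P.pert τ₀ U σ) ≤ C1 * (w0 + τ₀) := by
    intro σ hσ
    have := low_bound P hN hT h1 hgE hτ hτ1 hU hm N hCq0 hCq hgs hCg10 hCg1 hboot σ hσ
    rw [hz] at this
    exact this.trans (hlin σ (hσ.2.trans hS'))
  constructor
  · intro σ hσ
    refine ⟨hboot σ hσ, (hlow σ hσ).trans ?_⟩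
    exact mul_le_mul_of_nonneg_right (by linarith) (by positivity)
  · intro σ hσ
    have h3 := high_bound P hN hT h1 hgE hτ hτ1 hU hm N s (L := C1 * (w0 + τ₀)) hCq0 hCqs0 hCq hCqs
      hgs hCg20 hCg2 hCh0 hCh hs2 hboot (by positivity) hlow ?_ σ hσ
    · rw [hs_zero] at h3
      refine h3.trans (add_le_add le_rfl ?_)
      have e1 : 2 * Ch * M ^ (2 * m) * Cqs * (C1 * (w0 + τ₀)) + Cg2 * K24 * τ₀
          ≤ C2 * (w0 + τ₀) := by
        calc 2 * Ch * M ^ (2 * m) * Cqs * (C1 * (w0 + τ₀)) + Cg2 * K24 * τ₀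
            ≤ 2 * Ch * M ^ (2 * m) * Cqs * C1 * (w0 + τ₀) + Cg2 * K24 * (w0 + τ₀) :=
              add_le_add (le_of_eq (mul_assoc _ _ _).symm)
                (mul_le_mul_of_nonneg_left (le_add_of_nonneg_left hw00) (by positivity))
          _ = C2 * (w0 + τ₀) := (add_mul _ _ _).symm
      have e2 : 0 ≤ C1 * (w0 + τ₀) := by positivity
      have e3 : C1 * (w0 + τ₀) + C2 * (w0 + τ₀) = (C1 + C2) * (w0 + τ₀) := (add_mul _ _ _).symm
      exact (e1.trans (le_add_of_nonneg_left e2)).trans (le_of_eq e3)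
    · have e1 : Ch * M ^ (2 * m) ≤ D := by rw [hD]; exact le_add_of_nonneg_right zero_le_two
      have e2 : 0 ≤ Ch * M ^ (2 * m) := by positivity
      calc Ch * (Cq + 1) ^ (2 * m) * (C1 * (w0 + τ₀)) ≤ D * (1 / D) :=
            mul_le_mul e1 hsmall (by positivity) (by linarith)
        _ = 1 := by field_simp

end

end Crest.Agent.R086.Grow
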