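import Crest.Agent.R086.BPoly
import Crest.Agent.R086.BPolyFin
import Crest.Agent.R086.BMain
import Crest.Agent.R086.BExtDefs
import Crest.Agent.R086.BFlow
import Crest.Agent.R086.BExtM
import Mathlib
import Crest.Agent.R086.ABIface

-- ▼ part R086/BT3
section

/-!
Row 86 (S0114), Part B (helper97): `T3Out` from helper2's `poly_of`.
-/

set_option autoImplicit false

open Set

namespace Crest.Agent.R086.B

variable {om0 R : ℝ} {U U1 : ℝ → ℂ}

theorem t3out (S : BSeq om0 R U U1) (L : LimitProfile om0 R U) : T3Out S := by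
  refine ⟨S.X + 1, by linarith, fun j => ?_⟩
  obtain ⟨K, N, -, -, h⟩ := BPoly.poly_of S L j
  refine ⟨K, N, fun n hn he x hx => ?_⟩
  have hx' : x ∈ Icc (0:ℝ) (S.X + 1) := ⟨hx.1, hx.2.le⟩
  exact ⟨(h n hn he _ (Or.inr (Or.inl rfl))).2 j le_rfl x hx',
    (h n hn he _ (Or.inr (Or.inr (Or.inl rfl)))).2 j le_rfl x hx',
    (h n hn he _ (Or.inr (Or.inr (Or.inr rfl)))).2 j le_rfl x hx'⟩

end Crest.Agent.R086.B
end

-- ▼ part R086/PartB
section

/-!
Row 86 (S0114), Part B: everything except the exterior statement (helper514).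
-/

set_option autoImplicit false

open Complex

namespace Crest.Agent.R086.B

/-- **Part B**, modulo the exterior statement `ExtStmt` only. -/
theorem partB_of_ext (D : A.AData)
    (hExt : ∀ rho : ℝ, D.R < rho → ∀ rX : ℝ,
      ExtStmt D.om rho rX (1 / A.fo 0 (-(I * D.om)) D.R) JCx.Uo JCx.Uo1) :
    Nonempty (BData D.om D.R (BLim.U D)) :=
  partB_of D hExt (fun S => t3out S (BLim.limitProfile D))

end Crest.Agent.R086.B
end

-- ▼ part R086/BNear0
section

set_option autoImplicit false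

open Complex Set Filter Topology
open scoped NNReal

namespace Crest.Agent.R086.BNear
open Crest.Agent.R086.B

/-! ### truncated nonlinearity -/

/-- truncated nonlinearity -/
noncomputable def tn (n : ℕ) (M : ℝ) (v : ℂ) : ℂ := ((min ‖v‖ M ^ n : ℝ) : ℂ) * v

theorem tn_eq {n : ℕ} {M : ℝ} {v : ℂ} (h : ‖v‖ ≤ M) : tn n M v = ((‖v‖ ^ n : ℝ) : ℂ) * v := by
  unfold tn
  rw [min_eq_left h]

theorem min_nonneg' {M : ℝ} (hM : 0 ≤ M) (v : ℂ) : 0 ≤ min ‖v‖ M := le_min (norm_nonneg _) hM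

theorem tn_norm {n : ℕ} {M : ℝ} (hM : 0 ≤ M) (v : ℂ) : ‖tn n M v‖ ≤ M ^ n * ‖v‖ := by
  unfold tn
  rw [norm_mul, Complex.norm_real, Real.norm_of_nonneg (pow_nonneg (min_nonneg' hM v) _)]
  exact mul_le_mul_of_nonneg_right (pow_le_pow_left₀ (min_nonneg' hM v) (min_le_right _ _) _)
    (norm_nonneg _)

theorem pow_sub_pow_le {x y M : ℝ} (hy : 0 ≤ y) (hyx : y ≤ x) (hx : x ≤ M) (n : ℕ) :
    x ^ (n + 1) - y ^ (n + 1) ≤ (n + 1) * M ^ n * (x - y) := by
  induction n with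
  | zero => simp
  | succ n ih =>
    have hx0 : 0 ≤ x := hy.trans hyx
    have h1 : x ^ (n + 2) - y ^ (n + 2) = x ^ (n + 1) * (x - y) + y * (x ^ (n + 1) - y ^ (n + 1)) := by
      ring
    have h2 : x ^ (n + 1) ≤ M ^ (n + 1) := pow_le_pow_left₀ hx0 hx _
    have h3 : y * (x ^ (n + 1) - y ^ (n + 1)) ≤ M * ((n + 1) * M ^ n * (x - y)) := by
      refine mul_le_mul (hyx.trans hx) ih ?_ (hx0.trans hx)
      exact sub_nonneg.2 (pow_le_pow_left₀ hy hyx _)
    have h4 : x ^ (n + 1) * (x - y) ≤ M ^ (n + 1) * (x - y) :=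
      mul_le_mul_of_nonneg_right h2 (sub_nonneg.2 hyx)
    calc x ^ (n + 1 + 1) - y ^ (n + 1 + 1) = x ^ (n + 1) * (x - y) + y * (x ^ (n + 1) - y ^ (n + 1)) := h1
      _ ≤ M ^ (n + 1) * (x - y) + M * ((n + 1) * M ^ n * (x - y)) := add_le_add h4 h3
      _ = ((n + 1 : ℕ) + 1 : ℝ) * M ^ (n + 1) * (x - y) := by push_cast; ring

theorem tn_lip_aux {n : ℕ} {M : ℝ} (hM : 0 ≤ M) {v w : ℂ} (h : ‖w‖ ≤ ‖v‖) :
    ‖tn n M v - tn n M w‖ ≤ (n + 1) * M ^ n * ‖v - w‖ := by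
  have e : tn n M v - tn n M w = ((min ‖v‖ M ^ n : ℝ) : ℂ) * (v - w) +
      ((min ‖v‖ M ^ n - min ‖w‖ M ^ n : ℝ) : ℂ) * w := by
    unfold tn; push_cast; ring
  rw [e]
  have h1 : ‖((min ‖v‖ M ^ n : ℝ) : ℂ) * (v - w)‖ ≤ M ^ n * ‖v - w‖ := by
    rw [norm_mul, Complex.norm_real, Real.norm_of_nonneg (pow_nonneg (min_nonneg' hM v) _)]
    exact mul_le_mul_of_nonneg_right (pow_le_pow_left₀ (min_nonneg' hM v) (min_le_right _ _) _)
      (norm_nonneg _)
  have hmono : min ‖w‖ M ≤ min ‖v‖ M := min_le_min_right _ h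
  have hd : 0 ≤ min ‖v‖ M ^ n - min ‖w‖ M ^ n :=
    sub_nonneg.2 (pow_le_pow_left₀ (min_nonneg' hM w) hmono _)
  have h2 : ‖((min ‖v‖ M ^ n - min ‖w‖ M ^ n : ℝ) : ℂ) * w‖ ≤ n * M ^ n * ‖v - w‖ := by
    rw [norm_mul, Complex.norm_real, Real.norm_of_nonneg hd]
    rcases le_or_gt M ‖w‖ with hw | hw
    · rw [min_eq_right hw, min_eq_right (hw.trans h), sub_self, zero_mul]
      positivity
    · rcases n with _ | n
      · simp
      · have h3 := pow_sub_pow_le (min_nonneg' hM w) hmono (min_le_right _ _) n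
        have h4 : min ‖v‖ M - min ‖w‖ M ≤ ‖v - w‖ := by
          rw [min_eq_left hw.le]
          have := norm_sub_norm_le v w
          linarith [min_le_left ‖v‖ M]
        have h5 : (min ‖v‖ M ^ (n + 1) - min ‖w‖ M ^ (n + 1)) ≤ (n + 1) * M ^ n * ‖v - w‖ :=
          h3.trans (mul_le_mul_of_nonneg_left h4 (by positivity))
        calc (min ‖v‖ M ^ (n + 1) - min ‖w‖ M ^ (n + 1)) * ‖w‖
            ≤ ((n + 1) * M ^ n * ‖v - w‖) * M := mul_le_mul h5 hw.le (norm_nonneg _) (by positivity)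
          _ = ((n + 1 : ℕ) : ℝ) * M ^ (n + 1) * ‖v - w‖ := by push_cast; ring
  calc _ ≤ M ^ n * ‖v - w‖ + n * M ^ n * ‖v - w‖ := (norm_add_le _ _).trans (add_le_add h1 h2)
    _ = _ := by ring

theorem tn_lip (n : ℕ) {M : ℝ} (hM : 0 ≤ M) (v w : ℂ) :
    ‖tn n M v - tn n M w‖ ≤ (n + 1) * M ^ n * ‖v - w‖ := by
  rcases le_total ‖w‖ ‖v‖ with h | h
  · exact tn_lip_aux hM h
  · rw [norm_sub_rev, norm_sub_rev v w]
    exact tn_lip_aux hM h

theorem tn_continuous (n : ℕ) (M : ℝ) : Continuous (tn n M) := by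
  unfold tn
  fun_prop

/-! ### the truncated vector field -/

/-- clamp to `[a, b]` -/
noncomputable def cl (a b r : ℝ) : ℝ := max a (min r b)

theorem cl_eq {a b r : ℝ} (h : r ∈ Icc a b) : cl a b r = r := by
  unfold cl
  rw [min_eq_left h.2, max_eq_right h.1]

theorem cl_ge (a b r : ℝ) : a ≤ cl a b r := le_max_left _ _

theorem cl_le {a b : ℝ} (h : a ≤ b) (r : ℝ) : cl a b r ≤ b := max_le h (min_le_right _ _)

/-- truncated vector field -/
noncomputable def fld (n : ℕ) (M a b om eps r : ℝ) (z : ℂ × ℂ) : ℂ × ℂ :=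
  (z.2, -(11 / ((cl a b r : ℝ) : ℂ) + I * ((cl a b r : ℝ) : ℂ) / 2) * z.2
    - ((om : ℂ) + I * eps) * z.1 + tn n M z.1)

theorem coef_norm {a b : ℝ} (ha : 0 < a) (hab : a ≤ b) (r : ℝ) :
    ‖-(11 / ((cl a b r : ℝ) : ℂ) + I * ((cl a b r : ℝ) : ℂ) / 2)‖ ≤ 11 / a + b / 2 := by
  have h1 := cl_ge a b r
  have h2 := cl_le hab r
  have h0 : 0 < cl a b r := lt_of_lt_of_le ha h1
  rw [norm_neg]
  refine (norm_add_le _ _).trans (add_le_add ?_ ?_)
  · rw [norm_div, Complex.norm_real, Real.norm_of_nonneg h0.le]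
    have : ‖(11 : ℂ)‖ = 11 := by simp
    rw [this]
    gcongr
  · rw [norm_div, norm_mul, Complex.norm_I, one_mul, Complex.norm_real, Real.norm_of_nonneg h0.le]
    have : ‖(2 : ℂ)‖ = 2 := by simp
    rw [this]
    gcongr

theorem mu_norm {om eps : ℝ} (h1 : |om| ≤ 1) (h2 : |eps| ≤ 1) : ‖(om : ℂ) + I * eps‖ ≤ 2 := by
  refine (norm_add_le _ _).trans ?_
  rw [norm_mul, Complex.norm_I, one_mul, Complex.norm_real, Complex.norm_real, Real.norm_eq_abs,
    Real.norm_eq_abs]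
  linarith

theorem fld_lip {n : ℕ} {M a b om eps : ℝ} (hM : 0 ≤ M) (ha : 0 < a) (hab : a ≤ b)
    (h1 : |om| ≤ 1) (h2 : |eps| ≤ 1) (r : ℝ) (z w : ℂ × ℂ) :
    ‖fld n M a b om eps r z - fld n M a b om eps r w‖ ≤
      (1 + (11 / a + b / 2) + 2 + (n + 1) * M ^ n) * ‖z - w‖ := by
  have hb : 0 < b := lt_of_lt_of_le ha hab
  have hz1 : ‖z.1 - w.1‖ ≤ ‖z - w‖ := norm_fst_le (z - w)
  have hz2 : ‖z.2 - w.2‖ ≤ ‖z - w‖ := norm_snd_le (z - w)
  have hc := coef_norm ha hab r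
  have hm := mu_norm h1 h2
  have ht := tn_lip n hM z.1 w.1
  have hN : 0 ≤ (n + 1 : ℝ) * M ^ n := by positivity
  have hA : 0 ≤ 11 / a + b / 2 := by positivity
  have hq : 0 ≤ ‖z - w‖ := norm_nonneg _
  rw [Prod.norm_def]
  refine max_le ?_ ?_
  · show ‖z.2 - w.2‖ ≤ _
    nlinarith
  · show ‖(-(11 / ((cl a b r : ℝ) : ℂ) + I * ((cl a b r : ℝ) : ℂ) / 2) * z.2
      - ((om : ℂ) + I * eps) * z.1 + tn n M z.1) -
      (-(11 / ((cl a b r : ℝ) : ℂ) + I * ((cl a b r : ℝ) : ℂ) / 2) * w.2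
      - ((om : ℂ) + I * eps) * w.1 + tn n M w.1)‖ ≤ _
    have e : (-(11 / ((cl a b r : ℝ) : ℂ) + I * ((cl a b r : ℝ) : ℂ) / 2) * z.2
      - ((om : ℂ) + I * eps) * z.1 + tn n M z.1) -
      (-(11 / ((cl a b r : ℝ) : ℂ) + I * ((cl a b r : ℝ) : ℂ) / 2) * w.2
      - ((om : ℂ) + I * eps) * w.1 + tn n M w.1) =
      (-(11 / ((cl a b r : ℝ) : ℂ) + I * ((cl a b r : ℝ) : ℂ) / 2)) * (z.2 - w.2)
      - ((om : ℂ) + I * eps) * (z.1 - w.1) + (tn n M z.1 - tn n M w.1) := by ring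
    rw [e]
    calc _ ≤ ‖(-(11 / ((cl a b r : ℝ) : ℂ) + I * ((cl a b r : ℝ) : ℂ) / 2)) * (z.2 - w.2)‖
          + ‖((om : ℂ) + I * eps) * (z.1 - w.1)‖ + ‖tn n M z.1 - tn n M w.1‖ :=
          (norm_add_le _ _).trans (add_le_add (norm_sub_le _ _) le_rfl)
      _ ≤ (11 / a + b / 2) * ‖z - w‖ + 2 * ‖z - w‖ + (n + 1) * M ^ n * ‖z - w‖ := by
          rw [norm_mul, norm_mul]
          gcongr
          exact ht.trans (by gcongr)
      _ ≤ _ := by nlinarith

theorem fld_continuous (n : ℕ) (M : ℝ) {a b : ℝ} (ha : 0 < a) (eps : ℝ) :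
    Continuous fun p : ℝ × ℝ × (ℂ × ℂ) => fld n M a b p.1 eps p.2.1 p.2.2 := by
  unfold fld
  have hcl : Continuous fun p : ℝ × ℝ × (ℂ × ℂ) => ((cl a b p.2.1 : ℝ) : ℂ) := by
    unfold cl
    fun_prop
  have hne : ∀ p : ℝ × ℝ × (ℂ × ℂ), ((cl a b p.2.1 : ℝ) : ℂ) ≠ 0 := fun p => by
    have := lt_of_lt_of_le ha (cl_ge a b p.2.1)
    exact_mod_cast this.ne'
  have h1 : Continuous fun p : ℝ × ℝ × (ℂ × ℂ) => (11 : ℂ) / ((cl a b p.2.1 : ℝ) : ℂ) :=
    continuous_const.div hcl hne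
  have h2 := tn_continuous n M
  refine Continuous.prodMk (by fun_prop) ?_
  refine Continuous.add (Continuous.sub (Continuous.mul (Continuous.neg (h1.add ?_)) ?_) ?_) ?_
  · fun_prop
  · fun_prop
  · fun_prop
  · exact h2.comp (by fun_prop)

/-! ### backward Gronwall -/

theorem gronwall_back {E : Type*} [NormedAddCommGroup E] [NormedSpace ℝ E] {e e' : ℝ → E}
    {a b L d : ℝ} (hL : 0 < L) (hd0 : 0 ≤ d) (hd : ∀ r ∈ Icc a b, HasDerivAt e (e' r) r)
    (hb : ∀ r ∈ Icc a b, ‖e' r‖ ≤ L * ‖e r‖ + d) (r : ℝ) (hr : r ∈ Icc a b) :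
    ‖e r‖ ≤ (‖e b‖ + d / L) * Real.exp (L * (b - a)) := by
  have hab : a ≤ b := hr.1.trans hr.2
  have hderiv : ∀ t ∈ Icc 0 (b - a), HasDerivAt (fun t => e (b - t)) (-(e' (b - t))) t := by
    intro t ht
    have h1 := hd (b - t) ⟨by linarith [ht.2], by linarith [ht.1]⟩
    have h2 : HasDerivAt (fun t : ℝ => b - t) (-1) t := by
      simpa using (hasDerivAt_id t).const_sub b
    have := h1.scomp t h2
    simpa [Function.comp_def] using this
  have hcont : ContinuousOn (fun t => e (b - t)) (Icc 0 (b - a)) := fun t ht =>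
    (hderiv t ht).continuousAt.continuousWithinAt
  have h := norm_le_gronwallBound_of_norm_deriv_right_le (f := fun t => e (b - t))
    (f' := fun t => -(e' (b - t))) (δ := ‖e b‖) (K := L) (ε := d) (a := 0) (b := b - a) hcont
    (fun t ht => (hderiv t ⟨ht.1, ht.2.le⟩).hasDerivWithinAt) (by simp)
    (fun t ht => by
      rw [norm_neg]
      exact hb (b - t) ⟨by linarith [ht.2], by linarith [ht.1]⟩)
    (b - r) ⟨by linarith [hr.2], by linarith [hr.1]⟩
  rw [gronwallBound_of_K_ne_0 hL.ne'] at h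
  simp only [sub_zero, sub_sub_cancel] at h
  have h1 : Real.exp (L * (b - r)) ≤ Real.exp (L * (b - a)) := by
    apply Real.exp_le_exp.2
    nlinarith [hr.1]
  have h2 : 0 ≤ d / L := by positivity
  have h3 : 0 ≤ ‖e b‖ := norm_nonneg _
  nlinarith [mul_le_mul_of_nonneg_left h1 (add_nonneg h3 h2)]

end Crest.Agent.R086.BNear
end

-- ▼ part R086/BNear
section

set_option autoImplicit false

open Complex Set Filter Topology
open scoped NNReal



namespace Crest.Agent.R086.BNear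
open Crest.Agent.R086.B

/-- Perturbation of the linear radial equation by the (tiny) nonlinearity on `[rho, r0]`, backwards
from `r0`, uniformly in a compact parameter. -/
theorem near {P : Type*} [TopologicalSpace P] [CompactSpace P] {om : P → ℝ} (hom : Continuous om)
    (hom1 : ∀ p, |om p| ≤ 1) {rho r0 : ℝ} (h0 : 0 < rho) (h1 : rho < r0)
    {L L1 : P → ℝ → ℂ} (hL : ∀ p, IsLin (om p) (L p) (L1 p) (Icc rho r0))
    {M0 : ℝ} (hM0 : 0 ≤ M0) (hM1 : M0 < 1) (hM : ∀ p, ∀ r ∈ Icc rho r0, ‖L p r‖ ≤ M0)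
    {n1 : ℕ} (z : ℕ → P → ℂ × ℂ) (hz : ∀ n, n1 ≤ n → Even n → Continuous (z n))
    (hzl : ∀ η : ℝ, 0 < η → ∃ N, ∀ n, N ≤ n → Even n → ∀ p, ‖z n p - (L p r0, L1 p r0)‖ ≤ η) :
    ∃ v v1 : ℕ → P → ℝ → ℂ,
      (∀ n, n1 ≤ n → Even n → Continuous (Function.uncurry (v n)) ∧
        Continuous (Function.uncurry (v1 n)) ∧ ∀ p, (v n p r0, v1 n p r0) = z n p) ∧
      (∀ η : ℝ, 0 < η → ∃ N, ∀ n, N ≤ n → Even n → ∀ p, ∀ r ∈ Icc rho r0,
        ‖v n p r - L p r‖ ≤ η ∧ ‖v1 n p r - L1 p r‖ ≤ η) ∧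
      (∃ N, ∀ n, N ≤ n → Even n → ∀ p, IsSol n (om p) (1 / n) (v n p) (v1 n p) (Icc rho r0)) := by
  classical
  set M : ℝ := (M0 + 1) / 2 with hMdef
  have hMpos : 0 ≤ M := by rw [hMdef]; linarith
  have hMlt : M < 1 := by rw [hMdef]; linarith
  have hM0M : M0 < M := by rw [hMdef]; linarith
  have hr0 : 0 < r0 := h0.trans h1
  -- the flow for each `n`
  have hex : ∀ n : ℕ, ∃ S : P → ℝ → ℂ × ℂ, n1 ≤ n → Even n → (Continuous (Function.uncurry S) ∧
      (∀ p, S p r0 = z n p) ∧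
      ∀ p t, HasDerivAt (S p) (fld n M rho r0 (om p) (1 / n) t (S p t)) t) := by
    intro n
    by_cases hn : n1 ≤ n ∧ Even n
    · have hFc : Continuous fun p : P × ℝ × (ℂ × ℂ) =>
          fld n M rho r0 (om p.1) (1 / n) p.2.1 p.2.2 := by
        have := fld_continuous n M (a := rho) (b := r0) h0 (1 / (n : ℝ))
        exact this.comp (((hom.comp continuous_fst).prodMk continuous_snd))
      have hn1 : |(1 / (n : ℝ))| ≤ 1 := by
        rcases Nat.eq_zero_or_pos n with h | h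
        · simp [h]
        · rw [abs_of_nonneg (by positivity), div_le_one (by exact_mod_cast h)]
          exact_mod_cast h
      have hKn : (0 : ℝ) ≤ 1 + (11 / rho + r0 / 2) + 2 + (n + 1) * M ^ n := by positivity
      have hFl : ∀ (p : P) (t : ℝ), LipschitzWith
          (⟨1 + (11 / rho + r0 / 2) + 2 + (n + 1) * M ^ n, hKn⟩ : ℝ≥0)
          (fld n M rho r0 (om p) (1 / n) t) := by
        intro p t
        refine LipschitzWith.of_dist_le_mul fun x y => ?_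
        rw [dist_eq_norm, dist_eq_norm]
        exact fld_lip hMpos h0 h1.le (hom1 p) hn1 t x y
      obtain ⟨S, hS⟩ := BFlow.exists_flow hFc hFl r0 (hz n hn.1 hn.2)
      exact ⟨S, fun _ _ => hS⟩
    · exact ⟨fun _ _ => 0, fun a b => absurd ⟨a, b⟩ hn⟩
  choose S hS using hex
  -- constants
  set Lc : ℝ := 1 + (11 / rho + r0 / 2) + 2 + 1 with hLc
  have hLpos : 0 < Lc := by rw [hLc]; positivity
  -- closeness
  have hclose : ∀ η : ℝ, 0 < η → ∃ N, ∀ n, N ≤ n → Even n → ∀ p, ∀ r ∈ Icc rho r0,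
      ‖S n p r - (L p r, L1 p r)‖ ≤ η := by
    intro η hη
    set G := Real.exp (Lc * (r0 - rho)) with hG
    have hGpos : 0 < G := Real.exp_pos _
    obtain ⟨N1, hN1⟩ := hzl (η / (2 * G)) (by positivity)
    -- `M^n + 1/n` small
    have hlim : Tendsto (fun n : ℕ => M ^ n + 1 / (n : ℝ)) atTop (𝓝 (0 + 0)) :=
      (tendsto_pow_atTop_nhds_zero_of_lt_one hMpos hMlt).add tendsto_one_div_atTop_nhds_zero_nat
    rw [add_zero] at hlim
    have hev := hlim.eventually (gt_mem_nhds (show (0 : ℝ) < min 1 (η * Lc / (2 * G)) by positivity))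
    obtain ⟨N2, hN2⟩ := eventually_atTop.1 hev
    refine ⟨max (max N1 N2) (max n1 1), fun n hn he p r hr => ?_⟩
    have hnN1 : N1 ≤ n := (le_max_left _ _).trans ((le_max_left _ _).trans hn)
    have hnN2 : N2 ≤ n := (le_max_right _ _).trans ((le_max_left _ _).trans hn)
    have hnn1 : n1 ≤ n := (le_max_left _ _).trans ((le_max_right _ _).trans hn)
    have hn1 : 1 ≤ n := (le_max_right _ _).trans ((le_max_right _ _).trans hn)
    have hnpos : (0 : ℝ) < n := by exact_mod_cast hn1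
    obtain ⟨hSc, hS0, hSd⟩ := hS n hnn1 he
    have hδ := hN2 n hnN2
    set δ : ℝ := M ^ n + 1 / (n : ℝ) with hδd
    have hδ0 : 0 ≤ δ := by rw [hδd]; positivity
    have hδ1 : δ ≤ 1 := (hδ.le).trans (min_le_left _ _)
    have hδ2 : δ ≤ η * Lc / (2 * G) := (hδ.le).trans (min_le_right _ _)
    have hderiv : ∀ t ∈ Icc rho r0, HasDerivAt (fun t => S n p t - (L p t, L1 p t))
        (fld n M rho r0 (om p) (1 / n) t (S n p t) - (L1 p t, -(11 / (t : ℂ) + I * t / 2) * L1 p t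
          - (om p : ℂ) * L p t)) t := by
      intro t ht
      exact (hSd p t).sub ((hL p t ht).1.prodMk (hL p t ht).2)
    have hbound : ∀ t ∈ Icc rho r0, ‖fld n M rho r0 (om p) (1 / n) t (S n p t) -
        (L1 p t, -(11 / (t : ℂ) + I * t / 2) * L1 p t - (om p : ℂ) * L p t)‖ ≤
        Lc * ‖S n p t - (L p t, L1 p t)‖ + δ := by
      intro t ht
      have hLn := hM p t ht
      set A : ℂ := (S n p t).1 with hA
      set B : ℂ := (S n p t).2 with hB
      have hx1 : ‖A - L p t‖ ≤ ‖S n p t - (L p t, L1 p t)‖ := norm_fst_le (S n p t - (L p t, L1 p t))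
      have hx2 : ‖B - L1 p t‖ ≤ ‖S n p t - (L p t, L1 p t)‖ := norm_snd_le (S n p t - (L p t, L1 p t))
      set X : ℝ := ‖S n p t - (L p t, L1 p t)‖ with hX
      have hX0 : 0 ≤ X := norm_nonneg _
      have hc := coef_norm h0 h1.le t
      rw [cl_eq ht] at hc
      have hAn : ‖A‖ ≤ X + 1 := by
        calc ‖A‖ = ‖(A - L p t) + L p t‖ := by rw [sub_add_cancel]
          _ ≤ ‖A - L p t‖ + ‖L p t‖ := norm_add_le _ _
          _ ≤ X + 1 := by linarith
      rw [Prod.norm_def]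
      have hcc : (0 : ℝ) ≤ 11 / rho + r0 / 2 := by positivity
      refine max_le ?_ ?_
      · show ‖B - L1 p t‖ ≤ _
        rw [hLc]
        nlinarith
      · show ‖(-(11 / ((cl rho r0 t : ℝ) : ℂ) + I * ((cl rho r0 t : ℝ) : ℂ) / 2) * B
          - ((om p : ℂ) + I * ((1 / n : ℝ) : ℂ)) * A + tn n M A) -
          (-(11 / (t : ℂ) + I * t / 2) * L1 p t - (om p : ℂ) * L p t)‖ ≤ _
        rw [cl_eq ht]
        have e : (-(11 / (t : ℂ) + I * t / 2) * B
          - ((om p : ℂ) + I * ((1 / n : ℝ) : ℂ)) * A + tn n M A) -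
          (-(11 / (t : ℂ) + I * t / 2) * L1 p t - (om p : ℂ) * L p t)
          = -(11 / (t : ℂ) + I * t / 2) * (B - L1 p t) - (om p : ℂ) * (A - L p t)
            - I * ((1 / n : ℝ) : ℂ) * A + tn n M A := by ring
        rw [e]
        have h3 : ‖(om p : ℂ) * (A - L p t)‖ ≤ 1 * X := by
          rw [norm_mul, Complex.norm_real, Real.norm_eq_abs]
          exact mul_le_mul (hom1 p) hx1 (norm_nonneg _) zero_le_one
        have h4 : ‖I * ((1 / n : ℝ) : ℂ) * A‖ ≤ (1 / n) * (X + 1) := by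
          rw [norm_mul, norm_mul, Complex.norm_I, one_mul, Complex.norm_real,
            Real.norm_of_nonneg (by positivity)]
          gcongr
        have h5 : ‖tn n M A‖ ≤ M ^ n * (X + 1) :=
          (tn_norm hMpos A).trans (by gcongr)
        have h6 : ‖-(11 / (t : ℂ) + I * t / 2) * (B - L1 p t)‖ ≤ (11 / rho + r0 / 2) * X := by
          rw [norm_mul]
          exact mul_le_mul hc hx2 (norm_nonneg _) hcc
        calc _ ≤ ‖-(11 / (t : ℂ) + I * t / 2) * (B - L1 p t)‖ + ‖(om p : ℂ) * (A - L p t)‖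
              + ‖I * ((1 / n : ℝ) : ℂ) * A‖ + ‖tn n M A‖ := by
              refine (norm_add_le _ _).trans (add_le_add ?_ le_rfl)
              refine (norm_sub_le _ _).trans (add_le_add ?_ le_rfl)
              exact norm_sub_le _ _
          _ ≤ (11 / rho + r0 / 2) * X + 1 * X + (1 / n) * (X + 1) + M ^ n * (X + 1) := by
              gcongr
          _ = (11 / rho + r0 / 2) * X + 1 * X + δ * X + δ := by rw [hδd]; ring
          _ ≤ Lc * X + δ := by rw [hLc]; nlinarith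
    have hgr := gronwall_back (e := fun t => S n p t - (L p t, L1 p t)) hLpos hδ0 hderiv hbound r hr
    have h7 : ‖S n p r0 - (L p r0, L1 p r0)‖ ≤ η / (2 * G) := by
      rw [hS0 p]; exact hN1 n hnN1 he p
    calc ‖S n p r - (L p r, L1 p r)‖ ≤ (‖S n p r0 - (L p r0, L1 p r0)‖ + δ / Lc) * G := hgr
      _ ≤ (η / (2 * G) + (η * Lc / (2 * G)) / Lc) * G := by gcongr
      _ = η := by field_simp; ring
  refine ⟨fun n p r => (S n p r).1, fun n p r => (S n p r).2, ?_, ?_, ?_⟩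
  · intro n hn he
    obtain ⟨hSc, hS0, hSd⟩ := hS n hn he
    refine ⟨continuous_fst.comp hSc, continuous_snd.comp hSc, fun p => ?_⟩
    rw [← hS0 p]
  · intro η hη
    obtain ⟨N, hN⟩ := hclose η hη
    refine ⟨N, fun n hn he p r hr => ?_⟩
    have h := hN n hn he p r hr
    exact ⟨(norm_fst_le (S n p r - (L p r, L1 p r))).trans h,
      (norm_snd_le (S n p r - (L p r, L1 p r))).trans h⟩
  · obtain ⟨N, hN⟩ := hclose (M - M0) (by linarith)
    refine ⟨max N n1, fun n hn he p r hr => ?_⟩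
    have h := hN n ((le_max_left _ _).trans hn) he p r hr
    obtain ⟨hSc, hS0, hSd⟩ := hS n ((le_max_right _ _).trans hn) he
    have hA : ‖(S n p r).1‖ ≤ M := by
      have h8 : ‖(S n p r).1 - L p r‖ ≤ M - M0 := (norm_fst_le (S n p r - (L p r, L1 p r))).trans h
      calc ‖(S n p r).1‖ = ‖((S n p r).1 - L p r) + L p r‖ := by rw [sub_add_cancel]
        _ ≤ ‖(S n p r).1 - L p r‖ + ‖L p r‖ := norm_add_le _ _
        _ ≤ M := by linarith [hM p r hr]
    have hd := hSd p r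
    unfold fld at hd
    rw [cl_eq hr, tn_eq hA] at hd
    exact ⟨hd.fst, hd.snd⟩

end Crest.Agent.R086.BNear
end

-- ▼ part R086/BExt
section

set_option autoImplicit false

open Complex Set Filter Topology
open scoped NNReal ContDiff

namespace Crest.Agent.R086.BExt
open Crest.Agent.R086.B
open Crest.Agent.R086.JCx

/-- the exterior problem from the far region and the linear outgoing family -/
theorem ext_of_far (hfar : FarStmt) {om0 R rho : ℝ} (rX : ℝ) (hom0 : om0 ∈ Ioo (1/5 : ℝ) (1/2))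
    (hR : 0 < R) (hRr : R < rho) (c0 : ℂ)
    (hanti : StrictAntiOn (fun r => ‖c0 * Uo om0 r‖) (Ici R)) (hone : ‖c0 * Uo om0 R‖ ≤ 1)
    (hlow : ∀ r, R ≤ r → 3 / 5 ≤ ‖c0 * Uo om0 r‖) : ExtStmt om0 rho rX c0 Uo Uo1 := by
  classical
  have hrho : 0 < rho := hR.trans hRr
  set M1 : ℝ := ‖c0 * Uo om0 rho‖ with hM1
  have hM1lt : M1 < 1 := lt_of_lt_of_le (hanti self_mem_Ici hRr.le hRr) hone
  have hM1ge : 3 / 5 ≤ M1 := hlow rho hRr.le
  set kmax : ℝ := (1 + M1) / 2 with hkmax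
  have hk1 : kmax < 1 := by rw [hkmax]; linarith
  have hkM : M1 < kmax := by rw [hkmax]; linarith
  obtain ⟨s, q, cl, C, V, V1, FL, FL1, hs, hq0, hq1, hcl, hlin, huniq, hFLc, hsol, hVc, hconv⟩ :=
    hfar (1/2) kmax (by norm_num) (by linarith) hk1
  set X : ℝ := max (s + 1) (max 17 (max (rX ^ 2 / 4) (rho ^ 2))) with hX
  have hsX : s < X := by
    have : s + 1 ≤ X := le_max_left _ _
    linarith
  have hX17 : 17 ≤ X := (le_max_left _ _).trans (le_max_right _ _)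
  have hXr : rX ^ 2 / 4 ≤ X := (le_max_left _ _).trans ((le_max_right _ _).trans (le_max_right _ _))
  have hXrho : rho ^ 2 ≤ X :=
    (le_max_right _ _).trans ((le_max_right _ _).trans (le_max_right _ _))
  have hX0 : 0 < X := by linarith
  clear_value X
  set r0 : ℝ := 2 * Real.sqrt X with hr0
  have hr0sq : r0 ^ 2 / 4 = X := by rw [hr0, mul_pow, Real.sq_sqrt hX0.le]; ring
  have hsq : 0 < Real.sqrt X := Real.sqrt_pos.2 hX0
  have hrho_r0 : rho < r0 := by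
    have : rho ≤ Real.sqrt X := Real.le_sqrt_of_sq_le hXrho
    rw [hr0]; linarith
  have hr0pos : 0 < r0 := hrho.trans hrho_r0
  -- identification
  have hid := fun (om : ℝ) (hom : om ∈ Icc (1/5 : ℝ) (1/2)) =>
    ident hs (hlin om hom).1 (huniq om hom)
  choose! kk hkk using hid
  have hom0' : om0 ∈ Icc (1/5 : ℝ) (1/2) := ⟨hom0.1.le, hom0.2.le⟩
  have hU0 : Uo om0 r0 ≠ 0 := by
    intro h
    have := hlow r0 (hRr.le.trans hrho_r0.le)
    rw [h, mul_zero, norm_zero] at this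
    norm_num at this
  have hF0 : FL om0 X ≠ 0 := by
    intro h
    apply hU0
    rw [hr0, (hkk om0 hom0').1 X hsX, h, mul_zero]
  have hkkeq : ∀ om ∈ Icc (1/5 : ℝ) (1/2), FL om X ≠ 0 → Uo om r0 / FL om X = kk om := by
    intro om hom h
    rw [hr0, (hkk om hom).1 X hsX, mul_div_assoc, div_self h, mul_one]
  -- amplitude at `om0`
  have hamp := amp_bounds (om0 := om0) (R := R) (rho := rho) (s := s) (c0 := c0)
    (k0 := c0 * kk om0) hR hRr.le (F := FL om0) (hlin om0 hom0').2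
    (fun x hx => by rw [(hkk om0 hom0').1 x hx, mul_assoc]) hanti hlow
  obtain ⟨del, hdel0, hdel⟩ := exists_del (om0 := om0) (rho := rho) (r0 := r0) (M0 := kmax)
    (kmin := 1 / 2) (kmax := kmax) (c0 := c0) hom0 hrho (F := fun om => FL om X)
    (hFLc X hsX).1 hr0pos hF0
    (by rw [hkkeq om0 hom0' hF0]; linarith [hamp.1])
    (by rw [hkkeq om0 hom0' hF0]; exact lt_of_le_of_lt hamp.2 hkM)
    (fun r hr => lt_of_le_of_lt (hanti.antitoneOn hRr.le (hRr.le.trans hr.1) hr.1) hkM)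
  -- parameter space
  set Ps : Set (ℝ × ℂ) := {p : ℝ × ℂ | |p.1 - om0| ≤ del ∧ ‖p.2 - c0‖ ≤ del} with hPs
  have hPc : IsCompact Ps := by
    have : Ps = Metric.closedBall om0 del ×ˢ Metric.closedBall c0 del := by
      ext p
      simp only [hPs, mem_ofPred_eq, mem_prod, Metric.mem_closedBall, dist_eq_norm, Real.norm_eq_abs]
    rw [this]
    exact (isCompact_closedBall _ _).prod (isCompact_closedBall _ _)
  have : CompactSpace Ps := isCompact_iff_compactSpace.1 hPc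
  set kap : ℝ → ℂ → ℂ := fun om c => c * (Uo om r0 / FL om X) with hkap
  have hP : ∀ p : Ps, (p : ℝ × ℂ).1 ∈ Icc (1/5 : ℝ) (1/2) ∧ FL (p : ℝ × ℂ).1 X ≠ 0 ∧
      1 / 2 ≤ ‖kap (p : ℝ × ℂ).1 (p : ℝ × ℂ).2‖ ∧ ‖kap (p : ℝ × ℂ).1 (p : ℝ × ℂ).2‖ ≤ kmax ∧
      ∀ r ∈ Icc rho r0, ‖(p : ℝ × ℂ).2 * Uo (p : ℝ × ℂ).1 r‖ ≤ kmax :=
    fun p => hdel _ p.2.1 _ p.2.2
  have hkapeq : ∀ p : Ps, kap (p : ℝ × ℂ).1 (p : ℝ × ℂ).2 = (p : ℝ × ℂ).2 * kk (p : ℝ × ℂ).1 := by
    intro p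
    rw [hkap]
    simp only
    rw [hkkeq _ (hP p).1 (hP p).2.1]
  have homc : Continuous fun p : Ps => (p : ℝ × ℂ).1 := continuous_fst.comp continuous_subtype_val
  have hcc : Continuous fun p : Ps => (p : ℝ × ℂ).2 := continuous_snd.comp continuous_subtype_val
  have hkapc : Continuous fun p : Ps => kap (p : ℝ × ℂ).1 (p : ℝ × ℂ).2 := by
    have h1 : Continuous fun p : Ps => Uo (p : ℝ × ℂ).1 r0 :=
      (Uo_continuousOn univ).comp_continuous (f := fun p : Ps => ((p : ℝ × ℂ).1, r0))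
        (homc.prodMk continuous_const) fun p => ⟨mem_univ _, hr0pos⟩
    have h2 : Continuous fun p : Ps => FL (p : ℝ × ℂ).1 X :=
      (hFLc X hsX).1.comp_continuous homc fun p => (hP p).1
    exact hcc.mul (h1.div h2 fun p => (hP p).2.1)
  -- the data at `r0`
  set z : ℕ → Ps → ℂ × ℂ := fun n p => (V n (p : ℝ × ℂ).1 (kap (p : ℝ × ℂ).1 (p : ℝ × ℂ).2) X,
    ((r0 / 2 : ℝ) : ℂ) * V1 n (p : ℝ × ℂ).1 (kap (p : ℝ × ℂ).1 (p : ℝ × ℂ).2) X) with hz
  have hzc : ∀ n, 2 ≤ n → Even n → Continuous (z n) := by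
    intro n hn he
    obtain ⟨h1, h2⟩ := hVc n hn he X hsX
    have hm : ∀ p : Ps, ((p : ℝ × ℂ).1, kap (p : ℝ × ℂ).1 (p : ℝ × ℂ).2) ∈
        {p : ℝ × ℂ | p.1 ∈ Icc (1/5 : ℝ) (1/2) ∧ 1 / 2 ≤ ‖p.2‖ ∧ ‖p.2‖ ≤ kmax} :=
      fun p => ⟨(hP p).1, (hP p).2.2.1, (hP p).2.2.2.1⟩
    have h3 := h1.comp_continuous (homc.prodMk hkapc) hm
    have h4 := h2.comp_continuous (homc.prodMk hkapc) hm
    exact h3.prodMk (continuous_const.mul h4)
  have hUoFL : ∀ (p : Ps) (r : ℝ), 0 < r → s < r ^ 2 / 4 →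
      (p : ℝ × ℂ).2 * Uo (p : ℝ × ℂ).1 r =
        kap (p : ℝ × ℂ).1 (p : ℝ × ℂ).2 * FL (p : ℝ × ℂ).1 (r ^ 2 / 4) ∧
      (p : ℝ × ℂ).2 * Uo1 (p : ℝ × ℂ).1 r =
        kap (p : ℝ × ℂ).1 (p : ℝ × ℂ).2 * (((r / 2 : ℝ) : ℂ) * FL1 (p : ℝ × ℂ).1 (r ^ 2 / 4)) := by
    intro p r hr hr'
    obtain ⟨h1, h2⟩ := (hkk _ (hP p).1).2.2 r hr hr'
    rw [h1, h2, hkapeq p]
    constructor <;> ring
  -- closeness to the linear solution in the far region, in the variable `r`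
  have hfarclose : ∀ η : ℝ, 0 < η → ∃ N, ∀ n, N ≤ n → Even n → ∀ p : Ps, ∀ r ∈ Icc r0 (r0 + 1),
      ‖up (V n (p : ℝ × ℂ).1 (kap (p : ℝ × ℂ).1 (p : ℝ × ℂ).2)) r -
        (p : ℝ × ℂ).2 * Uo (p : ℝ × ℂ).1 r‖ ≤ η ∧
      ‖up1 (V1 n (p : ℝ × ℂ).1 (kap (p : ℝ × ℂ).1 (p : ℝ × ℂ).2)) r -
        (p : ℝ × ℂ).2 * Uo1 (p : ℝ × ℂ).1 r‖ ≤ η := by
    intro η hη
    have hx1 : s < (r0 + 1) ^ 2 / 4 := by
      have : r0 ^ 2 / 4 ≤ (r0 + 1) ^ 2 / 4 := by gcongr; linarith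
      linarith [hr0sq]
    obtain ⟨N, hN⟩ := hconv ((r0 + 1) ^ 2 / 4) hx1 (η / (r0 + 2)) (by positivity)
    refine ⟨N, fun n hn he p r hr => ?_⟩
    have hrpos : 0 < r := lt_of_lt_of_le hr0pos hr.1
    have hxs : s < r ^ 2 / 4 := by
      have : r0 ^ 2 / 4 ≤ r ^ 2 / 4 := by gcongr; exact hr.1
      linarith [hr0sq]
    have hxl : r ^ 2 / 4 ≤ (r0 + 1) ^ 2 / 4 := by gcongr; exact hr.2
    obtain ⟨h1, h2⟩ := hN n hn he _ (hP p).1 _ (hP p).2.2.1 (hP p).2.2.2.1 (r ^ 2 / 4) ⟨hxs, hxl⟩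
    obtain ⟨h3, h4⟩ := hUoFL p r hrpos hxs
    have hη' : η / (r0 + 2) ≤ η := div_le_self hη.le (by linarith)
    constructor
    · rw [h3]
      exact h1.trans hη'
    · rw [h4]
      unfold up1
      rw [show ((r / 2 : ℝ) : ℂ) * V1 n (p : ℝ × ℂ).1 (kap (p : ℝ × ℂ).1 (p : ℝ × ℂ).2) (r ^ 2 / 4) -
        kap (p : ℝ × ℂ).1 (p : ℝ × ℂ).2 * (((r / 2 : ℝ) : ℂ) * FL1 (p : ℝ × ℂ).1 (r ^ 2 / 4)) =
        ((r / 2 : ℝ) : ℂ) * (V1 n (p : ℝ × ℂ).1 (kap (p : ℝ × ℂ).1 (p : ℝ × ℂ).2) (r ^ 2 / 4) -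
        kap (p : ℝ × ℂ).1 (p : ℝ × ℂ).2 * FL1 (p : ℝ × ℂ).1 (r ^ 2 / 4)) by ring]
      rw [norm_mul, Complex.norm_real, Real.norm_of_nonneg (by positivity)]
      calc r / 2 * ‖_‖ ≤ (r0 + 2) * (η / (r0 + 2)) := by
            refine mul_le_mul (by linarith [hr.2]) h2 (norm_nonneg _) (by linarith)
        _ = η := by field_simp
  have hzl : ∀ η : ℝ, 0 < η → ∃ N, ∀ n, N ≤ n → Even n → ∀ p : Ps,
      ‖z n p - ((p : ℝ × ℂ).2 * Uo (p : ℝ × ℂ).1 r0, (p : ℝ × ℂ).2 * Uo1 (p : ℝ × ℂ).1 r0)‖ ≤ η := by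
    intro η hη
    obtain ⟨N, hN⟩ := hfarclose η hη
    refine ⟨N, fun n hn he p => ?_⟩
    obtain ⟨h1, h2⟩ := hN n hn he p r0 ⟨le_rfl, by linarith⟩
    unfold up at h1
    unfold up1 at h2
    rw [hr0sq] at h1 h2
    rw [Prod.norm_def]
    exact max_le h1 h2
  have homb : ∀ p : Ps, |(p : ℝ × ℂ).1| ≤ 1 := by
    intro p
    obtain ⟨h1, h2⟩ := (hP p).1
    rw [abs_le]
    constructor <;> linarith
  obtain ⟨v, v1, hv1, hv2, N, hv3⟩ := BNear.near (P := Ps) (om := fun p : Ps => (p : ℝ × ℂ).1) homc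
    homb hrho hrho_r0
    (L := fun p r => (p : ℝ × ℂ).2 * Uo (p : ℝ × ℂ).1 r)
    (L1 := fun p r => (p : ℝ × ℂ).2 * Uo1 (p : ℝ × ℂ).1 r)
    (fun p r hr => isLin_smul (isLin_Uo (p : ℝ × ℂ).1) (p : ℝ × ℂ).2 r (lt_of_lt_of_le hrho hr.1))
    (M0 := kmax) (by linarith) hk1 (fun p r hr => (hP p).2.2.2.2 r hr) (n1 := 2) z hzc hzl
  obtain ⟨N', hN'⟩ := hv2 ((1 - kmax) / 2) (by linarith)
  -- the final family
  set vv : ℕ → ℝ → ℂ → ℝ → ℂ := fun n om c r =>
    if h : (om, c) ∈ Ps then (if r ≤ r0 then v n ⟨(om, c), h⟩ r else up (V n om (kap om c)) r)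
    else 0 with hvv
  set vv1 : ℕ → ℝ → ℂ → ℝ → ℂ := fun n om c r =>
    if h : (om, c) ∈ Ps then (if r ≤ r0 then v1 n ⟨(om, c), h⟩ r else up1 (V1 n om (kap om c)) r)
    else 0 with hvv1
  have evv : ∀ n (p : Ps), vv n (p : ℝ × ℂ).1 (p : ℝ × ℂ).2 = fun r =>
      if r ≤ r0 then v n p r else up (V n (p : ℝ × ℂ).1 (kap (p : ℝ × ℂ).1 (p : ℝ × ℂ).2)) r := by
    intro n p
    funext r
    have hp : ((p : ℝ × ℂ).1, (p : ℝ × ℂ).2) ∈ Ps := p.2
    rw [hvv]
    simp only [dif_pos hp]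
  have evv1 : ∀ n (p : Ps), vv1 n (p : ℝ × ℂ).1 (p : ℝ × ℂ).2 = fun r =>
      if r ≤ r0 then v1 n p r else up1 (V1 n (p : ℝ × ℂ).1 (kap (p : ℝ × ℂ).1 (p : ℝ × ℂ).2)) r := by
    intro n p
    funext r
    have hp : ((p : ℝ × ℂ).1, (p : ℝ × ℂ).2) ∈ Ps := p.2
    rw [hvv1]
    simp only [dif_pos hp]
  refine ⟨del, max q ((1 + kmax) / 2), cl, X, C, max (max 2 N) N', vv, vv1, hdel0,
    lt_of_lt_of_le hq0 (le_max_left _ _), max_lt hq1 (by linarith), hcl, by linarith, hXr, ?_, ?_, ?_⟩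
  · intro n hn he om hom c hc
    have hn2 : 2 ≤ n := (le_max_left _ _).trans ((le_max_left _ _).trans hn)
    have hnN : N ≤ n := (le_max_right _ _).trans ((le_max_left _ _).trans hn)
    have hnN' : N' ≤ n := (le_max_right _ _).trans hn
    set p : Ps := ⟨(om, c), ⟨hom, hc⟩⟩ with hp
    obtain ⟨hs1, hs2⟩ := hsol n hn2 he om (hP p).1 (kap om c) (hP p).2.2.1 (hP p).2.2.2.1
    have e1 := evv n p
    have e2 := evv1 n p
    rw [show ((p : ℝ × ℂ).1 : ℝ) = om from rfl, show ((p : ℝ × ℂ).2 : ℂ) = c from rfl] at e1 e2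
    have hr0s : 2 * Real.sqrt s < r0 := by
      rw [hr0]
      have := Real.sqrt_lt_sqrt (by linarith : (0:ℝ) ≤ s) hsX
      linarith
    have hw : IsSol n om (1 / n) (up (V n om (kap om c))) (up1 (V1 n om (kap om c))) (Ici r0) := by
      intro r hr
      exact isSol_up (by linarith) hs1 r (lt_of_lt_of_le hr0s hr)
    have hval := (hv1 n hn2 he).2.2 p
    have hval1 : v n p r0 = up (V n om (kap om c)) r0 := by
      have := congrArg Prod.fst hval
      rw [hz] at this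
      simp only at this
      rw [this]
      unfold up
      rw [hr0sq]
    have hval2 : v1 n p r0 = up1 (V1 n om (kap om c)) r0 := by
      have := congrArg Prod.snd hval
      rw [hz] at this
      simp only at this
      rw [this]
      unfold up1
      rw [hr0sq]
    have hsolI : IsSol n om (1 / n) (vv n om c) (vv1 n om c) (Ici rho) := by
      rw [e1, e2]
      exact glue_isSol (hv3 n hnN he p) hw hval1 hval2 hrho_r0.le
    refine ⟨fun r hr => (hsolI r hr).1.continuousAt.continuousWithinAt,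
      fun r hr => (hsolI r hr).2.continuousAt.continuousWithinAt,
      fun r hr => hsolI r (mem_Ici.2 (le_of_lt (mem_Ioi.1 hr))), ?_, ?_⟩
    · intro r hr
      rw [e1]
      simp only
      by_cases h : r ≤ r0
      · rw [if_pos h]
        refine le_trans ?_ (le_max_right _ _)
        have h1 := (hN' n hnN' he p r ⟨hr, h⟩).1
        have h2 := (hP p).2.2.2.2 r ⟨hr, h⟩
        calc ‖v n p r‖ = ‖(v n p r - (p : ℝ × ℂ).2 * Uo (p : ℝ × ℂ).1 r) +
              (p : ℝ × ℂ).2 * Uo (p : ℝ × ℂ).1 r‖ := by rw [sub_add_cancel]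
          _ ≤ (1 - kmax) / 2 + kmax := (norm_add_le _ _).trans (add_le_add h1 h2)
          _ = (1 + kmax) / 2 := by ring
      · rw [if_neg h]
        refine le_trans ?_ (le_max_left _ _)
        push Not at h
        have hx : X < r ^ 2 / 4 := by
          rw [← hr0sq]
          have : r0 ^ 2 < r ^ 2 := pow_lt_pow_left₀ h hr0pos.le (by norm_num)
          linarith
        have h1 := hs2.upper _ (hsX.trans hx)
        have h2 : 1 ≤ (r ^ 2 / 4) ^ ((1 : ℝ) / n) :=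
          Real.one_le_rpow (by linarith) (by positivity)
        unfold up
        calc ‖V n om (kap om c) (r ^ 2 / 4)‖ = ‖V n om (kap om c) (r ^ 2 / 4)‖ * 1 := by rw [mul_one]
          _ ≤ ‖V n om (kap om c) (r ^ 2 / 4)‖ * (r ^ 2 / 4) ^ ((1 : ℝ) / n) := by gcongr
          _ ≤ q := h1
    · refine FarGood.congr (FarGood.mono hs2 hq0 (le_max_left _ _) (by linarith) hsX.le) ?_
      intro x hx
      have hx0 : 0 ≤ x := by linarith
      have h1 : ¬ (2 * Real.sqrt x ≤ r0) := by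
        rw [not_le, hr0]
        have := Real.sqrt_lt_sqrt hX0.le hx
        linarith
      rw [e1]
      unfold toX
      simp only [if_neg h1]
      exact toX_up _ hx0
  · intro n hn he
    have hn2 : 2 ≤ n := (le_max_left _ _).trans ((le_max_left _ _).trans hn)
    obtain ⟨hc1, hc2, -⟩ := hv1 n hn2 he
    constructor
    · refine continuousOn_iff_continuous_domRestrict.2 ?_
      refine (hc1.comp (continuous_id.prodMk (continuous_const (y := rho)))).congr fun p => ?_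
      have h9 := congrFun (evv n p) rho
      simp only [if_pos hrho_r0.le] at h9
      exact h9.symm
    · refine continuousOn_iff_continuous_domRestrict.2 ?_
      refine (hc2.comp (continuous_id.prodMk (continuous_const (y := rho)))).congr fun p => ?_
      have h9 := congrFun (evv1 n p) rho
      simp only [if_pos hrho_r0.le] at h9
      exact h9.symm
  · intro η hη
    obtain ⟨Na, hNa⟩ := hv2 η hη
    obtain ⟨Nb, hNb⟩ := hfarclose η hη
    refine ⟨max Na Nb, fun n hn he om hom c hc r hr => ?_⟩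
    set p : Ps := ⟨(om, c), ⟨hom, hc⟩⟩ with hp
    have e1 := evv n p
    have e2 := evv1 n p
    rw [show ((p : ℝ × ℂ).1 : ℝ) = om from rfl, show ((p : ℝ × ℂ).2 : ℂ) = c from rfl] at e1 e2
    rw [e1, e2]
    simp only
    by_cases h : r ≤ r0
    · rw [if_pos h, if_pos h]
      exact hNa n ((le_max_left _ _).trans hn) he p r ⟨hr.1, h⟩
    · rw [if_neg h, if_neg h]
      push Not at h
      exact hNb n ((le_max_right _ _).trans hn) he p r ⟨h.le, hr.2⟩

end Crest.Agent.R086.BExt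
end

-- ▼ part R086/BFarTools
section

/-!
Row 86, Part B, exterior problem (helper207): tools.
* `ray_hasDerivAt`: derivative of a ray integral of a holomorphic function on a half plane;
* `fixpt_sup`: contraction principle for sets of functions closed under uniform limits;
* `pow_lip`: Lipschitz bound for `f^(m+1) g^m`.
-/

set_option autoImplicit false

open MeasureTheory Filter Set Topology Complex

namespace Crest.Agent.R086.BFar

/-- open half plane -/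
def HP (s : ℝ) : Set ℂ := {x | s < x.re}

lemma isOpen_HP (s : ℝ) : IsOpen (HP s) := isOpen_lt continuous_const Complex.continuous_re


lemma HP_add {s : ℝ} {x e : ℂ} (hx : x ∈ HP s) (he : 0 ≤ e.re) {t : ℝ} (ht : 0 ≤ t) :
    x + e * (t : ℂ) ∈ HP s := by
  have : 0 ≤ e.re * t := mul_nonneg he ht
  simp only [HP, Set.mem_ofPred_eq, add_re, mul_re, ofReal_re, ofReal_im, mul_zero, sub_zero] at *
  linarith

lemma conj_mem_HP {s : ℝ} {x : ℂ} (hx : x ∈ HP s) : (starRingEnd ℂ) x ∈ HP s := by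
  simpa [HP] using hx

lemma ray_hasDerivAt {e : ℂ} (he : e ≠ 0) (hedir : 0 ≤ e.re) {H : ℂ → ℂ} {s r : ℝ} {x0 : ℂ}
    (hr : 0 < r) (hball : Metric.closedBall x0 r ⊆ HP s) (hH : DifferentiableOn ℂ H (HP s))
    {g : ℝ → ℝ} (hg : IntegrableOn g (Ioi 0)) (hg0 : Tendsto g atTop (𝓝 0))
    (hb : ∀ x ∈ Metric.closedBall x0 r, ∀ t : ℝ, 0 ≤ t → ‖H (x + e * (t : ℂ))‖ ≤ g t) :
    HasDerivAt (fun x => ∫ t in Ioi (0 : ℝ), H (x + e * (t : ℂ))) (-(H x0) / e) x0 := by
  have hx0 : x0 ∈ HP s := hball (Metric.mem_closedBall_self hr.le)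
  have hopen := isOpen_HP s
  have hderiv : DifferentiableOn ℂ (deriv H) (HP s) := hH.deriv hopen
  have hHd : ∀ y ∈ HP s, HasDerivAt H (deriv H y) y := fun y hy =>
    (hH.differentiableAt (hopen.mem_nhds hy)).hasDerivAt
  have hcont : ∀ x ∈ HP s, ContinuousOn (fun t : ℝ => H (x + e * (t : ℂ))) (Ici 0) := by
    intro x hx
    apply hH.continuousOn.comp (by fun_prop)
    intro t ht; exact HP_add hx hedir ht
  have hcont' : ContinuousOn (fun t : ℝ => deriv H (x0 + e * (t : ℂ))) (Ici 0) := by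
    apply hderiv.continuousOn.comp (by fun_prop)
    intro t ht; exact HP_add hx0 hedir ht
  have hmeas : ∀ x ∈ HP s, AEStronglyMeasurable (fun t : ℝ => H (x + e * (t : ℂ)))
      (volume.restrict (Ioi 0)) := fun x hx =>
    ((hcont x hx).mono Ioi_subset_Ici_self).aestronglyMeasurable measurableSet_Ioi
  have hr2 : 0 < r / 2 := by positivity
  have hbd : ∀ t : ℝ, 0 ≤ t → ∀ x ∈ Metric.ball x0 (r/2),
      ‖deriv H (x + e * (t : ℂ))‖ ≤ g t / (r/2) := by
    intro t ht x hx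
    have hsub : Metric.closedBall x (r/2) ⊆ Metric.closedBall x0 r := by
      intro y hy
      rw [Metric.mem_closedBall] at *
      rw [Metric.mem_ball] at hx
      linarith [dist_triangle y x x0]
    apply Complex.norm_deriv_le_of_forall_mem_sphere_norm_le hr2
    · apply DifferentiableOn.diffContOnCl
      rw [closure_ball _ hr2.ne']
      apply hH.mono
      intro y hy
      have : y - e * (t:ℂ) ∈ Metric.closedBall x (r/2) := by
        rw [Metric.mem_closedBall, dist_eq_norm] at *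
        rw [show y - e * (t:ℂ) - x = y - (x + e * (t:ℂ)) by ring]; exact hy
      have h2 := hball (hsub this)
      have h3 := HP_add h2 hedir ht
      simpa using h3
    · intro z hz
      have : z - e * (t:ℂ) ∈ Metric.closedBall x (r/2) := by
        rw [Metric.mem_closedBall, dist_eq_norm]
        rw [mem_sphere_iff_norm] at hz
        rw [show z - e * (t:ℂ) - x = z - (x + e * (t:ℂ)) by ring]; exact hz.le
      have h2 := hb _ (hsub this) t ht
      simpa using h2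
  have key := hasDerivAt_integral_of_dominated_loc_of_deriv_le (μ := volume.restrict (Ioi (0:ℝ)))
    (F := fun (x : ℂ) (t : ℝ) => H (x + e * (t : ℂ)))
    (F' := fun (x : ℂ) (t : ℝ) => deriv H (x + e * (t : ℂ)))
    (x₀ := x0) (s := Metric.ball x0 (r/2)) (bound := fun t => g t / (r/2))
    (Metric.ball_mem_nhds _ hr2)
    (by
      filter_upwards [hopen.mem_nhds hx0] with x hx using hmeas x hx)
    (by
      refine Integrable.mono' hg (hmeas x0 hx0) ?_
      filter_upwards [self_mem_ae_restrict measurableSet_Ioi] with t ht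
      exact hb x0 (Metric.mem_closedBall_self hr.le) t (le_of_lt ht))
    ((hcont'.mono Ioi_subset_Ici_self).aestronglyMeasurable measurableSet_Ioi)
    (by
      filter_upwards [self_mem_ae_restrict measurableSet_Ioi] with t ht x hx
      exact hbd t (le_of_lt ht) x hx)
    (hg.div_const _)
    (by
      filter_upwards [self_mem_ae_restrict measurableSet_Ioi] with t ht x hx
      have hx' : x ∈ HP s := hball ((Metric.ball_subset_closedBall.trans
        (Metric.closedBall_subset_closedBall (by linarith))) hx)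
      have h1 := hHd _ (HP_add hx' hedir (le_of_lt ht))
      exact h1.comp_add_const x (e * (t:ℂ)))
  obtain ⟨hint, hd⟩ := key
  have hval : ∫ t in Ioi (0:ℝ), deriv H (x0 + e * (t : ℂ)) = -(H x0) / e := by
    have h1 : ∫ t in Ioi (0:ℝ), e * deriv H (x0 + e * (t : ℂ)) = 0 - H (x0 + e * ((0:ℝ) : ℂ)) := by
      apply integral_Ioi_of_hasDerivAt_of_tendsto (f := fun t : ℝ => H (x0 + e * (t:ℂ)))
      · exact (hcont x0 hx0) 0 (by simp)
      · intro t ht
        have h2 := hHd _ (HP_add hx0 hedir (le_of_lt ht))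
        have h3 : HasDerivAt (fun t : ℝ => x0 + e * (t:ℂ)) e t := by
          have := ((Complex.ofRealCLM.hasDerivAt (x := t)).const_mul e).const_add x0
          simpa using this
        have h4 := h2.comp t h3
        rw [mul_comm]
        exact h4
      · exact hint.const_mul e
      · apply squeeze_zero_norm' _ hg0
        filter_upwards [eventually_ge_atTop 0] with t ht
        exact hb x0 (Metric.mem_closedBall_self hr.le) t ht
    rw [integral_const_mul] at h1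
    field_simp
    rw [h1]; simp
  rw [hval] at hd
  exact hd

/-- contraction principle for a set of functions closed under uniform limits -/
lemma fixpt_sup {X E : Type*} [NormedAddCommGroup E] [CompleteSpace E] (S : Set (X → E))
    (hne : S.Nonempty)
    (hcl : ∀ (F : ℕ → X → E) (g : X → E), (∀ k, F k ∈ S) → TendstoUniformly F g atTop → g ∈ S)
    (hbd : ∀ f ∈ S, ∀ g ∈ S, ∃ C : ℝ, ∀ x, ‖f x - g x‖ ≤ C)
    (T : (X → E) → (X → E)) (hT : ∀ f ∈ S, T f ∈ S)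
    (hL : ∀ f ∈ S, ∀ g ∈ S, ∀ C : ℝ, 0 ≤ C → (∀ x, ‖f x - g x‖ ≤ C) →
      ∀ x, ‖T f x - T g x‖ ≤ C / 2) :
    ∃ f ∈ S, T f = f := by
  obtain ⟨f0, hf0⟩ := hne
  set F : ℕ → X → E := fun k => T^[k] f0 with hF
  have hFS : ∀ k, F k ∈ S := by
    intro k
    induction k with
    | zero => simpa [hF] using hf0
    | succ k ih =>
      have : F (k+1) = T (F k) := by simp [hF, Function.iterate_succ_apply']
      rw [this]; exact hT _ ih
  have hFs : ∀ k, F (k+1) = T (F k) := fun k => by simp [hF, Function.iterate_succ_apply']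
  obtain ⟨C, hC⟩ := hbd _ (hFS 0) _ (hFS 1)
  set C' := max C 0 with hC'
  have hC0 : 0 ≤ C' := le_max_right _ _
  have hstep : ∀ k x, ‖F k x - F (k+1) x‖ ≤ C' / 2 ^ k := by
    intro k
    induction k with
    | zero =>
      intro x
      have h := (hC x).trans (le_max_left C 0)
      rw [pow_zero, div_one]
      exact h
    | succ k ih =>
      intro x
      have := hL _ (hFS k) _ (hFS (k+1)) (C' / 2^k) (by positivity) ih x
      rw [← hFs k, ← hFs (k+1)] at this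
      calc _ ≤ _ := this
        _ = _ := by rw [pow_succ]; field_simp
  have hdist : ∀ x k, dist (F k x) (F (k+1) x) ≤ (2 * C') / 2 / 2 ^ k := by
    intro x k
    rw [dist_eq_norm]
    calc _ ≤ _ := hstep k x
      _ = _ := by ring
  have hcau : ∀ x, CauchySeq (fun k => F k x) := fun x =>
    cauchySeq_of_le_geometric_two (hdist x)
  choose g hg using fun x => cauchySeq_tendsto_of_complete (hcau x)
  have hdg : ∀ k x, dist (F k x) (g x) ≤ 2 * C' / 2 ^ k := fun k x =>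
    dist_le_of_le_geometric_two_of_tendsto (hdist x) (hg x) k
  have hlim : Tendsto (fun k : ℕ => 2 * C' / 2 ^ k) atTop (𝓝 0) := by
    have : Tendsto (fun k : ℕ => (2 * C') * (1/2 : ℝ) ^ k) atTop (𝓝 ((2 * C') * 0)) :=
      (tendsto_pow_atTop_nhds_zero_of_lt_one (by norm_num) (by norm_num)).const_mul _
    simp only [mul_zero] at this
    refine this.congr (fun k => ?_)
    rw [one_div, inv_pow]; ring
  have hunif : TendstoUniformly F g atTop := by
    rw [Metric.tendstoUniformly_iff]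
    intro e he
    filter_upwards [(tendsto_order.1 hlim).2 e he] with k hk x
    rw [dist_comm]
    exact (hdg k x).trans_lt hk
  have hgS := hcl F g hFS hunif
  refine ⟨g, hgS, ?_⟩
  funext x
  have h1 : Tendsto (fun k => F (k+1) x) atTop (𝓝 (T g x)) := by
    rw [tendsto_iff_norm_sub_tendsto_zero]
    apply squeeze_zero (fun _ => norm_nonneg _) (g := fun k : ℕ => (2 * C' / 2 ^ k) / 2)
    · intro k
      rw [hFs k]
      apply hL _ (hFS k) _ hgS _ (by positivity)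
      intro y
      rw [← dist_eq_norm]; exact hdg k y
    · simpa using hlim.div_const 2
  exact tendsto_nhds_unique h1 ((hg x).comp (tendsto_add_atTop_nat 1))

lemma pow_lip {a b : ℂ} {M : ℝ} (ha : ‖a‖ ≤ M) (hb : ‖b‖ ≤ M) (k : ℕ) :
    ‖a ^ k - b ^ k‖ ≤ k * M ^ (k - 1) * ‖a - b‖ := by
  have hM : 0 ≤ M := (norm_nonneg a).trans ha
  induction k with
  | zero => simp
  | succ k ih =>
    rcases Nat.eq_zero_or_pos k with hk | hk
    · subst hk; simp
    · have h1 : a ^ (k+1) - b ^ (k+1) = (a ^ k - b ^ k) * a + b ^ k * (a - b) := by ring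
      rw [h1]
      calc _ ≤ ‖(a ^ k - b ^ k) * a‖ + ‖b ^ k * (a - b)‖ := norm_add_le _ _
        _ = ‖a ^ k - b ^ k‖ * ‖a‖ + ‖b‖ ^ k * ‖a - b‖ := by rw [norm_mul, norm_mul, norm_pow]
        _ ≤ (k * M ^ (k - 1) * ‖a - b‖) * M + M ^ k * ‖a - b‖ := by gcongr
        _ = (k * (M ^ (k - 1) * M) + M ^ k) * ‖a - b‖ := by ring
        _ = _ := by
          rw [← pow_succ, Nat.sub_add_cancel hk]
          push_cast
          ring

lemma nl_lip {a b a' b' : ℂ} {M e : ℝ} (ha : ‖a‖ ≤ M) (hb : ‖b‖ ≤ M) (ha' : ‖a'‖ ≤ M)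
    (hb' : ‖b'‖ ≤ M) (hab : ‖a - b‖ ≤ e) (hab' : ‖a' - b'‖ ≤ e) (m : ℕ) :
    ‖a * (a * a') ^ m - b * (b * b') ^ m‖ ≤ (2 * m + 1) * M ^ (2 * m) * e := by
  have hM : 0 ≤ M := (norm_nonneg a).trans ha
  have he : 0 ≤ e := (norm_nonneg _).trans hab
  have h1 : a * (a * a') ^ m - b * (b * b') ^ m
      = (a ^ (m+1) - b ^ (m+1)) * a' ^ m + b ^ (m+1) * (a' ^ m - b' ^ m) := by ring
  rw [h1]
  have h2 := pow_lip ha hb (m+1)
  have h3 := pow_lip ha' hb' m
  rw [Nat.add_sub_cancel] at h2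
  calc _ ≤ ‖(a ^ (m+1) - b ^ (m+1)) * a' ^ m‖ + ‖b ^ (m+1) * (a' ^ m - b' ^ m)‖ := norm_add_le _ _
    _ = ‖a ^ (m+1) - b ^ (m+1)‖ * ‖a'‖ ^ m + ‖b‖ ^ (m+1) * ‖a' ^ m - b' ^ m‖ := by
        rw [norm_mul, norm_mul, norm_pow, norm_pow]
    _ ≤ (((m+1 : ℕ) : ℝ) * M ^ m * ‖a - b‖) * M ^ m + M ^ (m+1) * (m * M ^ (m - 1) * ‖a' - b'‖) := by
        gcongr
    _ ≤ (((m+1 : ℕ) : ℝ) * M ^ m * e) * M ^ m + M ^ (m+1) * (m * M ^ (m - 1) * e) := by gcongr
    _ = _ := by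
        rcases Nat.eq_zero_or_pos m with hm | hm
        · subst hm; simp
        · obtain ⟨l, rfl⟩ : ∃ l, m = l + 1 := ⟨m - 1, by omega⟩
          simp only [Nat.add_sub_cancel]
          push_cast; ring

lemma geom_bd {M : ℝ} (h0 : 0 ≤ M) (h1 : M < 1) (k : ℕ) :
    ((k : ℝ) + 1) * M ^ k ≤ 1 / (1 - M) := by
  have h2 : ∑ i ∈ Finset.range (k+1), M ^ i ≤ 1 / (1 - M) := by
    have h3 : (∑ i ∈ Finset.range (k+1), M ^ i) * (1 - M) = 1 - M ^ (k+1) := by
      have := mul_neg_geom_sum M (k+1)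
      rw [mul_comm]; exact this
    have : 0 ≤ M ^ (k+1) := by positivity
    rw [le_div_iff₀ (by linarith), h3]
    linarith
  refine le_trans ?_ h2
  calc ((k:ℝ) + 1) * M ^ k = ∑ i ∈ Finset.range (k+1), M ^ k := by
        rw [Finset.sum_const, Finset.card_range, nsmul_eq_mul]; push_cast; ring
    _ ≤ _ := by
        apply Finset.sum_le_sum
        intro i hi
        exact pow_le_pow_of_le_one h0 h1.le (by rw [Finset.mem_range] at hi; omega)

end Crest.Agent.R086.BFar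
end

-- ▼ part R086/BFarOp
section

/-!
Row 86, Part B, exterior problem (helper207): the solution operator in the half plane.
`Uf β h` solves `u' = -(β/x + I) u + h/x²`, `Af β h` is its primitive vanishing at infinity.
-/

set_option autoImplicit false

open MeasureTheory Filter Set Topology Complex

namespace Crest.Agent.R086.BFar

noncomputable def Hf (β : ℂ) (h : ℂ → ℂ) (y : ℂ) : ℂ := y ^ (β - 2) * exp (I * y) * h y
noncomputable def Wf (β : ℂ) (h : ℂ → ℂ) (x : ℂ) : ℂ := ∫ t in Ioi (0:ℝ), Hf β h (x + I * (t:ℂ))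
noncomputable def pf (β x : ℂ) : ℂ := -I * (x ^ (-β) * exp (-(I * x)))
noncomputable def Uf (β : ℂ) (h : ℂ → ℂ) (x : ℂ) : ℂ := pf β x * Wf β h x
noncomputable def Af (β : ℂ) (h : ℂ → ℂ) (x : ℂ) : ℂ := -∫ t in Ioi (0:ℝ), Uf β h (x + 1 * (t:ℂ))

/-- admissible exponents -/
structure AdmB (β : ℂ) : Prop where
  lo : 2 ≤ β.re
  hi : β.re ≤ 6
  im : |β.im| ≤ 2

noncomputable def CI : ℝ := ∫ t in Ioi (0:ℝ), Real.exp (-(t/2))

lemma expInt : IntegrableOn (fun t : ℝ => Real.exp (-(t/2))) (Ioi 0) := by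
  have := exp_neg_integrableOn_Ioi (0:ℝ) (b := 1/2) (by norm_num)
  refine this.congr_fun (fun t _ => ?_) measurableSet_Ioi
  simp only; congr 1; ring

lemma CI_nonneg : 0 ≤ CI := integral_nonneg fun _ => (Real.exp_pos _).le

lemma one_le_norm {s : ℝ} (hs : 1 ≤ s) {x : ℂ} (hx : x ∈ HP s) : 1 ≤ ‖x‖ :=
  hs.trans ((le_of_lt hx).trans (Complex.re_le_norm x))

lemma ne_zero_HP {s : ℝ} (hs : 1 ≤ s) {x : ℂ} (hx : x ∈ HP s) : x ≠ 0 := by
  intro h
  have := one_le_norm hs hx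
  rw [h, norm_zero] at this; linarith

lemma slit_HP {s : ℝ} (hs : 1 ≤ s) {x : ℂ} (hx : x ∈ HP s) : x ∈ slitPlane := by
  left
  have : s < x.re := hx
  linarith

lemma norm_cpow_le {x γ : ℂ} (hx : x ≠ 0) : ‖x ^ γ‖ ≤ ‖x‖ ^ γ.re * Real.exp (Real.pi * |γ.im|) := by
  rw [Complex.norm_cpow_of_ne_zero hx, div_eq_mul_inv, ← Real.exp_neg]
  gcongr
  calc -(arg x * γ.im) ≤ |arg x * γ.im| := neg_le_abs _
    _ = |arg x| * |γ.im| := abs_mul _ _
    _ ≤ Real.pi * |γ.im| := by gcongr; exact abs_arg_le_pi x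

lemma poly_exp {t : ℝ} (ht : 0 ≤ t) : (1 + t) ^ 4 * Real.exp (-t) ≤ 4096 * Real.exp (-(t/2)) := by
  have h1 : t/8 + 1 ≤ Real.exp (t/8) := Real.add_one_le_exp _
  have h2 : (1 + t) ^ 4 ≤ 4096 * (t/8 + 1) ^ 4 := by
    have : (1 + t) ≤ 8 * (t/8+1) := by linarith
    calc (1+t)^4 ≤ (8 * (t/8+1))^4 := by gcongr
      _ = _ := by ring
  have h3 : (t/8+1)^4 ≤ Real.exp (t/2) := by
    calc (t/8+1)^4 ≤ Real.exp (t/8) ^ 4 := by gcongr
      _ = Real.exp (t/2) := by rw [← Real.exp_nat_mul]; congr 1; push_cast; ring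
  calc (1 + t) ^ 4 * Real.exp (-t) ≤ (4096 * Real.exp (t/2)) * Real.exp (-t) := by
        gcongr; exact h2.trans (by gcongr)
    _ = _ := by rw [mul_assoc, ← Real.exp_add]; congr 2; ring

lemma norm_Hf_le {β : ℂ} (hβ : AdmB β) {h : ℂ → ℂ} {s M : ℝ} (hs : 1 ≤ s) {x : ℂ} (hx : x ∈ HP s)
    (hM : ∀ y ∈ HP s, ‖h y‖ ≤ M) {t : ℝ} (ht : 0 ≤ t) :
    ‖Hf β h (x + I * (t:ℂ))‖ ≤
      Real.exp (2 * Real.pi) * ‖x‖ ^ (β.re - 2) * Real.exp (-x.im) * 4096 * Real.exp (-(t/2)) * M := by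
  have hy : x + I * (t:ℂ) ∈ HP s := HP_add hx (by simp) ht
  have hy0 := ne_zero_HP hs hy
  have hx1 := one_le_norm hs hx
  have hβlo := hβ.lo
  have hβhi := hβ.hi
  have hM0 : 0 ≤ M := (norm_nonneg _).trans (hM x hx)
  have h1 : ‖(x + I * (t:ℂ)) ^ (β - 2)‖ ≤
      (‖x‖ ^ (β.re - 2) * (1 + t) ^ 4) * Real.exp (2 * Real.pi) := by
    refine (norm_cpow_le hy0).trans ?_
    have hre : (β - 2).re = β.re - 2 := by simp
    have him : (β - 2).im = β.im := by simp
    rw [hre, him]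
    have hn : ‖x + I * (t:ℂ)‖ ≤ ‖x‖ * (1 + t) := by
      calc ‖x + I * (t:ℂ)‖ ≤ ‖x‖ + ‖I * (t:ℂ)‖ := norm_add_le _ _
        _ = ‖x‖ + t := by simp [abs_of_nonneg ht]
        _ ≤ _ := by nlinarith
    have h2 : ‖x + I * (t:ℂ)‖ ^ (β.re - 2) ≤ ‖x‖ ^ (β.re - 2) * (1 + t) ^ 4 := by
      calc ‖x + I * (t:ℂ)‖ ^ (β.re - 2) ≤ (‖x‖ * (1 + t)) ^ (β.re - 2) :=
            Real.rpow_le_rpow (norm_nonneg _) hn (by linarith)
        _ = ‖x‖ ^ (β.re - 2) * (1 + t) ^ (β.re - 2) := Real.mul_rpow (norm_nonneg _) (by linarith)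
        _ ≤ ‖x‖ ^ (β.re - 2) * (1 + t) ^ (4:ℝ) := by
            gcongr
            · linarith
            · linarith
        _ = _ := by norm_num
    have h3 : Real.exp (Real.pi * |β.im|) ≤ Real.exp (2 * Real.pi) := by
      apply Real.exp_le_exp.2
      have := hβ.im
      nlinarith [Real.pi_pos]
    gcongr
  have h4 : ‖exp (I * (x + I * (t:ℂ)))‖ = Real.exp (-x.im) * Real.exp (-t) := by
    rw [Complex.norm_exp, ← Real.exp_add]
    congr 1
    simp [mul_add, ← mul_assoc]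
  have h5 := hM _ hy
  have h6 := poly_exp ht
  unfold Hf
  rw [norm_mul, norm_mul, h4]
  calc ‖(x + I * (t:ℂ)) ^ (β - 2)‖ * (Real.exp (-x.im) * Real.exp (-t)) * ‖h (x + I * (t:ℂ))‖
      ≤ ((‖x‖ ^ (β.re - 2) * (1 + t) ^ 4) * Real.exp (2 * Real.pi)) *
        (Real.exp (-x.im) * Real.exp (-t)) * M := by gcongr
    _ = (Real.exp (2 * Real.pi) * ‖x‖ ^ (β.re - 2) * Real.exp (-x.im)) *
        ((1 + t) ^ 4 * Real.exp (-t)) * M := by ring
    _ ≤ (Real.exp (2 * Real.pi) * ‖x‖ ^ (β.re - 2) * Real.exp (-x.im)) *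
        (4096 * Real.exp (-(t/2))) * M := by gcongr
    _ = _ := by ring

lemma norm_pf_le {β : ℂ} (hβ : AdmB β) {x : ℂ} (hx : x ≠ 0) :
    ‖pf β x‖ ≤ ‖x‖ ^ (-β.re) * Real.exp (2 * Real.pi) * Real.exp x.im := by
  unfold pf
  rw [norm_mul, norm_mul, norm_neg, norm_I, one_mul]
  have h1 : ‖x ^ (-β)‖ ≤ ‖x‖ ^ (-β.re) * Real.exp (2 * Real.pi) := by
    refine (norm_cpow_le hx).trans ?_
    rw [neg_re, neg_im, abs_neg]
    have h3 : Real.exp (Real.pi * |β.im|) ≤ Real.exp (2 * Real.pi) := by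
      apply Real.exp_le_exp.2
      have := hβ.im
      nlinarith [Real.pi_pos]
    exact mul_le_mul_of_nonneg_left h3 (by positivity)
  have h2 : ‖exp (-(I * x))‖ = Real.exp x.im := by
    rw [Complex.norm_exp]; simp
  rw [h2]
  gcongr

/-- uniform bound of the full integrand of `Uf` -/
lemma norm_pfH_le {β : ℂ} (hβ : AdmB β) {h : ℂ → ℂ} {s M : ℝ} (hs : 1 ≤ s) {x : ℂ} (hx : x ∈ HP s)
    (hM : ∀ y ∈ HP s, ‖h y‖ ≤ M) {t : ℝ} (ht : 0 ≤ t) :
    ‖pf β x * Hf β h (x + I * (t:ℂ))‖ ≤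
      (Real.exp (4 * Real.pi) * 4096 * M / ‖x‖ ^ 2) * Real.exp (-(t/2)) := by
  have hx0 := ne_zero_HP hs hx
  have hxp : 0 < ‖x‖ := norm_pos_iff.2 hx0
  have hM0 : 0 ≤ M := (norm_nonneg _).trans (hM x hx)
  rw [norm_mul]
  calc ‖pf β x‖ * ‖Hf β h (x + I * (t:ℂ))‖
      ≤ (‖x‖ ^ (-β.re) * Real.exp (2 * Real.pi) * Real.exp x.im) *
        (Real.exp (2 * Real.pi) * ‖x‖ ^ (β.re - 2) * Real.exp (-x.im) * 4096 *
          Real.exp (-(t/2)) * M) :=
        mul_le_mul (norm_pf_le hβ hx0) (norm_Hf_le hβ hs hx hM ht) (norm_nonneg _) (by positivity)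
    _ = (‖x‖ ^ (-β.re) * ‖x‖ ^ (β.re - 2)) * (Real.exp (2 * Real.pi) * Real.exp (2 * Real.pi)) *
        (Real.exp x.im * Real.exp (-x.im)) * 4096 * M * Real.exp (-(t/2)) := by ring
    _ = _ := by
        rw [← Real.rpow_add hxp, ← Real.exp_add, ← Real.exp_add]
        rw [show -β.re + (β.re - 2) = -2 by ring, show x.im + -x.im = 0 by ring,
          show 2 * Real.pi + 2 * Real.pi = 4 * Real.pi by ring, Real.exp_zero,
          Real.rpow_neg hxp.le]
        rw [show (2:ℝ) = ((2:ℕ):ℝ) by norm_num, Real.rpow_natCast]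
        field_simp

lemma Uf_eq (β : ℂ) (h : ℂ → ℂ) (x : ℂ) :
    Uf β h x = ∫ t in Ioi (0:ℝ), pf β x * Hf β h (x + I * (t:ℂ)) := by
  unfold Uf Wf
  rw [integral_const_mul]

noncomputable def CU : ℝ := Real.exp (4 * Real.pi) * 4096 * CI

lemma CU_nonneg : 0 ≤ CU := by unfold CU; have := CI_nonneg; positivity

lemma norm_Uf_le {β : ℂ} (hβ : AdmB β) {h : ℂ → ℂ} {s M : ℝ} (hs : 1 ≤ s) {x : ℂ} (hx : x ∈ HP s)
    (hM : ∀ y ∈ HP s, ‖h y‖ ≤ M) : ‖Uf β h x‖ ≤ CU * M / ‖x‖ ^ 2 := by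
  rw [Uf_eq]
  have h1 := norm_integral_le_of_norm_le (μ := volume.restrict (Ioi (0:ℝ)))
    (f := fun t : ℝ => pf β x * Hf β h (x + I * (t:ℂ)))
    (g := fun t : ℝ => (Real.exp (4 * Real.pi) * 4096 * M / ‖x‖ ^ 2) * Real.exp (-(t/2)))
    (expInt.const_mul _)
    (by
      filter_upwards [self_mem_ae_restrict measurableSet_Ioi] with t ht
      exact norm_pfH_le hβ hs hx hM (le_of_lt ht))
  refine h1.trans (le_of_eq ?_)
  rw [integral_const_mul]
  unfold CU CI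
  ring

lemma Hf_diff {β : ℂ} {h : ℂ → ℂ} {s : ℝ} (hs : 1 ≤ s) (hh : DifferentiableOn ℂ h (HP s)) :
    DifferentiableOn ℂ (Hf β h) (HP s) := by
  intro y hy
  have h1 : DifferentiableWithinAt ℂ (fun y : ℂ => y ^ (β - 2)) (HP s) y :=
    (differentiableAt_id.cpow (differentiableAt_const _) (slit_HP hs hy)).differentiableWithinAt
  have h2 : DifferentiableWithinAt ℂ (fun y : ℂ => exp (I * y)) (HP s) y := by fun_prop
  exact (h1.mul h2).mul (hh y hy)

lemma exists_ball {s : ℝ} {x : ℂ} (hx : x ∈ HP s) : ∃ r, 0 < r ∧ r ≤ 1 ∧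
    Metric.closedBall x r ⊆ HP s := by
  obtain ⟨r, hr, hsub⟩ := Metric.nhds_basis_closedBall.mem_iff.1 ((isOpen_HP s).mem_nhds hx)
  refine ⟨min r 1, by positivity, min_le_right _ _, ?_⟩
  exact (Metric.closedBall_subset_closedBall (min_le_left _ _)).trans hsub

lemma Wf_hasDerivAt {β : ℂ} (hβ : AdmB β) {h : ℂ → ℂ} {s M : ℝ} (hs : 1 ≤ s) {x : ℂ}
    (hx : x ∈ HP s) (hh : DifferentiableOn ℂ h (HP s)) (hM : ∀ y ∈ HP s, ‖h y‖ ≤ M) :
    HasDerivAt (Wf β h) (-(Hf β h x) / I) x := by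
  obtain ⟨r, hr, hr1, hball⟩ := exists_ball hx
  have hM0 : 0 ≤ M := (norm_nonneg _).trans (hM x hx)
  set B := ‖x‖ + 1 with hB
  have hB0 : 0 < B := by positivity
  apply ray_hasDerivAt (e := I) I_ne_zero (by simp) hr hball (Hf_diff hs hh)
    (g := fun t => (Real.exp (2 * Real.pi) * B ^ 4 * Real.exp B * 4096 * M) * Real.exp (-(t/2)))
  · exact expInt.const_mul _
  · have : Tendsto (fun t : ℝ => Real.exp (-(t/2))) atTop (𝓝 0) :=
      Real.tendsto_exp_neg_atTop_nhds_zero.comp (tendsto_id.atTop_div_const (by norm_num))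
    simpa using this.const_mul (Real.exp (2 * Real.pi) * B ^ 4 * Real.exp B * 4096 * M)
  · intro y hy t ht
    have hyH := hball hy
    refine (norm_Hf_le hβ hs hyH hM ht).trans ?_
    have hyB : ‖y‖ ≤ B := by
      rw [mem_closedBall_iff_norm] at hy
      calc ‖y‖ = ‖x + (y - x)‖ := by ring_nf
        _ ≤ ‖x‖ + ‖y - x‖ := norm_add_le _ _
        _ ≤ B := by rw [hB]; linarith
    have hy1 := one_le_norm hs hyH
    have h1 : ‖y‖ ^ (β.re - 2) ≤ B ^ 4 := by
      calc ‖y‖ ^ (β.re - 2) ≤ ‖y‖ ^ (4:ℝ) :=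
            Real.rpow_le_rpow_of_exponent_le hy1 (by have := hβ.hi; linarith)
        _ = ‖y‖ ^ 4 := by norm_num
        _ ≤ B ^ 4 := by gcongr
    have h2 : Real.exp (-y.im) ≤ Real.exp B := by
      apply Real.exp_le_exp.2
      have := Complex.abs_im_le_norm y
      have := neg_abs_le y.im
      linarith
    have e1 : Real.exp (2 * Real.pi) * ‖y‖ ^ (β.re - 2) * Real.exp (-y.im) * 4096 *
        Real.exp (-(t/2)) * M ≤ Real.exp (2 * Real.pi) * B ^ 4 * Real.exp B * 4096 *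
        Real.exp (-(t/2)) * M := by gcongr
    refine e1.trans (le_of_eq (by ring))

lemma Uf_hasDerivAt {β : ℂ} (hβ : AdmB β) {h : ℂ → ℂ} {s M : ℝ} (hs : 1 ≤ s) {x : ℂ}
    (hx : x ∈ HP s) (hh : DifferentiableOn ℂ h (HP s)) (hM : ∀ y ∈ HP s, ‖h y‖ ≤ M) :
    HasDerivAt (Uf β h) (-(β / x + I) * Uf β h x + h x / x ^ 2) x := by
  have hW := Wf_hasDerivAt hβ hs hx hh hM
  have hx0 := ne_zero_HP hs hx
  have h1 : HasDerivAt (fun y : ℂ => y ^ (-β)) (-β * x ^ (-β - 1)) x :=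
    by simpa using (hasDerivAt_id x).cpow_const (c := -β) (slit_HP hs hx)
  have h2 : HasDerivAt (fun y : ℂ => exp (-(I * y))) (exp (-(I * x)) * (-I)) x := by
    have : HasDerivAt (fun y : ℂ => -(I * y)) (-I) x := by
      have h := (hasDerivAt_id x).const_mul (-I)
      simp only [mul_one] at h
      refine h.congr_of_eventuallyEq (Eventually.of_forall fun y => ?_)
      simp
    exact this.cexp
  have h3 := ((h1.mul h2).const_mul (-I)).mul hW
  refine h3.congr_deriv ?_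
  simp only [Pi.mul_apply]
  unfold Uf pf Hf
  have e1 : x ^ (-β - 1) = x ^ (-β) / x := by
    rw [cpow_sub _ _ hx0, cpow_one]
  have e2 : x ^ (β - 2) = x ^ β / x ^ 2 := by
    rw [cpow_sub _ _ hx0]; norm_num
  have e3 : x ^ (-β) * x ^ β = 1 := by
    rw [← cpow_add _ _ hx0]; simp
  have e4 : exp (-(I * x)) * exp (I * x) = 1 := by
    rw [← Complex.exp_add]; simp
  rw [e1, e2]
  have e5 : -I * (x ^ (-β) * exp (-(I * x))) * (-(x ^ β / x ^ 2 * exp (I * x) * h x) / I)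
      = (x ^ (-β) * x ^ β) * (exp (-(I * x)) * exp (I * x)) * (h x / x ^ 2) := by
    field_simp
  rw [e5, e3, e4]
  field_simp
  ring_nf

end Crest.Agent.R086.BFar
end

-- ▼ part R086/BFarOp2
section

/-!
Row 86, Part B, exterior problem (helper207): the primitive operator `Af`, linearity, continuity
in parameters.
-/

set_option autoImplicit false

open MeasureTheory Filter Set Topology Complex

namespace Crest.Agent.R086.BFar

lemma int_sq {a : ℝ} (ha : 0 < a) : IntegrableOn (fun t : ℝ => 1 / (a + t) ^ 2) (Ioi 0) ∧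
    ∫ t in Ioi (0:ℝ), 1 / (a + t) ^ 2 = 1 / a := by
  have hd : ∀ t ∈ Ioi (0:ℝ), HasDerivAt (fun t : ℝ => -(1 / (a + t))) (1 / (a + t) ^ 2) t := by
    intro t ht
    have ht' : a + t ≠ 0 := by have : (0:ℝ) < t := ht; positivity
    have h1 : HasDerivAt (fun t : ℝ => a + t) 1 t := (hasDerivAt_id t).const_add a
    have h2 := (h1.inv ht').neg
    refine (h2.congr_of_eventuallyEq (Eventually.of_forall fun y => ?_)).congr_deriv ?_
    · simp
    · ring
  have hcont : ContinuousWithinAt (fun t : ℝ => -(1 / (a + t))) (Ici 0) 0 := by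
    apply ContinuousAt.continuousWithinAt
    have : a + 0 ≠ 0 := by linarith
    fun_prop (disch := assumption)
  have hlim : Tendsto (fun t : ℝ => -(1 / (a + t))) atTop (𝓝 (-0)) := by
    apply Tendsto.neg
    simp only [one_div]
    exact tendsto_inv_atTop_zero.comp (tendsto_atTop_add_const_left _ a tendsto_id)
  have hpos : ∀ t ∈ Ioi (0:ℝ), 0 ≤ 1 / (a + t) ^ 2 := fun t _ => by positivity
  refine ⟨integrableOn_Ioi_deriv_of_nonneg hcont hd hpos hlim, ?_⟩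
  rw [integral_Ioi_of_hasDerivAt_of_nonneg hcont hd hpos hlim]
  simp

lemma Uf_ray_bound {β : ℂ} (hβ : AdmB β) {h : ℂ → ℂ} {s M : ℝ} (hs : 1 ≤ s) {x : ℂ} (hx : x ∈ HP s)
    (hM : ∀ y ∈ HP s, ‖h y‖ ≤ M) {t : ℝ} (ht : 0 ≤ t) :
    ‖Uf β h (x + 1 * (t:ℂ))‖ ≤ CU * M * (1 / (x.re + t) ^ 2) := by
  have hy : x + 1 * (t:ℂ) ∈ HP s := HP_add hx (by simp) ht
  have h1 := norm_Uf_le hβ hs hy hM
  refine h1.trans ?_
  have hM0 : 0 ≤ M := (norm_nonneg _).trans (hM x hx)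
  have hx1 : s < x.re := hx
  have h2 : x.re + t ≤ ‖x + 1 * (t:ℂ)‖ := by
    have := Complex.re_le_norm (x + 1 * (t:ℂ))
    simpa using this
  have h3 : 0 < x.re + t := by linarith
  rw [div_eq_mul_one_div]
  have hc := CU_nonneg
  gcongr

lemma norm_Af_le {β : ℂ} (hβ : AdmB β) {h : ℂ → ℂ} {s M : ℝ} (hs : 1 ≤ s) {x : ℂ} (hx : x ∈ HP s)
    (hM : ∀ y ∈ HP s, ‖h y‖ ≤ M) : ‖Af β h x‖ ≤ CU * M / x.re := by
  have hx1 : s < x.re := hx
  obtain ⟨h1, h2⟩ := int_sq (a := x.re) (by linarith)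
  unfold Af
  rw [norm_neg]
  have h3 := norm_integral_le_of_norm_le (μ := volume.restrict (Ioi (0:ℝ)))
    (f := fun t : ℝ => Uf β h (x + 1 * (t:ℂ)))
    (g := fun t : ℝ => CU * M * (1 / (x.re + t) ^ 2)) (h1.const_mul _)
    (by
      filter_upwards [self_mem_ae_restrict measurableSet_Ioi] with t ht
      exact Uf_ray_bound hβ hs hx hM (le_of_lt ht))
  refine h3.trans (le_of_eq ?_)
  rw [integral_const_mul, h2]; ring

lemma Uf_diff {β : ℂ} (hβ : AdmB β) {h : ℂ → ℂ} {s M : ℝ} (hs : 1 ≤ s)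
    (hh : DifferentiableOn ℂ h (HP s)) (hM : ∀ y ∈ HP s, ‖h y‖ ≤ M) :
    DifferentiableOn ℂ (Uf β h) (HP s) := fun x hx =>
  (Uf_hasDerivAt hβ hs hx hh hM).differentiableAt.differentiableWithinAt

lemma Af_hasDerivAt {β : ℂ} (hβ : AdmB β) {h : ℂ → ℂ} {s M : ℝ} (hs : 1 ≤ s) {x : ℂ}
    (hx : x ∈ HP s) (hh : DifferentiableOn ℂ h (HP s)) (hM : ∀ y ∈ HP s, ‖h y‖ ≤ M) :
    HasDerivAt (Af β h) (Uf β h x) x := by
  obtain ⟨r, hr, hr1, hball⟩ := exists_ball hx
  have hM0 : 0 ≤ M := (norm_nonneg _).trans (hM x hx)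
  have hc := CU_nonneg
  have hs0 : 0 < s := by linarith
  have key := ray_hasDerivAt (e := (1:ℂ)) one_ne_zero (by simp) hr hball (Uf_diff hβ hs hh hM)
    (g := fun t => CU * M * (1 / (s + t) ^ 2)) ((int_sq hs0).1.const_mul _)
    (by
      have h1 : Tendsto (fun t : ℝ => (s + t) ^ 2) atTop atTop :=
        (tendsto_pow_atTop (two_ne_zero)).comp (tendsto_atTop_add_const_left _ s tendsto_id)
      have h2 : Tendsto (fun t : ℝ => 1 / (s + t) ^ 2) atTop (𝓝 0) := by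
        simp only [one_div]; exact tendsto_inv_atTop_zero.comp h1
      simpa using h2.const_mul (CU * M))
    (by
      intro y hy t ht
      have hyH := hball hy
      refine (Uf_ray_bound hβ hs hyH hM ht).trans ?_
      have : s < y.re := hyH
      gcongr)
  have h2 := key.neg
  refine (h2.congr_of_eventuallyEq (Eventually.of_forall fun y => ?_)).congr_deriv ?_
  · rfl
  · simp

lemma Uf_sub {β : ℂ} (hβ : AdmB β) {h k : ℂ → ℂ} {s M : ℝ} (hs : 1 ≤ s) {x : ℂ} (hx : x ∈ HP s)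
    (hh : DifferentiableOn ℂ h (HP s)) (hk : DifferentiableOn ℂ k (HP s))
    (hM : ∀ y ∈ HP s, ‖h y‖ ≤ M) (kM : ∀ y ∈ HP s, ‖k y‖ ≤ M) :
    Uf β h x - Uf β k x = Uf β (fun y => h y - k y) x := by
  have hint : ∀ {g : ℂ → ℂ}, DifferentiableOn ℂ g (HP s) → (∀ y ∈ HP s, ‖g y‖ ≤ M) →
      Integrable (fun t : ℝ => pf β x * Hf β g (x + I * (t:ℂ))) (volume.restrict (Ioi 0)) := by
    intro g hg gM
    refine Integrable.mono' (g := fun t : ℝ => (Real.exp (4 * Real.pi) * 4096 * M / ‖x‖ ^ 2) *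
      Real.exp (-(t/2))) (expInt.const_mul _) ?_ ?_
    · have : ContinuousOn (fun t : ℝ => pf β x * Hf β g (x + I * (t:ℂ))) (Ioi 0) := by
        apply continuousOn_const.mul
        apply (Hf_diff (β := β) hs hg).continuousOn.comp (by fun_prop)
        intro t ht; exact HP_add hx (by simp) (le_of_lt ht)
      exact this.aestronglyMeasurable measurableSet_Ioi
    · filter_upwards [self_mem_ae_restrict measurableSet_Ioi] with t ht
      exact norm_pfH_le hβ hs hx gM (le_of_lt ht)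
  rw [Uf_eq, Uf_eq, Uf_eq, ← integral_sub (hint hh hM) (hint hk kM)]
  congr 1
  funext t
  unfold Hf
  ring

lemma Af_sub {β : ℂ} (hβ : AdmB β) {h k : ℂ → ℂ} {s M : ℝ} (hs : 1 ≤ s) {x : ℂ} (hx : x ∈ HP s)
    (hh : DifferentiableOn ℂ h (HP s)) (hk : DifferentiableOn ℂ k (HP s))
    (hM : ∀ y ∈ HP s, ‖h y‖ ≤ M) (kM : ∀ y ∈ HP s, ‖k y‖ ≤ M) :
    Af β h x - Af β k x = Af β (fun y => h y - k y) x := by
  have hx1 : s < x.re := hx
  have hint : ∀ {g : ℂ → ℂ}, DifferentiableOn ℂ g (HP s) → (∀ y ∈ HP s, ‖g y‖ ≤ M) →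
      Integrable (fun t : ℝ => Uf β g (x + 1 * (t:ℂ))) (volume.restrict (Ioi 0)) := by
    intro g hg gM
    refine Integrable.mono' (g := fun t : ℝ => CU * M * (1 / (x.re + t) ^ 2))
      ((int_sq (a := x.re) (by linarith)).1.const_mul _) ?_ ?_
    · have : ContinuousOn (fun t : ℝ => Uf β g (x + 1 * (t:ℂ))) (Ioi 0) := by
        apply (Uf_diff hβ hs hg gM).continuousOn.comp (by fun_prop)
        intro t ht; exact HP_add hx (by simp) (le_of_lt ht)
      exact this.aestronglyMeasurable measurableSet_Ioi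
    · filter_upwards [self_mem_ae_restrict measurableSet_Ioi] with t ht
      exact Uf_ray_bound hβ hs hx gM (le_of_lt ht)
  unfold Af
  rw [← neg_sub_neg, neg_neg, neg_neg, ← neg_sub, ← integral_sub (hint hh hM) (hint hk kM)]
  congr 1
  apply setIntegral_congr_fun measurableSet_Ioi
  intro t ht
  exact Uf_sub hβ hs (HP_add hx (by simp) (le_of_lt ht)) hh hk hM kM

section cont
variable {P : Type*} [TopologicalSpace P] [FirstCountableTopology P]

lemma Uf_cont {K : Set P} {β : P → ℂ} (hβc : ContinuousOn β K) (hβ : ∀ p ∈ K, AdmB (β p))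
    {h : P → ℂ → ℂ} {s M : ℝ} (hs : 1 ≤ s)
    (hh : ContinuousOn (fun q : P × ℂ => h q.1 q.2) (K ×ˢ HP s))
    (hM : ∀ p ∈ K, ∀ y ∈ HP s, ‖h p y‖ ≤ M) :
    ContinuousOn (fun q : P × ℂ => Uf (β q.1) (h q.1) q.2) (K ×ˢ HP s) := by
  have hsh : ∀ t : ℝ, 0 ≤ t → ContinuousOn (fun q : P × ℂ => h q.1 (q.2 + I * (t:ℂ)))
      (K ×ˢ HP s) := by
    intro t ht
    have : ContinuousOn (fun q : P × ℂ => (q.1, q.2 + I * (t:ℂ))) (K ×ˢ HP s) := by fun_prop
    refine hh.comp this ?_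
    intro q hq
    exact ⟨hq.1, HP_add hq.2 (by simp) ht⟩
  have hβ1 : ContinuousOn (fun q : P × ℂ => β q.1) (K ×ˢ HP s) :=
    hβc.comp continuousOn_fst (fun q hq => hq.1)
  have hpf : ContinuousOn (fun q : P × ℂ => pf (β q.1) q.2) (K ×ˢ HP s) := by
    unfold pf
    apply continuousOn_const.mul
    apply ContinuousOn.mul
    · exact continuousOn_snd.cpow hβ1.neg (fun q hq => slit_HP hs hq.2)
    · fun_prop
  simp_rw [Uf_eq]
  apply continuousOn_of_dominated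
    (bound := fun t : ℝ => (Real.exp (4 * Real.pi) * 4096 * M) * Real.exp (-(t/2)))
  · intro q hq
    have : ContinuousOn (fun t : ℝ => pf (β q.1) q.2 * Hf (β q.1) (h q.1) (q.2 + I * (t:ℂ)))
        (Ioi 0) := by
      apply continuousOn_const.mul
      have hmap : ∀ t ∈ Ioi (0:ℝ), q.2 + I * (t:ℂ) ∈ HP s :=
        fun t ht => HP_add hq.2 (by simp) (le_of_lt ht)
      have hhq : ContinuousOn (h q.1) (HP s) := by
        have : ContinuousOn (fun y : ℂ => (q.1, y)) (HP s) := by fun_prop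
        exact hh.comp this (fun y hy => ⟨hq.1, hy⟩)
      unfold Hf
      apply ContinuousOn.mul
      · apply ContinuousOn.mul
        · apply ContinuousOn.cpow (by fun_prop) continuousOn_const
          intro t ht; exact slit_HP hs (hmap t ht)
        · fun_prop
      · exact hhq.comp (by fun_prop) hmap
    exact this.aestronglyMeasurable measurableSet_Ioi
  · intro q hq
    filter_upwards [self_mem_ae_restrict measurableSet_Ioi] with t ht
    refine (norm_pfH_le (hβ _ hq.1) hs hq.2 (hM _ hq.1) (le_of_lt ht)).trans ?_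
    have h1 := one_le_norm hs hq.2
    have hM0 : 0 ≤ M := (norm_nonneg _).trans (hM _ hq.1 _ hq.2)
    have h2 : Real.exp (4 * Real.pi) * 4096 * M / ‖q.2‖ ^ 2 ≤ Real.exp (4 * Real.pi) * 4096 * M :=
      div_le_self (by positivity) (one_le_pow₀ h1)
    gcongr
  · exact expInt.const_mul _
  · filter_upwards [self_mem_ae_restrict measurableSet_Ioi] with t ht
    have ht' : (0:ℝ) ≤ t := le_of_lt ht
    apply hpf.mul
    unfold Hf
    apply ContinuousOn.mul
    · apply ContinuousOn.mul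
      · apply ContinuousOn.cpow (by fun_prop) (hβ1.sub continuousOn_const)
        intro q hq; exact slit_HP hs (HP_add hq.2 (by simp) ht')
      · fun_prop
    · exact hsh t ht'

lemma Af_cont {K : Set P} {β : P → ℂ} (hβc : ContinuousOn β K) (hβ : ∀ p ∈ K, AdmB (β p))
    {h : P → ℂ → ℂ} {s M : ℝ} (hs : 1 ≤ s)
    (hh : ContinuousOn (fun q : P × ℂ => h q.1 q.2) (K ×ˢ HP s))
    (hM : ∀ p ∈ K, ∀ y ∈ HP s, ‖h p y‖ ≤ M) :
    ContinuousOn (fun q : P × ℂ => Af (β q.1) (h q.1) q.2) (K ×ˢ HP s) := by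
  have hU := Uf_cont hβc hβ hs hh hM
  have hs0 : 0 < s := by linarith
  unfold Af
  apply ContinuousOn.neg
  apply continuousOn_of_dominated (bound := fun t : ℝ => CU * M * (1 / (s + t) ^ 2))
  · intro q hq
    have h1 : ContinuousOn (fun t : ℝ => ((q.1, q.2 + 1 * (t:ℂ)) : P × ℂ)) (Ioi 0) := by fun_prop
    have h2 : MapsTo (fun t : ℝ => ((q.1, q.2 + 1 * (t:ℂ)) : P × ℂ)) (Ioi 0) (K ×ˢ HP s) :=
      fun t ht => ⟨hq.1, HP_add hq.2 (by simp) (le_of_lt ht)⟩
    have h3 := ContinuousOn.comp (g := fun q : P × ℂ => Uf (β q.1) (h q.1) q.2)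
      (f := fun t : ℝ => ((q.1, q.2 + 1 * (t:ℂ)) : P × ℂ)) hU h1 h2
    exact ContinuousOn.aestronglyMeasurable (f := fun t : ℝ => Uf (β q.1) (h q.1) (q.2 + 1 * (t:ℂ)))
      h3 measurableSet_Ioi
  · intro q hq
    filter_upwards [self_mem_ae_restrict measurableSet_Ioi] with t ht
    have ht' : (0:ℝ) < t := ht
    refine (Uf_ray_bound (hβ _ hq.1) hs hq.2 (hM _ hq.1) ht'.le).trans ?_
    have hM0 : 0 ≤ M := (norm_nonneg _).trans (hM _ hq.1 _ hq.2)
    have h3 : s < q.2.re := hq.2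
    have hc := CU_nonneg
    gcongr
  · exact (int_sq hs0).1.const_mul _
  · filter_upwards [self_mem_ae_restrict measurableSet_Ioi] with t ht
    have h1 : ContinuousOn (fun q : P × ℂ => ((q.1, q.2 + 1 * (t:ℂ)) : P × ℂ)) (K ×ˢ HP s) := by
      fun_prop
    exact ContinuousOn.comp (g := fun q : P × ℂ => Uf (β q.1) (h q.1) q.2)
      (f := fun q : P × ℂ => ((q.1, q.2 + 1 * (t:ℂ)) : P × ℂ)) hU h1
      (fun q hq => ⟨hq.1, HP_add hq.2 (by simp) (le_of_lt ht)⟩)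

end cont

end Crest.Agent.R086.BFar
end

-- ▼ part R086/BFarFix
section

/-!
Row 86, Part B, exterior problem (helper207): fixed points in the half plane.
-/

set_option autoImplicit false

open MeasureTheory Filter Set Topology Complex

namespace Crest.Agent.R086.BFar

abbrev PP : Type := ℝ × ℝ × ℂ

/-- parameters `(om, eps, k)` -/
def KK (kmax : ℝ) : Set PP :=
  {p | p.1 ∈ Icc (1/5 : ℝ) (1/2) ∧ p.2.1 ∈ Icc (0 : ℝ) (1/2) ∧ ‖p.2.2‖ ≤ kmax}

noncomputable def aa (p : PP) : ℂ := (p.2.1 : ℂ) - I * (p.1 : ℂ)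
noncomputable def bb (p : PP) : ℂ := 6 - 2 * aa p
noncomputable def tl (f : ℂ → ℂ) (x : ℂ) : ℂ := (starRingEnd ℂ) (f ((starRingEnd ℂ) x))
noncomputable def hh (c : ℂ) (m : ℕ) (p : PP) (f : ℂ → ℂ) (x : ℂ) : ℂ :=
  c * (f x * (f x * tl f x) ^ m) + aa p * (5 - aa p) * f x

lemma aa_re (p : PP) : (aa p).re = p.2.1 := by simp [aa]
lemma aa_im (p : PP) : (aa p).im = -p.1 := by simp [aa]

lemma admB_bb {kmax : ℝ} {p : PP} (hp : p ∈ KK kmax) : AdmB (bb p) := by
  obtain ⟨h1, h2, -⟩ := hp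
  refine ⟨?_, ?_, ?_⟩
  · simp only [bb, sub_re, mul_re, aa_re, aa_im]; norm_num; linarith [h2.1, h2.2]
  · simp only [bb, sub_re, mul_re, aa_re, aa_im]; norm_num; linarith [h2.1, h2.2]
  · simp only [bb, sub_im, mul_im, aa_re, aa_im]; norm_num
    rw [abs_of_nonneg (by linarith [h1.1])]; linarith [h1.2]

lemma norm_aa_le {kmax : ℝ} {p : PP} (hp : p ∈ KK kmax) : ‖aa p‖ ≤ 1 := by
  obtain ⟨h1, h2, -⟩ := hp
  calc ‖aa p‖ ≤ |(aa p).re| + |(aa p).im| := Complex.norm_le_abs_re_add_abs_im _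
    _ ≤ 1 := by
      rw [aa_re, aa_im, abs_neg, abs_of_nonneg h2.1, abs_of_nonneg (by linarith [h1.1])]
      linarith [h1.2, h2.2]

lemma norm_aa5_le {kmax : ℝ} {p : PP} (hp : p ∈ KK kmax) : ‖aa p * (5 - aa p)‖ ≤ 6 := by
  have h1 := norm_aa_le hp
  rw [norm_mul]
  have h2 : ‖5 - aa p‖ ≤ 6 := by
    calc ‖5 - aa p‖ ≤ ‖(5:ℂ)‖ + ‖aa p‖ := norm_sub_le _ _
      _ ≤ 6 := by norm_num; linarith
  nlinarith [norm_nonneg (aa p), norm_nonneg (5 - aa p)]

lemma norm_tl {f : ℂ → ℂ} {s M : ℝ} (hM : ∀ y ∈ HP s, ‖f y‖ ≤ M) {x : ℂ} (hx : x ∈ HP s) :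
    ‖tl f x‖ ≤ M := by
  unfold tl
  rw [RCLike.norm_conj]
  exact hM _ (conj_mem_HP hx)

lemma tl_diff {f : ℂ → ℂ} {s : ℝ} (hf : DifferentiableOn ℂ f (HP s)) :
    DifferentiableOn ℂ (tl f) (HP s) := by
  intro x hx
  have h1 : DifferentiableAt ℂ f ((starRingEnd ℂ) x) :=
    (hf _ (conj_mem_HP hx)).differentiableAt ((isOpen_HP s).mem_nhds (conj_mem_HP hx))
  have h2 := h1.conj_conj
  rw [Complex.conj_conj] at h2
  exact h2.differentiableWithinAt

lemma hh_diff {f : ℂ → ℂ} {s : ℝ} (hf : DifferentiableOn ℂ f (HP s)) (c : ℂ) (m : ℕ) (p : PP) :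
    DifferentiableOn ℂ (hh c m p f) (HP s) := by
  unfold hh
  have h1 := tl_diff hf
  exact ((hf.mul ((hf.mul h1).pow m)).const_mul c).add (hf.const_mul _)

lemma hh_bound {f : ℂ → ℂ} {s M kmax : ℝ} (hM1 : M ≤ 1) (hM : ∀ y ∈ HP s, ‖f y‖ ≤ M) {c : ℂ}
    (hc : ‖c‖ ≤ 1) (m : ℕ) {p : PP} (hp : p ∈ KK kmax) {x : ℂ} (hx : x ∈ HP s) :
    ‖hh c m p f x‖ ≤ 7 := by
  have h1 := hM x hx
  have h2 := norm_tl hM hx
  have hM0 : 0 ≤ M := (norm_nonneg _).trans h1
  unfold hh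
  have h3 : ‖c * (f x * (f x * tl f x) ^ m)‖ ≤ 1 := by
    rw [norm_mul, norm_mul, norm_pow, norm_mul]
    have h4 : (‖f x‖ * ‖tl f x‖) ^ m ≤ 1 := by
      apply pow_le_one₀ (by positivity)
      calc ‖f x‖ * ‖tl f x‖ ≤ 1 * 1 := by
            apply mul_le_mul (h1.trans hM1) (h2.trans hM1) (norm_nonneg _) (by norm_num)
        _ = 1 := by norm_num
    calc ‖c‖ * (‖f x‖ * (‖f x‖ * ‖tl f x‖) ^ m) ≤ 1 * (1 * 1) := by
          apply mul_le_mul hc _ (by positivity) (by norm_num)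
          exact mul_le_mul (h1.trans hM1) h4 (by positivity) (by norm_num)
      _ = 1 := by norm_num
  have h5 : ‖aa p * (5 - aa p) * f x‖ ≤ 6 := by
    rw [norm_mul]
    have h6 := norm_aa5_le hp
    calc ‖aa p * (5 - aa p)‖ * ‖f x‖ ≤ 6 * 1 :=
          mul_le_mul h6 (h1.trans hM1) (norm_nonneg _) (by norm_num)
      _ = 6 := by norm_num
  calc _ ≤ ‖c * (f x * (f x * tl f x) ^ m)‖ + ‖aa p * (5 - aa p) * f x‖ := norm_add_le _ _
    _ ≤ 7 := by linarith

lemma hh_lip {f g : ℂ → ℂ} {s M e kmax : ℝ} (hM1 : M < 1) (hf : ∀ y ∈ HP s, ‖f y‖ ≤ M)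
    (hg : ∀ y ∈ HP s, ‖g y‖ ≤ M) (hfg : ∀ y ∈ HP s, ‖f y - g y‖ ≤ e) {c : ℂ}
    (hc : ‖c‖ ≤ 1) (m : ℕ) {p : PP} (hp : p ∈ KK kmax) {x : ℂ} (hx : x ∈ HP s) :
    ‖hh c m p f x - hh c m p g x‖ ≤ (1 / (1 - M) + 6) * e := by
  have h1 := hf x hx
  have hM0 : 0 ≤ M := (norm_nonneg _).trans h1
  have he : 0 ≤ e := (norm_nonneg _).trans (hfg x hx)
  have ht : ‖tl f x - tl g x‖ ≤ e := by
    unfold tl
    rw [← map_sub, RCLike.norm_conj]
    exact hfg _ (conj_mem_HP hx)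
  have h2 := nl_lip (hf x hx) (hg x hx) (norm_tl hf hx) (norm_tl hg hx) (hfg x hx) ht m
  have h3 := geom_bd hM0 hM1 (2 * m)
  have e1 : hh c m p f x - hh c m p g x
      = c * (f x * (f x * tl f x) ^ m - g x * (g x * tl g x) ^ m)
        + aa p * (5 - aa p) * (f x - g x) := by unfold hh; ring
  rw [e1]
  have h4 : ‖c * (f x * (f x * tl f x) ^ m - g x * (g x * tl g x) ^ m)‖ ≤ 1 / (1 - M) * e := by
    rw [norm_mul]
    have h5 : (2 * (m:ℝ) + 1) * M ^ (2 * m) * e ≤ 1 / (1 - M) * e := by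
      apply mul_le_mul_of_nonneg_right _ he
      push_cast at h3
      exact h3
    calc ‖c‖ * _ ≤ 1 * (1 / (1 - M) * e) :=
          mul_le_mul hc (h2.trans h5) (norm_nonneg _) (by norm_num)
      _ = _ := one_mul _
  have h6 : ‖aa p * (5 - aa p) * (f x - g x)‖ ≤ 6 * e := by
    rw [norm_mul]
    exact mul_le_mul (norm_aa5_le hp) (hfg x hx) (norm_nonneg _) (by norm_num)
  calc _ ≤ _ := norm_add_le _ _
    _ ≤ 1 / (1 - M) * e + 6 * e := add_le_add h4 h6
    _ = _ := by ring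

lemma aa_cont (K : Set PP) : ContinuousOn aa K := by unfold aa; fun_prop
lemma bb_cont (K : Set PP) : ContinuousOn bb K := by
  unfold bb; exact continuousOn_const.sub (continuousOn_const.mul (aa_cont K))

lemma hh_cont {K : Set PP} {s : ℝ} {F : PP → ℂ → ℂ}
    (hF : ContinuousOn (fun q : PP × ℂ => F q.1 q.2) (K ×ˢ HP s)) (c : ℂ) (m : ℕ) :
    ContinuousOn (fun q : PP × ℂ => hh c m q.1 (F q.1) q.2) (K ×ˢ HP s) := by
  have h1 : ContinuousOn (fun q : PP × ℂ => tl (F q.1) q.2) (K ×ˢ HP s) := by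
    unfold tl
    apply Complex.continuous_conj.comp_continuousOn
    have h2 : ContinuousOn (fun q : PP × ℂ => ((q.1, (starRingEnd ℂ) q.2) : PP × ℂ)) (K ×ˢ HP s) :=
      continuousOn_fst.prodMk (Complex.continuous_conj.comp_continuousOn continuousOn_snd)
    exact ContinuousOn.comp (g := fun q : PP × ℂ => F q.1 q.2)
      (f := fun q : PP × ℂ => ((q.1, (starRingEnd ℂ) q.2) : PP × ℂ)) hF h2
      (fun q hq => ⟨hq.1, conj_mem_HP hq.2⟩)
  have h3 : ContinuousOn (fun q : PP × ℂ => aa q.1 * (5 - aa q.1)) (K ×ˢ HP s) := by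
    have := (aa_cont K).comp continuousOn_fst (fun (q : PP × ℂ) (hq : q ∈ K ×ˢ HP s) => hq.1)
    exact this.mul (continuousOn_const.sub this)
  unfold hh
  exact (continuousOn_const.mul (hF.mul ((hF.mul h1).pow m))).add (h3.mul hF)

/-- the solution set -/
structure IsFix (s0 kmax : ℝ) (c : ℂ) (m : ℕ) (F : PP → ℂ → ℂ) : Prop where
  cont : ContinuousOn (fun q : PP × ℂ => F q.1 q.2) (KK kmax ×ˢ HP s0)
  diff : ∀ p ∈ KK kmax, DifferentiableOn ℂ (F p) (HP s0)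
  bd : ∀ p ∈ KK kmax, ∀ x ∈ HP s0, ‖F p x‖ ≤ (1 + kmax) / 2
  eq : ∀ p ∈ KK kmax, ∀ x ∈ HP s0, F p x = p.2.2 + Af (bb p) (hh c m p (F p)) x

theorem exists_fix {kmax : ℝ} (hk0 : 0 ≤ kmax) (hk1 : kmax < 1) :
    ∃ s0 : ℝ, 1 ≤ s0 ∧ CU * (1 / (1 - (1 + kmax) / 2) + 6) / s0 ≤ 1 / 2 ∧
      ∀ (c : ℂ), ‖c‖ ≤ 1 → ∀ m : ℕ, ∃ F : PP → ℂ → ℂ, IsFix s0 kmax c m F := by
  set M := (1 + kmax) / 2 with hM
  have hM1 : M < 1 := by rw [hM]; linarith
  have hM0 : 0 ≤ M := by rw [hM]; linarith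
  set δ := (1 - kmax) / 2 with hδ
  have hδ0 : 0 < δ := by rw [hδ]; linarith
  have hCU := CU_nonneg
  set L := CU * (1 / (1 - M) + 6) with hL
  have hL0 : 0 ≤ L := by
    rw [hL]; apply mul_nonneg hCU
    have : 0 < 1 - M := by linarith
    positivity
  set s0 := max 1 (max (CU * 7 / δ) (2 * L)) with hs0
  have hs1 : 1 ≤ s0 := le_max_left _ _
  have hs2 : CU * 7 / δ ≤ s0 := (le_max_left _ _).trans (le_max_right _ _)
  have hs3 : 2 * L ≤ s0 := (le_max_right _ _).trans (le_max_right _ _)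
  have hspos : 0 < s0 := by linarith
  refine ⟨s0, hs1, ?_, ?_⟩
  · rw [div_le_iff₀ hspos]; linarith
  intro c hc m
  -- the set
  classical
  let K := KK kmax
  let S : Set (PP × ℂ → ℂ) := {F | ContinuousOn F (K ×ˢ HP s0) ∧
    (∀ p ∈ K, DifferentiableOn ℂ (fun x => F (p, x)) (HP s0)) ∧
    (∀ p ∈ K, ∀ x ∈ HP s0, ‖F (p, x) - p.2.2‖ ≤ δ) ∧ (∀ q, q ∉ K ×ˢ HP s0 → F q = 0)}
  have hSM : ∀ F ∈ S, ∀ p ∈ K, ∀ x ∈ HP s0, ‖F (p, x)‖ ≤ M := by
    intro F hF p hp x hx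
    have h1 := hF.2.2.1 p hp x hx
    have h2 : ‖p.2.2‖ ≤ kmax := hp.2.2
    calc ‖F (p, x)‖ = ‖(F (p, x) - p.2.2) + p.2.2‖ := by ring_nf
      _ ≤ ‖F (p, x) - p.2.2‖ + ‖p.2.2‖ := norm_add_le _ _
      _ ≤ M := by rw [hM]; rw [hδ] at h1; linarith
  let T : (PP × ℂ → ℂ) → (PP × ℂ → ℂ) := fun F q =>
    if q ∈ K ×ˢ HP s0 then q.1.2.2 + Af (bb q.1) (hh c m q.1 (fun x => F (q.1, x))) q.2 else 0
  have hfix : ∃ F ∈ S, T F = F := by
    apply fixpt_sup S
    · -- nonempty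
      refine ⟨fun q => if q ∈ K ×ˢ HP s0 then q.1.2.2 else 0, ?_, ?_, ?_, ?_⟩
      · apply ContinuousOn.congr (f := fun q : PP × ℂ => q.1.2.2) (by fun_prop)
        intro q hq; simp only [hq, if_true]
      · intro p hp
        apply DifferentiableOn.congr (f := fun _ : ℂ => p.2.2) (differentiableOn_const _)
        intro x hx
        have : ((p, x) : PP × ℂ) ∈ K ×ˢ HP s0 := ⟨hp, hx⟩
        simp only [this, if_true]
      · intro p hp x hx
        have : ((p, x) : PP × ℂ) ∈ K ×ˢ HP s0 := ⟨hp, hx⟩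
        simp only [this, if_true, sub_self, norm_zero]
        exact hδ0.le
      · intro q hq; simp only [hq, if_false]
    · -- closed
      intro F g hF hFg
      refine ⟨?_, ?_, ?_, ?_⟩
      · exact hFg.tendstoUniformlyOn.continuousOn (Frequently.of_forall fun k => (hF k).1)
      · intro p hp
        have h1 : TendstoUniformly (fun k x => F k (p, x)) (fun x => g (p, x)) atTop :=
          hFg.comp (fun x : ℂ => ((p, x) : PP × ℂ))
        exact (h1.tendstoUniformlyOn.tendstoLocallyUniformlyOn).differentiableOn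
          (Eventually.of_forall fun k => (hF k).2.1 p hp) (isOpen_HP s0)
      · intro p hp x hx
        have h1 : Tendsto (fun k => ‖F k (p, x) - p.2.2‖) atTop (𝓝 ‖g (p, x) - p.2.2‖) :=
          ((hFg.tendsto_at (p, x)).sub_const _).norm
        exact le_of_tendsto' h1 (fun k => (hF k).2.2.1 p hp x hx)
      · intro q hq
        have h1 := hFg.tendsto_at q
        have h2 : (fun k => F k q) = fun _ => (0:ℂ) := by
          funext k; exact (hF k).2.2.2 q hq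
        rw [h2] at h1
        exact (tendsto_nhds_unique h1 tendsto_const_nhds)
    · -- bounded
      intro f hf g hg
      refine ⟨2 * δ, ?_⟩
      intro q
      by_cases hq : q ∈ K ×ˢ HP s0
      · have h1 := hf.2.2.1 q.1 hq.1 q.2 hq.2
        have h2 := hg.2.2.1 q.1 hq.1 q.2 hq.2
        calc ‖f q - g q‖ = ‖(f (q.1, q.2) - q.1.2.2) - (g (q.1, q.2) - q.1.2.2)‖ := by
              simp
          _ ≤ _ := norm_sub_le _ _
          _ ≤ 2 * δ := by linarith
      · rw [hf.2.2.2 q hq, hg.2.2.2 q hq]; simp; linarith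
    · -- maps to
      intro F hF
      have hFM := hSM F hF
      have hFc : ContinuousOn (fun q : PP × ℂ => (fun p x => F (p, x)) q.1 q.2) (K ×ˢ HP s0) := hF.1
      have hhM : ∀ p ∈ K, ∀ x ∈ HP s0, ‖hh c m p (fun x => F (p, x)) x‖ ≤ 7 := fun p hp x hx =>
        hh_bound (s := s0) hM1.le (fun y hy => hFM p hp y hy) hc m hp hx
      refine ⟨?_, ?_, ?_, ?_⟩
      · apply ContinuousOn.congr (f := fun q : PP × ℂ =>
          q.1.2.2 + Af (bb q.1) (hh c m q.1 (fun x => F (q.1, x))) q.2)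
        · apply ContinuousOn.add (by fun_prop)
          exact Af_cont (h := fun p => hh c m p (fun x => F (p, x))) (bb_cont K)
            (fun p hp => admB_bb hp) hs1 (hh_cont (F := fun p x => F (p, x)) hFc c m) hhM
        · intro q hq; simp only [T, hq, if_true]
      · intro p hp
        apply DifferentiableOn.congr (f := fun x : ℂ =>
          p.2.2 + Af (bb p) (hh c m p (fun x => F (p, x))) x)
        · apply DifferentiableOn.const_add
          intro x hx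
          exact (Af_hasDerivAt (admB_bb hp) hs1 hx (hh_diff (hF.2.1 p hp) c m p)
            (hhM p hp)).differentiableAt.differentiableWithinAt
        · intro x hx
          have : ((p, x) : PP × ℂ) ∈ K ×ˢ HP s0 := ⟨hp, hx⟩
          simp only [T, this, if_true]
      · intro p hp x hx
        have hq : ((p, x) : PP × ℂ) ∈ K ×ˢ HP s0 := ⟨hp, hx⟩
        simp only [T, hq, if_true, add_sub_cancel_left]
        refine (norm_Af_le (admB_bb hp) hs1 hx (hhM p hp)).trans ?_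
        have hx1 : s0 < x.re := hx
        rw [div_le_iff₀ (by linarith)]
        rw [div_le_iff₀ hδ0] at hs2
        nlinarith
      · intro q hq; simp only [T, hq, if_false]
    · -- contraction
      intro f hf g hg C hC hfg q
      by_cases hq : q ∈ K ×ˢ HP s0
      · obtain ⟨hp, hx⟩ := hq
        have hq : q ∈ K ×ˢ HP s0 := ⟨hp, hx⟩
        simp only [T, hq, if_true, add_sub_add_left_eq_sub]
        have hfM := hSM f hf q.1 hp
        have hgM := hSM g hg q.1 hp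
        have hhf : ∀ x ∈ HP s0, ‖hh c m q.1 (fun x => f (q.1, x)) x‖ ≤ 7 := fun x hx =>
          hh_bound (s := s0) hM1.le (fun y hy => hfM y hy) hc m hp hx
        have hhg : ∀ x ∈ HP s0, ‖hh c m q.1 (fun x => g (q.1, x)) x‖ ≤ 7 := fun x hx =>
          hh_bound (s := s0) hM1.le (fun y hy => hgM y hy) hc m hp hx
        have hdf := hh_diff (s := s0) (hf.2.1 q.1 hp) c m q.1
        have hdg := hh_diff (s := s0) (hg.2.1 q.1 hp) c m q.1
        rw [Af_sub (admB_bb hp) hs1 hx hdf hdg hhf hhg]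
        have h1 : ∀ y ∈ HP s0, ‖(fun y => hh c m q.1 (fun x => f (q.1, x)) y -
            hh c m q.1 (fun x => g (q.1, x)) y) y‖ ≤ (1 / (1 - M) + 6) * C := fun y hy =>
          hh_lip hM1 hfM hgM (fun y _ => hfg (q.1, y)) hc m hp hy
        refine (norm_Af_le (admB_bb hp) hs1 hx h1).trans ?_
        have hx1 : s0 < q.2.re := hx
        rw [div_le_iff₀ (by linarith), ← mul_assoc, ← hL]
        nlinarith
      · simp only [T, hq, if_false, sub_zero, norm_zero]; positivity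
  obtain ⟨F, hF, hTF⟩ := hfix
  refine ⟨fun p x => F (p, x), hF.1, hF.2.1, hSM F hF, ?_⟩
  intro p hp x hx
  have hq : ((p, x) : PP × ℂ) ∈ K ×ˢ HP s0 := ⟨hp, hx⟩
  have h1 := congrFun hTF (p, x)
  simp only [T, hq, if_true] at h1
  exact h1.symm

end Crest.Agent.R086.BFar
end

-- ▼ part R086/BFarSol
section

/-!
Row 86, Part B, exterior problem (helper207): from the fixed point to solutions.
-/

set_option autoImplicit false

open MeasureTheory Filter Set Topology Complex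
open scoped ContDiff

namespace Crest.Agent.R086.BFar

variable {s0 kmax : ℝ} {c : ℂ} {m : ℕ} {F : PP → ℂ → ℂ}

noncomputable def UU (c : ℂ) (m : ℕ) (F : PP → ℂ → ℂ) (p : PP) (x : ℂ) : ℂ :=
  Uf (bb p) (hh c m p (F p)) x

structure Good (s0 kmax : ℝ) (c : ℂ) : Prop where
  hs : 1 ≤ s0
  hk0 : 0 ≤ kmax
  hk1 : kmax < 1
  hc : ‖c‖ ≤ 1

lemma fix_h7 (G : Good s0 kmax c) (hF : IsFix s0 kmax c m F) {p : PP} (hp : p ∈ KK kmax) :
    ∀ x ∈ HP s0, ‖hh c m p (F p) x‖ ≤ 7 := fun x hx =>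
  hh_bound (s := s0) (M := (1 + kmax)/2) (by linarith [G.hk1]) (hF.bd p hp) G.hc m hp hx

lemma fix_hd (hF : IsFix s0 kmax c m F) {p : PP} (hp : p ∈ KK kmax) :
    DifferentiableOn ℂ (hh c m p (F p)) (HP s0) := hh_diff (hF.diff p hp) c m p

lemma F_hasDerivAt (G : Good s0 kmax c) (hF : IsFix s0 kmax c m F) {p : PP} (hp : p ∈ KK kmax)
    {x : ℂ} (hx : x ∈ HP s0) : HasDerivAt (F p) (UU c m F p x) x := by
  have h1 := (Af_hasDerivAt (admB_bb hp) G.hs hx (fix_hd hF hp) (fix_h7 G hF hp)).const_add p.2.2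
  refine h1.congr_of_eventuallyEq ?_
  filter_upwards [(isOpen_HP s0).mem_nhds hx] with y hy
  exact hF.eq p hp y hy

lemma U_hasDerivAt (G : Good s0 kmax c) (hF : IsFix s0 kmax c m F) {p : PP} (hp : p ∈ KK kmax)
    {x : ℂ} (hx : x ∈ HP s0) : HasDerivAt (UU c m F p)
      (-(bb p / x + I) * UU c m F p x + hh c m p (F p) x / x ^ 2) x :=
  Uf_hasDerivAt (admB_bb hp) G.hs hx (fix_hd hF hp) (fix_h7 G hF hp)

lemma U_cont (G : Good s0 kmax c) (hF : IsFix s0 kmax c m F) :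
    ContinuousOn (fun q : PP × ℂ => UU c m F q.1 q.2) (KK kmax ×ˢ HP s0) :=
  Uf_cont (h := fun p => hh c m p (F p)) (bb_cont _) (fun _ hp => admB_bb hp) G.hs
    (hh_cont hF.cont c m) (fun _ hp => fix_h7 G hF hp)

lemma F_lim (G : Good s0 kmax c) (hF : IsFix s0 kmax c m F) {p : PP} (hp : p ∈ KK kmax)
    {x : ℂ} (hx : x ∈ HP s0) : ‖F p x - p.2.2‖ ≤ CU * 7 / x.re := by
  rw [hF.eq p hp x hx, add_sub_cancel_left]
  exact norm_Af_le (admB_bb hp) G.hs hx (fix_h7 G hF hp)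

/-- the solution in the original variable -/
noncomputable def VV (F : PP → ℂ → ℂ) (p : PP) (x : ℂ) : ℂ := x ^ (-aa p) * F p x
noncomputable def VV1 (c : ℂ) (m : ℕ) (F : PP → ℂ → ℂ) (p : PP) (x : ℂ) : ℂ :=
  x ^ (-aa p) * (UU c m F p x - aa p / x * F p x)

lemma cpow_hasDerivAt {x a : ℂ} (hx : x ∈ slitPlane) :
    HasDerivAt (fun y : ℂ => y ^ (-a)) (-(a / x) * x ^ (-a)) x := by
  have hx0 : x ≠ 0 := slitPlane_ne_zero hx
  have h1 : HasDerivAt (fun y : ℂ => y ^ (-a)) (-a * x ^ (-a - 1)) x := by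
    simpa using (hasDerivAt_id x).cpow_const (c := -a) hx
  refine h1.congr_deriv ?_
  rw [cpow_sub _ _ hx0, cpow_one]; ring

lemma V_hasDerivAt (G : Good s0 kmax c) (hF : IsFix s0 kmax c m F) {p : PP} (hp : p ∈ KK kmax)
    {x : ℂ} (hx : x ∈ HP s0) : HasDerivAt (VV F p) (VV1 c m F p x) x := by
  have h1 := (cpow_hasDerivAt (a := aa p) (slit_HP G.hs hx)).mul (F_hasDerivAt G hF hp hx)
  refine h1.congr_deriv ?_
  unfold VV1; ring

lemma I_mul_aa (p : PP) : I * aa p = (p.1 : ℂ) + I * (p.2.1 : ℂ) := by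
  unfold aa; ring_nf; simp only [I_sq]; ring

lemma V1_hasDerivAt (G : Good s0 kmax c) (hF : IsFix s0 kmax c m F) {p : PP} (hp : p ∈ KK kmax)
    {x : ℂ} (hx : x ∈ HP s0) : HasDerivAt (VV1 c m F p)
      ((-(6 + I * x) * VV1 c m F p x - ((p.1 : ℂ) + I * (p.2.1 : ℂ)) * VV F p x +
        (c * (F p x * tl (F p) x) ^ m / x) * VV F p x) / x) x := by
  have hx0 := ne_zero_HP G.hs hx
  have h1 := cpow_hasDerivAt (a := aa p) (slit_HP G.hs hx)
  have h2 := U_hasDerivAt G hF hp hx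
  have h3 := F_hasDerivAt G hF hp hx
  have h4 : HasDerivAt (fun y : ℂ => aa p / y) (-(aa p) / x ^ 2) x := by
    have := (hasDerivAt_inv hx0).const_mul (aa p)
    refine (this.congr_of_eventuallyEq (Eventually.of_forall fun y => ?_)).congr_deriv ?_
    · simp [div_eq_mul_inv]
    · field_simp
  have h5 := h1.mul (h2.sub (h4.mul h3))
  refine h5.congr_deriv ?_
  rw [← I_mul_aa]
  simp only [Pi.mul_apply, Pi.sub_apply]
  unfold VV1 VV hh bb
  field_simp
  ring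

lemma norm_V_le (G : Good s0 kmax c) (hF : IsFix s0 kmax c m F) {p : PP} (hp : p ∈ KK kmax)
    {x : ℂ} (hx : x ∈ HP s0) :
    ‖VV F p x‖ ≤ (Real.exp Real.pi * ((1 + kmax) / 2)) * ‖x‖ ^ (-p.2.1) := by
  have hx0 := ne_zero_HP G.hs hx
  have hxp : 0 < ‖x‖ := norm_pos_iff.2 hx0
  unfold VV
  rw [norm_mul]
  have h1 : ‖x ^ (-aa p)‖ ≤ ‖x‖ ^ (-p.2.1) * Real.exp Real.pi := by
    refine (norm_cpow_le hx0).trans ?_
    rw [neg_re, aa_re, neg_im, aa_im, neg_neg]
    have h3 : Real.exp (Real.pi * |p.1|) ≤ Real.exp Real.pi := by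
      apply Real.exp_le_exp.2
      have := hp.1
      rw [abs_of_nonneg (by linarith [this.1])]
      nlinarith [Real.pi_pos, this.2]
    exact mul_le_mul_of_nonneg_left h3 (by positivity)
  have h2 := hF.bd p hp x hx
  have hk := G.hk0
  calc ‖x ^ (-aa p)‖ * ‖F p x‖ ≤ (‖x‖ ^ (-p.2.1) * Real.exp Real.pi) * ((1 + kmax) / 2) := by
        gcongr
    _ = _ := by ring

lemma norm_real_cpow {x : ℝ} (hx : 0 < x) (p : PP) : ‖(x:ℂ) ^ (-aa p)‖ = x ^ (-p.2.1) := by
  rw [Complex.norm_cpow_eq_rpow_re_of_pos hx, neg_re, aa_re]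

lemma tl_real (f : ℂ → ℂ) (x : ℝ) : tl f (x:ℂ) = (starRingEnd ℂ) (f x) := by
  unfold tl; rw [Complex.conj_ofReal]

lemma F_tl_real (f : ℂ → ℂ) (x : ℝ) : f (x:ℂ) * tl f (x:ℂ) = ((‖f x‖ ^ 2 : ℝ) : ℂ) := by
  rw [tl_real, Complex.mul_conj, Complex.normSq_eq_norm_sq]

lemma real_mem_HP {x : ℝ} (hx : s0 < x) : (x:ℂ) ∈ HP s0 := by simpa [HP] using hx

lemma norm_V_real {x : ℝ} (hx : 0 < x) (F : PP → ℂ → ℂ) (p : PP) :
    ‖VV F p (x:ℂ)‖ = x ^ (-p.2.1) * ‖F p x‖ := by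
  unfold VV
  rw [norm_mul, norm_real_cpow hx]

lemma norm_V_pow {n : ℕ} (hn : 0 < n) {x : ℝ} (hx : 0 < x) (F : PP → ℂ → ℂ) {p : PP}
    (hp : p.2.1 = 1 / n) : ‖VV F p (x:ℂ)‖ ^ n = ‖F p x‖ ^ n / x := by
  rw [norm_V_real hx, mul_pow, ← Real.rpow_natCast, ← Real.rpow_mul hx.le, hp]
  have : -(1 / (n:ℝ)) * (n:ℝ) = -1 := by
    have : (n:ℝ) ≠ 0 := by positivity
    field_simp
  rw [this, Real.rpow_neg_one]; ring

lemma sup_trick {X : Type*} {s : Set X} {f : X → ℝ} {E B : ℝ} (hE : 0 ≤ E)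
    (hB : ∀ x ∈ s, f x ≤ B)
    (h : ∀ C, 0 ≤ C → (∀ x ∈ s, f x ≤ C) → ∀ x ∈ s, f x ≤ C / 2 + E) :
    ∀ x ∈ s, f x ≤ 2 * E := by
  have hk : ∀ k : ℕ, ∀ x ∈ s, f x ≤ |B| / 2 ^ k + 2 * E := by
    intro k
    induction k with
    | zero => intro x hx; have := hB x hx; have := le_abs_self B; simp; linarith
    | succ k ih =>
      intro x hx
      have := h _ (by positivity) ih x hx
      refine this.trans (le_of_eq ?_)
      rw [pow_succ]; field_simp; ring
  intro x hx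
  have hlim : Tendsto (fun k : ℕ => |B| / 2 ^ k + 2 * E) atTop (𝓝 (0 + 2 * E)) := by
    apply Tendsto.add_const
    have : Tendsto (fun k : ℕ => |B| * (1/2 : ℝ) ^ k) atTop (𝓝 (|B| * 0)) :=
      (tendsto_pow_atTop_nhds_zero_of_lt_one (by norm_num) (by norm_num)).const_mul _
    simp only [mul_zero] at this
    refine this.congr (fun k => ?_)
    rw [one_div, inv_pow]; ring
  rw [zero_add] at hlim
  exact ge_of_tendsto' hlim (fun k => hk k x hx)

lemma Uf_smul (β w : ℂ) (h : ℂ → ℂ) (x : ℂ) : Uf β (fun y => w * h y) x = w * Uf β h x := by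
  unfold Uf Wf Hf
  rw [show (fun t : ℝ => (x + I * (t:ℂ)) ^ (β - 2) * exp (I * (x + I * (t:ℂ))) *
      (w * h (x + I * (t:ℂ)))) = fun t : ℝ => w * ((x + I * (t:ℂ)) ^ (β - 2) *
      exp (I * (x + I * (t:ℂ))) * h (x + I * (t:ℂ))) by funext t; ring]
  rw [integral_const_mul]; ring

lemma Af_smul (β w : ℂ) (h : ℂ → ℂ) (x : ℂ) : Af β (fun y => w * h y) x = w * Af β h x := by
  unfold Af
  simp_rw [Uf_smul]
  rw [integral_const_mul]; ring

/-- difference between the nonlinear and the linear fixed point -/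
lemma diff_est (hs : 1 ≤ s0) (hk0 : 0 ≤ kmax) (hk1 : kmax < 1) (hk2 : 1/2 ≤ kmax)
    (hC : CU * (1 / (1 - (1 + kmax) / 2) + 6) / s0 ≤ 1 / 2)
    {F1 F0 : PP → ℂ → ℂ} (h1 : IsFix s0 kmax 1 m F1) (h0 : IsFix s0 kmax 0 0 F0)
    {om e : ℝ} {k : ℂ} (hp : (om, e, k) ∈ KK kmax) :
    (∀ x ∈ HP s0, ‖F1 (om, e, k) x - 2 * k * F0 (om, e, (1/2 : ℂ)) x‖ ≤
      2 * (((1 + kmax) / 2) ^ (2 * m))) ∧
    ∀ x ∈ HP s0, ‖UU 1 m F1 (om, e, k) x - 2 * k * UU 0 0 F0 (om, e, (1/2 : ℂ)) x‖ ≤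
      CU * (13 * ((1 + kmax) / 2) ^ (2 * m)) := by
  set p : PP := (om, e, k) with hpdef
  set p' : PP := (om, e, (1/2 : ℂ)) with hp'def
  have hp' : p' ∈ KK kmax := ⟨hp.1, hp.2.1, by norm_num [hp'def]; linarith⟩
  have haa : aa p' = aa p := rfl
  have hbb : bb p' = bb p := rfl
  set M := (1 + kmax) / 2 with hM
  have hM1 : M < 1 := by rw [hM]; linarith
  have hM0 : 0 ≤ M := by rw [hM]; linarith
  have G1 : Good s0 kmax 1 := ⟨hs, hk0, hk1, by simp⟩
  have G0 : Good s0 kmax 0 := ⟨hs, hk0, hk1, by simp⟩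
  have hCU := CU_nonneg
  have hspos : 0 < s0 := by linarith
  have hC6 : CU * 6 / s0 ≤ 1 / 2 := by
    refine le_trans ?_ hC
    have : 0 ≤ 1 / (1 - M) := by have : 0 < 1 - M := by linarith
                                 positivity
    gcongr
    linarith
  have hC1 : CU / s0 ≤ 1 := by
    have : CU * 6 / s0 = 6 * (CU / s0) := by ring
    rw [this] at hC6
    have : 0 ≤ CU / s0 := by positivity
    linarith
  -- the difference of the sources
  set D : ℂ → ℂ := fun x => F1 p x - 2 * k * F0 p' x with hD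
  have hsrc : ∀ x, hh 1 m p (F1 p) x - (2 * k * hh 0 0 p' (F0 p') x)
      = F1 p x * (F1 p x * tl (F1 p) x) ^ m + aa p * (5 - aa p) * D x := by
    intro x
    simp only [hh, haa, hD]; ring
  have hkn : ‖k‖ ≤ 1 := le_trans hp.2.2 hk1.le
  have hb1 : ∀ x ∈ HP s0, ‖hh 1 m p (F1 p) x‖ ≤ 14 := fun x hx =>
    (fix_h7 G1 h1 hp x hx).trans (by norm_num)
  have hb0 : ∀ x ∈ HP s0, ‖(fun y => 2 * k * hh 0 0 p' (F0 p') y) x‖ ≤ 14 := by
    intro x hx
    simp only
    rw [norm_mul, norm_mul]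
    have h7 := fix_h7 G0 h0 hp' x hx
    have : ‖(2:ℂ)‖ = 2 := by norm_num
    rw [this]
    have hkk := norm_nonneg k
    have hnn := norm_nonneg (hh 0 0 p' (F0 p') x)
    nlinarith
  have hd1 : DifferentiableOn ℂ (hh 1 m p (F1 p)) (HP s0) := fix_hd h1 hp
  have hd0 : DifferentiableOn ℂ (fun y => 2 * k * hh 0 0 p' (F0 p') y) (HP s0) :=
    (fix_hd h0 hp').const_mul _
  have hDeq : ∀ x ∈ HP s0, D x = Af (bb p) (fun y => hh 1 m p (F1 p) y -
      (2 * k * hh 0 0 p' (F0 p') y)) x := by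
    intro x hx
    rw [← Af_sub (admB_bb hp) hs hx hd1 hd0 hb1 hb0, Af_smul]
    simp only [hD]
    rw [h1.eq p hp x hx, h0.eq p' hp' x hx, hbb]
    simp only [hpdef, hp'def]
    ring
  have hUeq : ∀ x ∈ HP s0, UU 1 m F1 p x - 2 * k * UU 0 0 F0 p' x
      = Uf (bb p) (fun y => hh 1 m p (F1 p) y - (2 * k * hh 0 0 p' (F0 p') y)) x := by
    intro x hx
    rw [← Uf_sub (admB_bb hp) hs hx hd1 hd0 hb1 hb0, Uf_smul]
    rfl
  have hsb : ∀ C : ℝ, 0 ≤ C → (∀ x ∈ HP s0, ‖D x‖ ≤ C) → ∀ x ∈ HP s0,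
      ‖(fun y => hh 1 m p (F1 p) y - (2 * k * hh 0 0 p' (F0 p') y)) x‖ ≤ M ^ (2 * m) + 6 * C := by
    intro C hC0 hDC x hx
    simp only
    rw [hsrc]
    have e1 : ‖F1 p x * (F1 p x * tl (F1 p) x) ^ m‖ ≤ M ^ (2 * m) := by
      have f1 := h1.bd p hp x hx
      have f2 := norm_tl (h1.bd p hp) hx
      rw [norm_mul, norm_pow, norm_mul]
      calc ‖F1 p x‖ * (‖F1 p x‖ * ‖tl (F1 p) x‖) ^ m ≤ M * (M * M) ^ m := by gcongr
        _ ≤ 1 * (M * M) ^ m := by gcongr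
        _ = M ^ (2 * m) := by rw [one_mul, pow_mul, pow_two]
    have e2 : ‖aa p * (5 - aa p) * D x‖ ≤ 6 * C := by
      rw [norm_mul]
      exact mul_le_mul (norm_aa5_le hp) (hDC x hx) (norm_nonneg _) (by norm_num)
    exact (norm_add_le _ _).trans (add_le_add e1 e2)
  have hMp : 0 ≤ M ^ (2 * m) := by positivity
  have hmain : ∀ x ∈ HP s0, ‖D x‖ ≤ 2 * M ^ (2 * m) := by
    apply sup_trick (f := fun x => ‖D x‖) hMp (B := M + 2 * (1 * M))
    · intro x hx
      have f1 := h1.bd p hp x hx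
      have f0 := h0.bd p' hp' x hx
      simp only [hD]
      calc ‖F1 p x - 2 * k * F0 p' x‖ ≤ ‖F1 p x‖ + ‖2 * k * F0 p' x‖ := norm_sub_le _ _
        _ = ‖F1 p x‖ + 2 * (‖k‖ * ‖F0 p' x‖) := by rw [norm_mul, norm_mul]; norm_num; ring
        _ ≤ M + 2 * (1 * M) := by gcongr
    · intro C hC0 hDC x hx
      rw [hDeq x hx]
      refine (norm_Af_le (admB_bb hp) hs hx (hsb C hC0 hDC)).trans ?_
      have hx1 : s0 < x.re := hx
      have e1 : CU * (M ^ (2 * m) + 6 * C) / x.re ≤ CU * (M ^ (2 * m) + 6 * C) / s0 := by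
        gcongr
      refine e1.trans ?_
      have e2 : CU * (M ^ (2 * m) + 6 * C) / s0 = (CU / s0) * M ^ (2 * m) + (CU * 6 / s0) * C := by
        ring
      rw [e2]
      have e3 : (CU / s0) * M ^ (2 * m) ≤ 1 * M ^ (2 * m) := by gcongr
      have e4 : (CU * 6 / s0) * C ≤ 1 / 2 * C := by gcongr
      linarith
  refine ⟨hmain, ?_⟩
  intro x hx
  rw [hUeq x hx]
  have hx1 := one_le_norm hs hx
  refine (norm_Uf_le (admB_bb hp) hs hx (hsb (2 * M ^ (2 * m)) (by positivity) hmain)).trans ?_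
  have e1 : CU * (M ^ (2 * m) + 6 * (2 * M ^ (2 * m))) / ‖x‖ ^ 2 ≤
      CU * (M ^ (2 * m) + 6 * (2 * M ^ (2 * m))) :=
    div_le_self (by positivity) (one_le_pow₀ hx1)
  refine e1.trans (le_of_eq (by ring))

end Crest.Agent.R086.BFar
end

-- ▼ part R086/BFarSym
section

/-!
Row 86, Part B, exterior problem (helper207): symbol bounds by Cauchy estimates, uniqueness.
-/

set_option autoImplicit false

open MeasureTheory Filter Set Topology Complex
open scoped ContDiff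

namespace Crest.Agent.R086.BFar

open Crest.Agent.R086.B (SymX wA wB wC IsSolX IsLinX FarGood)

variable {s0 kmax : ℝ} {c : ℂ} {m : ℕ} {F : PP → ℂ → ℂ}

lemma iter_diff {G : ℂ → ℂ} (hG : DifferentiableOn ℂ G (HP s0)) (j : ℕ) :
    DifferentiableOn ℂ (iteratedDeriv j G) (HP s0) := by
  induction j with
  | zero => simpa using hG
  | succ j ih => rw [iteratedDeriv_succ]; exact ih.deriv (isOpen_HP s0)

lemma iter_real {G : ℂ → ℂ} (hG : DifferentiableOn ℂ G (HP s0)) (j : ℕ) : ∀ x : ℝ, s0 < x →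
    iteratedDeriv j (fun y : ℝ => G y) x = iteratedDeriv j G (x:ℂ) := by
  induction j with
  | zero => intro x _; simp
  | succ j ih =>
    intro x hx
    rw [iteratedDeriv_succ, iteratedDeriv_succ]
    have h1 : iteratedDeriv j (fun y : ℝ => G y) =ᶠ[𝓝 x] fun y : ℝ => iteratedDeriv j G (y:ℂ) := by
      filter_upwards [lt_mem_nhds hx] with y hy using ih y hy
    rw [h1.deriv_eq]
    have h2 := ((iter_diff hG j).differentiableAt
      ((isOpen_HP s0).mem_nhds (real_mem_HP hx))).hasDerivAt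
    exact h2.comp_ofReal.deriv

lemma cauchy_sym (hs0 : 1 ≤ s0) {G : ℂ → ℂ} (hG : DifferentiableOn ℂ G (HP s0)) {B δ s : ℝ}
    (hδ0 : 0 ≤ δ) (hδ1 : δ ≤ 1) (hB : 0 ≤ B) (hb : ∀ z ∈ HP s0, ‖G z‖ ≤ B * ‖z‖ ^ (-δ))
    (hs : 2 * s0 ≤ s) :
    SymX (fun j => ((j.factorial : ℝ) * 2 ^ (j+1)) * B) δ s (fun x => G x) := by
  constructor
  · have h1 : ContDiffOn ℝ ∞ G (HP s0) := (hG.contDiffOn (isOpen_HP s0)).restrict_scalars ℝ
    have h2 : ContDiffOn ℝ ∞ (fun x : ℝ => (x:ℂ)) (Ioi s) := Complex.ofRealCLM.contDiff.contDiffOn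
    exact h1.comp h2 (fun x hx => real_mem_HP (by have : s < x := hx; linarith))
  · intro j x hx
    have hx0 : s0 < x := by linarith
    have hxp : 0 < x := by linarith
    rw [iter_real hG j x hx0]
    have hsub : ∀ z ∈ Metric.closedBall (x:ℂ) (x/2), s0 < z.re ∧ x / 2 ≤ z.re := by
      intro z hz
      rw [mem_closedBall_iff_norm] at hz
      have h1 := Complex.abs_re_le_norm (z - x)
      rw [sub_re, ofReal_re] at h1
      have h2 := (abs_le.1 (h1.trans hz)).1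
      constructor <;> linarith
    have hC : ∀ z ∈ Metric.sphere (x:ℂ) (x/2), ‖G z‖ ≤ B * (2 * x ^ (-δ)) := by
      intro z hz
      have hz' := hsub z (Metric.sphere_subset_closedBall hz)
      refine (hb z hz'.1).trans ?_
      apply mul_le_mul_of_nonneg_left _ hB
      have h1 : x / 2 ≤ ‖z‖ := hz'.2.trans (Complex.re_le_norm z)
      calc ‖z‖ ^ (-δ) ≤ (x/2) ^ (-δ) :=
            Real.rpow_le_rpow_of_nonpos (by positivity) h1 (by linarith)
        _ = x ^ (-δ) * 2 ^ δ := by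
            rw [Real.div_rpow hxp.le (by norm_num), Real.rpow_neg (by norm_num : (0:ℝ) ≤ 2),
              div_inv_eq_mul]
        _ ≤ x ^ (-δ) * 2 ^ (1:ℝ) := by
            gcongr
            norm_num
        _ = 2 * x ^ (-δ) := by rw [Real.rpow_one]; ring
    have hdc : DiffContOnCl ℂ G (Metric.ball (x:ℂ) (x/2)) := by
      apply DifferentiableOn.diffContOnCl
      rw [closure_ball _ (by positivity)]
      exact hG.mono (fun z hz => (hsub z hz).1)
    refine (Complex.norm_iteratedDeriv_le_of_forall_mem_sphere_norm_le j (by positivity) hdc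
      hC).trans (le_of_eq ?_)
    rw [Real.rpow_sub hxp, Real.rpow_natCast, div_pow]
    field_simp
    ring

lemma SymX.congr {C : ℕ → ℝ} {δ X : ℝ} {w w' : ℝ → ℂ} (h : SymX C δ X w)
    (hw : ∀ x, X < x → w' x = w x) : SymX C δ X w' := by
  refine ⟨h.1.congr (fun x hx => hw x hx), ?_⟩
  intro j x hx
  have h1 : w' =ᶠ[𝓝 x] w := by
    filter_upwards [lt_mem_nhds hx] with y hy using hw y hy
  rw [h1.iteratedDeriv_eq j]
  exact h.2 j x hx

lemma SymX.mono {C C' : ℕ → ℝ} {δ X : ℝ} {w : ℝ → ℂ} (h : SymX C δ X w) (hX : 0 ≤ X)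
    (hC : ∀ j, C j ≤ C' j) : SymX C' δ X w := by
  refine ⟨h.1, fun j x hx => (h.2 j x hx).trans ?_⟩
  have : 0 ≤ x ^ (-δ - j) := Real.rpow_nonneg (by linarith) _
  exact mul_le_mul_of_nonneg_right (hC j) this

lemma SymX.conj {C : ℕ → ℝ} {δ X : ℝ} {w : ℝ → ℂ} (h : SymX C δ X w) :
    SymX C δ X (fun x => (starRingEnd ℂ) (w x)) := by
  have hc : (fun x => (starRingEnd ℂ) (w x)) = Complex.conjLIE ∘ w := by
    funext x; simp
  constructor
  · rw [hc]; exact Complex.conjLIE.contDiff.comp_contDiffOn h.1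
  · intro j x hx
    have h1 : ‖iteratedDeriv j (fun x => (starRingEnd ℂ) (w x)) x‖ = ‖iteratedDeriv j w x‖ := by
      rw [← norm_iteratedFDeriv_eq_norm_iteratedDeriv, ← norm_iteratedFDeriv_eq_norm_iteratedDeriv,
        hc, LinearIsometryEquiv.norm_iteratedFDeriv_comp_left]
    rw [h1]; exact h.2 j x hx



/-- symbol facts of one solution -/
theorem farGood (hs1 : 1 ≤ s0) (hk0 : 0 ≤ kmax) (hk1 : kmax < 1) (hm : 1 ≤ m)
    (hF : IsFix s0 kmax 1 m F) {om : ℝ} {k : ℂ} {s kmin : ℝ} (hkmin : 0 < kmin)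
    (hk : kmin ≤ ‖k‖) (hp : (om, (1 / ((2 * m : ℕ) : ℝ)), k) ∈ KK kmax) (hs : 2 * s0 ≤ s)
    (hs2 : 14 * CU ≤ kmin * s) :
    FarGood (2 * m) ((1 + kmax) / 2) (kmin / 2) s
      (fun j => ((j.factorial : ℝ) * 2 ^ (j+1)) * Real.exp Real.pi)
      (fun x => VV F (om, (1 / ((2 * m : ℕ) : ℝ)), k) x) := by
  set e : ℝ := 1 / ((2 * m : ℕ) : ℝ) with he
  set p : PP := (om, e, k) with hpdef
  set M := (1 + kmax) / 2 with hM
  have hM0 : 0 < M := by rw [hM]; linarith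
  have hM1 : M < 1 := by rw [hM]; linarith
  have G1 : Good s0 kmax 1 := ⟨hs1, hk0, hk1, by simp⟩
  have hn0 : 0 < 2 * m := by omega
  have hd := hF.diff p hp
  have hdt := tl_diff hd
  have hbd := hF.bd p hp
  have he0 : 0 ≤ e := hp.2.1.1
  have he1 : e ≤ 1 := hp.2.1.2.trans (by norm_num)
  have hnn : ((2 * m : ℕ) : ℝ) ≠ 0 := by positivity
  have hxs : ∀ {x : ℝ}, s < x → s0 < x ∧ 0 < x := fun {x} hx => ⟨by linarith, by linarith⟩
  have homI := hp.1
  have hcp : ∀ w : ℂ, DifferentiableOn ℂ (fun z : ℂ => z ^ w) (HP s0) := fun w z hz =>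
    (differentiableAt_id.cpow (differentiableAt_const _)
      (slit_HP hs1 hz)).differentiableWithinAt
  have hFt : ∀ z ∈ HP s0, ‖F p z * tl (F p) z‖ ≤ M ^ 2 := by
    intro z hz
    rw [norm_mul, pow_two]
    exact mul_le_mul (hbd z hz) (norm_tl hbd hz) (norm_nonneg _) hM0.le
  have hepi : 1 ≤ Real.exp Real.pi := Real.one_le_exp Real.pi_pos.le
  -- the three potentials
  have hA : SymX (fun j => ((j.factorial : ℝ) * 2 ^ (j+1)) * M ^ (2 * m)) 1 s
      (wA (2 * m) (fun x => VV F p x)) := by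
    have h1 := cauchy_sym (s := s) hs1 (G := fun z => z⁻¹ * (F p z * tl (F p) z) ^ m)
      (B := M ^ (2 * m)) (δ := 1)
      (by
        have : DifferentiableOn ℂ (fun z : ℂ => z⁻¹) (HP s0) := fun z hz =>
          (differentiableAt_inv (ne_zero_HP hs1 hz)).differentiableWithinAt
        exact this.mul ((hd.mul hdt).pow m)) (by norm_num) (by norm_num) (by positivity)
      (by
        intro z hz
        rw [norm_mul, norm_inv, norm_pow, Real.rpow_neg_one, mul_comm, pow_mul]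
        gcongr
        exact hFt z hz) hs
    refine SymX.congr h1 (fun x hx => ?_)
    obtain ⟨hx0, hxp⟩ := hxs hx
    simp only [wA]
    rw [norm_V_pow hn0 hxp F (by rfl), F_tl_real, ← ofReal_pow, ← ofReal_inv, ← ofReal_mul, pow_mul]
    congr 1; ring
  have hB : SymX (fun j => ((j.factorial : ℝ) * 2 ^ (j+1)) * (Real.exp Real.pi * M ^ (2 * m))) 1 s
      (wB (2 * m) (fun x => VV F p x)) := by
    have h1 := cauchy_sym (s := s) hs1
      (G := fun z => z ^ (-1 + 2 * I * (om:ℂ)) * ((F p z) ^ 2 * (F p z * tl (F p) z) ^ (m - 1)))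
      (B := Real.exp Real.pi * M ^ (2 * m)) (δ := 1)
      ((hcp _).mul ((hd.pow 2).mul ((hd.mul hdt).pow (m-1)))) (by norm_num) (by norm_num)
      (by positivity)
      (by
        intro z hz
        have hz0 := ne_zero_HP hs1 hz
        rw [norm_mul, norm_mul, norm_pow, norm_pow]
        have e1 : ‖z ^ (-1 + 2 * I * (om:ℂ))‖ ≤ ‖z‖ ^ (-1 : ℝ) * Real.exp Real.pi := by
          refine (norm_cpow_le hz0).trans ?_
          have hre : (-1 + 2 * I * (om:ℂ)).re = -1 := by simp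
          have him : (-1 + 2 * I * (om:ℂ)).im = 2 * om := by simp
          rw [hre, him]
          have : Real.exp (Real.pi * |2 * om|) ≤ Real.exp Real.pi := by
            apply Real.exp_le_exp.2
            rw [abs_of_nonneg (by linarith [homI.1])]
            nlinarith [Real.pi_pos, homI.2]
          exact mul_le_mul_of_nonneg_left this (by positivity)
        have e2 : ‖F p z‖ ^ 2 * ‖F p z * tl (F p) z‖ ^ (m-1) ≤ M ^ (2 * m) := by
          calc ‖F p z‖ ^ 2 * ‖F p z * tl (F p) z‖ ^ (m-1) ≤ M ^ 2 * (M ^ 2) ^ (m-1) := by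
                gcongr
                · exact hbd z hz
                · exact hFt z hz
            _ = M ^ (2 * m) := by
                rw [← pow_mul, ← pow_add]; congr 1; omega
        calc _ ≤ (‖z‖ ^ (-1 : ℝ) * Real.exp Real.pi) * M ^ (2 * m) :=
              mul_le_mul e1 e2 (by positivity) (by positivity)
          _ = _ := by ring) hs
    refine SymX.congr h1 (fun x hx => ?_)
    obtain ⟨hx0, hxp⟩ := hxs hx
    have hxc : (x:ℂ) ≠ 0 := by exact_mod_cast hxp.ne'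
    simp only [wB]
    rw [norm_V_real hxp, mul_pow, F_tl_real]
    unfold VV
    have e1 : (x ^ (-e)) ^ (2 * m - 2) = x ^ (-e * ((2 * m - 2 : ℕ) : ℝ)) := by
      rw [← Real.rpow_natCast, ← Real.rpow_mul hxp.le]
    have e2 : ((x:ℂ) ^ (-aa p)) ^ 2 = (x:ℂ) ^ (-aa p * 2) := by
      have h := Complex.cpow_mul_nat (x:ℂ) (-aa p) 2
      push_cast at h
      exact h.symm
    have e3 : ‖F p (x:ℂ)‖ ^ (2 * m - 2) = (‖F p (x:ℂ)‖ ^ 2) ^ (m - 1) := by
      rw [← pow_mul]; congr 1; omega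
    have e4 : (x:ℂ) ^ (-1 + 2 * I * (om:ℂ)) = ((x ^ (-e * ((2 * m - 2 : ℕ) : ℝ)) : ℝ) : ℂ) *
        (x:ℂ) ^ (-aa p * 2) := by
      rw [Complex.ofReal_cpow hxp.le, ← cpow_add _ _ hxc]
      congr 1
      have h5 : ((2 * m - 2 : ℕ) : ℝ) = ((2 * m : ℕ) : ℝ) - 2 := by
        rw [Nat.cast_sub (by omega)]; norm_num
      have h6 : -e * ((2 * m - 2 : ℕ) : ℝ) = -1 + 2 * e := by
        rw [h5, he]; field_simp; ring
      rw [h6]
      simp only [aa, hpdef]
      push_cast; ring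
    rw [mul_pow, e2, e4, show (p.2.1) = e from rfl, e1, e3]
    push_cast
    ring
  refine ⟨?_, ?_, ?_, ?_, ?_, ?_⟩
  · -- sym
    have h1 := cauchy_sym (s := s) hs1 (G := VV F p) (B := Real.exp Real.pi * M) (δ := e)
      (fun z hz => (V_hasDerivAt G1 hF hp hz).differentiableAt.differentiableWithinAt)
      he0 he1 (by positivity) (fun z hz => norm_V_le G1 hF hp hz) hs
    have h2 := SymX.mono (C' := fun j => ((j.factorial : ℝ) * 2 ^ (j+1)) * Real.exp Real.pi) h1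
      (by linarith) (fun j => by
        apply mul_le_mul_of_nonneg_left _ (by positivity)
        calc Real.exp Real.pi * M ≤ Real.exp Real.pi * 1 := by gcongr
          _ = _ := mul_one _)
    exact h2
  · -- lower
    intro x hx
    obtain ⟨hx0, hxp⟩ := hxs hx
    rw [norm_V_real hxp, show p.2.1 = e from rfl]
    have h1 := F_lim G1 hF hp (real_mem_HP hx0)
    rw [ofReal_re] at h1
    have h2 : CU * 7 / x ≤ kmin / 2 := by
      rw [div_le_div_iff₀ hxp (by norm_num)]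
      have : kmin * s ≤ kmin * x := by gcongr
      linarith
    have h3 : ‖k‖ - ‖F p x - k‖ ≤ ‖F p x‖ := by
      have h4 := norm_sub_norm_le k (k - F p x)
      rw [sub_sub_cancel, norm_sub_rev k] at h4
      exact h4
    have h5 : x ^ (-e) * ‖F p x‖ * x ^ (1 / ((2 * m : ℕ) : ℝ)) = ‖F p x‖ := by
      rw [← he, Real.rpow_neg hxp.le]
      field_simp
    rw [h5]
    have h6 : ‖F p x - k‖ ≤ CU * 7 / x := h1
    linarith
  · intro x hx
    obtain ⟨hx0, hxp⟩ := hxs hx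
    rw [norm_V_real hxp, show p.2.1 = e from rfl]
    have h5 : x ^ (-e) * ‖F p x‖ * x ^ (1 / ((2 * m : ℕ) : ℝ)) = ‖F p x‖ := by
      rw [← he, Real.rpow_neg hxp.le]
      field_simp
    rw [h5]
    exact hbd _ (real_mem_HP hx0)
  · refine SymX.mono hA (by linarith) (fun j => ?_)
    have : (0:ℝ) ≤ ((j.factorial : ℝ) * 2 ^ (j+1)) * M ^ (2 * m) := by positivity
    nlinarith
  · refine SymX.mono hB (by linarith) (fun j => le_of_eq (by ring))
  · have h1 := SymX.conj hB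
    have h2 := SymX.mono (C' := fun j => ((j.factorial : ℝ) * 2 ^ (j+1)) * Real.exp Real.pi *
      M ^ (2 * m)) h1 (by linarith) (fun j => le_of_eq (by ring))
    refine SymX.congr h2 (fun x _ => ?_)
    simp only [wB, wC, map_mul, map_pow, Complex.conj_ofReal]

end Crest.Agent.R086.BFar
end

-- ▼ part R086/BFarMain
section

/-!
Row 86, Part B, exterior problem (helper207): the far region, assembly of `FarStmt`.
-/

set_option autoImplicit false

open MeasureTheory Filter Set Topology Complex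
open scoped ContDiff

namespace Crest.Agent.R086.BFar

open Crest.Agent.R086.B (SymX wA wB wC IsSolX IsLinX FarGood)

variable {s0 kmax : ℝ} {c : ℂ} {m : ℕ} {F : PP → ℂ → ℂ}

/-- ODE for the nonlinear solution on the real axis -/
lemma isSolX (G1 : Good s0 kmax 1) (hm : 1 ≤ m) (hF : IsFix s0 kmax 1 m F) {om : ℝ} {k : ℂ} {s : ℝ}
    (hp : (om, (1 / ((2 * m : ℕ) : ℝ)), k) ∈ KK kmax) (hs : s0 ≤ s) :
    IsSolX (2 * m) om (1 / ((2 * m : ℕ) : ℝ))
      (fun x => VV F (om, (1 / ((2 * m : ℕ) : ℝ)), k) x)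
      (fun x => VV1 1 m F (om, (1 / ((2 * m : ℕ) : ℝ)), k) x) (Ioi s) := by
  intro x hx
  have hx' : s < x := hx
  have hx0 : s0 < x := by linarith
  have hxp : 0 < x := by linarith [G1.hs]
  refine ⟨(V_hasDerivAt G1 hF hp (real_mem_HP hx0)).comp_ofReal, ?_⟩
  have h1 := (V1_hasDerivAt G1 hF hp (real_mem_HP hx0)).comp_ofReal
  refine h1.congr_deriv ?_
  have h2 : (1 * (F (om, (1 / ((2 * m : ℕ) : ℝ)), k) (x:ℂ) *
      tl (F (om, (1 / ((2 * m : ℕ) : ℝ)), k)) (x:ℂ)) ^ m / (x:ℂ) : ℂ)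
      = ((‖VV F (om, (1 / ((2 * m : ℕ) : ℝ)), k) (x:ℂ)‖ ^ (2 * m) : ℝ) : ℂ) := by
    rw [norm_V_pow (by omega) hxp F (by rfl), F_tl_real, one_mul, ← ofReal_pow, ← ofReal_div,
      pow_mul]
  rw [h2]

lemma isLinX_of (G0 : Good s0 kmax 0) (hF : IsFix s0 kmax 0 0 F) {om : ℝ} {k : ℂ} {s : ℝ}
    (hp : (om, (0:ℝ), k) ∈ KK kmax) (hs : s0 ≤ s) :
    IsLinX om (fun x => 2 * VV F (om, (0:ℝ), k) x)
      (fun x => 2 * VV1 0 0 F (om, (0:ℝ), k) x) (Ioi s) := by
  intro x hx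
  have hx' : s < x := hx
  have hx0 : s0 < x := by linarith
  refine ⟨(V_hasDerivAt G0 hF hp (real_mem_HP hx0)).comp_ofReal.const_mul 2, ?_⟩
  have h1 := (V1_hasDerivAt G0 hF hp (real_mem_HP hx0)).comp_ofReal.const_mul 2
  refine h1.congr_deriv ?_
  push_cast
  ring

lemma VV_cont (G : Good s0 kmax c) (hF : IsFix s0 kmax c m F) :
    ContinuousOn (fun q : PP × ℂ => VV F q.1 q.2) (KK kmax ×ˢ HP s0) := by
  have h1 : ContinuousOn (fun q : PP × ℂ => aa q.1) (KK kmax ×ˢ HP s0) :=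
    (aa_cont (KK kmax)).comp continuousOn_fst (fun q hq => hq.1)
  unfold VV
  exact (continuousOn_snd.cpow h1.neg (fun q hq => slit_HP G.hs hq.2)).mul hF.cont

lemma VV1_cont (G : Good s0 kmax c) (hF : IsFix s0 kmax c m F) :
    ContinuousOn (fun q : PP × ℂ => VV1 c m F q.1 q.2) (KK kmax ×ˢ HP s0) := by
  have h1 : ContinuousOn (fun q : PP × ℂ => aa q.1) (KK kmax ×ˢ HP s0) :=
    (aa_cont (KK kmax)).comp continuousOn_fst (fun q hq => hq.1)
  unfold VV1
  refine (continuousOn_snd.cpow h1.neg (fun q hq => slit_HP G.hs hq.2)).mul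
    ((U_cont G hF).sub ((h1.div continuousOn_snd (fun q hq => ne_zero_HP G.hs hq.2)).mul hF.cont))

/-- uniqueness of the outgoing solution -/
lemma outgoing_unique (G0 : Good s0 kmax 0) (hF : IsFix s0 kmax 0 0 F) {om s : ℝ}
    (hp : (om, (0:ℝ), (1/2 : ℂ)) ∈ KK kmax) (hs : s0 ≤ s) (hs2 : 28 * CU < s)
    {G G1 : ℂ → ℂ} (hG : ∀ z : ℂ, s < z.re → HasDerivAt G (G1 z) z ∧
        HasDerivAt G1 ((-(6 + I * z) * G1 z - (om : ℂ) * G z) / z) z)
    (hgr : ∃ (K : ℝ) (m : ℕ), ∀ z : ℂ, s < z.re → ‖G z‖ ≤ K * (1 + ‖z‖) ^ m ∧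
      ‖G1 z‖ ≤ K * (1 + ‖z‖) ^ m) :
    ∃ k : ℂ, ∀ x : ℝ, s < x → G x = k * (2 * VV F (om, (0:ℝ), (1/2 : ℂ)) x) := by
  set p : PP := (om, (0:ℝ), (1/2 : ℂ)) with hpdef
  set g : ℂ → ℂ := VV F p with hg
  set g1 : ℂ → ℂ := VV1 0 0 F p with hg1
  have hsub : ∀ z : ℂ, s < z.re → z ∈ HP s0 := fun z hz => by
    show s0 < z.re; linarith
  have hs1 := G0.hs
  have hgd : ∀ z : ℂ, s < z.re → HasDerivAt g (g1 z) z := fun z hz =>
    V_hasDerivAt G0 hF hp (hsub z hz)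
  have hgd1 : ∀ z : ℂ, s < z.re → HasDerivAt g1 ((-(6 + I * z) * g1 z - (om : ℂ) * g z) / z) z := by
    intro z hz
    refine (V1_hasDerivAt G0 hF hp (hsub z hz)).congr_deriv ?_
    simp only [hpdef, hg, hg1]
    push_cast
    ring
  -- g is nonzero
  have hgne : ∀ z : ℂ, s < z.re → g z ≠ 0 := by
    intro z hz
    have hz0 := ne_zero_HP hs1 (hsub z hz)
    have h1 := F_lim G0 hF hp (hsub z hz)
    have h2 : CU * 7 / z.re < 1 / 4 := by
      rw [div_lt_iff₀ (by linarith)]; linarith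
    have h3 : F p z ≠ 0 := by
      intro h0
      rw [h0] at h1
      have h4 : ‖(0:ℂ) - p.2.2‖ = 1 / 2 := by simp [hpdef]
      rw [h4] at h1
      linarith
    simp only [hg, VV]
    refine mul_ne_zero ?_ h3
    rw [Ne, cpow_eq_zero_iff]
    push Not
    intro h; exact absurd h hz0
  -- bounds for g, g1
  obtain ⟨K, mm, hK⟩ := hgr
  have hCU := CU_nonneg
  have hnaa := norm_aa_le hp
  have hgb : ∀ z : ℂ, s < z.re → ‖g z‖ ≤ Real.exp Real.pi ∧
      ‖g1 z‖ ≤ Real.exp Real.pi * (CU * 7 + 1) := by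
    intro z hz
    have hzH := hsub z hz
    have hz0 := ne_zero_HP hs1 hzH
    have hz1 := one_le_norm hs1 hzH
    have hzp : 0 < ‖z‖ := by linarith
    have e1 : ‖z ^ (-aa p)‖ ≤ Real.exp Real.pi := by
      refine (norm_cpow_le hz0).trans ?_
      rw [neg_re, aa_re, neg_im, aa_im, neg_neg]
      have : (p.2.1 : ℝ) = 0 := rfl
      rw [this, neg_zero, Real.rpow_zero, one_mul]
      apply Real.exp_le_exp.2
      have := hp.1
      rw [abs_of_nonneg (by linarith [this.1])]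
      nlinarith [Real.pi_pos, this.2]
    have e2 : ‖F p z‖ ≤ 1 := (hF.bd p hp z hzH).trans (by linarith [G0.hk1])
    have e3 : ‖UU 0 0 F p z‖ ≤ CU * 7 := by
      refine (norm_Uf_le (admB_bb hp) hs1 hzH (fix_h7 G0 hF hp)).trans ?_
      exact div_le_self (by positivity) (one_le_pow₀ hz1)
    have e4 : ‖aa p / z * F p z‖ ≤ 1 := by
      rw [norm_mul, norm_div]
      have : ‖aa p‖ / ‖z‖ ≤ 1 := by
        rw [div_le_one hzp]; linarith
      calc ‖aa p‖ / ‖z‖ * ‖F p z‖ ≤ 1 * 1 := by gcongr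
        _ = 1 := by norm_num
    constructor
    · simp only [hg, VV]
      rw [norm_mul]
      calc ‖z ^ (-aa p)‖ * ‖F p z‖ ≤ Real.exp Real.pi * 1 := by gcongr
        _ = _ := mul_one _
    · simp only [hg1, VV1]
      rw [norm_mul]
      have e5 : ‖UU 0 0 F p z - aa p / z * F p z‖ ≤ CU * 7 + 1 :=
        (norm_sub_le _ _).trans (add_le_add e3 e4)
      gcongr
  -- the Wronskian
  let E : ℂ → ℂ := fun z => z ^ 6 * exp (I * z) * (G z * g1 z - G1 z * g z)
  have hE : ∀ z : ℂ, s < z.re → HasDerivAt E 0 z := by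
    intro z hz
    have hz0 := ne_zero_HP hs1 (hsub z hz)
    obtain ⟨h1, h2⟩ := hG z hz
    have h3 := hgd z hz
    have h4 := hgd1 z hz
    have h5 : HasDerivAt (fun z : ℂ => z ^ 6) (6 * z ^ 5) z := by
      simpa using hasDerivAt_pow 6 z
    have h6 : HasDerivAt (fun z : ℂ => exp (I * z)) (exp (I * z) * I) z := by
      have : HasDerivAt (fun y : ℂ => I * y) I z := by
        simpa using (hasDerivAt_id z).const_mul I
      exact this.cexp
    have h7 := (h5.mul h6).mul ((h1.mul h4).sub (h2.mul h3))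
    refine h7.congr_deriv ?_
    simp only [Pi.mul_apply, Pi.sub_apply]
    field_simp
    ring
  have hconv : Convex ℝ {z : ℂ | s < z.re} := convex_halfSpace_re_gt s
  have hopen : IsOpen {z : ℂ | s < z.re} := isOpen_lt continuous_const Complex.continuous_re
  have hEc : ∀ z w : ℂ, s < z.re → s < w.re → E z = E w := by
    intro z w hz hw
    exact hopen.is_const_of_deriv_eq_zero hconv.isPreconnected
      (fun y hy => (hE y hy).differentiableAt.differentiableWithinAt)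
      (fun y hy => (hE y hy).deriv) hz hw
  have hE0 : ∀ z : ℂ, s < z.re → E z = 0 := by
    intro z hz
    -- limit along the vertical ray
    have hray : ∀ t : ℝ, 0 ≤ t → s < (z + I * (t:ℂ)).re := by
      intro t ht; simpa using hz
    set B := ‖z‖ + 1 with hB
    have hB1 : 1 ≤ B := by rw [hB]; linarith [norm_nonneg z]
    have hK0 : 0 ≤ K := by
      have h1 := (norm_nonneg _).trans (hK z hz).1
      have h2 : 0 < (1 + ‖z‖) ^ mm := by positivity
      by_contra h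
      push Not at h
      nlinarith
    set Cc := Real.exp (-z.im) * (K * Real.exp Real.pi * (CU * 7 + 1) + K * Real.exp Real.pi)
      * (2 * B) ^ (6 + mm) with hCc
    have hbound : ∀ t : ℝ, 0 ≤ t → ‖E z‖ ≤ Cc * ((1 + t) ^ (6 + mm) * Real.exp (-t)) := by
      intro t ht
      have hz' := hray t ht
      rw [hEc z _ hz hz']
      obtain ⟨k1, k2⟩ := hK _ hz'
      obtain ⟨b1, b2⟩ := hgb _ hz'
      have hn : ‖z + I * (t:ℂ)‖ ≤ B * (1 + t) := by
        calc ‖z + I * (t:ℂ)‖ ≤ ‖z‖ + ‖I * (t:ℂ)‖ := norm_add_le _ _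
          _ = ‖z‖ + t := by simp [abs_of_nonneg ht]
          _ ≤ _ := by rw [hB]; nlinarith [norm_nonneg z]
      have hn2 : 1 + ‖z + I * (t:ℂ)‖ ≤ 2 * B * (1 + t) := by nlinarith
      have hn3 : ‖z + I * (t:ℂ)‖ ≤ 2 * B * (1 + t) := by linarith [norm_nonneg (z + I * (t:ℂ))]
      have hex : ‖exp (I * (z + I * (t:ℂ)))‖ = Real.exp (-z.im) * Real.exp (-t) := by
        rw [Complex.norm_exp, ← Real.exp_add]
        congr 1
        simp [mul_add, ← mul_assoc]
      have hw : ‖G (z + I * (t:ℂ)) * g1 (z + I * (t:ℂ)) - G1 (z + I * (t:ℂ)) * g (z + I * (t:ℂ))‖ ≤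
          (K * Real.exp Real.pi * (CU * 7 + 1) + K * Real.exp Real.pi) *
            (2 * B * (1 + t)) ^ mm := by
        have k1' : ‖G (z + I * (t:ℂ))‖ ≤ K * (2 * B * (1 + t)) ^ mm :=
          k1.trans (by gcongr)
        have k2' : ‖G1 (z + I * (t:ℂ))‖ ≤ K * (2 * B * (1 + t)) ^ mm :=
          k2.trans (by gcongr)
        calc _ ≤ ‖G (z + I * (t:ℂ)) * g1 (z + I * (t:ℂ))‖ +
              ‖G1 (z + I * (t:ℂ)) * g (z + I * (t:ℂ))‖ := norm_sub_le _ _
          _ = ‖G (z + I * (t:ℂ))‖ * ‖g1 (z + I * (t:ℂ))‖ +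
              ‖G1 (z + I * (t:ℂ))‖ * ‖g (z + I * (t:ℂ))‖ := by rw [norm_mul, norm_mul]
          _ ≤ (K * (2 * B * (1 + t)) ^ mm) * (Real.exp Real.pi * (CU * 7 + 1)) +
              (K * (2 * B * (1 + t)) ^ mm) * Real.exp Real.pi := by gcongr
          _ = _ := by ring
      show ‖(z + I * (t:ℂ)) ^ 6 * exp (I * (z + I * (t:ℂ))) * _‖ ≤ _
      rw [norm_mul, norm_mul, norm_pow, hex]
      calc ‖z + I * (t:ℂ)‖ ^ 6 * (Real.exp (-z.im) * Real.exp (-t)) * _
          ≤ (2 * B * (1 + t)) ^ 6 * (Real.exp (-z.im) * Real.exp (-t)) *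
            ((K * Real.exp Real.pi * (CU * 7 + 1) + K * Real.exp Real.pi) *
              (2 * B * (1 + t)) ^ mm) := by gcongr
        _ = Cc * ((1 + t) ^ (6 + mm) * Real.exp (-t)) := by
            rw [hCc, mul_pow (2 * B) (1 + t) 6, mul_pow (2 * B) (1 + t) mm, pow_add, pow_add]; ring
    have hlim : Tendsto (fun t : ℝ => Cc * ((1 + t) ^ (6 + mm) * Real.exp (-t))) atTop (𝓝 0) := by
      have h1 : Tendsto (fun t : ℝ => t ^ (6 + mm) * Real.exp (-t)) atTop (𝓝 0) :=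
        Real.tendsto_pow_mul_exp_neg_atTop_nhds_zero (6 + mm)
      have h2 := (h1.comp (tendsto_atTop_add_const_left atTop (1:ℝ) tendsto_id)).const_mul
        (Cc * Real.exp 1)
      rw [mul_zero] at h2
      refine h2.congr (fun t => ?_)
      simp only [Function.comp, id]
      rw [show -(1 + t) = -1 + -t by ring, Real.exp_add]
      have : Real.exp 1 * Real.exp (-1) = 1 := by rw [← Real.exp_add]; simp
      calc _ = Cc * ((1 + t) ^ (6 + mm) * Real.exp (-t)) * (Real.exp 1 * Real.exp (-1)) := by ring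
        _ = _ := by rw [this, mul_one]
    have h3 : ‖E z‖ ≤ 0 := by
      apply ge_of_tendsto hlim
      filter_upwards [eventually_ge_atTop 0] with t ht using hbound t ht
    exact norm_le_zero_iff.1 h3
  -- the ratio is constant
  have hw0 : ∀ z : ℂ, s < z.re → G z * g1 z - G1 z * g z = 0 := by
    intro z hz
    have h1 := hE0 z hz
    have hz0 := ne_zero_HP hs1 (hsub z hz)
    simp only [E] at h1
    rcases mul_eq_zero.1 h1 with h2 | h2
    · rcases mul_eq_zero.1 h2 with h3 | h3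
      · exact absurd (pow_eq_zero_iff (by norm_num) |>.1 h3) hz0
      · exact absurd h3 (Complex.exp_ne_zero _)
    · exact h2
  have hR : ∀ z : ℂ, s < z.re → HasDerivAt (fun z => G z / g z) 0 z := by
    intro z hz
    have h1 := (hG z hz).1.div (hgd z hz) (hgne z hz)
    refine h1.congr_deriv ?_
    have := hw0 z hz
    rw [show G1 z * g z - G z * g1 z = -(G z * g1 z - G1 z * g z) by ring, this]
    simp
  have hRc : ∀ z w : ℂ, s < z.re → s < w.re → G z / g z = G w / g w := by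
    intro z w hz hw
    exact hopen.is_const_of_deriv_eq_zero (f := fun z => G z / g z) hconv.isPreconnected
      (fun y hy => (hR y hy).differentiableAt.differentiableWithinAt)
      (fun y hy => (hR y hy).deriv) hz hw
  refine ⟨(G ((s+1 : ℝ) : ℂ) / g ((s+1 : ℝ) : ℂ)) / 2, ?_⟩
  intro x hx
  have h1 := hRc (x:ℂ) ((s+1 : ℝ) : ℂ) (by simpa using hx) (by simp)
  have h2 := hgne (x:ℂ) (by simpa using hx)
  rw [← h1]
  show G x = G x / g x / 2 * (2 * g x)
  field_simp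

end Crest.Agent.R086.BFar
end

-- ▼ part R086/BFarStmt
section

/-!
Row 86, Part B, exterior problem (helper207): `farStmt : B.FarStmt`.
-/

set_option autoImplicit false

open MeasureTheory Filter Set Topology Complex
open scoped ContDiff

namespace Crest.Agent.R086.BFar

open Crest.Agent.R086.B (SymX wA wB wC IsSolX IsLinX FarGood)

lemma mem_KK_lin {kmax : ℝ} (hk : 1/2 ≤ kmax) {om e : ℝ} (hom : om ∈ Icc (1/5 : ℝ) (1/2))
    (he : e ∈ Icc (0:ℝ) (1/2)) : (om, e, (1/2 : ℂ)) ∈ KK kmax :=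
  ⟨hom, he, by norm_num; linarith⟩

/-- pointwise comparison of the nonlinear solution with the linear one -/
lemma compare {s0 kmax : ℝ} {m : ℕ} {F1 F0 : PP → ℂ → ℂ} (hs : 1 ≤ s0) (hk0 : 0 ≤ kmax)
    (hk1 : kmax < 1) (hk2 : 1/2 ≤ kmax)
    (hC : CU * (1 / (1 - (1 + kmax) / 2) + 6) / s0 ≤ 1 / 2)
    (h1 : IsFix s0 kmax 1 m F1) (h0 : IsFix s0 kmax 0 0 F0)
    {om e : ℝ} {k : ℂ} (hp : (om, e, k) ∈ KK kmax) {x : ℝ} (hx : s0 < x) :
    ‖VV F1 (om, e, k) x - k * (2 * VV F0 (om, e, (1/2 : ℂ)) x)‖ ≤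
      (13 * CU + 4) * ((1 + kmax) / 2) ^ (2 * m) ∧
    ‖VV1 1 m F1 (om, e, k) x - k * (2 * VV1 0 0 F0 (om, e, (1/2 : ℂ)) x)‖ ≤
      (13 * CU + 4) * ((1 + kmax) / 2) ^ (2 * m) := by
  obtain ⟨d1, d2⟩ := diff_est hs hk0 hk1 hk2 hC h1 h0 hp
  have hxH := real_mem_HP hx
  have hx1 : 1 ≤ x := by linarith
  have hxp : 0 < x := by linarith
  have e1 := d1 x hxH
  have e2 := d2 x hxH
  set p : PP := (om, e, k) with hpdef
  set p' : PP := (om, e, (1/2 : ℂ)) with hp'def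
  have haa : aa p' = aa p := rfl
  have hCU := CU_nonneg
  set Mm := ((1 + kmax) / 2) ^ (2 * m) with hMm
  have hMm0 : 0 ≤ Mm := by positivity
  have he0 : 0 ≤ e := hp.2.1.1
  have hc : ‖(x:ℂ) ^ (-aa p)‖ ≤ 1 := by
    rw [norm_real_cpow hxp]
    exact Real.rpow_le_one_of_one_le_of_nonpos hx1 (by simpa [hpdef] using he0)
  constructor
  · have h3 : VV F1 p x - k * (2 * VV F0 p' x) =
        (x:ℂ) ^ (-aa p) * (F1 p x - 2 * k * F0 p' x) := by
      unfold VV; rw [haa]; ring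
    rw [h3, norm_mul]
    calc ‖(x:ℂ) ^ (-aa p)‖ * ‖F1 p x - 2 * k * F0 p' x‖ ≤ 1 * (2 * Mm) := by gcongr
      _ ≤ _ := by nlinarith
  · have h3 : VV1 1 m F1 p x - k * (2 * VV1 0 0 F0 p' x) =
        (x:ℂ) ^ (-aa p) * ((UU 1 m F1 p x - 2 * k * UU 0 0 F0 p' x) -
          aa p / x * (F1 p x - 2 * k * F0 p' x)) := by
      unfold VV1; rw [haa]; ring
    have hax : ‖aa p / (x:ℂ)‖ ≤ 1 := by
      rw [norm_div, Complex.norm_real, Real.norm_of_nonneg hxp.le, div_le_one hxp]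
      exact (norm_aa_le hp).trans hx1
    rw [h3, norm_mul]
    calc ‖(x:ℂ) ^ (-aa p)‖ * ‖(UU 1 m F1 p x - 2 * k * UU 0 0 F0 p' x) -
          aa p / x * (F1 p x - 2 * k * F0 p' x)‖
        ≤ 1 * (CU * (13 * Mm) + 1 * (2 * Mm)) := by
          gcongr
          refine (norm_sub_le _ _).trans (add_le_add e2 ?_)
          rw [norm_mul]
          gcongr
      _ ≤ _ := by nlinarith

theorem farStmt : Crest.Agent.R086.B.FarStmt := by
  intro kmin kmax hkmin hkk hkmax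
  set km := max kmax (1/2) with hkm
  have hkm0 : 0 ≤ km := le_trans (by norm_num) (le_max_right kmax (1/2))
  have hkm1 : km < 1 := max_lt hkmax (by norm_num)
  have hkm2 : 1/2 ≤ km := le_max_right _ _
  have hkm3 : kmax ≤ km := le_max_left _ _
  obtain ⟨s0, hs1, hC, hfix⟩ := exists_fix hkm0 hkm1
  choose Fn hFn using fun m => hfix 1 (by simp) m
  obtain ⟨F0, hF0⟩ := hfix 0 (by simp) 0
  have hCU := CU_nonneg
  set s := max (2 * s0) (max (14 * CU / kmin) (28 * CU + 1)) with hs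
  have hss0 : 2 * s0 ≤ s := le_max_left _ _
  have hss1 : 14 * CU / kmin ≤ s := (le_max_left _ _).trans (le_max_right _ _)
  have hss2 : 28 * CU + 1 ≤ s := (le_max_right _ _).trans (le_max_right _ _)
  have hs14 : 14 * CU ≤ kmin * s := by
    rw [div_le_iff₀ hkmin] at hss1; linarith
  have hs0s : s0 ≤ s := by linarith
  have G1 : Good s0 km 1 := ⟨hs1, hkm0, hkm1, by simp⟩
  have G0 : Good s0 km 0 := ⟨hs1, hkm0, hkm1, by simp⟩
  set M := (1 + km) / 2 with hM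
  have hM1 : M < 1 := by rw [hM]; linarith
  have hM0 : 0 < M := by rw [hM]; linarith
  have hmem : ∀ n : ℕ, 2 ≤ n → ∀ om ∈ Icc (1/5 : ℝ) (1/2), ∀ k : ℂ, ‖k‖ ≤ kmax →
      (om, (1 / (n:ℝ)), k) ∈ KK km := by
    intro n hn om hom k hk
    refine ⟨hom, ⟨by positivity, ?_⟩, hk.trans hkm3⟩
    apply one_div_le_one_div_of_le (by norm_num)
    exact_mod_cast hn
  refine ⟨s, M, kmin / 2, fun j => ((j.factorial : ℝ) * 2 ^ (j+1)) * Real.exp Real.pi,
    fun n om k x => VV (Fn (n/2)) (om, (1 / (n:ℝ)), k) x,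
    fun n om k x => VV1 1 (n/2) (Fn (n/2)) (om, (1 / (n:ℝ)), k) x,
    fun om x => 2 * VV F0 (om, (0:ℝ), (1/2 : ℂ)) x,
    fun om x => 2 * VV1 0 0 F0 (om, (0:ℝ), (1/2 : ℂ)) x,
    by linarith, hM0, hM1, by positivity, ?_, ?_, ?_, ?_, ?_, ?_⟩
  · -- linear ODE and normalisation
    intro om hom
    have hp := mem_KK_lin (e := 0) hkm2 hom ⟨le_refl _, by norm_num⟩
    refine ⟨isLinX_of G0 hF0 hp hs0s, ?_⟩
    have h1 : Tendsto (fun x : ℝ => F0 (om, (0:ℝ), (1/2 : ℂ)) (x:ℂ)) atTop (𝓝 (1/2 : ℂ)) := by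
      rw [tendsto_iff_norm_sub_tendsto_zero]
      apply squeeze_zero' (Eventually.of_forall fun _ => norm_nonneg _)
        (g := fun x : ℝ => CU * 7 / x)
      · filter_upwards [eventually_gt_atTop s0] with x hx
        have := F_lim G0 hF0 hp (real_mem_HP hx)
        rw [ofReal_re] at this
        exact this
      · exact tendsto_const_nhds.div_atTop tendsto_id
    have h2 : Tendsto (fun x : ℝ => 2 * ‖F0 (om, (0:ℝ), (1/2 : ℂ)) (x:ℂ)‖) atTop (𝓝 1) := by
      have := (h1.norm).const_mul 2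
      have h3 : (2:ℝ) * ‖(1/2 : ℂ)‖ = 1 := by norm_num
      rw [h3] at this
      exact this
    refine h2.congr' ?_
    filter_upwards [eventually_gt_atTop 0] with x hx
    rw [norm_mul, norm_V_real hx]
    simp
  · -- uniqueness
    intro om hom G Gd hG hgr
    have hp := mem_KK_lin (e := 0) hkm2 hom ⟨le_refl _, by norm_num⟩
    exact outgoing_unique G0 hF0 hp hs0s (by linarith) hG hgr
  · -- continuity of the linear family
    intro x hx
    have hx0 : s0 < x := by linarith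
    have hmap : MapsTo (fun om : ℝ => (((om, (0:ℝ), (1/2 : ℂ)), (x:ℂ)) : PP × ℂ))
        (Icc (1/5 : ℝ) (1/2)) (KK km ×ˢ HP s0) := fun om hom =>
      ⟨mem_KK_lin hkm2 hom ⟨le_refl _, by norm_num⟩, real_mem_HP hx0⟩
    have hcm : ContinuousOn (fun om : ℝ => (((om, (0:ℝ), (1/2 : ℂ)), (x:ℂ)) : PP × ℂ))
        (Icc (1/5 : ℝ) (1/2)) := by fun_prop
    exact ⟨continuousOn_const.mul (ContinuousOn.comp (g := fun q : PP × ℂ => VV F0 q.1 q.2)
        (f := fun om : ℝ => (((om, (0:ℝ), (1/2 : ℂ)), (x:ℂ)) : PP × ℂ))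
        (VV_cont G0 hF0) hcm hmap),
      continuousOn_const.mul (ContinuousOn.comp (g := fun q : PP × ℂ => VV1 0 0 F0 q.1 q.2)
        (f := fun om : ℝ => (((om, (0:ℝ), (1/2 : ℂ)), (x:ℂ)) : PP × ℂ))
        (VV1_cont G0 hF0) hcm hmap)⟩
  · -- nonlinear family
    intro n hn hev om hom k hk1 hk2
    obtain ⟨m, rfl⟩ := hev.exists_two_nsmul
    simp only [smul_eq_mul] at hn ⊢
    have hm : 1 ≤ m := by omega
    have hdiv : 2 * m / 2 = m := by omega
    have hp := hmem (2 * m) hn om hom k hk2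
    simp only [hdiv]
    exact ⟨isSolX G1 hm (hFn m) hp hs0s,
      farGood hs1 hkm0 hkm1 hm (hFn m) hkmin hk1 hp hss0 hs14⟩
  · -- continuity in parameters
    intro n hn hev x hx
    have hx0 : s0 < x := by linarith
    have hmap : MapsTo (fun p : ℝ × ℂ => (((p.1, (1 / (n:ℝ)), p.2), (x:ℂ)) : PP × ℂ))
        {p : ℝ × ℂ | p.1 ∈ Icc (1/5 : ℝ) (1/2) ∧ kmin ≤ ‖p.2‖ ∧ ‖p.2‖ ≤ kmax}
        (KK km ×ˢ HP s0) := fun p hp => ⟨hmem n hn p.1 hp.1 p.2 hp.2.2, real_mem_HP hx0⟩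
    have hcm : ContinuousOn (fun p : ℝ × ℂ => (((p.1, (1 / (n:ℝ)), p.2), (x:ℂ)) : PP × ℂ))
        {p : ℝ × ℂ | p.1 ∈ Icc (1/5 : ℝ) (1/2) ∧ kmin ≤ ‖p.2‖ ∧ ‖p.2‖ ≤ kmax} := by fun_prop
    exact ⟨ContinuousOn.comp (g := fun q : PP × ℂ => VV (Fn (n/2)) q.1 q.2)
        (f := fun p : ℝ × ℂ => (((p.1, (1 / (n:ℝ)), p.2), (x:ℂ)) : PP × ℂ))
        (VV_cont G1 (hFn (n/2))) hcm hmap,
      ContinuousOn.comp (g := fun q : PP × ℂ => VV1 1 (n/2) (Fn (n/2)) q.1 q.2)
        (f := fun p : ℝ × ℂ => (((p.1, (1 / (n:ℝ)), p.2), (x:ℂ)) : PP × ℂ))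
        (VV1_cont G1 (hFn (n/2))) hcm hmap⟩
  · -- uniform convergence
    intro x₁ hx₁ η hη
    let K' : Set (ℝ × ℝ × ℝ) := Icc (1/5 : ℝ) (1/2) ×ˢ Icc (0:ℝ) (1/2) ×ˢ Icc s x₁
    have hK' : IsCompact K' := isCompact_Icc.prod (isCompact_Icc.prod isCompact_Icc)
    have hmap : MapsTo (fun q : ℝ × ℝ × ℝ => (((q.1, q.2.1, (1/2 : ℂ)), (q.2.2:ℂ)) : PP × ℂ))
        K' (KK km ×ˢ HP s0) := fun q hq =>
      ⟨mem_KK_lin hkm2 hq.1 hq.2.1, real_mem_HP (by have := hq.2.2.1; linarith)⟩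
    have hcm : ContinuousOn (fun q : ℝ × ℝ × ℝ =>
        (((q.1, q.2.1, (1/2 : ℂ)), (q.2.2:ℂ)) : PP × ℂ)) K' := by fun_prop
    have hu1 : ContinuousOn (fun q : ℝ × ℝ × ℝ => 2 * VV F0 (q.1, q.2.1, (1/2 : ℂ)) (q.2.2:ℂ)) K' :=
      continuousOn_const.mul (ContinuousOn.comp (g := fun q : PP × ℂ => VV F0 q.1 q.2)
        (f := fun q : ℝ × ℝ × ℝ => (((q.1, q.2.1, (1/2 : ℂ)), (q.2.2:ℂ)) : PP × ℂ))
        (VV_cont G0 hF0) hcm hmap)
    have hu2 : ContinuousOn (fun q : ℝ × ℝ × ℝ =>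
        2 * VV1 0 0 F0 (q.1, q.2.1, (1/2 : ℂ)) (q.2.2:ℂ)) K' :=
      continuousOn_const.mul (ContinuousOn.comp (g := fun q : PP × ℂ => VV1 0 0 F0 q.1 q.2)
        (f := fun q : ℝ × ℝ × ℝ => (((q.1, q.2.1, (1/2 : ℂ)), (q.2.2:ℂ)) : PP × ℂ))
        (VV1_cont G0 hF0) hcm hmap)
    obtain ⟨δ1, hδ1, hd1⟩ := Metric.uniformContinuousOn_iff.1
      (hK'.uniformContinuousOn_of_continuous hu1) (η/2) (by positivity)
    obtain ⟨δ2, hδ2, hd2⟩ := Metric.uniformContinuousOn_iff.1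
      (hK'.uniformContinuousOn_of_continuous hu2) (η/2) (by positivity)
    have hlim : Tendsto (fun n : ℕ => (13 * CU + 4) * M ^ n) atTop (𝓝 0) := by
      simpa using (tendsto_pow_atTop_nhds_zero_of_lt_one hM0.le hM1).const_mul (13 * CU + 4)
    have hlim2 : Tendsto (fun n : ℕ => 1 / (n:ℝ)) atTop (𝓝 0) := tendsto_one_div_atTop_nhds_zero_nat
    obtain ⟨N, hN⟩ := eventually_atTop.1 (((tendsto_order.1 hlim).2 (η/2) (by positivity)).and
      (((tendsto_order.1 hlim2).2 (min δ1 δ2) (by positivity)).and (eventually_ge_atTop 2)))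
    refine ⟨N, ?_⟩
    intro n hn hev om hom k hk1 hk2 x hx
    obtain ⟨hn1, hn2, hn3⟩ := hN n hn
    have hxs : s < x := hx.1
    have hx0 : s0 < x := by linarith
    have hp := hmem n hn3 om hom k hk2
    obtain ⟨m, rfl⟩ := hev.exists_two_nsmul
    simp only [smul_eq_mul] at *
    have hdiv : 2 * m / 2 = m := by omega
    simp only [hdiv]
    set e : ℝ := 1 / ((2 * m : ℕ) : ℝ) with he
    obtain ⟨c1, c2⟩ := compare hs1 hkm0 hkm1 hkm2 hC (hFn m) hF0 hp hx0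
    have hmem1 : ((om, e, x) : ℝ × ℝ × ℝ) ∈ K' := ⟨hom, hp.2.1, ⟨hxs.le, hx.2⟩⟩
    have hmem2 : ((om, 0, x) : ℝ × ℝ × ℝ) ∈ K' := ⟨hom, ⟨le_refl _, by norm_num⟩, ⟨hxs.le, hx.2⟩⟩
    have he0 : 0 ≤ e := hp.2.1.1
    have hdist : dist ((om, e, x) : ℝ × ℝ × ℝ) (om, 0, x) = e := by
      simp [Prod.dist_eq, Real.dist_eq, abs_of_nonneg he0, he0]
    have f1 := hd1 _ hmem1 _ hmem2 (by rw [hdist]; exact hn2.trans_le (min_le_left _ _))
    have f2 := hd2 _ hmem1 _ hmem2 (by rw [hdist]; exact hn2.trans_le (min_le_right _ _))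
    rw [dist_eq_norm] at f1 f2
    have hkn : ‖k‖ ≤ 1 := by linarith
    have comb : ∀ {a b d : ℂ}, ‖a - k * b‖ ≤ (13 * CU + 4) * M ^ (2 * m) → ‖b - d‖ < η / 2 →
        ‖a - k * d‖ ≤ η := by
      intro a b d h1 h2
      calc ‖a - k * d‖ = ‖(a - k * b) + k * (b - d)‖ := by ring_nf
        _ ≤ ‖a - k * b‖ + ‖k * (b - d)‖ := norm_add_le _ _
        _ ≤ η / 2 + 1 * (η / 2) := by
            rw [norm_mul]
            gcongr
            exact h1.trans hn1.le
        _ = η := by ring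
    exact ⟨comb c1 f1, comb c2 f2⟩

end Crest.Agent.R086.BFar
end

-- ▼ part R086/BExtFin
section

set_option autoImplicit false

open Complex Set

namespace Crest.Agent.R086.BExt
open Crest.Agent.R086.B
open Crest.Agent.R086.JCx

/-- THE EXTERIOR PROBLEM, final form -/
theorem extStmt (D : A.AData) (rho rX : ℝ) (hrho : D.R < rho) :
    ExtStmt D.om rho rX (1 / A.fo 0 (-(I * D.om)) D.R) Uo Uo1 := by
  have hU : ∀ r, Uo D.om r = A.fo 0 (-(I * D.om)) r := fun r => rfl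
  have hne := D.fo_ne
  have hpos : 0 < ‖A.fo 0 (-(I * D.om)) D.R‖ := norm_pos_iff.2 hne
  have hn : ∀ r, ‖1 / A.fo 0 (-(I * D.om)) D.R * Uo D.om r‖ =
      ‖A.fo 0 (-(I * D.om)) r‖ / ‖A.fo 0 (-(I * D.om)) D.R‖ := by
    intro r
    rw [hU, norm_mul, norm_div, norm_one, one_div, div_eq_inv_mul]
  refine ext_of_far BFar.farStmt rX (R := D.R) ⟨?_, ?_⟩ D.R_pos hrho _ ?_ ?_ ?_
  · linarith [D.om_mem.1]
  · linarith [D.om_mem.2]
  · intro a ha b hb hab
    have := D.anti ha hb hab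
    simp only [hn]
    simp only at this
    exact div_lt_div_of_pos_right this hpos
  · rw [hn, div_self hpos.ne']
  · intro r hr
    rw [hn, le_div_iff₀ hpos]
    exact D.lower r hr

end Crest.Agent.R086.BExt
end

-- ▼ part R086/PartBFin

/-! # Row 86: Part B, final theorem (helper651) -/

set_option autoImplicit false

namespace Crest.Agent.R086.B

/-- **PART B**: from the limit data of Part A, the sequence of finite-`n` profiles with all bounds. -/
theorem partB (D : A.AData) : Nonempty (BData D.om D.R (BLim.U D)) :=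
  partB_of_ext D (fun rho h rX => BExt.extStmt D rho rX h)

end Crest.Agent.R086.B
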