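import Crest.Agent.R086.CTop
import Crest.Agent.R086.CRegB
import Crest.Agent.R086.CReg
import Crest.Agent.R086.C4Red
import Crest.Agent.R086.C4Phi
import Crest.Agent.R086.SHX
import Crest.Agent.R086.XOut
import Crest.Agent.R086.CTopDefs
import Crest.Agent.R086.CLift
import Crest.Agent.R086.CH2
import Crest.Agent.R086.CH4
import Crest.Agent.R086.CSym_Mg
import Crest.Agent.R086.BCIface
import Crest.Agent.R086.DLLin
import Crest.Agent.R086.DCcv
import Crest.Agent.R086.XBd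
import Crest.Agent.R086.ResSyn
import Crest.Agent.R086.DSpec

-- ▼ part R086/CFin
section

/-!
Row 86, PART C: final assembly from the leaves (captain helper777).
-/

set_option autoImplicit false

open MeasureTheory Complex Set Filter Topology
open scoped ContDiff

namespace Crest.Agent.R086

/-- `R4Stmt` from the output of C4 (`BData.C4Stmt`, helper426). -/
theorem r4_of_c4 (h : ∀ (D : A.AData) (U : ℝ → ℂ), LimitProfile D.om D.R U →
    ∀ B : BData D.om D.R U, B.C4Stmt) : R4Stmt := by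
  intro D U hL B M0
  have h1 : ∀ᶠ j in atTop, ∀ l ∈ Finset.range (⌈M0⌉₊ + 1), ∀ lam : ℂ, 0 ≤ lam.re → ‖lam‖ ≤ M0 →
      (B.P j).ModeGoodAt l lam :=
    (Filter.eventually_all_finset _).mpr fun l _ => h D U hL B M0 l
  filter_upwards [h1] with j hj
  intro lam l H F G al e1 e2 hre hM hE
  have hl : (l : ℝ) ≤ M0 := by linarith [norm_nonneg lam]
  have hlam : ‖lam‖ ≤ M0 := by linarith [(Nat.cast_nonneg l : (0 : ℝ) ≤ l)]
  have hmem : l ∈ Finset.range (⌈M0⌉₊ + 1) := by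
    rw [Finset.mem_range]
    have : l ≤ ⌈M0⌉₊ := by exact_mod_cast hl.trans (Nat.le_ceil M0)
    omega
  refine hj l hmem lam hre hlam H hE.mode.harm hE.mode.norm F G hE.mode.cF hE.mode.cG hE.mode.pF
    hE.mode.pG hE.mode.xF hE.mode.xG ?_
  rcases hE.src with h0 | h0 | h0 | h0
  · refine ⟨fun _ => ⟨0, 0, fun r hr => ?_⟩, fun _ => ⟨0, fun r hr => ?_⟩, fun _ r hr => ?_⟩
    · simp only [hE.eq1 r hr, hE.eq2 r hr, h0]; simp
    · simp only [hE.eq1 r hr, hE.eq2 r hr, h0]; simp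
    · simp only [hE.eq1 r hr, hE.eq2 r hr, h0]; simp
  · obtain ⟨hl0, -, he1, he2⟩ := h0
    refine ⟨fun _ => ⟨al, 0, fun r hr => ?_⟩, fun h => ?_, fun h => ?_⟩
    · simp only [hE.eq1 r hr, hE.eq2 r hr, he1, he2]; simp
    · omega
    · omega
  · obtain ⟨hl0, -, he1, he2⟩ := h0
    refine ⟨fun _ => ⟨0, al, fun r hr => ?_⟩, fun h => ?_, fun h => ?_⟩
    · simp only [hE.eq1 r hr, hE.eq2 r hr, he1, he2]; simp
    · omega
    · omega
  · obtain ⟨hl0, -, he1, he2⟩ := h0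
    refine ⟨fun h => ?_, fun _ => ⟨al, fun r hr => ?_⟩, fun h => ?_⟩
    · omega
    · simp only [hE.eq1 r hr, hE.eq2 r hr, he1, he2]; simp
    · omega

/-- `R2Stmt` from `SmoStmt` -/
theorem r2_of_smo (h : CReg.SmoStmt) : R2Stmt :=
  CRegB.r2Stmt fun _ _ _ hL B => CReg.regStmt h (by have := hL.R_lo; linarith) B

theorem partC_of_leaves (h0 : R0Stmt) (h1 : R1Stmt) (hS : CReg.SmoStmt) (h3 : R3Stmt)
    (h4 : ∀ (D : A.AData) (U : ℝ → ℂ), LimitProfile D.om D.R U → ∀ B : BData D.om D.R U, B.C4Stmt) :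
    PartC :=
  CTop.partC_of h0 h1 (r2_of_smo hS) h3 (r4_of_c4 h4)

end Crest.Agent.R086
end

-- ▼ part R086/C4Top
section

/-!
Row 86, Part C: node C4, assembly (captain helper777).
-/

set_option autoImplicit false

open MeasureTheory Complex Set Filter Topology
open scoped ContDiff

namespace Crest.Agent.R086

/-- output of the limit argument of C4: (NS) and (SY) eventually, for bounded `lam` and fixed `l`. -/
def BData.C4Lim {om0 R : ℝ} {U : ℝ → ℂ} (B : BData om0 R U) : Prop :=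
  ∀ (La : ℝ) (l : ℕ), ∀ᶠ j in atTop, ∀ lam : ℂ, 0 ≤ lam.re → ‖lam‖ ≤ La →
    C4Red.NS (B.P j) l lam ∧ C4Red.SY (B.P j) l lam

theorem BData.c4Stmt_of_lim {om0 R : ℝ} {U : ℝ → ℂ} (B : BData om0 R U) (hs : SymStmt)
    (h : B.C4Lim) : B.C4Stmt := by
  intro La l
  filter_upwards [h La l] with j hj
  intro lam h0 h1
  exact C4Red.modeGoodAt hs (hj lam h0 h1).1 (hj lam h0 h1).2

theorem fo_eq_Phi (l : ℕ) (mu : ℂ) (r : ℝ) : A.fo l mu r = JCx.Phi l mu r := rfl

theorem fo1_eq_Phi1 (l : ℕ) (mu : ℂ) (r : ℝ) : A.fo1 l mu r = JCx.Phi1 l mu r := by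
  unfold A.fo1 JCx.Phi1 A.fo JCx.zr
  ring

theorem detL_eq (om0 R : ℝ) (l : ℕ) :
    A.DetL om0 R l = DetL JCx.Phi JCx.Phi1 om0 R l := by
  funext lam
  unfold A.DetL DetL A.Psi PsiL
  simp only [fo_eq_Phi, fo1_eq_Phi1]

/-- Part A's limit spectral statement in the form of `C34Defs` -/
theorem limitSpec_of_AData (D : A.AData) : LimitSpec JCx.Phi JCx.Phi1 D.om D.R := by
  have h := D.limitSpec
  refine ⟨fun l lam h1 h2 h3 => ?_, ?_, ?_, ?_⟩
  · rw [← detL_eq]; exact h.ne_zero l lam h1 h2 h3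
  · rw [← detL_eq]; exact h.simple_zero
  · rw [← detL_eq]; exact h.simple_one
  · rw [← detL_eq]; exact h.simple_half

end Crest.Agent.R086
end

-- ▼ part R086/ModeDer
section

/-!
Row 86 (S0114), Part C (helper362): a mode function in `X_N` has a radial part with `N` bounded derivatives
on `(0,∞)`.
-/

set_option autoImplicit false

open MeasureTheory Complex Filter Topology
open scoped ContDiff

namespace Crest.Agent.R086.ModeDer

/-- derivatives of a Fourier integral along a line through the origin. -/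
noncomputable def gj (a : R12 → ℂ) (w : R12) (j : ℕ) (t : ℝ) : ℂ :=
  ∫ ξ : R12, exp (I * ((inner ℝ ξ (t • w) : ℝ) : ℂ)) * ((I * ((inner ℝ ξ w : ℝ) : ℂ)) ^ j * a ξ)

theorem norm_gj_le {N : ℕ} {a f : R12 → ℂ} (h : Rep N a f) {w : R12} (hw : ‖w‖ = 1) {j : ℕ}
    (hj : j ≤ N) (t : ℝ) : ‖gj a w j t‖ ≤ ∫ ξ : R12, ‖ξ‖ ^ j * ‖a ξ‖ := by
  unfold gj
  refine norm_integral_le_of_norm_le (SH.Rep.integrable_pow h hj) ?_
  filter_upwards with ξ
  rw [norm_mul, norm_mul, norm_pow, norm_mul, Complex.norm_I, one_mul, Complex.norm_real]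
  have e1 : ‖exp (I * ((inner ℝ ξ (t • w) : ℝ) : ℂ))‖ = 1 := by
    rw [mul_comm]; exact Complex.norm_exp_ofReal_mul_I _
  rw [e1, one_mul]
  apply mul_le_mul_of_nonneg_right _ (norm_nonneg _)
  apply pow_le_pow_left₀ (norm_nonneg _)
  have := norm_inner_le_norm (𝕜 := ℝ) ξ w
  rwa [hw, mul_one] at this

theorem gj_integrable {N : ℕ} {a f : R12 → ℂ} (h : Rep N a f) {w : R12} (hw : ‖w‖ = 1) {j : ℕ}
    (hj : j ≤ N) (t : ℝ) : Integrable (fun ξ : R12 =>
      exp (I * ((inner ℝ ξ (t • w) : ℝ) : ℂ)) * ((I * ((inner ℝ ξ w : ℝ) : ℂ)) ^ j * a ξ)) := by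
  refine (SH.Rep.integrable_pow h hj).mono' ?_ ?_
  · have hc : Continuous fun ξ : R12 => exp (I * ((inner ℝ ξ (t • w) : ℝ) : ℂ)) *
        (I * ((inner ℝ ξ w : ℝ) : ℂ)) ^ j := by fun_prop
    have := hc.aestronglyMeasurable.mul (SH.Rep.aestronglyMeasurable h) (μ := volume)
    refine this.congr ?_
    filter_upwards with ξ
    simp only [Pi.mul_apply]
    ring
  · filter_upwards with ξ
    rw [norm_mul, norm_mul, norm_pow, norm_mul, Complex.norm_I, one_mul, Complex.norm_real]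
    have e1 : ‖exp (I * ((inner ℝ ξ (t • w) : ℝ) : ℂ))‖ = 1 := by
      rw [mul_comm]; exact Complex.norm_exp_ofReal_mul_I _
    rw [e1, one_mul]
    apply mul_le_mul_of_nonneg_right _ (norm_nonneg _)
    apply pow_le_pow_left₀ (norm_nonneg _)
    have := norm_inner_le_norm (𝕜 := ℝ) ξ w
    rwa [hw, mul_one] at this

theorem hasDerivAt_gj {N : ℕ} {a f : R12 → ℂ} (h : Rep N a f) {w : R12} (hw : ‖w‖ = 1) {j : ℕ}
    (hj : j < N) (t : ℝ) : HasDerivAt (gj a w j) (gj a w (j + 1) t) t := by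
  have key := hasDerivAt_integral_of_dominated_loc_of_deriv_le (μ := (volume : Measure R12))
    (F := fun (t : ℝ) (ξ : R12) => exp (I * ((inner ℝ ξ (t • w) : ℝ) : ℂ)) *
      ((I * ((inner ℝ ξ w : ℝ) : ℂ)) ^ j * a ξ))
    (F' := fun (t : ℝ) (ξ : R12) => exp (I * ((inner ℝ ξ (t • w) : ℝ) : ℂ)) *
      ((I * ((inner ℝ ξ w : ℝ) : ℂ)) ^ (j + 1) * a ξ))
    (x₀ := t) (s := Set.univ) (bound := fun ξ => ‖ξ‖ ^ (j + 1) * ‖a ξ‖) Filter.univ_mem
    (Filter.Eventually.of_forall (fun t => (gj_integrable h hw hj.le t).aestronglyMeasurable))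
    (gj_integrable h hw hj.le t)
    (gj_integrable h hw (Nat.succ_le_of_lt hj) t).aestronglyMeasurable
    (by
      filter_upwards with ξ t _
      rw [norm_mul, norm_mul, norm_pow, norm_mul, Complex.norm_I, one_mul, Complex.norm_real]
      have e1 : ‖exp (I * ((inner ℝ ξ (t • w) : ℝ) : ℂ))‖ = 1 := by
        rw [mul_comm]; exact Complex.norm_exp_ofReal_mul_I _
      rw [e1, one_mul]
      apply mul_le_mul_of_nonneg_right _ (norm_nonneg _)
      apply pow_le_pow_left₀ (norm_nonneg _)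
      have := norm_inner_le_norm (𝕜 := ℝ) ξ w
      rwa [hw, mul_one] at this)
    (SH.Rep.integrable_pow h (Nat.succ_le_of_lt hj))
    (by
      filter_upwards with ξ t _
      have e1 : HasDerivAt (fun t : ℝ => (I * ((inner ℝ ξ (t • w) : ℝ) : ℂ)))
          (I * ((inner ℝ ξ w : ℝ) : ℂ)) t := by
        have e2 : HasDerivAt (fun t : ℝ => ((inner ℝ ξ (t • w) : ℝ) : ℂ))
            (((inner ℝ ξ w : ℝ) : ℂ)) t := by
          have e3 : (fun t : ℝ => (inner ℝ ξ (t • w) : ℝ)) = fun t : ℝ => t * inner ℝ ξ w := by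
            funext t; rw [real_inner_smul_right]
          have e4 : HasDerivAt (fun t : ℝ => (inner ℝ ξ (t • w) : ℝ)) (inner ℝ ξ w) t := by
            rw [e3]; simpa using (hasDerivAt_id t).mul_const (inner ℝ ξ w : ℝ)
          exact e4.ofReal_comp
        exact e2.const_mul I
      have e5 := (e1.cexp).mul_const ((I * ((inner ℝ ξ w : ℝ) : ℂ)) ^ j * a ξ)
      refine e5.congr_deriv ?_
      ring)
  exact key.2

theorem iteratedDeriv_gj {N : ℕ} {a f : R12 → ℂ} (h : Rep N a f) {w : R12} (hw : ‖w‖ = 1) :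
    ∀ j ≤ N, iteratedDeriv j (gj a w 0) = gj a w j := by
  intro j
  induction j with
  | zero => intro _; simp
  | succ j ih =>
    intro hj
    rw [iteratedDeriv_succ, ih (by omega)]
    funext t
    exact (hasDerivAt_gj h hw (by omega) t).deriv

theorem gj_zero {N : ℕ} {a f : R12 → ℂ} (h : Rep N a f) (w : R12) (t : ℝ) :
    gj a w 0 t = f (t • w) := by
  rw [h.2 (t • w)]
  unfold gj
  simp

/-- along a unit direction where `H ≠ 0`. -/
theorem bound_of_dir {N : ℕ} {H : R12 → ℝ} {F : ℝ → ℂ} (hX : InX N (modeFn H F)) {w : R12}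
    (hw : ‖w‖ = 1) (hH : H w ≠ 0) :
    ∀ j ≤ N, ∃ C : ℝ, ∀ r : ℝ, 0 < r → ‖iteratedDeriv j F r‖ ≤ C := by
  obtain ⟨a, ha⟩ := hX
  intro j hj
  refine ⟨‖((H w : ℝ) : ℂ)⁻¹‖ * ∫ ξ : R12, ‖ξ‖ ^ j * ‖a ξ‖, ?_⟩
  intro r hr
  have hH' : ((H w : ℝ) : ℂ) ≠ 0 := by exact_mod_cast hH
  have e : F =ᶠ[𝓝 r] fun t => ((H w : ℝ) : ℂ)⁻¹ * gj a w 0 t := by
    filter_upwards [Ioi_mem_nhds hr] with t ht
    have ht' : (0 : ℝ) < t := ht
    rw [gj_zero ha]
    unfold modeFn
    have n1 : ‖t • w‖ = t := by rw [norm_smul, hw, mul_one, Real.norm_of_nonneg ht'.le]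
    rw [n1, smul_smul, inv_mul_cancel₀ ht'.ne', one_smul, ← mul_assoc, inv_mul_cancel₀ hH', one_mul]
  rw [e.iteratedDeriv_eq j]
  have e2 : iteratedDeriv j (fun t => ((H w : ℝ) : ℂ)⁻¹ * gj a w 0 t) r
      = ((H w : ℝ) : ℂ)⁻¹ * gj a w j r := by
    rw [← congrFun (iteratedDeriv_gj ha hw j hj) r]
    simp only [iteratedDeriv_const_mul_field]
  rw [e2, norm_mul]
  exact mul_le_mul_of_nonneg_left (norm_gj_le ha hw hj r) (norm_nonneg _)

/-- a normalised `H` does not vanish identically on the sphere. -/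
theorem exists_dir {H : R12 → ℝ} (hH : (∫ w : S11, (H w) ^ 2 ∂sig) = 1) :
    ∃ w : R12, ‖w‖ = 1 ∧ H w ≠ 0 := by
  by_contra hcon
  push Not at hcon
  have : (∫ w : S11, (H w) ^ 2 ∂sig) = 0 := by
    have e : (fun w : S11 => (H w) ^ 2) = fun _ => (0 : ℝ) := by
      funext w
      have hw : ‖(w : R12)‖ = 1 := by simpa using w.2
      rw [hcon w hw]
      norm_num
    rw [e]
    simp
  rw [this] at hH
  exact zero_ne_one hH

/-- **bounded derivatives of the radial part** -/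
theorem bound {N : ℕ} {H : R12 → ℝ} {F : ℝ → ℂ} (hH : (∫ w : S11, (H w) ^ 2 ∂sig) = 1)
    (hX : InX N (modeFn H F)) : ∀ j ≤ N, ∃ C : ℝ, ∀ r : ℝ, 0 < r → ‖iteratedDeriv j F r‖ ≤ C := by
  obtain ⟨w, hw, hw2⟩ := exists_dir hH
  exact bound_of_dir hX hw hw2

theorem bd {N : ℕ} {H : R12 → ℝ} {F : ℝ → ℂ} (hH : (∫ w : S11, (H w) ^ 2 ∂sig) = 1)
    (hF : ContDiff ℝ N F) (hX : InX N (modeFn H F)) : XOut.BD 0 N F :=
  XOut.BD_of_iteratedDeriv hF (bound hH hX)

end Crest.Agent.R086.ModeDer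
end

-- ▼ part R086/R0a
section

/-!
Row 86 (S0114), Part C, node R0Stmt (helper91, second seat of helper362): the radial equation of the
profile and the exact system of an eigenpair.
-/

set_option autoImplicit false

open MeasureTheory Complex Set Filter Topology ComplexConjugate
open scoped ContDiff

namespace Crest.Agent.R086.R0

open CCore SH CLift

variable {n : ℕ} (P : Profile n)

/-- a point of the sphere -/
noncomputable def w0 : S11 := ⟨ei 0, by rw [mem_sphere_zero_iff_norm]; exact norm_ei 0⟩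

theorem Q_modeFn : P.Q = modeFn (fun _ => 1) P.q := by
  funext y
  rw [Q_eq]
  unfold modeFn
  simp

theorem q_diff (r : ℝ) : HasDerivAt P.q (deriv P.q r) r :=
  ((q_contDiff P).differentiable (by norm_num) r).hasDerivAt

theorem dq_contDiff : ContDiff ℝ ∞ (deriv P.q) := by
  have h := q_contDiff P
  exact (contDiff_infty_iff_deriv.1 h).2

theorem dq_diff (r : ℝ) : HasDerivAt (deriv P.q) (deriv (deriv P.q) r) r :=
  ((dq_contDiff P).differentiable (by norm_num) r).hasDerivAt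

/-- radial ODE of the profile -/
theorem ode_q {r : ℝ} (hr : 0 < r) :
    rlap 0 P.q r + (I / 2) * ((r : ℂ) * deriv P.q r) + ((P.om : ℂ) + I / n) * P.q r
      = ((‖P.q r‖ ^ n : ℝ) : ℂ) * P.q r := by
  have h := P.eqn (r • (w0 : R12))
  have h2 : ContDiff ℝ 2 (modeFn (fun _ => 1) P.q) := by
    rw [← Q_modeFn]
    exact P.smooth.of_le (WithTop.coe_le_coe.2 le_top)
  have e1 : lap P.Q (r • (w0 : R12)) = rlap 0 P.q r := by
    rw [Q_modeFn, lap_modeFn (SHarm.const 1) h2 hr w0]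
    simp
  have e2 : eul P.Q (r • (w0 : R12)) = (r : ℂ) * deriv P.q r := eul_Q_smul P hr w0
  rw [e1, e2, Q_smul P hr.le] at h
  exact h

theorem hasDerivAt_dq {r : ℝ} (hr : 0 < r) :
    HasDerivAt (deriv P.q) (-((11 : ℂ) / r + I * r / 2) * deriv P.q r
      - (((P.om : ℝ) : ℂ) + I * ((1 / n : ℝ) : ℂ)) * P.q r + ((‖P.q r‖ ^ n : ℝ) : ℂ) * P.q r) r := by
  refine (dq_diff P r).congr_deriv ?_
  have h := ode_q P hr
  unfold rlap at h
  push_cast at h ⊢
  linear_combination h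

theorem V2_eq {r : ℝ} (h0 : P.q r ≠ 0) :
    P.rV2 r = (n : ℂ) / 2 * ((‖P.q r‖ ^ n : ℝ) : ℂ) * (P.q r / conj (P.q r)) := by
  unfold Profile.rV2
  obtain ⟨m, hm⟩ : ∃ m, n = m + 2 := ⟨n - 2, by have := P.two_le; omega⟩
  have hc : conj (P.q r) ≠ 0 := by simpa using h0
  have hsq : ((‖P.q r‖ ^ 2 : ℝ) : ℂ) = P.q r * conj (P.q r) := by
    rw [Complex.mul_conj, Complex.normSq_eq_norm_sq]
  have e : ((‖P.q r‖ ^ n : ℝ) : ℂ) = ((‖P.q r‖ ^ (n - 2) : ℝ) : ℂ) * (P.q r * conj (P.q r)) := by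
    rw [← hsq, ← Complex.ofReal_mul, ← pow_add]
    congr 3
    have := P.two_le
    omega
  rw [e]
  field_simp

theorem V2c_eq {r : ℝ} (h0 : P.q r ≠ 0) :
    P.rV2c r = (n : ℂ) / 2 * ((‖P.q r‖ ^ n : ℝ) : ℂ) * (conj (P.q r) / P.q r) := by
  unfold Profile.rV2c
  have hsq : ((‖P.q r‖ ^ 2 : ℝ) : ℂ) = P.q r * conj (P.q r) := by
    rw [Complex.mul_conj, Complex.normSq_eq_norm_sq]
  have e : ((‖P.q r‖ ^ n : ℝ) : ℂ) = ((‖P.q r‖ ^ (n - 2) : ℝ) : ℂ) * (P.q r * conj (P.q r)) := by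
    rw [← hsq, ← Complex.ofReal_mul, ← pow_add]
    congr 3
    have := P.two_le
    omega
  rw [e]
  field_simp


section
variable (F G : ℝ → ℂ)
/-- `S = (F/q + G/conj q)/2` -/
noncomputable def S (r : ℝ) : ℂ := (F r / P.q r + G r / conj (P.q r)) / 2
noncomputable def S1 (r : ℝ) : ℂ :=
  (quo1 P.q (deriv P.q) F (deriv F) r + quo1c P.q (deriv P.q) G (deriv G) r) / 2
noncomputable def D (r : ℝ) : ℂ := (F r / P.q r - G r / conj (P.q r)) / 2
end


end Crest.Agent.R086.R0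
end

-- ▼ part R086/R0Final
section

/-!
Row 86 (S0114), Part C, node R0Stmt (helper362): final assembly.
-/

set_option autoImplicit false

open MeasureTheory Complex Set Filter Topology ComplexConjugate
open scoped ContDiff

namespace Crest.Agent.R086.CH

open CCore

/-- `n² K exp(-c n) → 0` -/
theorem exp_small {c K : ℝ} (hc : 0 < c) :
    ∀ᶠ n : ℕ in atTop, (n : ℝ) ^ 2 * K * Real.exp (-c * n) ≤ 1 := by
  have h1 := Real.tendsto_pow_mul_exp_neg_atTop_nhds_zero 2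
  have h2 : Tendsto (fun n : ℕ => c * (n : ℝ)) atTop atTop :=
    tendsto_natCast_atTop_atTop.const_mul_atTop hc
  have h3 := (h1.comp h2).const_mul (K / c ^ 2)
  rw [mul_zero] at h3
  filter_upwards [h3.eventually (gt_mem_nhds (zero_lt_one))] with n hn
  simp only [Function.comp] at hn
  have e : K / c ^ 2 * ((c * (n : ℝ)) ^ 2 * Real.exp (-(c * n))) = (n : ℝ) ^ 2 * K * Real.exp (-c * n) := by
    have : -(c * (n : ℝ)) = -c * n := by ring
    rw [this]
    field_simp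
  rw [e] at hn
  exact hn.le

theorem prof_of_bdata {om0 R : ℝ} {U : ℝ → ℂ} (L : LimitProfile om0 R U) (B : BData om0 R U) :
    ∃ A C R1 e1 : ℝ, 0 < A ∧ 0 ≤ C ∧ ∀ᶠ j in atTop, ∃ dl1 : ℝ,
      Prof (B.nn j) (B.P j).q (deriv (B.P j).q) (B.P j).om A C R1 e1 dl1 := by
  obtain ⟨A, hA, hdec⟩ := B.decay2
  obtain ⟨C0, hder⟩ := B.q_der
  obtain ⟨del0, hdel, hlog⟩ := B.logder
  have hR : 0 < R := by have := L.R_lo; linarith
  have hR1 : 0 < R + del0 := by linarith
  obtain ⟨c, hc, htail⟩ := B.pow_tail (R + del0) (by linarith)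
  set C : ℝ := max C0 0 with hCdef
  have hC : 0 ≤ C := le_max_right _ _
  have he1 : 0 < 1 / (A ^ 4 * (R + del0)) := by positivity
  refine ⟨A, C, R + del0, 1 / (A ^ 4 * (R + del0)), hA, hC, ?_⟩
  have hexp := B.nn_tendsto.eventually (exp_small (c := c) (K := C * A ^ 8) hc)
  filter_upwards [hdec, hder, hlog _ he1, htail, hexp] with j h1 h2 h3 h4 h5
  refine ⟨Real.exp (-c * B.nn j), ?_⟩
  exact
    { two_le := (B.P j).two_le
      hA := hA
      hC := hC
      hR1 := hR1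
      he1 := he1.le
      hdl := (Real.exp_pos _).le
      ne := fun r _ => B.q_ne j r
      dq := fun r _ => R0.q_diff (B.P j) r
      dq1 := fun r hr => R0.hasDerivAt_dq (B.P j) hr
      lo := fun r hr => by
        have := (h1 r hr.le).1
        rwa [one_div] at this
      hi := fun r hr => (h1 r hr.le).2
      der := fun r hr => by
        refine ((h2 r hr.le).1).trans ?_
        apply mul_le_mul_of_nonneg_right _ (norm_nonneg _)
        exact mul_le_mul_of_nonneg_right (le_max_left _ _) (by positivity)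
      core := fun r hr hr1 => h3 r ⟨hr.le, hr1⟩
      far := fun r hr => h4 r hr
      small1 := by
        have : 1 / (A ^ 4 * (R + del0)) * A ^ 4 * (R + del0) = 1 := by field_simp
        rw [this]
      small2 := by
        calc (B.nn j : ℝ) ^ 2 * C * A ^ 8 * Real.exp (-c * B.nn j)
            = (B.nn j : ℝ) ^ 2 * (C * A ^ 8) * Real.exp (-c * B.nn j) := by ring
          _ ≤ 1 := h5 }

/-- eigenpairs with large real part vanish. -/
theorem eig_zero {n : ℕ} {P : Profile n} {A C R1 e1 dl1 : ℝ}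
    (h : Prof n P.q (deriv P.q) P.om A C R1 e1 dl1) {lam : ℂ} {l : ℕ} {H : R12 → ℝ} {F G : ℝ → ℂ}
    (he : P.Eig lam l H F G) (hlam : 4 + A ^ 4 * (11 + 2 * C) < lam.re) :
    ∀ r : ℝ, 0 < r → F r = 0 ∧ G r = 0 := by
  have hm := he.mode
  have bF := ModeDer.bound hm.norm hm.xF
  have bG := ModeDer.bound hm.norm hm.xG
  have hsel : ∀ j : ℕ, ∃ C : ℝ, 0 ≤ C ∧ (j ≤ 20 → ∀ r : ℝ, 0 < r → ‖iteratedDeriv j F r‖ ≤ C ∧
      ‖iteratedDeriv j G r‖ ≤ C) := by
    intro j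
    by_cases hj : j ≤ 20
    · obtain ⟨c1, h1⟩ := bF j hj
      obtain ⟨c2, h2⟩ := bG j hj
      refine ⟨|c1| + |c2|, by positivity, fun _ r hr => ⟨?_, ?_⟩⟩
      · have := h1 r hr
        have := le_abs_self c1
        have := abs_nonneg c2
        linarith
      · have := h2 r hr
        have := le_abs_self c2
        have := abs_nonneg c1
        linarith
    · exact ⟨0, le_refl _, fun h => absurd h hj⟩
  choose cc hcc0 hcc using hsel
  set M : ℝ := ∑ j ∈ Finset.range 21, cc j with hM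
  have hM0 : 0 ≤ M := Finset.sum_nonneg (fun j _ => hcc0 j)
  have hle : ∀ j, j ≤ 20 → cc j ≤ M := by
    intro j hj
    exact Finset.single_le_sum (f := cc) (fun i _ => hcc0 i) (Finset.mem_range.2 (by omega))
  have hder : ∀ {K : ℝ → ℂ}, ContDiff ℝ N0 K → ∀ j, j < 20 → ∀ s : ℝ,
      HasDerivAt (iteratedDeriv j K) (iteratedDeriv (j + 1) K s) s := by
    intro K hK j hj s
    have hlt : (j : ℕ∞ω) < (N0 : ℕ∞ω) := by exact_mod_cast hj
    have h1 := hK.differentiable_iteratedDeriv j hlt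
    rw [iteratedDeriv_succ]
    exact (h1 s).hasDerivAt
  have eF1 : ∀ r, iteratedDeriv 1 F r = deriv F r := fun r => by rw [iteratedDeriv_one]
  have eF2 : ∀ r, iteratedDeriv 2 F r = deriv (deriv F) r := fun r => by
    rw [iteratedDeriv_succ, iteratedDeriv_one]
  have eG1 : ∀ r, iteratedDeriv 1 G r = deriv G r := fun r => by rw [iteratedDeriv_one]
  have eG2 : ∀ r, iteratedDeriv 2 G r = deriv (deriv G) r := fun r => by
    rw [iteratedDeriv_succ, iteratedDeriv_one]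
  have hk : 0 ≤ (l : ℝ) * (l + 10) := by positivity
  have := R0_core h (lam := lam) (kap := (l : ℝ) * (l + 10)) hk
    (F := fun j => iteratedDeriv j F) (G := fun j => iteratedDeriv j G) (M := M) hM0
    (fun j hj s _ => hder hm.cF j hj s) (fun j hj s _ => hder hm.cG j hj s)
    (fun j hj s hs => ((hcc j hj s hs).1).trans (hle j hj))
    (fun j hj s hs => ((hcc j hj s hs).2).trans (hle j hj))
    (by
      intro r hr
      simp only [eF1, eF2, iteratedDeriv_zero]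
      have e := he.eq1 r hr
      unfold Profile.rgen1 rlap at e
      rw [R0.V2_eq P (h.ne r hr)] at e
      unfold Profile.rV1 at e
      push_cast at e ⊢
      linear_combination e)
    (by
      intro r hr
      simp only [eG1, eG2, iteratedDeriv_zero]
      have e := he.eq2 r hr
      unfold Profile.rgen2 rlap at e
      rw [R0.V2c_eq P (h.ne r hr)] at e
      unfold Profile.rV1 at e
      push_cast at e ⊢
      linear_combination e)
    hlam
  intro r hr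
  simpa only [iteratedDeriv_zero] using this r hr

/-- **R0** -/
theorem r0Stmt : R0Stmt := by
  intro om0 R U L B
  obtain ⟨A, C, R1, e1, hA, hC, hev⟩ := prof_of_bdata L B
  refine ⟨4 + A ^ 4 * (11 + 2 * C), ?_⟩
  filter_upwards [hev] with j hj
  obtain ⟨dl1, hprof⟩ := hj
  intro lam l H F G he _ hnz
  by_contra hcon
  push Not at hcon
  obtain ⟨r, hr, hne⟩ := hnz
  have hz := eig_zero hprof he hcon r hr
  rcases hne with h1 | h1
  · exact h1 hz.1
  · exact h1 hz.2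

end Crest.Agent.R086.CH
end

-- ▼ part R086/CAll
section

/-!
Row 86, PART C: what is left (captain helper777).  `partC_of` : the open nodes R1, R3, NS, SY imply `PartC`.
-/

set_option autoImplicit false

open MeasureTheory Complex Set Filter Topology
open scoped ContDiff

namespace Crest.Agent.R086

theorem partC_of (h1 : R1Stmt) (h3 : R3Stmt)
    (hNS : ∀ (D : A.AData) (U : ℝ → ℂ), LimitProfile D.om D.R U → ∀ B : BData D.om D.R U,
      ∀ (La : ℝ) (l : ℕ), ∀ᶠ j in atTop, ∀ lam : ℂ, 0 ≤ lam.re → ‖lam‖ ≤ La →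
        C4Red.NS (B.P j) l lam)
    (hSY : ∀ (D : A.AData) (U : ℝ → ℂ), LimitProfile D.om D.R U → ∀ B : BData D.om D.R U,
      ∀ (La : ℝ) (l : ℕ), ∀ᶠ j in atTop, ∀ lam : ℂ, 0 ≤ lam.re → ‖lam‖ ≤ La →
        C4Red.SY (B.P j) l lam) : PartC :=
  partC_of_leaves CH.r0Stmt h1 Res.smoStmt h3 fun D U hL B =>
    B.c4Stmt_of_lim CSym.symStmt fun La l => by
      filter_upwards [hNS D U hL B La l, hSY D U hL B La l] with j h h'
      exact fun lam a b => ⟨h lam a b, h' lam a b⟩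

/-- (REG) of `BData`, unconditional -/
theorem BData.reg {om0 R : ℝ} {U : ℝ → ℂ} (hL : LimitProfile om0 R U) (B : BData om0 R U) : B.REG :=
  CRegB.reg_of CSym.symStmt B (by have := hL.R_lo; linarith)
    (CReg.regStmt Res.smoStmt (by have := hL.R_lo; linarith) B)

end Crest.Agent.R086
end

-- ▼ part R086/CHF
section

/-!
Row 86, Part C, regime (R1) (helper590): no eigenpair with `|lam|` polynomially large in `n`.

`V · R(mu)` is small on the Wiener algebra `X_0`, by one integration by parts in time with the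
shifted symbol `B = A + √|mu|`.
-/

set_option autoImplicit false

open MeasureTheory Complex Set Filter
open scoped ContDiff Topology

namespace Crest.Agent.R086.CHF

open Crest.Agent.R086

/-! ### scalar part -/

/-- `w = r² e^{-t}` -/
noncomputable def ww (r t : ℝ) : ℝ := r ^ 2 * Real.exp (-t)

/-- symbol `A = mu + i σ w` -/
noncomputable def AA (σ : ℝ) (mu : ℂ) (r t : ℝ) : ℂ := mu + I * ((σ * ww r t : ℝ) : ℂ)

/-- shifted symbol `B = A + M` -/
noncomputable def BB (σ : ℝ) (mu : ℂ) (M r t : ℝ) : ℂ := AA σ mu r t + (M : ℂ)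

/-- phase `exp (- mu t - i σ r² (1 - e^{-t}))` -/
noncomputable def ph (σ : ℝ) (mu : ℂ) (r t : ℝ) : ℂ :=
  exp (-(mu * (t : ℂ)) - I * ((σ * (r ^ 2 * (1 - Real.exp (-t))) : ℝ) : ℂ))

/-- `exp (i c e^{-t/2})` -/
noncomputable def EE (c t : ℝ) : ℂ := exp (I * ((Real.exp (-t / 2) * c : ℝ) : ℂ))

lemma norm_ph (σ : ℝ) (mu : ℂ) (r t : ℝ) : ‖ph σ mu r t‖ = Real.exp (-mu.re * t) := by
  unfold ph
  rw [Complex.norm_exp]
  congr 1
  simp only [Complex.sub_re, Complex.neg_re, Complex.mul_re, Complex.I_re, Complex.I_im,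
    Complex.ofReal_re, Complex.ofReal_im]
  ring

lemma norm_EE (c t : ℝ) : ‖EE c t‖ = 1 := by
  unfold EE
  rw [Complex.norm_exp]
  simp only [Complex.mul_re, Complex.I_re, Complex.I_im,
    Complex.ofReal_re, Complex.ofReal_im]
  simp

lemma ww_nonneg (r t : ℝ) : 0 ≤ ww r t := by unfold ww; positivity

lemma hasDerivAt_ww (r t : ℝ) : HasDerivAt (ww r) (-ww r t) t := by
  have h : HasDerivAt (fun t : ℝ => Real.exp (-t)) (Real.exp (-t) * (-1)) t :=
    (hasDerivAt_neg t).exp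
  have h2 : HasDerivAt (ww r) (r ^ 2 * (Real.exp (-t) * (-1))) t := h.const_mul (r ^ 2)
  refine h2.congr_deriv ?_
  unfold ww
  ring

lemma hasDerivAt_BB (σ : ℝ) (mu : ℂ) (M r t : ℝ) :
    HasDerivAt (BB σ mu M r) (-(I * ((σ * ww r t : ℝ) : ℂ))) t := by
  have h1 := ((hasDerivAt_ww r t).const_mul σ).ofReal_comp
  have h2 : HasDerivAt (BB σ mu M r) (I * ((σ * -ww r t : ℝ) : ℂ)) t :=
    ((h1.const_mul I).const_add mu).add_const (M : ℂ)
  refine h2.congr_deriv ?_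
  push_cast
  ring

lemma hasDerivAt_ph (σ : ℝ) (mu : ℂ) (r t : ℝ) :
    HasDerivAt (ph σ mu r) (-(AA σ mu r t) * ph σ mu r t) t := by
  have h : HasDerivAt (fun t : ℝ => Real.exp (-t)) (Real.exp (-t) * (-1)) t :=
    (hasDerivAt_neg t).exp
  have h1 := ((((h.const_sub 1).const_mul (r ^ 2)).const_mul σ).ofReal_comp).const_mul I
  have h2 : HasDerivAt (fun t : ℝ => -(mu * (t : ℂ))) (-(mu * 1)) t :=
    ((Complex.ofRealCLM.hasDerivAt (x := t)).const_mul mu).neg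
  have h3 : HasDerivAt (ph σ mu r) (ph σ mu r t *
      (-(mu * 1) - I * ((σ * (r ^ 2 * -(Real.exp (-t) * (-1))) : ℝ) : ℂ))) t := (h2.sub h1).cexp
  refine h3.congr_deriv ?_
  unfold AA ww
  push_cast
  ring

lemma hasDerivAt_EE (c t : ℝ) :
    HasDerivAt (EE c) (-(I / 2) * ((Real.exp (-t / 2) * c : ℝ) : ℂ) * EE c t) t := by
  have h0 : HasDerivAt (fun t : ℝ => -t / 2) (-1 / 2) t := (hasDerivAt_neg t).div_const 2
  have h1 : HasDerivAt (EE c) (EE c t * (I * ((Real.exp (-t / 2) * (-1 / 2) * c : ℝ) : ℂ))) t :=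
    ((h0.exp.mul_const c).ofReal_comp.const_mul I).cexp
  refine h1.congr_deriv ?_
  push_cast
  ring

lemma norm_AA_le_BB {σ : ℝ} {mu : ℂ} {M r t : ℝ} (hmu : 0 ≤ mu.re) (hM : 0 ≤ M) :
    ‖AA σ mu r t‖ ≤ ‖BB σ mu M r t‖ := by
  have e1 : (AA σ mu r t).re = mu.re := by simp [AA]
  have h1 : (BB σ mu M r t).re = (AA σ mu r t).re + M := by simp [BB]
  have h2 : (BB σ mu M r t).im = (AA σ mu r t).im := by simp [BB]
  rw [Complex.norm_def, Complex.norm_def]
  apply Real.sqrt_le_sqrt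
  rw [Complex.normSq_apply, Complex.normSq_apply, h1, h2, e1]
  nlinarith

lemma M_le_BB {σ : ℝ} {mu : ℂ} {M r t : ℝ} (hmu : 0 ≤ mu.re) :
    M ≤ ‖BB σ mu M r t‖ := by
  have h1 : (BB σ mu M r t).re = mu.re + M := by simp [BB, AA]
  calc M ≤ (BB σ mu M r t).re := by rw [h1]; linarith
    _ ≤ _ := Complex.re_le_norm _

lemma sub_le_AA {σ : ℝ} (hσ : |σ| = 1) {mu : ℂ} {r t : ℝ} :
    ‖mu‖ - ww r t ≤ ‖AA σ mu r t‖ := by
  unfold AA
  have h := norm_sub_le_norm_add mu (I * ((σ * ww r t : ℝ) : ℂ))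
  have e : ‖I * ((σ * ww r t : ℝ) : ℂ)‖ = ww r t := by
    rw [norm_mul, Complex.norm_I, one_mul, Complex.norm_real, Real.norm_eq_abs, abs_mul, hσ, one_mul,
      abs_of_nonneg (ww_nonneg r t)]
  rw [e] at h
  exact h

lemma sub_le_AA' {σ : ℝ} (hσ : |σ| = 1) {mu : ℂ} {r t : ℝ} :
    ww r t - ‖mu‖ ≤ ‖AA σ mu r t‖ := by
  unfold AA
  have h := norm_sub_le_norm_add (I * ((σ * ww r t : ℝ) : ℂ)) mu
  have e : ‖I * ((σ * ww r t : ℝ) : ℂ)‖ = ww r t := by
    rw [norm_mul, Complex.norm_I, one_mul, Complex.norm_real, Real.norm_eq_abs, abs_mul, hσ, one_mul,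
      abs_of_nonneg (ww_nonneg r t)]
  rw [e, add_comm] at h
  exact h

/-- arctan density -/
noncomputable def gg (M s r t : ℝ) : ℝ := ww r t / (M ^ 2 + (s + ww r t) ^ 2)

lemma gg_nonneg (M s r t : ℝ) : 0 ≤ gg M s r t := by
  unfold gg
  exact div_nonneg (ww_nonneg r t) (by positivity)

lemma hasDerivAt_gg {M : ℝ} (hM : 0 < M) (s r t : ℝ) :
    HasDerivAt (fun t => -(1 / M) * Real.arctan ((s + ww r t) / M)) (gg M s r t) t := by
  have h1 : HasDerivAt (fun t => (s + ww r t) / M) ((-ww r t) / M) t :=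
    ((hasDerivAt_ww r t).const_add s).div_const M
  have h2 := h1.arctan.const_mul (-(1 / M))
  refine h2.congr_deriv ?_
  unfold gg
  have : M ^ 2 + (s + ww r t) ^ 2 ≠ 0 := by positivity
  have h3 : 1 + ((s + ww r t) / M) ^ 2 ≠ 0 := by positivity
  field_simp

lemma tendsto_ww (r : ℝ) : Tendsto (ww r) atTop (𝓝 0) := by
  unfold ww
  have h : Tendsto (fun t : ℝ => Real.exp (-t)) atTop (𝓝 0) := Real.tendsto_exp_neg_atTop_nhds_zero
  simpa using h.const_mul (r ^ 2)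

lemma tendsto_gg {M : ℝ} (s r : ℝ) :
    Tendsto (fun t => -(1 / M) * Real.arctan ((s + ww r t) / M)) atTop
      (𝓝 (-(1 / M) * Real.arctan ((s + 0) / M))) := by
  have h1 : Tendsto (fun t => (s + ww r t) / M) atTop (𝓝 ((s + 0) / M)) :=
    ((tendsto_ww r).const_add s).div_const M
  exact ((Real.continuous_arctan.tendsto _).comp h1).const_mul _

lemma int_gg {M : ℝ} (hM : 0 < M) (s r : ℝ) : IntegrableOn (gg M s r) (Ioi 0) :=
  integrableOn_Ioi_deriv_of_nonneg' (fun t _ => hasDerivAt_gg hM s r t)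
    (fun t _ => gg_nonneg M s r t) (tendsto_gg s r)

lemma integral_gg_le {M : ℝ} (hM : 0 < M) (s r : ℝ) :
    ∫ t in Ioi (0 : ℝ), gg M s r t ≤ 4 / M := by
  rw [integral_Ioi_of_hasDerivAt_of_nonneg' (fun t _ => hasDerivAt_gg hM s r t)
    (fun t _ => gg_nonneg M s r t) (tendsto_gg s r)]
  have h1 := Real.arctan_lt_pi_div_two ((s + ww r 0) / M)
  have h2 := Real.neg_pi_div_two_lt_arctan ((s + 0) / M)
  have h3 := Real.pi_lt_four
  have : -(1 / M) * Real.arctan ((s + 0) / M) - -(1 / M) * Real.arctan ((s + ww r 0) / M)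
      = (1 / M) * (Real.arctan ((s + ww r 0) / M) - Real.arctan ((s + 0) / M)) := by ring
  rw [this, div_eq_mul_one_div 4 M, mul_comm 4]
  apply mul_le_mul_of_nonneg_left _ (by positivity)
  linarith

lemma ww_div_BB_le {σ : ℝ} (hσ : |σ| = 1) {mu : ℂ} {M r t : ℝ} (hmu : 0 ≤ mu.re) (hM : 0 < M) :
    ww r t / ‖BB σ mu M r t‖ ^ 2 ≤ gg M (σ * mu.im) r t := by
  unfold gg
  have hs : σ ^ 2 = 1 := by rw [← sq_abs, hσ]; norm_num
  have e : ‖BB σ mu M r t‖ ^ 2 = (mu.re + M) ^ 2 + (mu.im + σ * ww r t) ^ 2 := by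
    rw [Complex.sq_norm, Complex.normSq_apply]
    simp [BB, AA]
    ring
  have e2 : (σ * mu.im + ww r t) ^ 2 = (mu.im + σ * ww r t) ^ 2 := by
    have : (σ * mu.im + ww r t) ^ 2 - (mu.im + σ * ww r t) ^ 2
      = (σ ^ 2 - 1) * (mu.im ^ 2 - (ww r t) ^ 2) := by ring
    rw [hs] at this
    linarith
  rw [e, e2]
  apply div_le_div_of_nonneg_left (ww_nonneg r t) (by positivity)
  have : M ^ 2 ≤ (mu.re + M) ^ 2 := by nlinarith
  linarith

/-- `1/|B| ≤ 3/q³ + g/(2q)`, `q⁴ = |mu|`, `M = q²` -/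
lemma inv_BB_le {σ : ℝ} (hσ : |σ| = 1) {mu : ℂ} {q r t : ℝ} (hmu : 0 ≤ mu.re) (hq : 1 ≤ q)
    (hq4 : q ^ 4 = ‖mu‖) :
    1 / ‖BB σ mu (q ^ 2) r t‖ ≤ 3 / q ^ 3 + gg (q ^ 2) (σ * mu.im) r t / (2 * q) := by
  have hq0 : 0 < q := by linarith
  have hB : 0 < ‖BB σ mu (q ^ 2) r t‖ := lt_of_lt_of_le (by positivity : 0 < q ^ 2) (M_le_BB hmu)
  have hg := gg_nonneg (q ^ 2) (σ * mu.im) r t
  rcases le_or_gt (ww r t) (q ^ 4 / 2) with h | h
  · have h1 : q ^ 4 / 2 ≤ ‖BB σ mu (q ^ 2) r t‖ :=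
      le_trans (by have := sub_le_AA (r := r) (t := t) (mu := mu) hσ; rw [← hq4] at this; linarith)
        (norm_AA_le_BB hmu (by positivity))
    have h2 : 1 / ‖BB σ mu (q ^ 2) r t‖ ≤ 1 / (q ^ 4 / 2) :=
      one_div_le_one_div_of_le (by positivity) h1
    have h3 : 1 / (q ^ 4 / 2) ≤ 3 / q ^ 3 := by
      rw [div_le_div_iff₀ (by positivity) (by positivity)]
      have : q ^ 3 ≤ q ^ 4 := pow_le_pow_right₀ hq (by norm_num)
      have : 0 < q ^ 3 := by positivity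
      nlinarith
    have h4 : 0 ≤ gg (q ^ 2) (σ * mu.im) r t / (2 * q) := by positivity
    linarith
  · have h1 := ww_div_BB_le (r := r) (t := t) hσ hmu (by positivity : 0 < q ^ 2)
    have hw : 0 < ww r t := lt_trans (by positivity) h
    -- AM-GM
    have h2 : 1 / ‖BB σ mu (q ^ 2) r t‖ ≤
        ww r t / ‖BB σ mu (q ^ 2) r t‖ ^ 2 / (2 * q) + q / (2 * ww r t) := by
      have e : ww r t / ‖BB σ mu (q ^ 2) r t‖ ^ 2 / (2 * q) + q / (2 * ww r t)
          - 1 / ‖BB σ mu (q ^ 2) r t‖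
          = (ww r t / ‖BB σ mu (q ^ 2) r t‖ - q) ^ 2 / (2 * q * ww r t) := by
        field_simp
        ring
      have : 0 ≤ (ww r t / ‖BB σ mu (q ^ 2) r t‖ - q) ^ 2 / (2 * q * ww r t) := by positivity
      linarith
    have h3 : q / (2 * ww r t) ≤ 3 / q ^ 3 := by
      rw [div_le_div_iff₀ (by positivity) (by positivity)]
      nlinarith
    have h4 : ww r t / ‖BB σ mu (q ^ 2) r t‖ ^ 2 / (2 * q) ≤ gg (q ^ 2) (σ * mu.im) r t / (2 * q) := by
      apply div_le_div_of_nonneg_right h1 (by positivity)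
    linarith

/-- `√w/|B| ≤ 7/q + q g` -/
lemma sqrt_ww_BB_le {σ : ℝ} (hσ : |σ| = 1) {mu : ℂ} {q r t : ℝ} (hr : 0 ≤ r) (hmu : 0 ≤ mu.re)
    (hq : 1 ≤ q) (hq4 : q ^ 4 = ‖mu‖) :
    r * Real.exp (-t / 2) / ‖BB σ mu (q ^ 2) r t‖ ≤ 7 / q + q * gg (q ^ 2) (σ * mu.im) r t := by
  have hq0 : 0 < q := by linarith
  have hB : 0 < ‖BB σ mu (q ^ 2) r t‖ := lt_of_lt_of_le (by positivity : 0 < q ^ 2) (M_le_BB hmu)
  have hg := gg_nonneg (q ^ 2) (σ * mu.im) r t
  set u := r * Real.exp (-t / 2) with hu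
  have hu0 : 0 ≤ u := by positivity
  have hw : ww r t = u ^ 2 := by
    rw [hu, mul_pow, ← Real.exp_nat_mul]
    unfold ww
    congr 2
    push_cast
    ring
  rcases le_or_gt u (2 * q ^ 2) with h | h
  · have h1 := inv_BB_le (r := r) (t := t) hσ hmu hq hq4
    have h2 : u / ‖BB σ mu (q ^ 2) r t‖ ≤ 2 * q ^ 2 * (1 / ‖BB σ mu (q ^ 2) r t‖) := by
      rw [div_eq_mul_one_div]
      exact mul_le_mul_of_nonneg_right h (by positivity)
    have h3 : 2 * q ^ 2 * (1 / ‖BB σ mu (q ^ 2) r t‖) ≤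
        2 * q ^ 2 * (3 / q ^ 3 + gg (q ^ 2) (σ * mu.im) r t / (2 * q)) :=
      mul_le_mul_of_nonneg_left h1 (by positivity)
    have h4 : 2 * q ^ 2 * (3 / q ^ 3 + gg (q ^ 2) (σ * mu.im) r t / (2 * q))
        = 6 / q + q * gg (q ^ 2) (σ * mu.im) r t := by
      field_simp
      ring
    have h5 : 6 / q ≤ 7 / q := div_le_div_of_nonneg_right (by norm_num) hq0.le
    linarith
  · have h1 : 3 / 4 * u ^ 2 ≤ ‖BB σ mu (q ^ 2) r t‖ := by
      have := sub_le_AA' (r := r) (t := t) (mu := mu) hσ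
      have h2 := norm_AA_le_BB (σ := σ) (mu := mu) (M := q ^ 2) (r := r) (t := t) hmu (by positivity)
      rw [← hq4, hw] at this
      have h3 : 4 * q ^ 4 ≤ u ^ 2 := by nlinarith [sq_nonneg (u - 2 * q ^ 2), sq_nonneg q]
      linarith
    have hupos : 0 < u := lt_trans (by positivity) h
    have h2 : u / ‖BB σ mu (q ^ 2) r t‖ ≤ u / (3 / 4 * u ^ 2) :=
      div_le_div_of_nonneg_left hu0 (by positivity) h1
    have h3 : u / (3 / 4 * u ^ 2) ≤ 7 / q := by
      rw [div_le_div_iff₀ (by positivity) hq0]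
      nlinarith [mul_pos hupos hupos, mul_pos hupos hq0, mul_pos hq0 hq0]
    have h4 : 0 ≤ q * gg (q ^ 2) (σ * mu.im) r t := by positivity
    linarith

/-! ### kernels and integration by parts -/

noncomputable def K1 (σ : ℝ) (mu : ℂ) (M r t : ℝ) : ℂ :=
  -(I / 2) * ((Real.exp (-t / 2) : ℝ) : ℂ) * ph σ mu r t / BB σ mu M r t

noncomputable def K2 (σ : ℝ) (mu : ℂ) (M r t : ℝ) : ℂ :=
  ph σ mu r t * (I * ((σ * ww r t : ℝ) : ℂ) / BB σ mu M r t ^ 2 + (M : ℂ) / BB σ mu M r t)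

lemma BB_ne {σ : ℝ} {mu : ℂ} {M r t : ℝ} (hmu : 0 ≤ mu.re) (hM : 0 < M) : BB σ mu M r t ≠ 0 := by
  have := M_le_BB (σ := σ) (M := M) (r := r) (t := t) hmu
  intro h
  rw [h, norm_zero] at this
  linarith

lemma norm_K1_le {σ : ℝ} (hσ : |σ| = 1) {mu : ℂ} {q r t : ℝ} (hr : 0 ≤ r) (hmu : 0 ≤ mu.re)
    (hq : 1 ≤ q) (hq4 : q ^ 4 = ‖mu‖) :
    ‖K1 σ mu (q ^ 2) r t‖ * r ≤ Real.exp (-mu.re * t) *
      (4 / q + q / 2 * gg (q ^ 2) (σ * mu.im) r t) := by
  have hq0 : 0 < q := by linarith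
  unfold K1
  rw [norm_div, norm_mul, norm_mul, norm_ph, Complex.norm_real, Real.norm_of_nonneg (Real.exp_pos _).le,
    norm_neg, norm_div, Complex.norm_I]
  have h := sqrt_ww_BB_le (t := t) hσ hr hmu hq hq4
  have e : 1 / ‖(2 : ℂ)‖ * Real.exp (-t / 2) * Real.exp (-mu.re * t) / ‖BB σ mu (q ^ 2) r t‖ * r
      = Real.exp (-mu.re * t) * (1 / 2 * (r * Real.exp (-t / 2) / ‖BB σ mu (q ^ 2) r t‖)) := by
    norm_num
    ring
  rw [e]
  apply mul_le_mul_of_nonneg_left _ (Real.exp_pos _).le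
  have h5 : 7 / q / 2 ≤ 4 / q := by
    rw [div_div, div_le_div_iff₀ (by positivity) hq0]
    nlinarith
  linarith

lemma norm_K2_le {σ : ℝ} (hσ : |σ| = 1) {mu : ℂ} {q r t : ℝ} (hmu : 0 ≤ mu.re)
    (hq : 1 ≤ q) (hq4 : q ^ 4 = ‖mu‖) :
    ‖K2 σ mu (q ^ 2) r t‖ ≤ Real.exp (-mu.re * t) *
      (3 / q + 3 * q / 2 * gg (q ^ 2) (σ * mu.im) r t) := by
  have hq0 : 0 < q := by linarith
  have hg := gg_nonneg (q ^ 2) (σ * mu.im) r t
  unfold K2
  rw [norm_mul, norm_ph]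
  apply mul_le_mul_of_nonneg_left _ (Real.exp_pos _).le
  refine le_trans (norm_add_le _ _) ?_
  rw [norm_div, norm_div, norm_mul, Complex.norm_I, one_mul, Complex.norm_real, Complex.norm_real,
    norm_pow, Real.norm_eq_abs, abs_mul, hσ, one_mul, abs_of_nonneg (ww_nonneg r t),
    Real.norm_of_nonneg (by positivity)]
  have h1 := ww_div_BB_le (r := r) (t := t) hσ hmu (by positivity : 0 < q ^ 2)
  have h2 := inv_BB_le (r := r) (t := t) hσ hmu hq hq4
  have h3 : q ^ 2 / ‖BB σ mu (q ^ 2) r t‖ ≤ q ^ 2 * (3 / q ^ 3 + gg (q ^ 2) (σ * mu.im) r t / (2 * q)) := by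
    rw [div_eq_mul_one_div]
    exact mul_le_mul_of_nonneg_left h2 (by positivity)
  have h4 : q ^ 2 * (3 / q ^ 3 + gg (q ^ 2) (σ * mu.im) r t / (2 * q))
      = 3 / q + q / 2 * gg (q ^ 2) (σ * mu.im) r t := by
    field_simp
  have h5 : gg (q ^ 2) (σ * mu.im) r t ≤ q * gg (q ^ 2) (σ * mu.im) r t := by nlinarith
  linarith

lemma int_exp {κ : ℝ} (hκ : 0 < κ) : IntegrableOn (fun t : ℝ => Real.exp (-κ * t)) (Ioi 0) :=
  integrableOn_exp_mul_Ioi (by linarith) 0

lemma integral_exp {κ : ℝ} (hκ : 0 < κ) : ∫ t in Ioi (0 : ℝ), Real.exp (-κ * t) = 1 / κ := by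
  rw [integral_exp_mul_Ioi (by linarith) 0]
  simp

lemma int_env {κ : ℝ} (hκ : 0 < κ) {M : ℝ} (hM : 0 < M) (s r a b : ℝ) :
    IntegrableOn (fun t : ℝ => Real.exp (-κ * t) * (a + b * gg M s r t)) (Ioi 0) := by
  have h1 : IntegrableOn (fun t : ℝ => a * Real.exp (-κ * t)) (Ioi 0) := (int_exp hκ).const_mul a
  have h2 : IntegrableOn (fun t : ℝ => Real.exp (-κ * t) * (b * gg M s r t)) (Ioi 0) := by
    refine Integrable.bdd_mul (c := 1) ((int_gg hM s r).const_mul b) (Continuous.aestronglyMeasurable (by fun_prop)) ?_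
    refine (ae_restrict_mem measurableSet_Ioi).mono fun t ht => ?_
    rw [Real.norm_of_nonneg (Real.exp_pos _).le]
    apply Real.exp_le_one_iff.2
    have : (0 : ℝ) < t := ht
    nlinarith
  refine (h1.add h2).congr (Eventually.of_forall fun t => ?_)
  simp only [Pi.add_apply]
  ring

lemma integral_env_le {κ : ℝ} (hκ : 0 < κ) {M : ℝ} (hM : 0 < M) (s r : ℝ) {a b : ℝ} (hb : 0 ≤ b) :
    ∫ t in Ioi (0 : ℝ), Real.exp (-κ * t) * (a + b * gg M s r t) ≤ a / κ + b * (4 / M) := by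
  have h1 : IntegrableOn (fun t : ℝ => a * Real.exp (-κ * t) + b * gg M s r t) (Ioi 0) :=
    ((int_exp hκ).const_mul a).add ((int_gg hM s r).const_mul b)
  calc _ ≤ ∫ t in Ioi (0 : ℝ), (a * Real.exp (-κ * t) + b * gg M s r t) := by
        apply setIntegral_mono_on (int_env hκ hM s r a b) h1 measurableSet_Ioi
        intro t ht
        have ht0 : (0 : ℝ) < t := ht
        have h2 : Real.exp (-κ * t) ≤ 1 := Real.exp_le_one_iff.2 (by nlinarith)
        have h3 : 0 ≤ b * gg M s r t := mul_nonneg hb (gg_nonneg M s r t)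
        nlinarith
    _ = a * (1 / κ) + b * ∫ t in Ioi (0 : ℝ), gg M s r t := by
        rw [integral_add ((int_exp hκ).const_mul a) ((int_gg hM s r).const_mul b),
          MeasureTheory.integral_const_mul, MeasureTheory.integral_const_mul, integral_exp hκ]
    _ ≤ _ := by
        have := integral_gg_le hM s r
        have := mul_le_mul_of_nonneg_left this hb
        rw [mul_one_div]
        linarith

lemma cont_ww : Continuous fun p : ℝ × ℝ => ww p.1 p.2 := by unfold ww; fun_prop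
lemma cont_ph (σ : ℝ) (mu : ℂ) : Continuous fun p : ℝ × ℝ => ph σ mu p.1 p.2 := by
  unfold ph; fun_prop
lemma cont_BB (σ : ℝ) (mu : ℂ) (M : ℝ) : Continuous fun p : ℝ × ℝ => BB σ mu M p.1 p.2 := by
  have := cont_ww
  unfold BB AA
  fun_prop
lemma cont_K1 (σ : ℝ) {mu : ℂ} {M : ℝ} (hmu : 0 ≤ mu.re) (hM : 0 < M) :
    Continuous fun p : ℝ × ℝ => K1 σ mu M p.1 p.2 := by
  have h1 := cont_ph σ mu
  have h2 := cont_BB σ mu M
  unfold K1
  refine Continuous.div (by fun_prop) h2 fun p => BB_ne hmu hM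
lemma cont_K2 (σ : ℝ) {mu : ℂ} {M : ℝ} (hmu : 0 ≤ mu.re) (hM : 0 < M) :
    Continuous fun p : ℝ × ℝ => K2 σ mu M p.1 p.2 := by
  have h1 := cont_ph σ mu
  have h2 := cont_BB σ mu M
  have h3 := cont_ww
  unfold K2
  refine h1.mul ((Continuous.div (by fun_prop) (h2.pow 2) fun p => pow_ne_zero 2 (BB_ne hmu hM)).add
    (Continuous.div (by fun_prop) h2 fun p => BB_ne hmu hM))

section
variable {σ : ℝ} (hσ : |σ| = 1) {mu : ℂ} {q r : ℝ} (hmu : 0 < mu.re) (hq : 1 ≤ q)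
  (hq4 : q ^ 4 = ‖mu‖)
include hσ hmu hq hq4

lemma int_K2 : IntegrableOn (fun t => K2 σ mu (q ^ 2) r t) (Ioi 0) := by
  have hq0 : 0 < q := by linarith
  have hc : Continuous fun t : ℝ => K2 σ mu (q ^ 2) r t :=
    (cont_K2 σ hmu.le (by positivity)).comp (by fun_prop : Continuous fun t : ℝ => (r, t))
  refine Integrable.mono' (int_env hmu (M := q ^ 2) (by positivity) (σ * mu.im) r (3 / q) (3 * q / 2))
    hc.aestronglyMeasurable ?_
  exact Eventually.of_forall fun t => norm_K2_le hσ hmu.le hq hq4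

lemma int_K1 (hr : 0 ≤ r) : IntegrableOn (fun t => K1 σ mu (q ^ 2) r t * (r : ℂ)) (Ioi 0) := by
  have hq0 : 0 < q := by linarith
  have hc : Continuous fun t : ℝ => K1 σ mu (q ^ 2) r t * (r : ℂ) :=
    ((cont_K1 σ hmu.le (by positivity)).comp (by fun_prop : Continuous fun t : ℝ => (r, t))).mul
      continuous_const
  refine Integrable.mono' (int_env hmu (M := q ^ 2) (by positivity) (σ * mu.im) r (4 / q) (q / 2))
    hc.aestronglyMeasurable ?_
  refine Eventually.of_forall fun t => ?_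
  rw [norm_mul, Complex.norm_real, Real.norm_of_nonneg hr]
  exact norm_K1_le hσ hr hmu.le hq hq4

lemma integral_K2_le {nu : ℝ} (hnu : 1 ≤ nu * mu.re) :
    ∫ t in Ioi (0 : ℝ), ‖K2 σ mu (q ^ 2) r t‖ ≤ (3 * nu + 6) / q := by
  have hq0 : 0 < q := by linarith
  calc _ ≤ ∫ t in Ioi (0 : ℝ), Real.exp (-mu.re * t) *
        (3 / q + 3 * q / 2 * gg (q ^ 2) (σ * mu.im) r t) :=
        setIntegral_mono_on (int_K2 hσ hmu hq hq4).norm
          (int_env hmu (M := q ^ 2) (by positivity) (σ * mu.im) r (3 / q) (3 * q / 2)) measurableSet_Ioi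
          fun t _ => norm_K2_le hσ hmu.le hq hq4
    _ ≤ 3 / q / mu.re + 3 * q / 2 * (4 / q ^ 2) :=
        integral_env_le hmu (by positivity) _ _ (by positivity)
    _ ≤ _ := by
        have h1 : 1 / mu.re ≤ nu := by
          rw [div_le_iff₀ hmu]; exact hnu
        have h2 : 3 / q / mu.re = 3 / q * (1 / mu.re) := by ring
        have h3 : 3 / q * (1 / mu.re) ≤ 3 / q * nu := mul_le_mul_of_nonneg_left h1 (by positivity)
        have h4 : 3 * q / 2 * (4 / q ^ 2) = 6 / q := by field_simp; norm_num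
        rw [h2, h4]
        calc _ ≤ 3 / q * nu + 6 / q := by linarith
          _ = _ := by ring

lemma integral_K1_le (hr : 0 ≤ r) {nu : ℝ} (hnu : 1 ≤ nu * mu.re) :
    ∫ t in Ioi (0 : ℝ), ‖K1 σ mu (q ^ 2) r t‖ * r ≤ (4 * nu + 2) / q := by
  have hq0 : 0 < q := by linarith
  have hi : IntegrableOn (fun t => ‖K1 σ mu (q ^ 2) r t‖ * r) (Ioi 0) := by
    refine (int_K1 hσ hmu hq hq4 hr).norm.congr (Eventually.of_forall fun t => ?_)
    simp only
    rw [norm_mul, Complex.norm_real, Real.norm_of_nonneg hr]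
  calc _ ≤ ∫ t in Ioi (0 : ℝ), Real.exp (-mu.re * t) *
        (4 / q + q / 2 * gg (q ^ 2) (σ * mu.im) r t) :=
        setIntegral_mono_on hi
          (int_env hmu (M := q ^ 2) (by positivity) (σ * mu.im) r (4 / q) (q / 2)) measurableSet_Ioi
          fun t _ => norm_K1_le hσ hr hmu.le hq hq4
    _ ≤ 4 / q / mu.re + q / 2 * (4 / q ^ 2) :=
        integral_env_le hmu (by positivity) _ _ (by positivity)
    _ ≤ _ := by
        have h1 : 1 / mu.re ≤ nu := by
          rw [div_le_iff₀ hmu]; exact hnu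
        have h2 : 4 / q / mu.re = 4 / q * (1 / mu.re) := by ring
        have h3 : 4 / q * (1 / mu.re) ≤ 4 / q * nu := mul_le_mul_of_nonneg_left h1 (by positivity)
        have h4 : q / 2 * (4 / q ^ 2) = 2 / q := by field_simp; norm_num
        rw [h2, h4]
        calc _ ≤ 4 / q * nu + 2 / q := by linarith
          _ = _ := by ring

end

lemma cont_ph1 (σ : ℝ) (mu : ℂ) (r : ℝ) : Continuous (ph σ mu r) := by unfold ph; fun_prop
lemma cont_EE (c : ℝ) : Continuous (EE c) := by unfold EE; fun_prop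

lemma int_phEE (σ : ℝ) {mu : ℂ} (r c : ℝ) (hmu : 0 < mu.re) :
    IntegrableOn (fun t => ph σ mu r t * EE c t) (Ioi 0) := by
  refine Integrable.mono' (int_exp hmu) ((cont_ph1 σ mu r).mul (cont_EE c)).aestronglyMeasurable
    (Eventually.of_forall fun t => ?_)
  rw [norm_mul, norm_ph, norm_EE, mul_one]

lemma hasDerivAt_Psi (σ : ℝ) {mu : ℂ} {M : ℝ} (r c t : ℝ) (hmu : 0 ≤ mu.re) (hM : 0 < M) :
    HasDerivAt (fun t => -(ph σ mu r t * EE c t / BB σ mu M r t))
      (ph σ mu r t * EE c t - (K1 σ mu M r t * (c : ℂ) * EE c t + K2 σ mu M r t * EE c t)) t := by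
  have hB : BB σ mu M r t ≠ 0 := BB_ne hmu hM
  have h := (((hasDerivAt_ph σ mu r t).mul (hasDerivAt_EE c t)).div (hasDerivAt_BB σ mu M r t) hB).neg
  refine h.congr_deriv ?_
  have hA : AA σ mu r t = BB σ mu M r t - M := by unfold BB; ring
  unfold K1 K2
  rw [hA]
  simp only [Pi.mul_apply]
  generalize BB σ mu M r t = B at *
  generalize ph σ mu r t = p at *
  generalize EE c t = e at *
  push_cast
  field_simp
  ring

/-- INTEGRATION BY PARTS -/
lemma ibp {σ : ℝ} (hσ : |σ| = 1) {mu : ℂ} {q r : ℝ} (hmu : 0 < mu.re) (hq : 1 ≤ q)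
    (hq4 : q ^ 4 = ‖mu‖) (hr : 0 ≤ r) {c C : ℝ} (hc : |c| ≤ r * C) :
    ∫ t in Ioi (0 : ℝ), ph σ mu r t * EE c t =
      EE c 0 / BB σ mu (q ^ 2) r 0 +
      ∫ t in Ioi (0 : ℝ), (K1 σ mu (q ^ 2) r t * (c : ℂ) * EE c t + K2 σ mu (q ^ 2) r t * EE c t) := by
  have hq0 : 0 < q := by linarith
  have hM : 0 < q ^ 2 := by positivity
  have i1 : IntegrableOn (fun t => K1 σ mu (q ^ 2) r t * (c : ℂ) * EE c t) (Ioi 0) := by
    have hcont : Continuous fun t : ℝ => K1 σ mu (q ^ 2) r t * (c : ℂ) * EE c t :=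
      (((cont_K1 σ hmu.le hM).comp (by fun_prop : Continuous fun t : ℝ => (r, t))).mul
        continuous_const).mul (cont_EE c)
    refine Integrable.mono' ((int_K1 hσ hmu hq hq4 hr).norm.mul_const C) hcont.aestronglyMeasurable
      (Eventually.of_forall fun t => ?_)
    rw [norm_mul, norm_mul, norm_EE, mul_one, norm_mul, Complex.norm_real, Complex.norm_real,
      Real.norm_of_nonneg hr, Real.norm_eq_abs, mul_assoc]
    exact mul_le_mul_of_nonneg_left hc (norm_nonneg _)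
  have i2 : IntegrableOn (fun t => K2 σ mu (q ^ 2) r t * EE c t) (Ioi 0) := by
    have hcont : Continuous fun t : ℝ => K2 σ mu (q ^ 2) r t * EE c t :=
      ((cont_K2 σ hmu.le hM).comp (by fun_prop : Continuous fun t : ℝ => (r, t))).mul (cont_EE c)
    refine Integrable.mono' (int_K2 (r := r) hσ hmu hq hq4).norm hcont.aestronglyMeasurable
      (Eventually.of_forall fun t => ?_)
    rw [norm_mul, norm_EE, mul_one]
  have i3 := int_phEE σ r c hmu
  have ht : Tendsto (fun t => -(ph σ mu r t * EE c t / BB σ mu (q ^ 2) r t)) atTop (𝓝 0) := by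
    have h0 : Tendsto (fun t : ℝ => Real.exp (-mu.re * t) * (1 / q ^ 2)) atTop (𝓝 (0 * (1 / q ^ 2))) := by
      refine Tendsto.mul_const _ ?_
      refine Real.tendsto_exp_atBot.comp ?_
      exact tendsto_id.const_mul_atTop_of_neg (by linarith)
    rw [zero_mul] at h0
    refine squeeze_zero_norm (fun t => ?_) h0
    rw [norm_neg, norm_div, norm_mul, norm_ph, norm_EE, mul_one, div_eq_mul_one_div]
    exact mul_le_mul_of_nonneg_left (one_div_le_one_div_of_le hM (M_le_BB hmu.le)) (Real.exp_pos _).le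
  have h := integral_Ioi_of_hasDerivAt_of_tendsto' (a := 0)
    (fun t _ => hasDerivAt_Psi σ r c t hmu.le hM) (i3.sub (i1.add i2)) ht
  have e := integral_sub i3 (i1.add i2)
  simp only [Pi.add_apply] at e
  rw [e] at h
  have hp : ph σ mu r 0 = 1 := by
    unfold ph
    simp
  rw [hp, one_mul] at h
  have := sub_eq_iff_eq_add.1 h
  rw [this]
  ring

/-! ### superposition of translates -/

lemma superpose {Ω : Type*} [MeasurableSpace Ω] (ν : Measure Ω) [SFinite ν] {m : Ω → ℂ}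
    (hm : Integrable m ν) {τ : Ω → R12} (hτ : Measurable τ) {w : R12 → ℂ} (hw : Integrable w) :
    ∃ c : R12 → ℂ, Integrable c ∧
      (∀ y, ∫ o, m o * (exp (I * ((inner ℝ (τ o) y : ℝ) : ℂ)) * ft w y) ∂ν = ft c y) ∧
      ∫ ξ, ‖c ξ‖ ≤ (∫ o, ‖m o‖ ∂ν) * ∫ ξ, ‖w ξ‖ := by
  have hmp : MeasurePreserving (fun p : Ω × R12 => (p.1, p.2 - τ p.1))
      (ν.prod (volume : Measure R12)) (ν.prod (volume : Measure R12)) := by
    refine MeasurePreserving.skew_product (f := fun o : Ω => o) (g := fun (o : Ω) (ξ : R12) => ξ - τ o)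
      (MeasurePreserving.id ν) ?_ ?_
    · exact measurable_snd.sub (hτ.comp measurable_fst)
    · exact Eventually.of_forall fun o => (measurePreserving_sub_right volume (τ o)).map_eq
  have hF0 : Integrable (fun p : Ω × R12 => m p.1 * w p.2) (ν.prod volume) := hm.mul_prod hw
  have hF : Integrable (fun p : Ω × R12 => m p.1 * w (p.2 - τ p.1)) (ν.prod volume) :=
    hmp.integrable_comp_of_integrable hF0
  refine ⟨fun ξ => ∫ o, m o * w (ξ - τ o) ∂ν, hF.integral_prod_right, fun y => ?_, ?_⟩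
  · unfold ft
    have hG : Integrable (fun p : Ω × R12 => exp (I * ((inner ℝ p.2 y : ℝ) : ℂ)) *
        (m p.1 * w (p.2 - τ p.1))) (ν.prod volume) := by
      have hms : Measurable (fun p : Ω × R12 => exp (I * ((inner ℝ p.2 y : ℝ) : ℂ))) :=
        (Continuous.measurable (by fun_prop :
          Continuous fun ξ : R12 => exp (I * ((inner ℝ ξ y : ℝ) : ℂ)))).comp measurable_snd
      refine hF.bdd_mul (c := 1) hms.aestronglyMeasurable ?_
      refine Eventually.of_forall fun p => ?_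
      rw [Complex.norm_exp]
      simp
    have h1 := integral_integral_swap (f := fun (o : Ω) (ξ : R12) =>
      exp (I * ((inner ℝ ξ y : ℝ) : ℂ)) * (m o * w (ξ - τ o))) hG
    calc _ = ∫ o, (∫ ξ : R12, exp (I * ((inner ℝ ξ y : ℝ) : ℂ)) * (m o * w (ξ - τ o))) ∂ν := by
          refine integral_congr_ae (Eventually.of_forall fun o => ?_)
          simp only
          rw [← MeasureTheory.integral_const_mul, ← MeasureTheory.integral_const_mul,
            ← integral_sub_right_eq_self _ (τ o)]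
          refine integral_congr_ae (Eventually.of_forall fun ξ => ?_)
          simp only [inner_sub_left]
          have : exp (I * ((inner ℝ ξ y : ℝ) : ℂ)) = exp (I * ((inner ℝ (τ o) y : ℝ) : ℂ)) *
              exp (I * ((inner ℝ ξ y - inner ℝ (τ o) y : ℝ) : ℂ)) := by
            rw [← Complex.exp_add]
            congr 1
            push_cast
            ring
          rw [this]
          ring
      _ = ∫ ξ : R12, (∫ o, exp (I * ((inner ℝ ξ y : ℝ) : ℂ)) * (m o * w (ξ - τ o)) ∂ν) := h1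
      _ = _ := by
          refine integral_congr_ae (Eventually.of_forall fun ξ => ?_)
          simp only
          rw [MeasureTheory.integral_const_mul]
  · calc ∫ ξ : R12, ‖∫ o, m o * w (ξ - τ o) ∂ν‖ ≤ ∫ ξ : R12, (∫ o, ‖m o * w (ξ - τ o)‖ ∂ν) := by
          refine integral_mono_ae hF.integral_prod_right.norm hF.norm.integral_prod_right ?_
          exact Eventually.of_forall fun ξ => norm_integral_le_integral_norm _
      _ = ∫ o, (∫ ξ : R12, ‖m o * w (ξ - τ o)‖) ∂ν := by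
          exact (integral_integral_swap (f := fun (o : Ω) (ξ : R12) => ‖m o * w (ξ - τ o)‖) hF.norm).symm
      _ = ∫ o, (‖m o‖ * ∫ ξ : R12, ‖w ξ‖) ∂ν := by
          refine integral_congr_ae (Eventually.of_forall fun o => ?_)
          simp only [norm_mul]
          rw [MeasureTheory.integral_const_mul, integral_sub_right_eq_self (fun ξ => ‖w ξ‖) (τ o)]
      _ = _ := by rw [MeasureTheory.integral_mul_const]
      _ ≤ _ := le_rfl

/-! ### the smallness estimate for `V R(mu)` -/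

/-- time representation of `f = R(mu) h`, `b` the density of `h` -/
def RepT (σ : ℝ) (mu : ℂ) (b f : R12 → ℂ) : Prop :=
  ∀ y : R12, f y = ∫ η : R12, b η * ∫ t in Ioi (0 : ℝ), ph σ mu ‖η‖ t * EE (inner ℝ η y) t

/-- the measure `dη dt` on `R12 × (0,∞)` -/
noncomputable abbrev nn : Measure (R12 × ℝ) := (volume : Measure R12).prod (volume.restrict (Ioi 0))

lemma prod_bound {b : R12 → ℂ} (hb : Integrable b) {K : R12 → ℝ → ℂ}
    (hK : Continuous fun p : R12 × ℝ => K p.1 p.2) (hi : ∀ η, IntegrableOn (K η) (Ioi 0)) {β : ℝ}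
    (hβ : ∀ η, ∫ t in Ioi (0 : ℝ), ‖K η t‖ ≤ β) :
    Integrable (fun p : R12 × ℝ => b p.1 * K p.1 p.2) nn ∧
      ∫ p, ‖b p.1 * K p.1 p.2‖ ∂nn ≤ β * ∫ η, ‖b η‖ := by
  have hm : AEStronglyMeasurable (fun p : R12 × ℝ => b p.1 * K p.1 p.2) nn :=
    hb.1.comp_fst.mul hK.aestronglyMeasurable
  have e : ∀ η, ∫ t in Ioi (0 : ℝ), ‖b η * K η t‖ = ‖b η‖ * ∫ t in Ioi (0 : ℝ), ‖K η t‖ := by
    intro η
    simp only [norm_mul]
    rw [MeasureTheory.integral_const_mul]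
  have h2 : Integrable (fun η => ∫ t in Ioi (0 : ℝ), ‖b η * K η t‖) := by
    refine Integrable.mono' (hb.norm.const_mul β) hm.norm.integral_prod_right' ?_
    refine Eventually.of_forall fun η => ?_
    rw [e, Real.norm_of_nonneg (mul_nonneg (norm_nonneg _) (integral_nonneg fun _ => norm_nonneg _)),
      mul_comm β]
    exact mul_le_mul_of_nonneg_left (hβ η) (norm_nonneg _)
  have hI : Integrable (fun p : R12 × ℝ => b p.1 * K p.1 p.2) nn := by
    rw [integrable_prod_iff hm]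
    exact ⟨Eventually.of_forall fun η => (hi η).const_mul (b η), h2⟩
  refine ⟨hI, ?_⟩
  rw [integral_prod _ hI.norm, ← MeasureTheory.integral_const_mul]
  refine integral_mono_ae h2 (hb.norm.const_mul β) (Eventually.of_forall fun η => ?_)
  simp only
  rw [e, mul_comm β]
  exact mul_le_mul_of_nonneg_left (hβ η) (norm_nonneg _)

lemma abs_inner_le (η y : R12) : |inner ℝ η y| ≤ ‖η‖ * ‖y‖ := abs_real_inner_le_norm η y

section
variable {σ : ℝ} (hσ : |σ| = 1) {mu : ℂ} {q nu : ℝ} (hmu : 0 < mu.re) (hq : 1 ≤ q)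
  (hq4 : q ^ 4 = ‖mu‖) (hnu : 1 ≤ nu * mu.re) {b : R12 → ℂ} (hb : Integrable b)
include hσ hmu hq hq4 hnu hb

omit hσ hq4 hnu in
lemma T0 {v : R12 → ℂ} (hv : Integrable v) : ∃ c : R12 → ℂ, Integrable c ∧
      (∀ y : R12, ∫ η : R12, (BB σ mu (q ^ 2) ‖η‖ 0)⁻¹ * b η *
        (exp (I * ((inner ℝ η y : ℝ) : ℂ)) * ft v y) = ft c y) ∧
      ∫ ξ, ‖c ξ‖ ≤ (1 / q ^ 2 * ∫ η, ‖b η‖) * ∫ ξ, ‖v ξ‖ := by
  have hq0 : 0 < q := by linarith
  have hM : 0 < q ^ 2 := by positivity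
  have cB0 : Continuous fun η : R12 => BB σ mu (q ^ 2) ‖η‖ 0 := by
    have h := cont_BB σ mu (q ^ 2)
    fun_prop
  have B0ne : ∀ η : R12, BB σ mu (q ^ 2) ‖η‖ 0 ≠ 0 := fun η => BB_ne hmu.le hM
  have hm0 : Integrable (fun η : R12 => (BB σ mu (q ^ 2) ‖η‖ 0)⁻¹ * b η) := by
    refine hb.bdd_mul (c := 1 / q ^ 2) (cB0.inv₀ B0ne).aestronglyMeasurable
      (Eventually.of_forall fun η => ?_)
    rw [norm_inv, ← one_div]
    exact one_div_le_one_div_of_le hM (M_le_BB hmu.le)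
  have hm0' : ∫ η : R12, ‖(BB σ mu (q ^ 2) ‖η‖ 0)⁻¹ * b η‖ ≤ 1 / q ^ 2 * ∫ η, ‖b η‖ := by
    rw [← MeasureTheory.integral_const_mul]
    refine integral_mono_ae hm0.norm (hb.norm.const_mul _) (Eventually.of_forall fun η => ?_)
    simp only
    rw [norm_mul, norm_inv, ← one_div]
    exact mul_le_mul_of_nonneg_right (one_div_le_one_div_of_le hM (M_le_BB hmu.le)) (norm_nonneg _)
  obtain ⟨c0, ic0, fc0, nc0⟩ := superpose volume hm0 measurable_id hv
  exact ⟨c0, ic0, fc0, nc0.trans (mul_le_mul_of_nonneg_right hm0' (integral_nonneg fun _ => norm_nonneg _))⟩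

omit hσ hmu hq hq4 hnu hb in
lemma measurable_tau : Measurable fun p : R12 × ℝ => Real.exp (-p.2 / 2) • p.1 :=
  Continuous.measurable (by fun_prop)

lemma T2 {v : R12 → ℂ} (hv : Integrable v) :
    Integrable (fun p : R12 × ℝ => b p.1 * K2 σ mu (q ^ 2) ‖p.1‖ p.2) nn ∧
    ∃ c : R12 → ℂ, Integrable c ∧
      (∀ y : R12, ∫ p, b p.1 * K2 σ mu (q ^ 2) ‖p.1‖ p.2 *
        (exp (I * ((inner ℝ (Real.exp (-p.2 / 2) • p.1) y : ℝ) : ℂ)) * ft v y) ∂nn = ft c y) ∧
      ∫ ξ, ‖c ξ‖ ≤ ((3 * nu + 6) / q * ∫ η, ‖b η‖) * ∫ ξ, ‖v ξ‖ := by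
  have hq0 : 0 < q := by linarith
  have hM : 0 < q ^ 2 := by positivity
  have hc : Continuous fun p : R12 × ℝ => K2 σ mu (q ^ 2) ‖p.1‖ p.2 := by
    have h := cont_K2 σ hmu.le hM
    fun_prop
  have hK2 := prod_bound hb (K := fun η t => K2 σ mu (q ^ 2) ‖η‖ t) hc
    (fun η => int_K2 hσ hmu hq hq4) (fun η => integral_K2_le hσ hmu hq hq4 hnu)
  obtain ⟨c2, ic2, fc2, nc2⟩ := superpose nn hK2.1 measurable_tau hv
  exact ⟨hK2.1, c2, ic2, fc2, nc2.trans (mul_le_mul_of_nonneg_right hK2.2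
    (integral_nonneg fun _ => norm_nonneg _))⟩

lemma T1 {v : R12 → ℂ} (hv : Integrable v) (i : Fin 12) :
    Integrable (fun p : R12 × ℝ => b p.1 * (K1 σ mu (q ^ 2) ‖p.1‖ p.2 * ((p.1 i : ℝ) : ℂ))) nn ∧
    ∃ c : R12 → ℂ, Integrable c ∧
      (∀ y : R12, ∫ p, b p.1 * (K1 σ mu (q ^ 2) ‖p.1‖ p.2 * ((p.1 i : ℝ) : ℂ)) *
        (exp (I * ((inner ℝ (Real.exp (-p.2 / 2) • p.1) y : ℝ) : ℂ)) * ft v y) ∂nn = ft c y) ∧
      ∫ ξ, ‖c ξ‖ ≤ ((4 * nu + 2) / q * ∫ η, ‖b η‖) * ∫ ξ, ‖v ξ‖ := by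
  have hq0 : 0 < q := by linarith
  have hM : 0 < q ^ 2 := by positivity
  have hle : ∀ (η : R12) (t : ℝ), ‖K1 σ mu (q ^ 2) ‖η‖ t * ((η i : ℝ) : ℂ)‖ ≤
      ‖K1 σ mu (q ^ 2) ‖η‖ t‖ * ‖η‖ := by
    intro η t
    rw [norm_mul, Complex.norm_real]
    exact mul_le_mul_of_nonneg_left (PiLp.norm_apply_le η i) (norm_nonneg _)
  have hc1 : Continuous fun p : R12 × ℝ => K1 σ mu (q ^ 2) ‖p.1‖ p.2 := by
    have h := cont_K1 σ hmu.le hM
    fun_prop
  have hc2 : Continuous fun p : R12 × ℝ => K1 σ mu (q ^ 2) ‖p.1‖ p.2 * ((p.1 i : ℝ) : ℂ) := by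
    fun_prop
  have hint : ∀ η : R12, IntegrableOn (fun t => ‖K1 σ mu (q ^ 2) ‖η‖ t‖ * ‖η‖) (Ioi 0) := by
    intro η
    refine (int_K1 hσ hmu hq hq4 (norm_nonneg η)).norm.congr (Eventually.of_forall fun t => ?_)
    simp only
    rw [norm_mul, Complex.norm_real, norm_norm]
  have hint2 : ∀ η : R12, IntegrableOn (fun t => K1 σ mu (q ^ 2) ‖η‖ t * ((η i : ℝ) : ℂ)) (Ioi 0) := by
    intro η
    have hc3 : Continuous fun t : ℝ => K1 σ mu (q ^ 2) ‖η‖ t * ((η i : ℝ) : ℂ) := by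
      have h := cont_K1 σ hmu.le hM
      fun_prop
    exact Integrable.mono' (hint η) hc3.aestronglyMeasurable (Eventually.of_forall fun t => hle η t)
  have hK1 := prod_bound hb (K := fun η t => K1 σ mu (q ^ 2) ‖η‖ t * ((η i : ℝ) : ℂ)) hc2 hint2
    (β := (4 * nu + 2) / q) (fun η => le_trans
      (setIntegral_mono_on (hint2 η).norm (hint η) measurableSet_Ioi fun t _ => hle η t)
      (integral_K1_le hσ hmu hq hq4 (norm_nonneg η) hnu))
  obtain ⟨c2, ic2, fc2, nc2⟩ := superpose nn hK1.1 measurable_tau hv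
  exact ⟨hK1.1, c2, ic2, fc2, nc2.trans (mul_le_mul_of_nonneg_right hK1.2
    (integral_nonneg fun _ => norm_nonneg _))⟩

end

lemma int_ch {a : R12 → ℂ} (ha : Integrable a) (y : R12) :
    Integrable (fun ξ : R12 => exp (I * ((inner ℝ ξ y : ℝ) : ℂ)) * a ξ) := by
  refine ha.bdd_mul (c := 1) (Continuous.aestronglyMeasurable (by fun_prop))
    (Eventually.of_forall fun ξ => ?_)
  rw [Complex.norm_exp]
  simp

lemma ft_add' {a b : R12 → ℂ} (ha : Integrable a) (hb : Integrable b) (y : R12) :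
    ft (fun ξ => a ξ + b ξ) y = ft a y + ft b y := by
  unfold ft
  rw [← integral_add (int_ch ha y) (int_ch hb y)]
  refine integral_congr_ae (Eventually.of_forall fun ξ => ?_)
  simp only
  ring


lemma ft_sum' {ι : Type*} (s : Finset ι) {a : ι → R12 → ℂ} (ha : ∀ i ∈ s, Integrable (a i)) (y : R12) :
    ft (fun ξ => ∑ i ∈ s, a i ξ) y = ∑ i ∈ s, ft (a i) y := by
  unfold ft
  rw [← integral_finsetSum s (fun i hi => int_ch (ha i hi) y)]
  refine integral_congr_ae (Eventually.of_forall fun ξ => ?_)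
  simp only
  rw [Finset.mul_sum]

lemma int_bdd_exp {m : R12 × ℝ → ℂ} (hm : Integrable m nn) (y : R12) (k : ℂ) :
    Integrable (fun p : R12 × ℝ => m p *
      (exp (I * ((inner ℝ (Real.exp (-p.2 / 2) • p.1) y : ℝ) : ℂ)) * k)) nn := by
  have h1 : Integrable (fun p : R12 × ℝ =>
      exp (I * ((inner ℝ (Real.exp (-p.2 / 2) • p.1) y : ℝ) : ℂ)) * m p) nn := by
    refine hm.bdd_mul (c := 1) (Continuous.aestronglyMeasurable (by fun_prop))
      (Eventually.of_forall fun p => ?_)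
    rw [Complex.norm_exp]
    simp
  refine (h1.mul_const k).congr (Eventually.of_forall fun p => ?_)
  simp only
  ring

/-- pointwise (in `η`) identity -/
lemma est_id {σ : ℝ} (hσ : |σ| = 1) {mu : ℂ} {q : ℝ} (hmu : 0 < mu.re) (hq : 1 ≤ q)
    (hq4 : q ^ 4 = ‖mu‖) (β V : ℂ) (W : Fin 12 → ℂ) (η y : R12)
    (hW : ∀ i, ((y i : ℝ) : ℂ) * V = W i) :
    V * (β * ∫ t in Ioi (0 : ℝ), ph σ mu ‖η‖ t * EE (inner ℝ η y) t) =
      (BB σ mu (q ^ 2) ‖η‖ 0)⁻¹ * β * (exp (I * ((inner ℝ η y : ℝ) : ℂ)) * V) +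
      ∫ t in Ioi (0 : ℝ), ((∑ i, β * (K1 σ mu (q ^ 2) ‖η‖ t * ((η i : ℝ) : ℂ)) *
          (exp (I * ((inner ℝ (Real.exp (-t / 2) • η) y : ℝ) : ℂ)) * W i)) +
        β * K2 σ mu (q ^ 2) ‖η‖ t * (exp (I * ((inner ℝ (Real.exp (-t / 2) • η) y : ℝ) : ℂ)) * V)) := by
  rw [ibp hσ hmu hq hq4 (norm_nonneg η) (abs_inner_le η y)]
  have e0 : EE (inner ℝ η y) 0 = exp (I * ((inner ℝ η y : ℝ) : ℂ)) := by
    unfold EE
    simp
  have e1 : ∀ t : ℝ, exp (I * ((inner ℝ (Real.exp (-t / 2) • η) y : ℝ) : ℂ)) = EE (inner ℝ η y) t := by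
    intro t
    unfold EE
    rw [real_inner_smul_left]
  have e2 : ((inner ℝ η y : ℝ) : ℂ) = ∑ i, ((η i : ℝ) : ℂ) * ((y i : ℝ) : ℂ) := by
    rw [PiLp.inner_apply]
    push_cast
    refine Finset.sum_congr rfl fun i _ => ?_
    simp [mul_comm]
  rw [e0, mul_add, mul_add, ← MeasureTheory.integral_const_mul, ← MeasureTheory.integral_const_mul]
  congr 1
  · ring
  · refine integral_congr_ae (Eventually.of_forall fun t => ?_)
    simp only [e1]
    rw [mul_add, mul_add]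
    congr 1
    · rw [e2]
      simp only [← hW]
      rw [Finset.mul_sum, Finset.sum_mul, Finset.mul_sum, Finset.mul_sum]
      refine Finset.sum_congr rfl fun i _ => ?_
      ring
    · ring

theorem est {σ : ℝ} (hσ : |σ| = 1) {mu : ℂ} {q nu : ℝ} (hmu : 0 < mu.re) (hq : 1 ≤ q)
    (hq4 : q ^ 4 = ‖mu‖) (hnu : 1 ≤ nu * mu.re) {b f : R12 → ℂ} (hb : Integrable b)
    (hf : RepT σ mu b f) {V v : R12 → ℂ} {w : Fin 12 → R12 → ℂ} (hv : Integrable v)
    (hw : ∀ i, Integrable (w i)) (hV : ∀ y, V y = ft v y)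
    (hW : ∀ i, ∀ y : R12, ((y i : ℝ) : ℂ) * V y = ft (w i) y) :
    ∃ c : R12 → ℂ, Integrable c ∧ (∀ y, V y * f y = ft c y) ∧
      ∫ ξ, ‖c ξ‖ ≤ (∫ ξ, ‖b ξ‖) * ((1 / q ^ 2 + (3 * nu + 6) / q) * (∫ ξ, ‖v ξ‖) +
        (4 * nu + 2) / q * ∑ i, ∫ ξ, ‖w i ξ‖) := by
  obtain ⟨c0, ic0, fc0, nc0⟩ := T0 (σ := σ) hmu hq hb hv
  obtain ⟨i2, c2, ic2, fc2, nc2⟩ := T2 hσ hmu hq hq4 hnu hb hv
  have hT1 := fun i => T1 hσ hmu hq hq4 hnu hb (hw i) i
  have i1 := fun i => (hT1 i).1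
  choose c1 ic1 fc1 nc1 using fun i => (hT1 i).2
  have isum : Integrable (fun ξ => ∑ i, c1 i ξ) := integrable_finsetSum _ fun i _ => ic1 i
  have i12 : Integrable (fun ξ => ∑ i, c1 i ξ + c2 ξ) := isum.add ic2
  have i012 : Integrable (fun ξ => c0 ξ + (∑ i, c1 i ξ + c2 ξ)) := ic0.add i12
  refine ⟨fun ξ => c0 ξ + (∑ i, c1 i ξ + c2 ξ), i012, fun y => ?_, ?_⟩
  · rw [ft_add' ic0 i12, ft_add' isum ic2, ft_sum' _ (fun i _ => ic1 i), ← fc0 y, ← fc2 y]
    simp only [← fc1 _ y]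
    have j1 : ∀ i, Integrable (fun p : R12 × ℝ => b p.1 * (K1 σ mu (q ^ 2) ‖p.1‖ p.2 * ((p.1 i : ℝ) : ℂ)) *
        (exp (I * ((inner ℝ (Real.exp (-p.2 / 2) • p.1) y : ℝ) : ℂ)) * ft (w i) y)) nn :=
      fun i => int_bdd_exp (i1 i) y _
    have j2 : Integrable (fun p : R12 × ℝ => b p.1 * K2 σ mu (q ^ 2) ‖p.1‖ p.2 *
        (exp (I * ((inner ℝ (Real.exp (-p.2 / 2) • p.1) y : ℝ) : ℂ)) * ft v y)) nn :=
      int_bdd_exp i2 y _
    have j3 : Integrable (fun p : R12 × ℝ => ∑ i, b p.1 * (K1 σ mu (q ^ 2) ‖p.1‖ p.2 * ((p.1 i : ℝ) : ℂ)) *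
        (exp (I * ((inner ℝ (Real.exp (-p.2 / 2) • p.1) y : ℝ) : ℂ)) * ft (w i) y)) nn :=
      integrable_finsetSum _ fun i _ => j1 i
    have j0 : Integrable (fun η : R12 => (BB σ mu (q ^ 2) ‖η‖ 0)⁻¹ * b η *
        (exp (I * ((inner ℝ η y : ℝ) : ℂ)) * ft v y)) := by
      have hM : 0 < q ^ 2 := by positivity
      have cB0 : Continuous fun η : R12 => (BB σ mu (q ^ 2) ‖η‖ 0)⁻¹ *
          exp (I * ((inner ℝ η y : ℝ) : ℂ)) := by
        have h := cont_BB σ mu (q ^ 2)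
        refine Continuous.mul (Continuous.inv₀ (by fun_prop) fun η => BB_ne hmu.le hM) (by fun_prop)
      have h1 : Integrable (fun η : R12 => ((BB σ mu (q ^ 2) ‖η‖ 0)⁻¹ *
          exp (I * ((inner ℝ η y : ℝ) : ℂ))) * b η) := by
        refine hb.bdd_mul (c := 1 / q ^ 2) cB0.aestronglyMeasurable (Eventually.of_forall fun η => ?_)
        rw [norm_mul, norm_inv, ← one_div]
        have : ‖exp (I * ((inner ℝ η y : ℝ) : ℂ))‖ = 1 := by
          rw [Complex.norm_exp]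
          simp
        rw [this, mul_one]
        exact one_div_le_one_div_of_le hM (M_le_BB hmu.le)
      refine (h1.mul_const (ft v y)).congr (Eventually.of_forall fun η => ?_)
      simp only
      ring
    have j32 : Integrable (fun p : R12 × ℝ => (∑ i, b p.1 * (K1 σ mu (q ^ 2) ‖p.1‖ p.2 * ((p.1 i : ℝ) : ℂ)) *
        (exp (I * ((inner ℝ (Real.exp (-p.2 / 2) • p.1) y : ℝ) : ℂ)) * ft (w i) y)) +
        b p.1 * K2 σ mu (q ^ 2) ‖p.1‖ p.2 *
        (exp (I * ((inner ℝ (Real.exp (-p.2 / 2) • p.1) y : ℝ) : ℂ)) * ft v y)) nn := j3.add j2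
    rw [← integral_finsetSum _ (fun i _ => j1 i), ← integral_add j3 j2]
    rw [integral_prod _ j32, hf y, ← MeasureTheory.integral_const_mul]
    have j4 := j32.integral_prod_left
    rw [← integral_add j0 j4]
    refine integral_congr_ae (Eventually.of_forall fun η => ?_)
    have := est_id hσ hmu hq hq4 (b η) (V y) (fun i => ft (w i) y) η y (fun i => hW i y)
    simp only [Pi.add_apply]
    rw [this, hV y]
  · have hb0 : 0 ≤ ∫ η, ‖b η‖ := integral_nonneg fun _ => norm_nonneg _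
    calc ∫ ξ, ‖c0 ξ + (∑ i, c1 i ξ + c2 ξ)‖ ≤ ∫ ξ, (‖c0 ξ‖ + (∑ i, ‖c1 i ξ‖ + ‖c2 ξ‖)) := by
          refine integral_mono_ae i012.norm (ic0.norm.add
            ((integrable_finsetSum _ fun i _ => (ic1 i).norm).add ic2.norm))
            (Eventually.of_forall fun ξ => ?_)
          simp only
          refine (norm_add_le _ _).trans (add_le_add le_rfl ((norm_add_le _ _).trans
            (add_le_add (norm_sum_le _ _) le_rfl)))
      _ = (∫ ξ, ‖c0 ξ‖) + ((∑ i, ∫ ξ, ‖c1 i ξ‖) + ∫ ξ, ‖c2 ξ‖) := by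
          have k1 : Integrable (fun ξ => ∑ i, ‖c1 i ξ‖) := integrable_finsetSum _ fun i _ => (ic1 i).norm
          have k2 : Integrable (fun ξ => ∑ i, ‖c1 i ξ‖ + ‖c2 ξ‖) := k1.add ic2.norm
          rw [integral_add ic0.norm k2, integral_add k1 ic2.norm,
            integral_finsetSum _ (fun i _ => (ic1 i).norm)]
      _ ≤ (1 / q ^ 2 * ∫ η, ‖b η‖) * (∫ ξ, ‖v ξ‖) +
          (∑ i, ((4 * nu + 2) / q * ∫ η, ‖b η‖) * (∫ ξ, ‖w i ξ‖) +
            ((3 * nu + 6) / q * ∫ η, ‖b η‖) * ∫ ξ, ‖v ξ‖) :=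
          add_le_add nc0 (add_le_add (Finset.sum_le_sum fun i _ => nc1 i) nc2)
      _ = _ := by
          rw [← Finset.mul_sum]
          ring

end Crest.Agent.R086.CHF
end

-- ▼ part R086/CHF2
section

/-!
Row 86, Part C, regime (R1) (helper590), second file: no eigenpair with `|lam| ≥ (1000 n B)^4`.
Input: `RepStmt` (time representation of the resolvent, 246/470).
-/

set_option autoImplicit false

open MeasureTheory Complex Set Filter
open scoped ContDiff Topology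

namespace Crest.Agent.R086.CHF

open Crest.Agent.R086 Crest.Agent.R086.CReg

/-- time representation of the resolvent -/
def RepStmt : Prop := ∀ σ : ℝ, |σ| = 1 → ∀ mu : ℂ, 0 < mu.re → ∀ f h a b : R12 → ℂ,
  Rep 2 a f → Rep 2 b h →
  (∀ y, (σ : ℂ) * I * lap f y - (1 / 2) * eul f y - mu * f y = - h y) → RepT σ mu b f

lemma xn_zero (a : R12 → ℂ) : xn 0 a = ∫ ξ, ‖a ξ‖ := by
  unfold xn
  simp

theorem est3 {σ : ℝ} (hσ : |σ| = 1) {mu : ℂ} {Q nu B : ℝ} (hmu : 0 < mu.re) (hQ : 1 ≤ Q)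
    (hQ4 : Q ^ 4 ≤ ‖mu‖) (hnu0 : 0 ≤ nu) (hnu : 1 ≤ nu * mu.re) {b f : R12 → ℂ} (hb : Integrable b)
    (hf : RepT σ mu b f) {V : R12 → ℂ} (hV : XBd 0 V B)
    (hW : ∀ i : Fin 12, XBd 0 (fun y => ((y i : ℝ) : ℂ) * V y) B) :
    XBd 0 (fun y => V y * f y) (((4 * nu + 7) / Q * (13 * B)) * xn 0 b) := by
  set q : ℝ := Real.sqrt (Real.sqrt ‖mu‖) with hqdef
  have hq4 : q ^ 4 = ‖mu‖ := by
    have : q ^ 4 = (q ^ 2) ^ 2 := by ring
    rw [this, hqdef, Real.sq_sqrt (Real.sqrt_nonneg _), Real.sq_sqrt (norm_nonneg _)]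
  have hq0' : 0 ≤ q := Real.sqrt_nonneg _
  have hQq : Q ≤ q := by
    rw [← hq4] at hQ4
    exact le_of_pow_le_pow_left₀ (by norm_num) hq0' hQ4
  have hq : 1 ≤ q := hQ.trans hQq
  have hq0 : 0 < q := by linarith
  have hQ0 : 0 < Q := by linarith
  obtain ⟨v, hv, hvB⟩ := hV
  choose w hw hwB using hW
  obtain ⟨c, ic, fc, nc⟩ := est hσ hmu hq hq4 hnu hb hf (XA.integrable_of hv)
    (fun i => XA.integrable_of (hw i)) (fun y => hv.2 y) (fun i y => (hw i).2 y)
  refine ⟨c, ⟨by simpa using ic, fun y => fc y⟩, ?_⟩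
  have hvB' : ∫ ξ, ‖v ξ‖ ≤ B := by simpa using hvB
  have hwB' : ∀ i, ∫ ξ, ‖w i ξ‖ ≤ B := fun i => by simpa using hwB i
  have hB0 : 0 ≤ B := (integral_nonneg fun _ => norm_nonneg _).trans hvB'
  have hsum : ∑ i, ∫ ξ, ‖w i ξ‖ ≤ 12 * B := by
    calc _ ≤ ∑ _i : Fin 12, B := Finset.sum_le_sum fun i _ => hwB' i
      _ = 12 * B := by simp
  have hb0 : 0 ≤ ∫ ξ, ‖b ξ‖ := integral_nonneg fun _ => norm_nonneg _
  rw [xn_zero]
  have h1 : 1 / q ^ 2 + (3 * nu + 6) / q ≤ (4 * nu + 7) / Q := by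
    have h2 : 1 / q ^ 2 ≤ 1 / q := one_div_le_one_div_of_le hq0 (by nlinarith)
    have h3 : 1 / q + (3 * nu + 6) / q = (3 * nu + 7) / q := by ring
    have h4 : (3 * nu + 7) / q ≤ (4 * nu + 7) / q := div_le_div_of_nonneg_right (by linarith) hq0.le
    have h5 : (4 * nu + 7) / q ≤ (4 * nu + 7) / Q :=
      div_le_div_of_nonneg_left (by linarith) hQ0 hQq
    linarith
  have h6 : (4 * nu + 2) / q ≤ (4 * nu + 7) / Q := by
    have h4 : (4 * nu + 2) / q ≤ (4 * nu + 7) / q := div_le_div_of_nonneg_right (by linarith) hq0.le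
    have h5 : (4 * nu + 7) / q ≤ (4 * nu + 7) / Q :=
      div_le_div_of_nonneg_left (by linarith) hQ0 hQq
    linarith
  have h7 : 0 ≤ (4 * nu + 7) / Q := by positivity
  have h8 : (1 / q ^ 2 + (3 * nu + 6) / q) * (∫ ξ, ‖v ξ‖) ≤ (4 * nu + 7) / Q * B :=
    mul_le_mul h1 hvB' (integral_nonneg fun _ => norm_nonneg _) h7
  have h9 : (4 * nu + 2) / q * ∑ i, ∫ ξ, ‖w i ξ‖ ≤ (4 * nu + 7) / Q * (12 * B) :=
    mul_le_mul h6 hsum (Finset.sum_nonneg fun i _ => integral_nonneg fun _ => norm_nonneg _) h7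
  calc ∫ ξ, (1 + ‖ξ‖) ^ 0 * ‖c ξ‖ = ∫ ξ, ‖c ξ‖ := by simp
    _ ≤ _ := nc
    _ ≤ (∫ ξ, ‖b ξ‖) * ((4 * nu + 7) / Q * B + (4 * nu + 7) / Q * (12 * B)) :=
        mul_le_mul_of_nonneg_left (by linarith) hb0
    _ = _ := by ring

lemma zero_of_xn {σ : ℝ} {mu : ℂ} {b f : R12 → ℂ} (hb : Integrable b) (hf : RepT σ mu b f)
    (h0 : xn 0 b = 0) (y : R12) : f y = 0 := by
  rw [xn_zero] at h0
  have h1 : (fun ξ => ‖b ξ‖) =ᵐ[volume] 0 :=
    (integral_eq_zero_iff_of_nonneg (fun _ => norm_nonneg _) hb.norm).1 h0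
  rw [hf y]
  rw [integral_eq_zero_of_ae]
  filter_upwards [h1] with ξ hξ
  have : b ξ = 0 := norm_eq_zero.1 hξ
  rw [this, zero_mul]
  rfl

/-- **(R1)**: no eigenpair with `|lam| ≥ (1000 n B)^4`. -/
theorem hf (hRep : RepStmt) {n : ℕ} (P : Profile n) {B : ℝ} (hB : 1 ≤ B)
    (hV1 : XBd 0 P.V1 B) (hV2 : XBd 0 P.V2 B) (hV3 : XBd 0 P.V2c B)
    (hW1 : ∀ i : Fin 12, XBd 0 (fun y => ((y i : ℝ) : ℂ) * P.V1 y) B)
    (hW2 : ∀ i : Fin 12, XBd 0 (fun y => ((y i : ℝ) : ℂ) * P.V2 y) B)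
    (hW3 : ∀ i : Fin 12, XBd 0 (fun y => ((y i : ℝ) : ℂ) * P.V2c y) B)
    (hX1 : InX 2 P.V1) (hX2 : InX 2 P.V2) (hX3 : InX 2 P.V2c) (hom : |P.om| ≤ 1)
    {lam : ℂ} (hre : 0 ≤ lam.re) (hbig : (1000 * n * B) ^ 4 ≤ ‖lam‖) {f g : R12 → ℂ}
    (hf : InX 2 f) (hg : InX 2 g) (e1 : ∀ y, P.gen1 f g y = lam * f y)
    (e2 : ∀ y, P.gen2 f g y = lam * g y) : (∀ y, f y = 0) ∧ ∀ y, g y = 0 := by
  have hn2 : (2 : ℝ) ≤ n := by exact_mod_cast P.two_le
  have hn0 : (0 : ℝ) < n := by linarith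
  have hnC : (n : ℂ) ≠ 0 := by exact_mod_cast hn0.ne'
  obtain ⟨b1, hb1⟩ := XA.inX_const_mul (-I) (XA.inX_add (XA.inX_mul hX1 hf) (XA.inX_mul hX2 hg))
  obtain ⟨b2, hb2⟩ := XA.inX_const_mul I (XA.inX_add (XA.inX_mul hX1 hg) (XA.inX_mul hX3 hf))
  obtain ⟨a1, ha1⟩ := hf
  obtain ⟨a2, ha2⟩ := hg
  set mu1 : ℂ := lam + 1 / n - I * P.om with hmu1
  set mu2 : ℂ := lam + 1 / n + I * P.om with hmu2
  have hinv : ((1 : ℂ) / n).re = 1 / (n : ℝ) := by
    have : ((1 : ℂ) / n) = ((1 / (n : ℝ) : ℝ) : ℂ) := by push_cast; ring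
    rw [this, Complex.ofReal_re]
  have hre1 : mu1.re = lam.re + 1 / n := by
    rw [hmu1, Complex.sub_re, Complex.add_re, hinv]
    simp
  have hre2 : mu2.re = lam.re + 1 / n := by
    rw [hmu2, Complex.add_re, Complex.add_re, hinv]
    simp
  have hp1 : 0 < mu1.re := by rw [hre1]; positivity
  have hp2 : 0 < mu2.re := by rw [hre2]; positivity
  have hnu1 : 1 ≤ (n : ℝ) * mu1.re := by
    rw [hre1, mul_add, mul_one_div_cancel hn0.ne']
    nlinarith
  have hnu2 : 1 ≤ (n : ℝ) * mu2.re := by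
    rw [hre2, mul_add, mul_one_div_cancel hn0.ne']
    nlinarith
  have r1 : RepT 1 mu1 b1 f := by
    refine hRep 1 (by norm_num) mu1 hp1 f _ a1 b1 ha1 hb1 fun y => ?_
    have := e1 y
    unfold Profile.gen1 at this
    simp only [Complex.ofReal_one]
    rw [hmu1]
    linear_combination this
  have r2 : RepT (-1) mu2 b2 g := by
    refine hRep (-1) (by norm_num) mu2 hp2 g _ a2 b2 ha2 hb2 fun y => ?_
    have := e2 y
    unfold Profile.gen2 at this
    simp only [Complex.ofReal_neg, Complex.ofReal_one]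
    rw [hmu2]
    linear_combination this
  -- the size of mu
  set Q : ℝ := 500 * n * B with hQdef
  have hnB : 1 ≤ n * B := by nlinarith
  have hQ1 : 1 ≤ Q := by rw [hQdef]; nlinarith
  have hQ4 : Q ^ 4 + 2 ≤ ‖lam‖ := by
    have : (1000 * n * B) ^ 4 = 16 * Q ^ 4 := by rw [hQdef]; ring
    rw [this] at hbig
    have h1 : 1 ≤ Q ^ 4 := one_le_pow₀ hQ1
    linarith
  have hsmall : ‖(1 : ℂ) / n‖ ≤ 1 := by
    rw [norm_div, norm_one, Complex.norm_natCast, div_le_one hn0]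
    linarith
  have hIom : ‖I * (P.om : ℂ)‖ ≤ 1 := by
    rw [norm_mul, Complex.norm_I, one_mul, Complex.norm_real]
    exact hom
  have hq1 : Q ^ 4 ≤ ‖mu1‖ := by
    have : lam = mu1 - 1 / n + I * P.om := by rw [hmu1]; ring
    have h2 : ‖lam‖ ≤ ‖mu1‖ + 1 + 1 := by
      calc ‖lam‖ = ‖mu1 - 1 / n + I * P.om‖ := by rw [← this]
        _ ≤ ‖mu1 - 1 / n‖ + ‖I * (P.om : ℂ)‖ := norm_add_le _ _
        _ ≤ ‖mu1‖ + ‖(1 : ℂ) / n‖ + ‖I * (P.om : ℂ)‖ := add_le_add (norm_sub_le _ _) le_rfl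
        _ ≤ _ := by linarith
    linarith
  have hq2 : Q ^ 4 ≤ ‖mu2‖ := by
    have : lam = mu2 - 1 / n - I * P.om := by rw [hmu2]; ring
    have h2 : ‖lam‖ ≤ ‖mu2‖ + 1 + 1 := by
      calc ‖lam‖ = ‖mu2 - 1 / n - I * P.om‖ := by rw [← this]
        _ ≤ ‖mu2 - 1 / n‖ + ‖I * (P.om : ℂ)‖ := norm_sub_le _ _
        _ ≤ ‖mu2‖ + ‖(1 : ℂ) / n‖ + ‖I * (P.om : ℂ)‖ := add_le_add (norm_sub_le _ _) le_rfl
        _ ≤ _ := by linarith
    linarith
  set δ : ℝ := (4 * n + 7) / Q * (13 * B) with hδ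
  have hδ1 : δ ≤ 1 / 4 := by
    have hQ0 : 0 < Q := by linarith
    rw [hδ, div_mul_eq_mul_div, div_le_iff₀ hQ0, hQdef]
    nlinarith
  have ib1 : Integrable b1 := XA.integrable_of hb1
  have ib2 : Integrable b2 := XA.integrable_of hb2
  have k1 := est3 (σ := 1) (by norm_num) hp1 hQ1 hq1 hn0.le hnu1 ib1 r1 hV1 hW1
  have k2 := est3 (σ := -1) (by norm_num) hp2 hQ1 hq2 hn0.le hnu2 ib2 r2 hV2 hW2
  have k3 := est3 (σ := -1) (by norm_num) hp2 hQ1 hq2 hn0.le hnu2 ib2 r2 hV1 hW1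
  have k4 := est3 (σ := 1) (by norm_num) hp1 hQ1 hq1 hn0.le hnu1 ib1 r1 hV3 hW3
  rw [← hδ] at k1 k2 k3 k4
  have m1 : xn 0 b1 ≤ δ * xn 0 b1 + δ * xn 0 b2 := by
    have := XA.xbd_any (XA.xbd_const_mul (-I) (XA.xbd_add k1 k2)) hb1
    simpa using this
  have m2 : xn 0 b2 ≤ δ * xn 0 b2 + δ * xn 0 b1 := by
    have := XA.xbd_any (XA.xbd_const_mul I (XA.xbd_add k3 k4)) hb2
    simpa using this
  have p1 := XA.xn_nonneg 0 b1
  have p2 := XA.xn_nonneg 0 b2
  have z1 : xn 0 b1 = 0 := by nlinarith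
  have z2 : xn 0 b2 = 0 := by nlinarith
  exact ⟨zero_of_xn ib1 r1 z1, zero_of_xn ib2 r2 z2⟩

end Crest.Agent.R086.CHF
end

-- ▼ part R086/RepT
section

/-!
Row 86, node RepT (helper246): the representation
`f y = ∫ η, b η * ∫ t>0, e^{-μ t - i sg |η|²(1-e^{-t})} e^{i e^{-t/2} ⟨η,y⟩}`
of a solution `f = ft a` of `sg i Δ f - ½ y·∇ f - μ f = - ft b` (`Re μ > 0`); contains the uniqueness
of the resolvent equation.
-/

set_option autoImplicit false

open MeasureTheory Complex Set Filter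
open scoped ContDiff Topology

namespace Crest.Agent.R086.RepT

open Crest.Agent.R086.Res (ch norm_ch continuous_ch_left continuous_ch)

theorem finrank_R12 : Module.finrank ℝ R12 = 12 := by simp [R12]

/-- scaled density -/
noncomputable def Ds (σ : ℝ) (c : R12 → ℂ) (ξ : R12) : ℂ :=
  ((Real.exp (-(12 * σ)) : ℝ) : ℂ) * c (Real.exp (-σ) • ξ)

theorem qmp_exp (ν : Measure ℝ) [SFinite ν] :
    Measure.QuasiMeasurePreserving (fun p : ℝ × R12 => Real.exp (-p.1) • p.2)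
      (ν.prod (volume : Measure R12)) (volume : Measure R12) := by
  have hm : Measurable (fun p : ℝ × R12 => Real.exp (-p.1) • p.2) := by fun_prop
  refine ⟨hm, Measure.AbsolutelyContinuous.mk fun A hA h0 => ?_⟩
  rw [Measure.map_apply hm hA, Measure.measure_prod_null (hm hA)]
  refine Eventually.of_forall fun s => ?_
  have hs0 : Real.exp (-s) ≠ 0 := (Real.exp_pos _).ne'
  have h1 : (Prod.mk s ⁻¹' ((fun p : ℝ × R12 => Real.exp (-p.1) • p.2) ⁻¹' A))
      = (fun ξ : R12 => Real.exp (-s) • ξ) ⁻¹' A := rfl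
  simp only [h1, Pi.zero_apply]
  rw [Measure.addHaar_preimage_smul _ hs0, h0, mul_zero]

theorem integrable_Ds {c : R12 → ℂ} (hc : Integrable c) (σ : ℝ) : Integrable (Ds σ c) := by
  unfold Ds
  exact (Integrable.comp_smul (μ := (volume : Measure R12)) hc (Real.exp_pos (-σ)).ne').const_mul _

theorem exp_aux (σ : ℝ) : ((Real.exp (-σ) ^ 12)⁻¹ : ℝ) * Real.exp (-(12 * σ)) = 1 := by
  have h1 : Real.exp (-σ) ^ 12 = Real.exp (-(12 * σ)) := by
    rw [← Real.exp_nat_mul]; congr 1; push_cast; ring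
  rw [h1]
  exact inv_mul_cancel₀ (Real.exp_pos _).ne'

theorem integral_Ds_mul (c φ : R12 → ℂ) (σ : ℝ) :
    ∫ ξ, Ds σ c ξ * φ ξ = ∫ ξ, c ξ * φ (Real.exp σ • ξ) := by
  have h := Measure.integral_comp_smul_of_nonneg (volume : Measure R12)
    (fun η => ((Real.exp (-(12 * σ)) : ℝ) : ℂ) * (c η * φ (Real.exp σ • η))) (Real.exp (-σ))
    (hR := (Real.exp_pos _).le)
  rw [finrank_R12] at h
  have h1 : ∀ ξ : R12, Real.exp σ • (Real.exp (-σ) • ξ) = ξ := fun ξ => by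
    rw [smul_smul, ← Real.exp_add]; simp
  simp only [h1] at h
  calc ∫ ξ, Ds σ c ξ * φ ξ
      = ∫ ξ, ((Real.exp (-(12 * σ)) : ℝ) : ℂ) * (c (Real.exp (-σ) • ξ) * φ ξ) := by
        refine integral_congr_ae (Eventually.of_forall fun ξ => ?_)
        simp only [Ds]; ring
    _ = _ := by
        rw [h, integral_const_mul, real_smul, ← mul_assoc, ← ofReal_mul, exp_aux, ofReal_one,
          one_mul]

theorem integral_norm_Ds (c : R12 → ℂ) (σ : ℝ) : ∫ ξ, ‖Ds σ c ξ‖ = ∫ ξ, ‖c ξ‖ := by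
  have h := Measure.integral_comp_smul_of_nonneg (volume : Measure R12)
    (fun η => ‖((Real.exp (-(12 * σ)) : ℝ) : ℂ) * c η‖) (Real.exp (-σ))
    (hR := (Real.exp_pos _).le)
  rw [finrank_R12] at h
  unfold Ds
  rw [h]
  simp only [norm_mul, norm_real, Real.norm_of_nonneg (Real.exp_pos _).le]
  rw [integral_const_mul, smul_eq_mul, ← mul_assoc, exp_aux, one_mul]

theorem aesm_Ds {c : R12 → ℂ} (hc : Integrable c) (ν : Measure ℝ) [SFinite ν] :
    AEStronglyMeasurable (fun p : ℝ × R12 => Ds p.1 c p.2) (ν.prod volume) := by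
  have h1 : AEStronglyMeasurable (fun p : ℝ × R12 => c (Real.exp (-p.1) • p.2)) (ν.prod volume) :=
    hc.1.comp_quasiMeasurePreserving (qmp_exp ν)
  have h2 : Continuous fun p : ℝ × R12 => ((Real.exp (-(12 * p.1)) : ℝ) : ℂ) := by fun_prop
  exact h2.aestronglyMeasurable.mul h1

theorem integrable_joint {c : R12 → ℂ} (hc : Integrable c) (ν : Measure ℝ) [IsFiniteMeasure ν] :
    Integrable (fun p : ℝ × R12 => Ds p.1 c p.2) (ν.prod volume) := by
  have hm := aesm_Ds hc ν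
  rw [integrable_prod_iff hm]
  refine ⟨Eventually.of_forall fun σ => integrable_Ds hc σ, ?_⟩
  simp only [integral_norm_Ds]
  exact integrable_const _

theorem integrable_joint_mul {c φ : R12 → ℂ} (hc : Integrable c) (hφ : Continuous φ)
    (hb : ∀ ξ, ‖φ ξ‖ ≤ 1) (ν : Measure ℝ) [IsFiniteMeasure ν] :
    Integrable (fun p : ℝ × R12 => Ds p.1 c p.2 * φ p.2) (ν.prod volume) := by
  have hj := integrable_joint hc ν
  refine hj.mono (hj.1.mul (hφ.comp continuous_snd).aestronglyMeasurable)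
    (Eventually.of_forall fun p => ?_)
  rw [norm_mul]
  exact mul_le_of_le_one_right (norm_nonneg _) (hb _)

theorem integrable_mul_bdd {c φ : R12 → ℂ} (hc : Integrable c) (hφ : Continuous φ)
    (hb : ∀ ξ, ‖φ ξ‖ ≤ 1) : Integrable fun ξ => c ξ * φ ξ := by
  refine hc.mono (hc.1.mul hφ.aestronglyMeasurable) (Eventually.of_forall fun ξ => ?_)
  rw [norm_mul]
  exact mul_le_of_le_one_right (norm_nonneg _) (hb _)

/-- the difference density -/
noncomputable def dd (a c : R12 → ℂ) (s : ℝ) (ξ : R12) : ℂ :=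
  Ds s a ξ - a ξ - ∫ σ in Ioc 0 s, Ds σ c ξ

theorem integrable_dd {a c : R12 → ℂ} (ha : Integrable a) (hc : Integrable c) (s : ℝ) :
    Integrable (dd a c s) := by
  unfold dd
  exact ((integrable_Ds ha s).sub ha).sub
    (integrable_joint hc (volume.restrict (Ioc 0 s))).integral_prod_right

theorem int_dd {a c φ : R12 → ℂ} (ha : Integrable a) (hc : Integrable c) (hφ : Continuous φ)
    (hb : ∀ ξ, ‖φ ξ‖ ≤ 1) (s : ℝ) :
    ∫ ξ, dd a c s ξ * φ ξ = (∫ ξ, a ξ * φ (Real.exp s • ξ)) - (∫ ξ, a ξ * φ ξ)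
      - ∫ σ in Ioc 0 s, ∫ ξ, c ξ * φ (Real.exp σ • ξ) := by
  have h1 := integrable_mul_bdd (integrable_Ds ha s) hφ hb
  have h2 := integrable_mul_bdd ha hφ hb
  have hj := integrable_joint_mul hc hφ hb (volume.restrict (Ioc 0 s))
  have h3 : Integrable fun ξ => (∫ σ in Ioc 0 s, Ds σ c ξ) * φ ξ := by
    refine hj.integral_prod_right.congr (Eventually.of_forall fun ξ => ?_)
    simp only
    rw [integral_mul_const]
  calc ∫ ξ, dd a c s ξ * φ ξ
      = ∫ ξ, (Ds s a ξ * φ ξ - a ξ * φ ξ - (∫ σ in Ioc 0 s, Ds σ c ξ) * φ ξ) := by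
        refine integral_congr_ae (Eventually.of_forall fun ξ => ?_)
        simp only [dd]; ring
    _ = (∫ ξ, Ds s a ξ * φ ξ) - (∫ ξ, a ξ * φ ξ)
        - ∫ ξ, (∫ σ in Ioc 0 s, Ds σ c ξ) * φ ξ := by
        have e1 := integral_sub (h1.sub h2) h3
        simp only [Pi.sub_apply] at e1
        rw [e1, integral_sub h1 h2]
    _ = _ := by
        rw [integral_Ds_mul]
        congr 1
        calc ∫ ξ, (∫ σ in Ioc 0 s, Ds σ c ξ) * φ ξ
            = ∫ ξ, ∫ σ in Ioc 0 s, Ds σ c ξ * φ ξ := by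
              refine integral_congr_ae (Eventually.of_forall fun ξ => ?_)
              simp only
              rw [integral_mul_const]
          _ = ∫ σ in Ioc 0 s, ∫ ξ, Ds σ c ξ * φ ξ :=
              integral_integral_swap (μ := (volume : Measure R12)) (ν := volume.restrict (Ioc 0 s))
                (f := fun ξ σ => Ds σ c ξ * φ ξ) hj.swap
          _ = _ := by simp only [integral_Ds_mul]

theorem continuous_pair {X : Type*} [TopologicalSpace X] [FirstCountableTopology X] {c : R12 → ℂ}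
    (hc : Integrable c) {φ : X → R12 → ℂ}
    (hφ : Continuous (Function.uncurry φ)) (hb : ∀ x ξ, ‖φ x ξ‖ ≤ 1) :
    Continuous fun x => ∫ ξ, c ξ * φ x ξ := by
  refine continuous_of_dominated (bound := fun ξ => ‖c ξ‖) ?_ ?_ hc.norm ?_
  · intro x
    exact hc.1.mul (hφ.comp (by fun_prop : Continuous fun ξ : R12 => (x, ξ))).aestronglyMeasurable
  · intro x
    refine Eventually.of_forall fun ξ => ?_
    rw [norm_mul]
    exact mul_le_of_le_one_right (norm_nonneg _) (hb _ _)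
  · refine Eventually.of_forall fun ξ => ?_
    exact continuous_const.mul (hφ.comp (by fun_prop : Continuous fun x : X => (x, ξ)))

theorem ft_eq_mul (a : R12 → ℂ) (y : R12) : ft a y = ∫ ξ, a ξ * ch ξ y := by
  unfold ft ch
  refine integral_congr_ae (Eventually.of_forall fun ξ => ?_)
  simp only
  ring

theorem continuous_ft {c : R12 → ℂ} (hc : Integrable c) : Continuous (ft c) := by
  have h1 : ft c = fun y => ∫ ξ, c ξ * ch ξ y := funext (ft_eq_mul c)
  rw [h1]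
  refine continuous_pair hc (φ := fun y ξ => ch ξ y) ?_ fun y ξ => (norm_ch ξ y).le
  exact continuous_ch.comp (by fun_prop : Continuous fun p : R12 × R12 => (p.2, p.1))

/-- the weak form of `ft c = eul (ft a)` -/
theorem weak_eul {a c : R12 → ℂ} (ha : Integrable a) (ha1 : Integrable fun ξ => ‖ξ‖ * ‖a ξ‖)
    (hc : Integrable c) (h : ∀ y, ft c y = eul (ft a) y) {φ : R12 → ℂ} (hφ : Continuous φ)
    (hb : ∀ ξ, ‖φ ξ‖ ≤ 1) {s : ℝ} (hs : 0 ≤ s) :
    (∫ ξ, a ξ * φ (Real.exp s • ξ)) - (∫ ξ, a ξ * φ ξ)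
      = ∫ σ in (0 : ℝ)..s, ∫ ξ, c ξ * φ (Real.exp σ • ξ) := by
  have hzero : ∀ y, ft (dd a c s) y = 0 := by
    intro y
    rw [ft_eq_mul, int_dd ha hc (continuous_ch_left y) (fun ξ => (norm_ch ξ y).le) s]
    have hch : ∀ (r : ℝ) (ξ : R12), ch (r • ξ) y = ch ξ (r • y) := fun r ξ => by
      unfold ch
      rw [inner_smul_left, inner_smul_right]
      simp
    simp only [hch, ← ft_eq_mul]
    have hd : ∀ σ : ℝ, HasDerivAt (fun σ : ℝ => ft a (Real.exp σ • y)) (ft c (Real.exp σ • y)) σ := by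
      intro σ
      have h1 := Res.hasFDerivAt_ft ha ha1 (Real.exp σ • y)
      have h2 : HasDerivAt (fun σ : ℝ => Real.exp σ • y) (Real.exp σ • y) σ :=
        (Real.hasDerivAt_exp σ).smul_const y
      have h3 := h1.comp_hasDerivAt σ h2
      have h4 : ft c (Real.exp σ • y) = (∫ ξ, ch ξ (Real.exp σ • y) • Res.dc a ξ) (Real.exp σ • y) := by
        rw [h]
        unfold eul
        rw [h1.fderiv]
      rw [h4]
      exact h3
    have hcont : Continuous fun σ : ℝ => ft c (Real.exp σ • y) :=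
      (continuous_ft hc).comp (by fun_prop)
    have h5 := intervalIntegral.integral_eq_sub_of_hasDerivAt (a := 0) (b := s)
      (fun σ _ => hd σ) (hcont.intervalIntegrable _ _)
    rw [intervalIntegral.integral_of_le hs] at h5
    rw [h5]
    simp
  have h1 := DSpec.ft_eq_zero (integrable_dd ha hc s) hzero
  have h2 := int_dd ha hc hφ hb s
  have h3 : ∫ ξ, dd a c s ξ * φ ξ = 0 := by
    rw [integral_congr_ae (g := fun _ => (0 : ℂ))]
    · simp
    · filter_upwards [h1] with ξ hξ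
      rw [hξ, zero_mul]
  rw [h3] at h2
  rw [intervalIntegral.integral_of_le hs]
  exact (sub_eq_zero.1 h2.symm)

/-! ### oscillating functions -/

/-- `e^{i(α|ξ|² + ρ⟨ξ,y⟩)}` -/
noncomputable def os (α ρ : ℝ) (y ξ : R12) : ℂ :=
  exp (I * ((α * ‖ξ‖ ^ 2 + ρ * inner ℝ ξ y : ℝ) : ℂ))

theorem norm_os (α ρ : ℝ) (y ξ : R12) : ‖os α ρ y ξ‖ = 1 := by
  unfold os
  rw [mul_comm]
  exact norm_exp_ofReal_mul_I _

theorem continuous_os (y : R12) : Continuous fun p : (ℝ × ℝ) × R12 => os p.1.1 p.1.2 y p.2 := by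
  unfold os
  fun_prop

theorem continuous_os_left (α ρ : ℝ) (y : R12) : Continuous (os α ρ y) := by
  unfold os
  fun_prop

theorem os_smul (α ρ : ℝ) (y ξ : R12) (s : ℝ) :
    os α ρ y (Real.exp s • ξ) = os (α * Real.exp (2 * s)) (ρ * Real.exp s) y ξ := by
  unfold os
  congr 2
  rw [norm_smul, Real.norm_of_nonneg (Real.exp_pos _).le, inner_smul_left]
  have h : Real.exp (2 * s) = Real.exp s ^ 2 := by
    rw [← Real.exp_nat_mul]; norm_num
  rw [h]
  push_cast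
  simp
  ring

theorem hasDerivAt_os {α ρ : ℝ → ℝ} {α' ρ' t : ℝ} (hα : HasDerivAt α α' t)
    (hρ : HasDerivAt ρ ρ' t) (y ξ : R12) :
    HasDerivAt (fun t => os (α t) (ρ t) y ξ)
      (I * ((α' * ‖ξ‖ ^ 2 + ρ' * inner ℝ ξ y : ℝ) : ℂ) * os (α t) (ρ t) y ξ) t := by
  unfold os
  have h1 : HasDerivAt (fun t => α t * ‖ξ‖ ^ 2 + ρ t * inner ℝ ξ y)
      (α' * ‖ξ‖ ^ 2 + ρ' * inner ℝ ξ y) t := (hα.mul_const _).add (hρ.mul_const _)
  have h2 := (h1.ofReal_comp.const_mul I).cexp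
  convert! h2 using 1
  ring

/-- differentiation under the integral -/
theorem hasDerivAt_osc {a : R12 → ℂ} (h0 : Integrable a) (h1 : Integrable fun ξ => ‖ξ‖ * ‖a ξ‖)
    (h2 : Integrable fun ξ => ‖ξ‖ ^ 2 * ‖a ξ‖) {α ρ α' ρ' : ℝ → ℝ}
    (hα : ∀ t, HasDerivAt α (α' t) t) (hρ : ∀ t, HasDerivAt ρ (ρ' t) t)
    (cα : Continuous α') (cρ : Continuous ρ') (y : R12) (t0 : ℝ) :
    HasDerivAt (fun t => ∫ ξ, a ξ * os (α t) (ρ t) y ξ)
      (∫ ξ, a ξ * (I * ((α' t0 * ‖ξ‖ ^ 2 + ρ' t0 * inner ℝ ξ y : ℝ) : ℂ) * os (α t0) (ρ t0) y ξ))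
      t0 := by
  obtain ⟨A, hA⟩ := (isCompact_closedBall t0 1).exists_bound_of_continuousOn
    (f := α') cα.continuousOn
  obtain ⟨B, hB⟩ := (isCompact_closedBall t0 1).exists_bound_of_continuousOn
    (f := ρ') cρ.continuousOn
  have hint : ∀ t, AEStronglyMeasurable (fun ξ => a ξ * os (α t) (ρ t) y ξ) volume := fun t =>
    h0.1.mul (continuous_os_left _ _ y).aestronglyMeasurable
  refine (hasDerivAt_integral_of_dominated_loc_of_deriv_le (μ := (volume : Measure R12))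
    (F := fun t ξ => a ξ * os (α t) (ρ t) y ξ)
    (F' := fun t ξ => a ξ * (I * ((α' t * ‖ξ‖ ^ 2 + ρ' t * inner ℝ ξ y : ℝ) : ℂ) *
      os (α t) (ρ t) y ξ)) (bound := fun ξ => A * (‖ξ‖ ^ 2 * ‖a ξ‖) + (B * ‖y‖) * (‖ξ‖ * ‖a ξ‖))
    (Metric.ball_mem_nhds t0 one_pos) (Eventually.of_forall hint) ?_ ?_ ?_ ?_ ?_).2
  · refine h0.mono (hint t0) (Eventually.of_forall fun ξ => ?_)
    rw [norm_mul, norm_os, mul_one]
  · refine h0.1.mul (Continuous.aestronglyMeasurable ?_)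
    have := continuous_os_left (α t0) (ρ t0) y
    fun_prop
  · refine Eventually.of_forall fun ξ t ht => ?_
    have ht' : t ∈ Metric.closedBall t0 1 := Metric.ball_subset_closedBall ht
    have e1 := hA t ht'
    have e2 := hB t ht'
    rw [norm_mul, norm_mul, norm_mul, norm_I, norm_os, one_mul, mul_one, norm_real,
      Real.norm_eq_abs]
    rw [Real.norm_eq_abs] at e1 e2
    have e3 := abs_real_inner_le_norm ξ y
    have e4 : |α' t * ‖ξ‖ ^ 2 + ρ' t * inner ℝ ξ y| ≤ A * ‖ξ‖ ^ 2 + B * (‖ξ‖ * ‖y‖) := by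
      refine (abs_add_le _ _).trans ?_
      rw [abs_mul, abs_mul, abs_of_nonneg (sq_nonneg ‖ξ‖)]
      have : 0 ≤ B := (abs_nonneg _).trans e2
      gcongr
    calc ‖a ξ‖ * |α' t * ‖ξ‖ ^ 2 + ρ' t * inner ℝ ξ y|
        ≤ ‖a ξ‖ * (A * ‖ξ‖ ^ 2 + B * (‖ξ‖ * ‖y‖)) := by gcongr
      _ = _ := by ring
  · exact (h2.const_mul A).add (h1.const_mul (B * ‖y‖))
  · refine Eventually.of_forall fun ξ t _ => ?_
    exact (hasDerivAt_os (hα t) (hρ t) y ξ).const_mul (a ξ)

/-- infinitesimal weak form -/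
theorem weak_inf {a c : R12 → ℂ} (h0 : Integrable a) (h1 : Integrable fun ξ => ‖ξ‖ * ‖a ξ‖)
    (h2 : Integrable fun ξ => ‖ξ‖ ^ 2 * ‖a ξ‖) (hc : Integrable c)
    (h : ∀ y, ft c y = eul (ft a) y) (α ρ : ℝ) (y : R12) :
    ∫ ξ, c ξ * os α ρ y ξ
      = ∫ ξ, a ξ * (I * ((2 * α * ‖ξ‖ ^ 2 + ρ * inner ℝ ξ y : ℝ) : ℂ) * os α ρ y ξ) := by
  have hd := hasDerivAt_osc h0 h1 h2 (α := fun s => α * Real.exp (2 * s))
    (ρ := fun s => ρ * Real.exp s) (α' := fun s => α * (2 * Real.exp (2 * s)))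
    (ρ' := fun s => ρ * Real.exp s)
    (fun t => by
      have := (((hasDerivAt_id t).const_mul 2).exp).const_mul α
      convert! this using 1
      simp only [id]; ring)
    (fun t => (Real.hasDerivAt_exp t).const_mul ρ) (by fun_prop) (by fun_prop) y 0
  set Ψ : ℝ → ℂ := fun σ => ∫ ξ, c ξ * os α ρ y (Real.exp σ • ξ) with hΨ
  have hΨc : Continuous Ψ := by
    refine continuous_pair hc (φ := fun σ ξ => os α ρ y (Real.exp σ • ξ)) ?_
      (fun σ ξ => (norm_os _ _ _ _).le)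
    exact (continuous_os_left α ρ y).comp (by fun_prop : Continuous fun p : ℝ × R12 =>
      Real.exp p.1 • p.2)
  have hw : ∀ s, 0 ≤ s → (∫ ξ, a ξ * os (α * Real.exp (2 * s)) (ρ * Real.exp s) y ξ)
      = (∫ ξ, a ξ * os α ρ y ξ) + ∫ σ in (0 : ℝ)..s, Ψ σ := by
    intro s hs
    have := weak_eul h0 h1 hc h (continuous_os_left α ρ y) (fun ξ => (norm_os _ _ _ _).le) hs
    simp only [os_smul] at this
    simp only [hΨ, os_smul]
    rw [← this]
    ring
  have hd2 : HasDerivAt (fun s => (∫ ξ, a ξ * os α ρ y ξ) + ∫ σ in (0 : ℝ)..s, Ψ σ) (Ψ 0) 0 :=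
    (intervalIntegral.integral_hasDerivAt_right (hΨc.intervalIntegrable _ _)
      (hΨc.stronglyMeasurableAtFilter _ _) hΨc.continuousAt).const_add _
  have hd3 : HasDerivWithinAt (fun t => ∫ ξ, a ξ * os (α * Real.exp (2 * t)) (ρ * Real.exp t) y ξ)
      (Ψ 0) (Ici 0) 0 :=
    hd2.hasDerivWithinAt.congr (fun s hs => hw s hs) (hw 0 le_rfl)
  have hu := (uniqueDiffWithinAt_Ici (0 : ℝ)).eq_deriv _ hd.hasDerivWithinAt hd3
  have e1 : Ψ 0 = ∫ ξ, c ξ * os α ρ y ξ := by simp [hΨ]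
  rw [← e1, ← hu]
  simp only [mul_zero, Real.exp_zero, mul_one]
  refine integral_congr_ae (Eventually.of_forall fun ξ => ?_)
  simp only
  congr 4
  ring

/-- RepT -/
theorem repT {a b : R12 → ℂ} (h0 : Integrable a) (h2 : Integrable fun ξ => ‖ξ‖ ^ 2 * ‖a ξ‖)
    (hb : Integrable b) {sg : ℝ} {μ : ℂ} (hμ : 0 < μ.re)
    (heq : ∀ y, (sg : ℂ) * I * lap (ft a) y - (1 / 2) * eul (ft a) y - μ * ft a y = - ft b y)
    (y : R12) :
    ft a y = ∫ η, b η * ∫ t in Ioi (0 : ℝ),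
      exp (-(μ * t) - I * ((sg * (‖η‖ ^ 2 * (1 - Real.exp (-t))) : ℝ) : ℂ)) *
        exp (I * ((Real.exp (-t / 2) * inner ℝ η y : ℝ) : ℂ)) := by
  have h1 : Integrable fun ξ => ‖ξ‖ * ‖a ξ‖ := by
    refine (h0.norm.add h2).mono (continuous_norm.aestronglyMeasurable.mul h0.1.norm)
      (Eventually.of_forall fun ξ => ?_)
    simp only [Pi.add_apply]
    rw [Real.norm_of_nonneg (by positivity), Real.norm_of_nonneg (by positivity)]
    nlinarith [norm_nonneg (a ξ), norm_nonneg ξ,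
      mul_nonneg (sq_nonneg (‖ξ‖ - 1 / 2)) (norm_nonneg (a ξ))]
  -- the density of the Euler field
  have hsq : Integrable fun ξ : R12 => ((‖ξ‖ ^ 2 : ℝ) : ℂ) * a ξ := by
    refine h2.mono ((by fun_prop : Continuous fun ξ : R12 => ((‖ξ‖ ^ 2 : ℝ) : ℂ))
      |>.aestronglyMeasurable.mul h0.1) (Eventually.of_forall fun ξ => ?_)
    rw [norm_mul, norm_real, norm_mul, norm_norm]
  set c : R12 → ℂ := fun ξ => 2 * (b ξ - μ * a ξ - I * sg * (((‖ξ‖ ^ 2 : ℝ) : ℂ) * a ξ)) with hcdef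
  have hc : Integrable c := ((hb.sub (h0.const_mul μ)).sub (hsq.const_mul (I * sg))).const_mul 2
  have hce : ∀ y, ft c y = eul (ft a) y := by
    intro y
    have e1 : ft c y = 2 * (ft b y - μ * ft a y - I * sg * ft (fun ξ => ((‖ξ‖ ^ 2 : ℝ) : ℂ) * a ξ) y) := by
      simp only [ft_eq_mul]
      have j1 := integrable_mul_bdd hb (continuous_ch_left y) (fun ξ => (norm_ch ξ y).le)
      have j2 := integrable_mul_bdd h0 (continuous_ch_left y) (fun ξ => (norm_ch ξ y).le)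
      have j3 := integrable_mul_bdd hsq (continuous_ch_left y) (fun ξ => (norm_ch ξ y).le)
      rw [← integral_const_mul μ, ← integral_const_mul (I * sg), ← integral_sub j1 (j2.const_mul μ)]
      have e2 := integral_sub (j1.sub (j2.const_mul μ)) (j3.const_mul (I * sg))
      simp only [Pi.sub_apply] at e2
      rw [← e2, ← integral_const_mul]
      refine integral_congr_ae (Eventually.of_forall fun ξ => ?_)
      simp only [hcdef]
      ring
    have e3 : ft (fun ξ => ((‖ξ‖ ^ 2 : ℝ) : ℂ) * a ξ) y = - lap (ft a) y := by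
      rw [Res.lap_ft h0 h1 h2, ft_eq_mul, ← integral_neg]
      refine integral_congr_ae (Eventually.of_forall fun ξ => ?_)
      simp only
      push_cast
      ring
    rw [e1, e3]
    linear_combination 2 * heq y
  -- the curve
  set al : ℝ → ℝ := fun t => -(sg * (1 - Real.exp (-t))) with hal
  set rh : ℝ → ℝ := fun t => Real.exp (-t / 2) with hrh
  have hdal : ∀ t, HasDerivAt al (-(sg * Real.exp (-t))) t := fun t => by
    have h3 : HasDerivAt (fun t : ℝ => Real.exp (-t)) (-Real.exp (-t)) t := by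
      simpa using (hasDerivAt_neg t).exp
    have := ((h3.const_sub 1).const_mul sg).neg
    convert! this using 1
    ring
  have hdrh : ∀ t, HasDerivAt rh (-(1 / 2) * Real.exp (-t / 2)) t := fun t => by
    have h3 : HasDerivAt (fun t : ℝ => -t / 2) (-1 / 2) t := (hasDerivAt_neg t).div_const 2
    have := h3.exp
    convert! this using 1
    ring
  have hJ : ∀ t, HasDerivAt (fun t => ∫ ξ, a ξ * os (al t) (rh t) y ξ)
      (∫ ξ, a ξ * (I * ((-(sg * Real.exp (-t)) * ‖ξ‖ ^ 2 + -(1 / 2) * Real.exp (-t / 2) *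
        inner ℝ ξ y : ℝ) : ℂ) * os (al t) (rh t) y ξ)) t := fun t =>
    hasDerivAt_osc h0 h1 h2 hdal hdrh (by fun_prop) (by fun_prop) y t
  -- b-relation
  have hbr : ∀ t, (∫ ξ, a ξ * (I * ((-(sg * Real.exp (-t)) * ‖ξ‖ ^ 2 + -(1 / 2) *
      Real.exp (-t / 2) * inner ℝ ξ y : ℝ) : ℂ) * os (al t) (rh t) y ξ))
      = μ * (∫ ξ, a ξ * os (al t) (rh t) y ξ) - ∫ ξ, b ξ * os (al t) (rh t) y ξ := by
    intro t
    have hw := weak_inf h0 h1 h2 hc hce (al t) (rh t) y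
    have hosc := continuous_os_left (al t) (rh t) y
    have hosn : ∀ ξ, ‖os (al t) (rh t) y ξ‖ ≤ 1 := fun ξ => (norm_os _ _ _ _).le
    have j1 := integrable_mul_bdd hb hosc hosn
    have j2 := integrable_mul_bdd h0 hosc hosn
    have j3 := integrable_mul_bdd hsq hosc hosn
    have jin : Integrable fun ξ => a ξ * (((inner ℝ ξ y : ℝ) : ℂ) * os (al t) (rh t) y ξ) := by
      refine (h1.const_mul ‖y‖).mono (h0.1.mul (Continuous.aestronglyMeasurable (by fun_prop)))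
        (Eventually.of_forall fun ξ => ?_)
      rw [norm_mul, norm_mul, norm_os, norm_real, Real.norm_eq_abs, mul_one, norm_mul, norm_mul,
        norm_norm, norm_norm, norm_norm]
      have := abs_real_inner_le_norm ξ y
      nlinarith [norm_nonneg (a ξ)]
    -- expand everything in the three integrals
    have k1 : ∫ ξ, c ξ * os (al t) (rh t) y ξ = 2 * ((∫ ξ, b ξ * os (al t) (rh t) y ξ)
        - μ * (∫ ξ, a ξ * os (al t) (rh t) y ξ)
        - I * sg * ∫ ξ, ((‖ξ‖ ^ 2 : ℝ) : ℂ) * a ξ * os (al t) (rh t) y ξ) := by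
      rw [← integral_const_mul μ, ← integral_const_mul (I * sg), ← integral_sub j1 (j2.const_mul μ)]
      have e2 := integral_sub (j1.sub (j2.const_mul μ)) (j3.const_mul (I * sg))
      simp only [Pi.sub_apply] at e2
      rw [← e2, ← integral_const_mul]
      refine integral_congr_ae (Eventually.of_forall fun ξ => ?_)
      simp only [hcdef]
      ring
    have k2 : ∀ A B : ℝ, ∫ ξ, a ξ * (I * ((A * ‖ξ‖ ^ 2 + B * inner ℝ ξ y : ℝ) : ℂ) *
        os (al t) (rh t) y ξ) = I * A * (∫ ξ, ((‖ξ‖ ^ 2 : ℝ) : ℂ) * a ξ * os (al t) (rh t) y ξ)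
        + I * B * ∫ ξ, a ξ * (((inner ℝ ξ y : ℝ) : ℂ) * os (al t) (rh t) y ξ) := by
      intro A B
      rw [← integral_const_mul, ← integral_const_mul, ← integral_add (j3.const_mul _)
        (jin.const_mul _)]
      refine integral_congr_ae (Eventually.of_forall fun ξ => ?_)
      simp only
      push_cast
      ring
    rw [k2] at hw
    rw [k1] at hw
    rw [k2]
    have hal' : ((al t : ℝ) : ℂ) = -(sg * (1 - ((Real.exp (-t) : ℝ) : ℂ))) := by
      simp [hal]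
    push_cast at hw ⊢
    rw [hal'] at hw
    have hrh' : ((rh t : ℝ) : ℂ) = ((Real.exp (-t / 2) : ℝ) : ℂ) := rfl
    rw [hrh'] at hw
    push_cast at hw
    linear_combination (1 / 2 : ℂ) * hw
  -- F
  have hF : ∀ t : ℝ, HasDerivAt (fun t : ℝ => exp (-(μ * t)) * ∫ ξ, a ξ * os (al t) (rh t) y ξ)
      (-(exp (-(μ * t)) * ∫ ξ, b ξ * os (al t) (rh t) y ξ)) t := by
    intro t
    have e1 : HasDerivAt (fun t : ℝ => exp (-(μ * t))) (-μ * exp (-(μ * t))) t := by
      have h3 : HasDerivAt (fun t : ℝ => (t : ℂ)) 1 t := (hasDerivAt_id t).ofReal_comp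
      have := ((h3.const_mul μ).neg).cexp
      convert! this using 1
      simp only [Pi.neg_apply]
      ring
    have e2 := e1.mul (hJ t)
    rw [hbr t] at e2
    convert! e2 using 1
    ring
  have hnexp : ∀ t : ℝ, ‖exp (-(μ * t))‖ = Real.exp (-(μ.re * t)) := fun t => by
    rw [norm_exp]; simp
  have hbnd : ∀ (g : R12 → ℂ) (t : ℝ), ‖∫ ξ, g ξ * os (al t) (rh t) y ξ‖ ≤ ∫ ξ, ‖g ξ‖ := by
    intro g t
    refine (norm_integral_le_integral_norm _).trans (le_of_eq ?_)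
    refine integral_congr_ae (Eventually.of_forall fun ξ => ?_)
    simp only [norm_mul, norm_os, mul_one]
  have hexpint : IntegrableOn (fun t : ℝ => Real.exp (-(μ.re * t))) (Ioi 0) := by
    have h4 : (fun t : ℝ => Real.exp (-(μ.re * t))) = fun t => Real.exp (-μ.re * t) := by
      funext t; ring_nf
    rw [h4]
    exact integrableOn_exp_mul_Ioi (by linarith) 0
  have hcurve : Continuous fun t : ℝ => ((al t, rh t) : ℝ × ℝ) := by
    have c1 : Continuous al := by rw [hal]; fun_prop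
    have c2 : Continuous rh := by rw [hrh]; fun_prop
    exact c1.prodMk c2
  have hposc : Continuous fun p : ℝ × R12 => os (al p.1) (rh p.1) y p.2 :=
    (continuous_os y).comp (by fun_prop : Continuous fun p : ℝ × R12 => ((al p.1, rh p.1), p.2))
  have hcb : Continuous fun t => ∫ ξ, b ξ * os (al t) (rh t) y ξ :=
    continuous_pair hb (φ := fun t ξ => os (al t) (rh t) y ξ) hposc
      (fun t ξ => (norm_os _ _ _ _).le)
  have hFint : IntegrableOn (fun t : ℝ => -(exp (-(μ * t)) * ∫ ξ, b ξ * os (al t) (rh t) y ξ))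
      (Ioi 0) := by
    refine (hexpint.mul_const (∫ ξ, ‖b ξ‖)).mono ?_ (Eventually.of_forall fun t => ?_)
    · exact (Continuous.aestronglyMeasurable (by fun_prop))
    · rw [norm_neg, norm_mul, hnexp, Real.norm_of_nonneg (mul_nonneg (Real.exp_pos _).le
        (integral_nonneg fun _ => norm_nonneg _))]
      exact mul_le_mul_of_nonneg_left (hbnd b t) (Real.exp_pos _).le
  have hlim : Tendsto (fun t : ℝ => exp (-(μ * t)) * ∫ ξ, a ξ * os (al t) (rh t) y ξ) atTop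
      (𝓝 0) := by
    rw [tendsto_zero_iff_norm_tendsto_zero]
    have h5 : Tendsto (fun t : ℝ => Real.exp (-(μ.re * t)) * ∫ ξ, ‖a ξ‖) atTop (𝓝 0) := by
      have h6 : Tendsto (fun t : ℝ => μ.re * t) atTop atTop := tendsto_id.const_mul_atTop hμ
      have h7 := (Real.tendsto_exp_neg_atTop_nhds_zero.comp h6).mul_const (∫ ξ, ‖a ξ‖)
      rw [zero_mul] at h7
      exact h7
    refine squeeze_zero (fun t => norm_nonneg _) (fun t => ?_) h5
    rw [norm_mul, hnexp]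
    exact mul_le_mul_of_nonneg_left (hbnd a t) (Real.exp_pos _).le
  have hfin := integral_Ioi_of_hasDerivAt_of_tendsto' (a := (0 : ℝ)) (m := 0)
    (fun t _ => hF t) hFint hlim
  have hF0 : exp (-(μ * ((0 : ℝ) : ℂ))) * ∫ ξ, a ξ * os (al 0) (rh 0) y ξ = ft a y := by
    rw [ft_eq_mul]
    simp [hal, hrh, os, ch]
  rw [hF0, zero_sub, integral_neg, neg_inj] at hfin
  rw [← hfin]
  -- Fubini
  have hprod : Integrable (fun p : R12 × ℝ => b p.1 * (exp (-(μ * p.2)) * os (al p.2) (rh p.2) y p.1))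
      ((volume : Measure R12).prod (volume.restrict (Ioi 0))) := by
    have h8 : Integrable (fun p : R12 × ℝ => b p.1 * ((Real.exp (-(μ.re * p.2)) : ℝ) : ℂ))
      ((volume : Measure R12).prod (volume.restrict (Ioi 0))) := hb.mul_prod hexpint.ofReal
    refine h8.mono ?_ (Eventually.of_forall fun p => ?_)
    · refine (hb.1.comp_fst).mul (Continuous.aestronglyMeasurable ?_)
      have : Continuous fun p : R12 × ℝ => os (al p.2) (rh p.2) y p.1 :=
        hposc.comp (by fun_prop : Continuous fun p : R12 × ℝ => (p.2, p.1))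
      fun_prop
    · rw [norm_mul, norm_mul, norm_mul, norm_os, hnexp, mul_one, norm_real,
        Real.norm_of_nonneg (Real.exp_pos _).le]
  calc ∫ t in Ioi (0 : ℝ), exp (-(μ * t)) * ∫ ξ, b ξ * os (al t) (rh t) y ξ
      = ∫ t in Ioi (0 : ℝ), ∫ ξ, b ξ * (exp (-(μ * t)) * os (al t) (rh t) y ξ) := by
        refine integral_congr_ae (Eventually.of_forall fun t => ?_)
        simp only
        rw [← integral_const_mul]
        refine integral_congr_ae (Eventually.of_forall fun ξ => ?_)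
        simp only
        ring
    _ = ∫ ξ, ∫ t in Ioi (0 : ℝ), b ξ * (exp (-(μ * t)) * os (al t) (rh t) y ξ) :=
        integral_integral_swap (μ := volume.restrict (Ioi (0 : ℝ))) (ν := (volume : Measure R12))
          (f := fun t ξ => b ξ * (exp (-(μ * t)) * os (al t) (rh t) y ξ)) hprod.swap
    _ = _ := by
        refine integral_congr_ae (Eventually.of_forall fun ξ => ?_)
        simp only
        rw [integral_const_mul]
        congr 1
        refine integral_congr_ae (Eventually.of_forall fun t => ?_)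
        simp only [os, hal, hrh]
        rw [← exp_add, ← exp_add]
        congr 1
        push_cast
        ring

end Crest.Agent.R086.RepT
end

-- ▼ part R086/CHF3
section

/-!
Row 86, Part C, regime (R1) (helper590), third file: `RepStmt` from helper246's `repT`, hence `hf` without hypotheses.
-/

set_option autoImplicit false

open MeasureTheory Complex Set Filter
open scoped ContDiff Topology

namespace Crest.Agent.R086.CHF

open Crest.Agent.R086 Crest.Agent.R086.CReg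

theorem repStmt : RepStmt := by
  intro σ _ mu hmu f h a b ha hb heq
  have h2 : Integrable fun ξ : R12 => ‖ξ‖ ^ 2 * ‖a ξ‖ :=
    DGen.moments (N := 2) (by simpa [wt] using XA.int_norm ha) (XA.aesm ha) 2 le_rfl
  have hf : f = ft a := XA.ft_of ha
  have hh : h = ft b := XA.ft_of hb
  intro y
  have := RepT.repT (XA.integrable_of ha) h2 (XA.integrable_of hb) hmu
    (sg := σ) (by intro y; rw [← hf, ← hh]; exact heq y) y
  rw [hf, this]
  rfl

/-- **(R1)**: no eigenpair with `|lam| ≥ (1000 n B)^4`, unconditional. -/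
theorem hf' {n : ℕ} (P : Profile n) {B : ℝ} (hB : 1 ≤ B)
    (hV1 : XBd 0 P.V1 B) (hV2 : XBd 0 P.V2 B) (hV3 : XBd 0 P.V2c B)
    (hW1 : ∀ i : Fin 12, XBd 0 (fun y => ((y i : ℝ) : ℂ) * P.V1 y) B)
    (hW2 : ∀ i : Fin 12, XBd 0 (fun y => ((y i : ℝ) : ℂ) * P.V2 y) B)
    (hW3 : ∀ i : Fin 12, XBd 0 (fun y => ((y i : ℝ) : ℂ) * P.V2c y) B)
    (hX1 : InX 2 P.V1) (hX2 : InX 2 P.V2) (hX3 : InX 2 P.V2c) (hom : |P.om| ≤ 1)
    {lam : ℂ} (hre : 0 ≤ lam.re) (hbig : (1000 * n * B) ^ 4 ≤ ‖lam‖) {f g : R12 → ℂ}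
    (hf : InX 2 f) (hg : InX 2 g) (e1 : ∀ y, P.gen1 f g y = lam * f y)
    (e2 : ∀ y, P.gen2 f g y = lam * g y) : (∀ y, f y = 0) ∧ ∀ y, g y = 0 :=
  CHF.hf repStmt P hB hV1 hV2 hV3 hW1 hW2 hW3 hX1 hX2 hX3 hom hre hbig hf hg e1 e2

end Crest.Agent.R086.CHF
end

-- ▼ part R086/R1Final

/-!
Row 86, Part C: **R1Stmt** (helper590): `|lam| ≤ n^K` for every non-trivial eigenpair.
-/

set_option autoImplicit false

open MeasureTheory Complex Set Filter
open scoped ContDiff Topology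

namespace Crest.Agent.R086.CHF

open Crest.Agent.R086 Crest.Agent.R086.CReg

lemma exists_ne {H : R12 → ℝ} (h : (∫ w : S11, (H w) ^ 2 ∂sig) = 1) : ∃ w : S11, H w ≠ 0 := by
  by_contra hc
  push Not at hc
  rw [integral_congr_ae (g := fun _ => 0) (Eventually.of_forall fun w => by simp [hc w])] at h
  simp at h

theorem r1Stmt : R1Stmt := by
  intro om0 R U hL B
  obtain ⟨K, hK⟩ := B.poly
  refine ⟨4 * (K + 2), ?_⟩
  have hom : ∀ᶠ j in atTop, |(B.P j).om| ≤ 1 := by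
    have h1 := B.om_tendsto.eventually (Ioo_mem_nhds (a := om0 - 1 / 10) (b := om0 + 1 / 10)
      (by linarith) (by linarith))
    filter_upwards [h1] with j hj
    have h2 := hL.om_lo
    have h3 := hL.om_hi
    rw [abs_le]
    constructor <;> linarith [hj.1, hj.2]
  have hn : ∀ᶠ j in atTop, 1000 ≤ B.nn j := B.nn_tendsto.eventually (eventually_ge_atTop 1000)
  filter_upwards [hK, hom, hn] with j hj homj hnj
  intro lam l H F G hE hre hNZ
  by_contra hlt
  push Not at hlt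
  obtain ⟨p1, p2, p3, hy⟩ := hj
  set N : ℝ := (B.nn j : ℝ) with hN
  have hN1000 : (1000 : ℝ) ≤ N := by rw [hN]; exact_mod_cast hnj
  have hN1 : (1 : ℝ) ≤ N := by linarith
  have hB : 1 ≤ N ^ K := one_le_pow₀ hN1
  have hbig : (1000 * (B.nn j : ℝ) * N ^ K) ^ 4 ≤ ‖lam‖ := by
    refine le_trans ?_ hlt.le
    calc (1000 * (B.nn j : ℝ) * N ^ K) ^ 4 ≤ (N * N * N ^ K) ^ 4 := by
          refine pow_le_pow_left₀ (by positivity) ?_ 4
          exact mul_le_mul_of_nonneg_right (mul_le_mul_of_nonneg_right hN1000 (by linarith)) (by positivity)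
      _ = N ^ (4 * (K + 2)) := by ring
  have hcf := SH.InX.contDiff hE.mode.xF
  have hcg := SH.InX.contDiff hE.mode.xG
  have hcf2 : ContDiff ℝ 2 (modeFn H F) := hcf.of_le (by norm_num)
  have hcg2 : ContDiff ℝ 2 (modeFn H G) := hcg.of_le (by norm_num)
  have hF1 : ContDiff ℝ 1 F := hE.mode.cF.of_le (by norm_num)
  have hG1 : ContDiff ℝ 1 G := hE.mode.cG.of_le (by norm_num)
  obtain ⟨l1, l2⟩ := CLift.lift_eig (B.P j) hE.mode.harm hF1 hG1 hcf2 hcg2 hE.eq1 hE.eq2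
  have hX : InX 2 (B.P j).V1 ∧ InX 2 (B.P j).V2 ∧ InX 2 (B.P j).V2c :=
    ⟨XA.inX_mono (by norm_num) (XA.xbd_inX p1), XA.inX_mono (by norm_num) (XA.xbd_inX p2),
      XA.inX_mono (by norm_num) (XA.xbd_inX p3)⟩
  obtain ⟨z1, z2⟩ := hf' (B.P j) hB (XA.xbd_mono (by norm_num) p1) (XA.xbd_mono (by norm_num) p2)
    (XA.xbd_mono (by norm_num) p3) (fun i => (hy i).1) (fun i => (hy i).2.1) (fun i => (hy i).2.2)
    hX.1 hX.2.1 hX.2.2 homj hre hbig (XA.inX_mono (by norm_num) hE.mode.xF)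
    (XA.inX_mono (by norm_num) hE.mode.xG) l1 l2
  obtain ⟨w, hw⟩ := exists_ne hE.mode.norm
  obtain ⟨r, hr, hne⟩ := hNZ
  have e1 := z1 (r • (w : R12))
  have e2 := z2 (r • (w : R12))
  rw [CLift.modeFn_smul H F hr] at e1
  rw [CLift.modeFn_smul H G hr] at e2
  have hw' : ((H w : ℝ) : ℂ) ≠ 0 := by exact_mod_cast hw
  rcases hne with h | h
  · exact h ((mul_eq_zero.1 e1).resolve_left hw')
  · exact h ((mul_eq_zero.1 e2).resolve_left hw')

end Crest.Agent.R086.CHF
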