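import Crest.Agent.R086.R3Defs
import Crest.Agent.R086.CMax

-- ▼ part R086/R3Uniq
section

/-!
Row 86, Part C, regime (R3) (helper371): a source-free pair that vanishes on `(0, rb]` vanishes on `(0, ∞)`.
-/

set_option autoImplicit false

open MeasureTheory Complex Set Filter Topology

namespace Crest.Agent.R086.R3

open CMax

lemma n6 (a b c d e f : ℂ) : ‖-a + b - c - d + e + f‖ ≤ ‖a‖ + ‖b‖ + ‖c‖ + ‖d‖ + ‖e‖ + ‖f‖ := by
  have t1 := norm_add_le (-a + b - c - d + e) f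
  have t2 := norm_add_le (-a + b - c - d) e
  have t3 := norm_sub_le (-a + b - c) d
  have t4 := norm_sub_le (-a + b) c
  have t5 := norm_add_le (-a) b
  rw [norm_neg] at t5
  linarith

lemma n6' (a b c d e f : ℂ) : ‖-a + b + c + d + e + f‖ ≤ ‖a‖ + ‖b‖ + ‖c‖ + ‖d‖ + ‖e‖ + ‖f‖ := by
  have t1 := norm_add_le (-a + b + c + d + e) f
  have t2 := norm_add_le (-a + b + c + d) e
  have t3 := norm_add_le (-a + b + c) d
  have t4 := norm_add_le (-a + b) c
  have t5 := norm_add_le (-a) b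
  rw [norm_neg] at t5
  linarith

set_option maxHeartbeats 800000 in
theorem uniq : UniqStmt := by
  intro n P lam l H F G hE rb hrb h0 r hr
  rcases le_or_gt r rb with hle | hlt
  · exact h0 r ⟨hr, hle⟩
  have h20 : (2 : WithTop ℕ∞) ≤ (N0 : ℕ) := by
    have : (2 : ℕ) ≤ N0 := by unfold N0; norm_num
    exact_mod_cast this
  have hF : ContDiff ℝ 2 F := hE.mode.cF.of_le h20
  have hG : ContDiff ℝ 2 G := hE.mode.cG.of_le h20
  have hF1 : ContDiff ℝ 1 (deriv F) := hF.deriv'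
  have hG1 : ContDiff ℝ 1 (deriv G) := hG.deriv'
  have dF : ∀ r, HasDerivAt F (deriv F r) r := fun r =>
    (hF.differentiable (by norm_num) r).hasDerivAt
  have dG : ∀ r, HasDerivAt G (deriv G r) r := fun r =>
    (hG.differentiable (by norm_num) r).hasDerivAt
  have dF1 : ∀ r, HasDerivAt (deriv F) (deriv (deriv F) r) r := fun r =>
    (hF1.differentiable (by norm_num) r).hasDerivAt
  have dG1 : ∀ r, HasDerivAt (deriv G) (deriv (deriv G) r) r := fun r =>
    (hG1.differentiable (by norm_num) r).hasDerivAt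
  have hqc : Continuous P.q := by
    unfold Profile.q
    exact P.smooth.continuous.comp (by fun_prop)
  set a : ℝ := rb / 2 with ha
  have ha0 : 0 < a := by positivity
  have har : a ≤ r := by rw [ha]; linarith
  have hnh : Ioo 0 rb ∈ 𝓝 a := Ioo_mem_nhds ha0 (by rw [ha]; linarith)
  have eF : F =ᶠ[𝓝 a] fun _ => 0 := by
    filter_upwards [hnh] with s hs
    exact (h0 s ⟨hs.1, hs.2.le⟩).1
  have eG : G =ᶠ[𝓝 a] fun _ => 0 := by
    filter_upwards [hnh] with s hs
    exact (h0 s ⟨hs.1, hs.2.le⟩).2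
  have Fa : F a = 0 := eF.self_of_nhds
  have Ga : G a = 0 := eG.self_of_nhds
  have F1a : deriv F a = 0 := by rw [eF.deriv_eq]; simp
  have G1a : deriv G a = 0 := by rw [eG.deriv_eq]; simp
  obtain ⟨C0, hC0⟩ : ∃ C0 : ℝ, ∀ s ∈ Icc a r, ‖P.q s‖ ^ n ≤ C0 := by
    obtain ⟨C, hC⟩ := (isCompact_Icc (a := a) (b := r)).bddAbove_image
      ((hqc.norm.pow n).continuousOn)
    exact ⟨C, fun s hs => hC ⟨s, hs, rfl⟩⟩
  set f : ℝ → ℂ × ℂ × ℂ × ℂ := fun s => (F s, deriv F s, G s, deriv G s) with hf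
  set f' : ℝ → ℂ × ℂ × ℂ × ℂ := fun s => (deriv F s, deriv (deriv F) s, deriv G s, deriv (deriv G) s)
    with hf'
  have hd : ∀ s, HasDerivAt f (f' s) s := fun s =>
    (dF s).prodMk ((dF1 s).prodMk ((dG s).prodMk (dG1 s)))
  set W0 : ℝ := (1 + (n : ℝ) / 2) * C0 with hW0
  set c1 : ℝ := 11 / a + r / 2 with hc1
  set c2 : ℝ := (l : ℝ) * (l + 10) / a ^ 2 with hc2
  set c3 : ℝ := ‖lam‖ + 1 / n + |P.om| with hc3
  have hC00 : 0 ≤ C0 := le_trans (by positivity) (hC0 a ⟨le_rfl, har⟩)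
  have hK0 : 0 ≤ 1 + c1 + c2 + c3 + 2 * W0 := by
    have : 0 ≤ c1 := by positivity
    have : 0 ≤ c2 := by positivity
    have : 0 ≤ c3 := by positivity
    have : 0 ≤ W0 := by positivity
    positivity
  have n1 : ∀ s, ‖F s‖ ≤ ‖f s‖ := fun s => norm_fst_le (f s)
  have n2 : ∀ s, ‖deriv F s‖ ≤ ‖f s‖ := fun s => (norm_fst_le (f s).2).trans (norm_snd_le (f s))
  have n3 : ∀ s, ‖G s‖ ≤ ‖f s‖ := fun s =>
    (norm_fst_le (f s).2.2).trans ((norm_snd_le (f s).2).trans (norm_snd_le (f s)))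
  have n4 : ∀ s, ‖deriv G s‖ ≤ ‖f s‖ := fun s =>
    (norm_snd_le (f s).2.2).trans ((norm_snd_le (f s).2).trans (norm_snd_le (f s)))
  have key : ∀ s ∈ Ico a r, ‖f' s‖ ≤ (1 + c1 + c2 + c3 + 2 * W0) * ‖f s‖ + 0 := by
    intro s hs
    have hs0 : 0 < s := ha0.trans_le hs.1
    have hsI : s ∈ Icc a r := Ico_subset_Icc_self hs
    have hx : 0 ≤ ‖f s‖ := norm_nonneg _
    have hV1 : ‖P.rV1 s‖ ≤ W0 := by
      rw [norm_rV1]
      exact mul_le_mul_of_nonneg_left (hC0 s hsI) (by positivity)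
    have hV2 : ‖P.rV2 s‖ ≤ W0 := by
      rw [norm_rV2]
      refine mul_le_mul (by linarith) (hC0 s hsI) (by positivity) (by positivity)
    have hV2c : ‖P.rV2c s‖ ≤ W0 := by
      rw [norm_rV2c]
      refine mul_le_mul (by linarith) (hC0 s hsI) (by positivity) (by positivity)
    have g1 : ‖(11 : ℂ) / s‖ ≤ 11 / a := by
      rw [norm_div, Complex.norm_real, Real.norm_of_nonneg hs0.le, Complex.norm_ofNat]
      exact div_le_div_of_nonneg_left (by norm_num) ha0 hs.1
    have g2 : ‖I / 2 * (s : ℂ)‖ ≤ r / 2 := by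
      rw [norm_mul, norm_div, Complex.norm_I, Complex.norm_real, Real.norm_of_nonneg hs0.le,
        Complex.norm_ofNat]
      have := hs.2
      linarith
    have g3 : ‖(l : ℂ) * (l + 10) / (s : ℂ) ^ 2‖ ≤ c2 := by
      have e : (l : ℂ) * (l + 10) / (s : ℂ) ^ 2 = (((l : ℝ) * (l + 10) / s ^ 2 : ℝ) : ℂ) := by
        push_cast; ring
      rw [e, Complex.norm_real, Real.norm_of_nonneg (by positivity), hc2]
      gcongr
      exact hs.1
    have g4 : ‖I * (lam + 1 / n - I * P.om)‖ ≤ c3 := by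
      rw [norm_mul, Complex.norm_I, one_mul]
      refine (norm_sub_le _ _).trans (add_le_add ((norm_add_le _ _).trans ?_) ?_)
      · simp
      · simp
    have g5 : ‖I * (lam + 1 / n + I * P.om)‖ ≤ c3 := by
      rw [norm_mul, Complex.norm_I, one_mul]
      refine (norm_add_le _ _).trans (add_le_add ((norm_add_le _ _).trans ?_) ?_)
      · simp
      · simp
    have E1 := rlap_eq1 P (hE.eq1 s hs0)
    have E2 := rlap_eq2 P (hE.eq2 s hs0)
    unfold rlap at E1 E2
    have F2 : deriv (deriv F) s = -((11 : ℂ) / s * deriv F s) + (l : ℂ) * (l + 10) / (s : ℂ) ^ 2 * F s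
        - (I / 2 * s * deriv F s) - (I * (lam + 1 / n - I * P.om) * F s) + P.rV1 s * F s
        + P.rV2 s * G s := by
      linear_combination E1
    have G2 : deriv (deriv G) s = -((11 : ℂ) / s * deriv G s) + (l : ℂ) * (l + 10) / (s : ℂ) ^ 2 * G s
        + (I / 2 * s * deriv G s) + (I * (lam + 1 / n + I * P.om) * G s) + P.rV1 s * G s
        + P.rV2c s * F s := by
      linear_combination E2
    have m1 : ∀ {A x : ℂ} {cA : ℝ}, ‖A‖ ≤ cA → ‖x‖ ≤ ‖f s‖ → ‖A * x‖ ≤ cA * ‖f s‖ := by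
      intro A x cA hA hxx
      rw [norm_mul]
      exact mul_le_mul hA hxx (norm_nonneg _) ((norm_nonneg _).trans hA)
    have bF2 : ‖deriv (deriv F) s‖ ≤ (1 + c1 + c2 + c3 + 2 * W0) * ‖f s‖ := by
      rw [F2]
      have b1 := m1 g1 (n2 s)
      have b2 := m1 g3 (n1 s)
      have b3 := m1 g2 (n2 s)
      have b4 := m1 g4 (n1 s)
      have b5 := m1 hV1 (n1 s)
      have b6 := m1 hV2 (n3 s)
      refine (n6 _ _ _ _ _ _).trans ?_
      have e : (1 + c1 + c2 + c3 + 2 * W0) * ‖f s‖ = ‖f s‖ + 11 / a * ‖f s‖ + c2 * ‖f s‖ + r / 2 * ‖f s‖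
        + c3 * ‖f s‖ + W0 * ‖f s‖ + W0 * ‖f s‖ := by rw [hc1]; ring
      rw [e]
      linarith
    have bG2 : ‖deriv (deriv G) s‖ ≤ (1 + c1 + c2 + c3 + 2 * W0) * ‖f s‖ := by
      rw [G2]
      have b1 := m1 g1 (n4 s)
      have b2 := m1 g3 (n3 s)
      have b3 := m1 g2 (n4 s)
      have b4 := m1 g5 (n3 s)
      have b5 := m1 hV1 (n3 s)
      have b6 := m1 hV2c (n1 s)
      refine (n6' _ _ _ _ _ _).trans ?_
      have e : (1 + c1 + c2 + c3 + 2 * W0) * ‖f s‖ = ‖f s‖ + 11 / a * ‖f s‖ + c2 * ‖f s‖ + r / 2 * ‖f s‖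
        + c3 * ‖f s‖ + W0 * ‖f s‖ + W0 * ‖f s‖ := by rw [hc1]; ring
      rw [e]
      linarith
    have hone : ‖f s‖ ≤ (1 + c1 + c2 + c3 + 2 * W0) * ‖f s‖ := by
      have p1 : 0 ≤ c1 := by positivity
      have p2 : 0 ≤ c2 := by positivity
      have p3 : 0 ≤ c3 := by positivity
      have p4 : 0 ≤ W0 := by positivity
      nlinarith [mul_nonneg p1 hx, mul_nonneg p2 hx, mul_nonneg p3 hx, mul_nonneg p4 hx]
    rw [add_zero]
    simp only [hf', Prod.norm_def]
    refine max_le ((n2 s).trans hone) (max_le bF2 (max_le ((n4 s).trans hone) bG2))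
  have hfin := norm_le_gronwallBound_of_norm_deriv_right_le (f := f) (f' := f') (δ := 0)
    (K := 1 + c1 + c2 + c3 + 2 * W0) (ε := 0) (a := a) (b := r)
    (fun s _ => (hd s).continuousAt.continuousWithinAt)
    (fun s _ => (hd s).hasDerivWithinAt) (by simp [hf, Fa, Ga, F1a, G1a]) key r ⟨har, le_rfl⟩
  rw [gronwallBound_ε0, zero_mul] at hfin
  exact ⟨norm_le_zero_iff.mp ((n1 r).trans hfin), norm_le_zero_iff.mp ((n3 r).trans hfin)⟩

end Crest.Agent.R086.R3
end

-- ▼ part R086/R3Swap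

/-!
Row 86, Part C, regime (R3) (helper371): conjugation symmetry `(lam, S, D) ↦ (conj lam, conj S, -conj D)`.
-/

set_option autoImplicit false

open MeasureTheory Complex Set Filter Topology

namespace Crest.Agent.R086.R3

open CCore CEx

local notation "conj" => starRingEnd ℂ

theorem hasDerivAt_conj' {f : ℝ → ℂ} {f' : ℂ} {r : ℝ} (h : HasDerivAt f f' r) :
    HasDerivAt (fun r => conj (f r)) (conj f') r :=
  Complex.conjCLE.toContinuousLinearMap.hasFDerivAt.comp_hasDerivAt r h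

theorem sys_swap {w b P rho : ℝ → ℝ} {Lam n eps : ℝ} {lam : ℂ} {S S1 D D1 : ℝ → ℂ} {r : ℝ}
    (h : Sys w b P rho Lam n eps lam S S1 D D1 0 0 r) :
    Sys w b P rho Lam n eps (conj lam) (fun r => conj (S r)) (fun r => conj (S1 r))
      (fun r => -conj (D r)) (fun r => -conj (D1 r)) 0 0 r where
  hr := h.hr
  wne := h.wne
  hw := h.hw
  hwb := h.hwb
  hS := hasDerivAt_conj' h.hS
  hD := (hasDerivAt_conj' h.hD).neg
  hS1 := by
    have h1 := hasDerivAt_conj' h.hS1
    have e : (fun r => conj ((w r : ℂ) * S1 r)) = fun r => (w r : ℂ) * conj (S1 r) := by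
      funext x; rw [map_mul, Complex.conj_ofReal]
    rw [e] at h1
    refine h1.congr_deriv ?_
    simp only [map_mul, map_sub, map_add, map_zero, Complex.conj_ofReal, Complex.conj_I, map_div₀, map_pow]
    ring
  hD1 := by
    have h1 := (hasDerivAt_conj' h.hD1).neg
    have e : (fun r => -conj ((w r : ℂ) * D1 r)) = fun r => (w r : ℂ) * -conj (D1 r) := by
      funext x; rw [map_mul, Complex.conj_ofReal]; ring
    have h2 : HasDerivAt (fun r => -conj ((w r : ℂ) * D1 r)) _ r := h1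
    rw [e] at h2
    refine h2.congr_deriv ?_
    simp only [map_mul, map_sub, map_add, map_zero, Complex.conj_ofReal, Complex.conj_I, map_div₀, map_pow]
    ring

theorem sol_swap {w b P rho : ℝ → ℝ} {Lam n eps rb : ℝ} {lam : ℂ} {S S1 D D1 : ℝ → ℂ}
    (h : Sol w b P rho Lam n eps lam S S1 D D1 rb) :
    Sol w b P rho Lam n eps (conj lam) (fun r => conj (S r)) (fun r => conj (S1 r))
      (fun r => -conj (D r)) (fun r => -conj (D1 r)) rb where
  Lam_nonneg := h.Lam_nonneg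
  eps_nonneg := h.eps_nonneg
  eps_le := h.eps_le
  sys := fun r hr => sys_swap (h.sys r hr)
  bdd := by
    obtain ⟨B, hB⟩ := h.bdd
    refine ⟨B, fun r hr => ?_⟩
    simp only [norm_neg, RCLike.norm_conj]
    exact hB r hr

theorem L2_conj (w : ℝ → ℝ) (f : ℝ → ℂ) (rb : ℝ) : L2 w (fun r => conj (f r)) rb = L2 w f rb := by
  unfold L2; simp only [RCLike.norm_conj]

theorem L2_negconj (w : ℝ → ℝ) (f : ℝ → ℂ) (rb : ℝ) : L2 w (fun r => -conj (f r)) rb = L2 w f rb := by
  unfold L2; simp only [norm_neg, RCLike.norm_conj]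

theorem bdry_swap {w b rho : ℝ → ℝ} {S S1 D D1 : ℝ → ℂ} {h1 h2 : ℂ} {dl rb : ℝ}
    (h : Bdry w b rho S S1 D D1 h1 h2 dl rb) :
    Bdry w b rho (fun r => conj (S r)) (fun r => conj (S1 r))
      (fun r => -conj (D r)) (fun r => -conj (D1 r)) h2 h1 dl rb where
  dl_nonneg := h.dl_nonneg
  relF := by
    rw [L2_conj, L2_negconj]
    refine le_trans (le_of_eq ?_) h.relG
    rw [← RCLike.norm_conj ((S1 rb - D1 rb) - _)]
    congr 2
    simp only [map_sub, map_mul, map_add, Complex.conj_conj, Complex.conj_ofReal, Complex.conj_I]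
    ring
  relG := by
    rw [L2_conj, L2_negconj]
    refine le_trans (le_of_eq ?_) h.relF
    rw [← RCLike.norm_conj ((S1 rb + D1 rb) - _)]
    congr 2
    simp only [map_sub, map_mul, map_add, Complex.conj_conj, Complex.conj_ofReal, Complex.conj_I]
    ring

end Crest.Agent.R086.R3
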