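import Crest.Agent.R086.BCIface
import Crest.Agent.R086.CExDefs
import Crest.Agent.R086.SHRad
import Crest.Agent.R086.CVLim
import Crest.Agent.R086.R3Defs
import Crest.Agent.R086.R3Swap_Mg
import Mathlib
import Crest.Agent.R086.ABIface
import Crest.Agent.R086.Ext6

-- ▼ part R086/CV
section

/-!
Row 86 (S0114), Part C, node (CV) (helper702): the coefficient bounds `CEx.Coef` for the profiles of
`BData` on `(0, rb]`, `rb ∈ [1, 3.9]`.
-/

set_option autoImplicit false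

open MeasureTheory Complex Set Filter Topology
open scoped ContDiff

namespace Crest.Agent.R086.CV

/-- virial multiplier, `(m w)' = 12 w` -/
noncomputable def mq (q : ℝ → ℂ) (r : ℝ) : ℝ := 12 * (∫ s in (0:ℝ)..r, CCore.w q s) / CCore.w q r

/-- `P' = n rho P` -/
noncomputable def P1q (q : ℝ → ℂ) (N : ℕ) (r : ℝ) : ℝ :=
  (N : ℝ) * CCore.rho q (deriv q) r * ‖q r‖ ^ N

section aux

variable {q : ℝ → ℂ}

theorem w_continuous (hq : Continuous q) : Continuous (CCore.w q) := by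
  unfold CCore.w; fun_prop

theorem w_pos {r : ℝ} (hr : 0 < r) (h0 : q r ≠ 0) : 0 < CCore.w q r := by
  unfold CCore.w
  have := norm_pos_iff.mpr h0
  positivity

theorem w_lo {r : ℝ} (hr : 0 ≤ r) {a : ℝ} (ha : 0 ≤ a) (h : a ≤ ‖q r‖) : a ^ 2 * r ^ 11 ≤ CCore.w q r := by
  unfold CCore.w
  have : a ^ 2 ≤ ‖q r‖ ^ 2 := pow_le_pow_left₀ ha h 2
  exact mul_le_mul_of_nonneg_right this (by positivity)

theorem w_hi {r : ℝ} (hr : 0 ≤ r) {a : ℝ} (h : ‖q r‖ ≤ a) : CCore.w q r ≤ a ^ 2 * r ^ 11 := by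
  unfold CCore.w
  have : ‖q r‖ ^ 2 ≤ a ^ 2 := pow_le_pow_left₀ (norm_nonneg _) h 2
  exact mul_le_mul_of_nonneg_right this (by positivity)

theorem int_w_hi (hq : Continuous q) {r a : ℝ} (hr : 0 ≤ r) (h : ∀ s ∈ Icc 0 r, ‖q s‖ ≤ a) :
    ∫ s in (0:ℝ)..r, CCore.w q s ≤ a ^ 2 * (r ^ 12 / 12) := by
  have h1 : ∫ s in (0:ℝ)..r, CCore.w q s ≤ ∫ s in (0:ℝ)..r, a ^ 2 * s ^ 11 := by
    refine intervalIntegral.integral_mono_on hr ((w_continuous hq).intervalIntegrable _ _)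
      ((by fun_prop : Continuous fun s : ℝ => a ^ 2 * s ^ 11).intervalIntegrable _ _) ?_
    intro s hs
    exact w_hi hs.1 (h s hs)
  refine h1.trans (le_of_eq ?_)
  rw [intervalIntegral.integral_const_mul, integral_pow]
  norm_num

theorem int_w_lo (hq : Continuous q) {r a : ℝ} (hr : 0 ≤ r) (ha : 0 ≤ a)
    (h : ∀ s ∈ Icc 0 r, a ≤ ‖q s‖) :
    a ^ 2 * (r ^ 12 / 12) ≤ ∫ s in (0:ℝ)..r, CCore.w q s := by
  have h1 : ∫ s in (0:ℝ)..r, a ^ 2 * s ^ 11 ≤ ∫ s in (0:ℝ)..r, CCore.w q s := by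
    refine intervalIntegral.integral_mono_on hr
      ((by fun_prop : Continuous fun s : ℝ => a ^ 2 * s ^ 11).intervalIntegrable _ _)
      ((w_continuous hq).intervalIntegrable _ _) ?_
    intro s hs
    exact w_lo hs.1 ha (h s hs)
  refine le_trans (le_of_eq ?_) h1
  rw [intervalIntegral.integral_const_mul, integral_pow]
  norm_num

/-- `m ≤ (a/c)² r` when `|q| ≤ a` on `[0,r]` and `c ≤ |q r|` -/
theorem mq_hi (hq : Continuous q) {r a c : ℝ} (hr : 0 < r) (hc : 0 < c)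
    (h : ∀ s ∈ Icc 0 r, ‖q s‖ ≤ a) (h2 : c ≤ ‖q r‖) : mq q r ≤ (a ^ 2 / c ^ 2) * r := by
  have h0 : q r ≠ 0 := by rw [← norm_pos_iff]; linarith
  have hw := w_pos hr h0
  unfold mq
  rw [div_le_iff₀ hw]
  have h3 := int_w_hi hq hr.le h
  have h4 := w_lo hr.le hc.le h2
  have h5 : (a ^ 2 / c ^ 2) * r * (c ^ 2 * r ^ 11) ≤ (a ^ 2 / c ^ 2) * r * CCore.w q r :=
    mul_le_mul_of_nonneg_left h4 (by positivity)
  have h6 : (a ^ 2 / c ^ 2) * r * (c ^ 2 * r ^ 11) = a ^ 2 * r ^ 12 := by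
    field_simp
  rw [h6] at h5
  linarith

theorem mq_lo (hq : Continuous q) {r a c : ℝ} (hr : 0 < r) (hc : 0 ≤ c) (ha : 0 < a)
    (h : ∀ s ∈ Icc 0 r, c ≤ ‖q s‖) (h0 : q r ≠ 0) (h2 : ‖q r‖ ≤ a) : (c ^ 2 / a ^ 2) * r ≤ mq q r := by
  have hw := w_pos hr h0
  unfold mq
  rw [le_div_iff₀ hw]
  have h3 := int_w_lo hq hr.le hc h
  have h4 := w_hi hr.le h2
  have h5 : (c ^ 2 / a ^ 2) * r * CCore.w q r ≤ (c ^ 2 / a ^ 2) * r * (a ^ 2 * r ^ 11) :=
    mul_le_mul_of_nonneg_left h4 (by positivity)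
  have h6 : (c ^ 2 / a ^ 2) * r * (a ^ 2 * r ^ 11) = c ^ 2 * r ^ 12 := by
    field_simp
  rw [h6] at h5
  linarith

theorem mq_der (hq : ContDiff ℝ ∞ q) {r : ℝ} (hr : 0 < r) (h0 : q r ≠ 0) :
    HasDerivAt (mq q) (12 - mq q r * (11 / r + 2 * CCore.rho q (deriv q) r)) r := by
  have hqd : HasDerivAt q (deriv q r) r := (hq.differentiable (by norm_num) r).hasDerivAt
  have hwc := w_continuous hq.continuous
  have h1 := (intervalIntegral.integral_hasDerivAt_right (hwc.intervalIntegrable 0 r)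
    (hwc.stronglyMeasurableAtFilter _ _) hwc.continuousAt).const_mul 12
  have h2 := CCore.hasDerivAt_w (Q1 := deriv q) hqd hr.ne' h0
  have hw := w_pos hr h0
  have h3 := h1.div h2 hw.ne'
  refine h3.congr_deriv ?_
  unfold mq
  field_simp

theorem rho_abs_le {r C : ℝ} (h0 : q r ≠ 0) (h : ‖deriv q r‖ ≤ C * r * ‖q r‖) :
    |CCore.rho q (deriv q) r| ≤ C * r ∧ |(deriv q r / q r).im| ≤ C * r := by
  have hn : ‖deriv q r / q r‖ ≤ C * r := by
    rw [norm_div, div_le_iff₀ (norm_pos_iff.mpr h0)]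
    exact h
  exact ⟨(Complex.abs_re_le_norm _).trans hn, (Complex.abs_im_le_norm _).trans hn⟩

/-- `Coef` from pointwise facts on `(0, 3.9]`. -/
theorem coef_aux (hq : ContDiff ℝ ∞ q) {N : ℕ} (hN : 1 ≤ N) {C Cp e : ℝ} (hC : 1 ≤ C) (hCp : 1 ≤ Cp)
    (he : 0 ≤ e) (hlo : ∀ r ∈ Icc (0:ℝ) (39/10), 1 / 2 ≤ ‖q r‖)
    (hhi : ∀ r ∈ Icc (0:ℝ) (39/10), ‖q r‖ ≤ 2)
    (hder : ∀ r ∈ Icc (0:ℝ) (39/10), ‖deriv q r‖ ≤ C * r * ‖q r‖)
    (hP : ∀ r ∈ Icc (0:ℝ) (39/10), ‖q r‖ ^ N ≤ Cp)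
    (hP1 : ∀ r ∈ Ioc (0:ℝ) (39/10), (N : ℝ) * P1q q N r ≤ e * (N * ‖q r‖ ^ N) + e)
    (hm : ∀ r ∈ Ioc (0:ℝ) (39/10), 1 / 100 ≤ 12 - mq q r * (11 / r + 2 * CCore.rho q (deriv q) r))
    {rb : ℝ} (hrb : rb ∈ Icc (1:ℝ) (39/10)) :
    CEx.Coef (CCore.w q) (CCore.b q (deriv q)) (fun r => ‖q r‖ ^ N) (P1q q N)
      (CCore.rho q (deriv q)) (mq q) (100 + 500 * C + Cp) e N rb := by
  have hne : ∀ r ∈ Ioc 0 rb, q r ≠ 0 := by
    intro r hr
    rw [← norm_pos_iff]
    have := hlo r ⟨hr.1.le, hr.2.trans hrb.2⟩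
    linarith
  have hmem : ∀ r ∈ Ioc 0 rb, r ∈ Icc (0:ℝ) (39/10) := fun r hr => ⟨hr.1.le, hr.2.trans hrb.2⟩
  have hmem' : ∀ r ∈ Ioc 0 rb, r ∈ Ioc (0:ℝ) (39/10) := fun r hr => ⟨hr.1, hr.2.trans hrb.2⟩
  have hC0 : (100:ℝ) ≤ 100 + 500 * C + Cp := by linarith
  have hqc : Continuous q := hq.continuous
  have hdc : Continuous (deriv q) := (hq.of_le (by norm_num : (1 : WithTop ℕ∞) ≤ ∞)).continuous_deriv (by norm_num)
  have hquoc : ContinuousOn (fun r => deriv q r / q r) (Ioc 0 rb) :=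
    hdc.continuousOn.div hqc.continuousOn hne
  have hrhoc : ContinuousOn (CCore.rho q (deriv q)) (Ioc 0 rb) := by
    unfold CCore.rho
    exact Complex.continuous_re.comp_continuousOn hquoc
  have hNr : (1:ℝ) ≤ N := by exact_mod_cast hN
  have hr39 : ∀ r ∈ Ioc 0 rb, r ≤ 39/10 := fun r hr => hr.2.trans hrb.2
  have hmhi : ∀ r ∈ Ioc 0 rb, mq q r ≤ 16 * r := by
    intro r hr
    have := mq_hi (c := 1/2) (a := 2) hqc hr.1 (by norm_num)
      (fun s hs => hhi s ⟨hs.1, hs.2.trans (hr39 r hr)⟩) (hlo r (hmem r hr))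
    norm_num at this
    exact this
  have hmlo : ∀ r ∈ Ioc 0 rb, r / 16 ≤ mq q r := by
    intro r hr
    have := mq_lo (c := 1/2) (a := 2) hqc hr.1 (by norm_num) (by norm_num)
      (fun s hs => hlo s ⟨hs.1, hs.2.trans (hr39 r hr)⟩) (hne r hr) (hhi r (hmem r hr))
    norm_num at this
    linarith
  have hrho : ∀ r ∈ Ioc 0 rb, |CCore.rho q (deriv q) r| ≤ C * r ∧ |(deriv q r / q r).im| ≤ C * r :=
    fun r hr => rho_abs_le (hne r hr) (hder r (hmem r hr))
  refine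
  { C0_one := by linarith
    n_one := hNr
    e_nonneg := he
    rb_lo := hrb.1
    rb_hi := by linarith [hrb.2]
    wlo := ?_
    whi := ?_
    wcont := (w_continuous hqc).continuousOn
    bhi := ?_
    bcont := ?_
    rhohi := ?_
    rhocont := hrhoc
    P_nonneg := fun r _ => by positivity
    P_le := fun r hr => (hP r (hmem r hr)).trans (by linarith)
    P_der := ?_
    P1_cont := ?_
    P1_bd := ?_
    P1_le := fun r hr => hP1 r (hmem' r hr)
    m_der := fun r hr => mq_der hq hr.1 (hne r hr)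
    m_lo := ?_
    m_hi := ?_
    m1_lo := ?_
    m1_hi := ?_ }
  · intro r hr
    have h1 := w_lo (q := q) (a := 1/2) hr.1.le (by norm_num) (hlo r (hmem r hr))
    have h2 : r ^ 11 / (100 + 500 * C + Cp) ≤ (1/2) ^ 2 * r ^ 11 := by
      rw [div_le_iff₀ (by linarith)]
      have : 0 ≤ r ^ 11 := by have := hr.1; positivity
      nlinarith
    exact h2.trans h1
  · intro r hr
    have h1 := w_hi (q := q) (a := 2) hr.1.le (hhi r (hmem r hr))
    refine h1.trans ?_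
    have : 0 ≤ r ^ 11 := by have := hr.1; positivity
    nlinarith
  · intro r hr
    unfold CCore.b
    have h1 := (hrho r hr).2
    have hr0 := hr.1
    calc |2 * (deriv q r / q r).im + r / 2| ≤ |2 * (deriv q r / q r).im| + |r / 2| := abs_add_le _ _
      _ = 2 * |(deriv q r / q r).im| + r / 2 := by
          rw [abs_mul, abs_of_pos (show (0:ℝ) < 2 by norm_num), abs_of_pos (show 0 < r / 2 by positivity)]
      _ ≤ 2 * (C * r) + r / 2 := by linarith
      _ ≤ _ := by nlinarith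
  · unfold CCore.b
    refine ContinuousOn.add (continuousOn_const.mul (Complex.continuous_im.comp_continuousOn hquoc)) ?_
    fun_prop
  · intro r hr
    refine (hrho r hr).1.trans ?_
    have h1 : C * r ≤ C * (39/10) := mul_le_mul_of_nonneg_left (hr39 r hr) (by linarith)
    linarith
  · intro r hr
    have hqd : HasDerivAt q (deriv q r) r := (hq.differentiable (by norm_num) r).hasDerivAt
    have h0 := hne r hr
    have hn0 : ‖q r‖ ≠ 0 := norm_ne_zero_iff.mpr h0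
    -- derivative of the norm
    have h1 : HasDerivAt (fun x => ‖q x‖ ^ 2) (2 * (deriv q r * (starRingEnd ℂ) (q r)).re) r :=
      CCore.hasDerivAt_normSq (Q1 := deriv q) hqd
    have h2 : HasDerivAt (fun x => ‖q x‖) (CCore.rho q (deriv q) r * ‖q r‖) r := by
      have h3 := h1.sqrt (by positivity)
      have h4 : (fun x => Real.sqrt (‖q x‖ ^ 2)) = fun x => ‖q x‖ := by
        funext x; exact Real.sqrt_sq (norm_nonneg _)
      rw [h4] at h3
      refine h3.congr_deriv ?_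
      rw [Real.sqrt_sq (norm_nonneg _)]
      have h5 : (deriv q r * (starRingEnd ℂ) (q r)).re = ‖q r‖ ^ 2 * CCore.rho q (deriv q) r := by
        unfold CCore.rho
        rw [← Complex.normSq_eq_norm_sq]
        have hn : Complex.normSq (q r) ≠ 0 := by simpa [Complex.normSq_eq_zero] using h0
        rw [Complex.div_re]
        simp only [Complex.mul_re, Complex.conj_re, Complex.conj_im]
        field_simp
        ring
      rw [h5]
      field_simp
    have h6 := h2.fun_pow N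
    refine h6.congr_deriv ?_
    unfold P1q
    have h7 : ‖q r‖ ^ N = ‖q r‖ ^ (N - 1) * ‖q r‖ := by
      rw [← pow_succ]; congr 1; omega
    rw [h7]
    ring
  · unfold P1q
    exact (continuousOn_const.mul hrhoc).mul (by fun_prop)
  · refine ⟨N * (C * (39/10)) * Cp, fun r hr => ?_⟩
    unfold P1q
    have hr0 := hr.1
    have hc : C * r ≤ C * (39/10) := mul_le_mul_of_nonneg_left (hr39 r hr) (by linarith)
    have hc0 : 0 ≤ C * (39/10) := by linarith
    rw [abs_mul, abs_mul, abs_of_nonneg (show (0:ℝ) ≤ N by linarith),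
      abs_of_nonneg (show 0 ≤ ‖q r‖ ^ N by positivity)]
    refine mul_le_mul (mul_le_mul_of_nonneg_left ((hrho r hr).1.trans hc) (by linarith))
      (hP r (hmem r hr)) (by positivity) (mul_nonneg (by linarith) hc0)
  · intro r hr
    refine le_trans ?_ (hmlo r hr)
    have hr0 := hr.1
    rw [div_le_div_iff₀ (by linarith) (by norm_num)]
    nlinarith
  · intro r hr
    refine (hmhi r hr).trans ?_
    have hr0 := hr.1
    nlinarith
  · intro r hr
    refine le_trans ?_ (hm r (hmem' r hr))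
    rw [div_le_div_iff₀ (by linarith) (by norm_num)]
    linarith
  · intro r hr
    have hr0 := hr.1
    have h1 := hmlo r hr
    have h2 := hmhi r hr
    have hm0 : 0 ≤ mq q r := le_trans (by positivity) h1
    have h3 := (abs_le.mp (hrho r hr).1).1
    have h4 : 0 ≤ mq q r * (11 / r) := mul_nonneg hm0 (by positivity)
    have h5 : -(mq q r * (C * r)) ≤ mq q r * CCore.rho q (deriv q) r := by
      have := mul_le_mul_of_nonneg_left h3 hm0
      linarith
    have h6 : mq q r * (C * r) ≤ (16 * r) * (C * r) := mul_le_mul_of_nonneg_right h2 (by positivity)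
    have h7 : r * r ≤ 39/10 * (39/10) := mul_le_mul (hr39 r hr) (hr39 r hr) hr0.le (by norm_num)
    have h8 : (16 * r) * (C * r) ≤ 16 * C * (39/10 * (39/10)) := by
      have : (16 * r) * (C * r) = 16 * C * (r * r) := by ring
      rw [this]
      exact mul_le_mul_of_nonneg_left h7 (by linarith)
    have e1 : 12 - mq q r * (11 / r + 2 * CCore.rho q (deriv q) r)
        = 12 - mq q r * (11 / r) - 2 * (mq q r * CCore.rho q (deriv q) r) := by ring
    rw [e1]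
    nlinarith

/-- lower bound for `m'` -/
theorem m1_lo_aux (hq : Continuous q) {r : ℝ} (hr : r ∈ Ioc (0:ℝ) (39/10))
    (hhi : ∀ s ∈ Icc (0:ℝ) (39/10), ‖q s‖ ≤ 10001/10000)
    (hlo : 9599/10000 ≤ ‖q r‖)
    (hrho : CCore.rho q (deriv q) r ≤ 1/10000) :
    1 / 100 ≤ 12 - mq q r * (11 / r + 2 * CCore.rho q (deriv q) r) := by
  have h0 : q r ≠ 0 := by rw [← norm_pos_iff]; linarith
  have hm := mq_hi (a := 10001/10000) (c := 9599/10000) hq hr.1 (by norm_num)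
    (fun s hs => hhi s ⟨hs.1, hs.2.trans hr.2⟩) hlo
  have hw := w_pos hr.1 h0
  have hm0 : 0 ≤ mq q r := by
    unfold mq
    refine div_nonneg (mul_nonneg (by norm_num) ?_) hw.le
    refine intervalIntegral.integral_nonneg hr.1.le (fun s hs => ?_)
    unfold CCore.w
    have := hs.1
    positivity
  have hr0 := hr.1
  have h1 : mq q r * (11 / r + 2 * CCore.rho q (deriv q) r) ≤ mq q r * (11 / r + 2 * (1/10000)) :=
    mul_le_mul_of_nonneg_left (by linarith) hm0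
  have h2 : mq q r * (11 / r + 2 * (1/10000)) ≤
      ((10001/10000) ^ 2 / (9599/10000) ^ 2 * r) * (11 / r + 2 * (1/10000)) :=
    mul_le_mul_of_nonneg_right hm (by positivity)
  have h3 : ((10001/10000 : ℝ) ^ 2 / (9599/10000) ^ 2 * r) * (11 / r + 2 * (1/10000))
      = (10001/10000 : ℝ) ^ 2 / (9599/10000) ^ 2 * (11 + r * (2 * (1/10000))) := by
    field_simp
  rw [h3] at h2
  have h4 : (10001/10000 : ℝ) ^ 2 / (9599/10000) ^ 2 * (11 + r * (2 * (1/10000)))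
      ≤ (10001/10000 : ℝ) ^ 2 / (9599/10000) ^ 2 * (11 + (39/10) * (2 * (1/10000))) := by
    refine mul_le_mul_of_nonneg_left ?_ (by norm_num)
    have := hr.2
    linarith
  have h5 : (10001/10000 : ℝ) ^ 2 / (9599/10000) ^ 2 * (11 + (39/10) * (2 * (1/10000))) ≤ 1199 / 100 := by
    norm_num
  linarith

end aux

/-- `n² e^{-cn} → 0` -/
theorem n_sq_exp {c : ℝ} (hc : 0 < c) {nn : ℕ → ℕ} (hn : Tendsto nn atTop atTop) {e : ℝ} (he : 0 < e) :
    ∀ᶠ j in atTop, ((nn j : ℝ)) ^ 2 * Real.exp (-c * nn j) ≤ e := by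
  have h1 : Tendsto (fun x : ℝ => x ^ 2 * Real.exp (-c * x)) atTop (𝓝 0) := by
    have := Real.tendsto_pow_mul_exp_neg_atTop_nhds_zero 2
    have h2 := (this.comp (tendsto_id.const_mul_atTop hc)).const_mul ((c ^ 2)⁻¹)
    rw [mul_zero] at h2
    refine h2.congr (fun x => ?_)
    simp only [Function.comp, id]
    have : c ≠ 0 := hc.ne'
    field_simp
  have h2 : Tendsto (fun j => (nn j : ℝ)) atTop atTop := tendsto_natCast_atTop_atTop.comp hn
  have h3 := (h1.comp h2).eventually (Iio_mem_nhds he)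
  filter_upwards [h3] with j hj
  exact le_of_lt hj

/-- **(CV)**: the coefficient bounds for the profiles of `BData`. -/
theorem coef {om0 R : ℝ} {U : ℝ → ℂ} (hU : LimitProfile om0 R U) (B : BData om0 R U) :
    ∃ C0 : ℝ, 1 ≤ C0 ∧ ∀ e : ℝ, 0 < e → ∀ᶠ j in atTop, ∀ rb ∈ Icc (1:ℝ) (39/10),
      CEx.Coef (CCore.w (B.P j).q) (CCore.b (B.P j).q (deriv (B.P j).q))
        (fun r => ‖(B.P j).q r‖ ^ (B.nn j)) (P1q (B.P j).q (B.nn j))
        (CCore.rho (B.P j).q (deriv (B.P j).q)) (mq (B.P j).q) C0 e (B.nn j) rb := by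
  obtain ⟨C1, hC1⟩ := B.q_der
  obtain ⟨Cp1, hCp1⟩ := B.pow_le
  obtain ⟨del0, hdel0, hlog⟩ := B.logder
  obtain ⟨c, hc, htail⟩ := B.pow_tail (R + del0) (by linarith)
  set C : ℝ := max C1 1 with hCdef
  set Cp : ℝ := max Cp1 1 with hCpdef
  have hC : 1 ≤ C := le_max_right _ _
  have hCp : 1 ≤ Cp := le_max_right _ _
  refine ⟨100 + 500 * C + Cp, by linarith, fun e he => ?_⟩
  set eta : ℝ := 1 / (200000 * (8 * C + 1)) with heta
  have heta0 : 0 < eta := by rw [heta]; positivity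
  have heta1 : eta ≤ 1 / 10000 := by
    rw [heta]
    refine one_div_le_one_div_of_le (by norm_num) ?_
    nlinarith
  have hR1 : (1:ℝ) ≤ R := by have := hU.R_lo; linarith
  filter_upwards [hC1, hCp1, hlog e he, htail, B.q_lower, B.conv eta heta0, n_sq_exp hc B.nn_tendsto he,
    B.nn_tendsto.eventually_ge_atTop 1] with j h1 h2 h3 h4 h5 h6 h7 h8 rb hrb
  set q := (B.P j).q with hqdef
  have hq : ContDiff ℝ ∞ q := SH.q_contDiff (B.P j)
  have hsub : ∀ r ∈ Icc (0:ℝ) (39/10), r ∈ Icc (0:ℝ) 8 := fun r hr => ⟨hr.1, by linarith [hr.2]⟩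
  have hlo : ∀ r ∈ Icc (0:ℝ) (39/10), 1 / 2 ≤ ‖q r‖ := fun r hr => h5 r (hsub r hr)
  have hhi' : ∀ r ∈ Icc (0:ℝ) (39/10), ‖q r‖ ≤ 10001/10000 := by
    intro r hr
    have e1 := (h6 r (hsub r hr)).1
    have e2 := norm_U_le_one hU r
    have e3 := norm_add_le (U r) (q r - U r)
    rw [add_sub_cancel] at e3
    linarith
  have hlo' : ∀ r ∈ Icc (0:ℝ) (39/10), 9599/10000 ≤ ‖q r‖ := by
    intro r hr
    have e1 := (h6 r (hsub r hr)).1
    have e2 := norm_U_ge hU hr.2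
    have e3 := norm_add_le (q r) (U r - q r)
    rw [add_sub_cancel, norm_sub_rev] at e3
    linarith
  have hder : ∀ r ∈ Icc (0:ℝ) (39/10), ‖deriv q r‖ ≤ C * r * ‖q r‖ := by
    intro r hr
    refine (h1 r hr.1).1.trans ?_
    refine mul_le_mul_of_nonneg_right ?_ (norm_nonneg _)
    have e1 : r / (1 + r ^ 2) ≤ r := div_le_self hr.1 (by nlinarith [hr.1])
    calc C1 * (r / (1 + r ^ 2)) ≤ C * (r / (1 + r ^ 2)) :=
          mul_le_mul_of_nonneg_right (le_max_left _ _) (div_nonneg hr.1 (by positivity))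
      _ ≤ C * r := mul_le_mul_of_nonneg_left e1 (by linarith)
  have hrho : ∀ r ∈ Icc (0:ℝ) (39/10), CCore.rho q (deriv q) r ≤ 1/10000 := by
    intro r hr
    have hn : 1/2 ≤ ‖q r‖ := hlo r hr
    have h0 : q r ≠ 0 := by rw [← norm_pos_iff]; linarith
    have hns : 0 < Complex.normSq (q r) := Complex.normSq_pos.mpr h0
    have e0 : CCore.rho q (deriv q) r = ((starRingEnd ℂ) (q r) * deriv q r).re / Complex.normSq (q r) := by
      unfold CCore.rho
      rw [Complex.div_re]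
      simp only [Complex.mul_re, Complex.conj_re, Complex.conj_im]
      field_simp
      ring
    have e1 : ((starRingEnd ℂ) (q r) * deriv q r).re ≤ eta * (8 * C + 1) := by
      have f1 : (starRingEnd ℂ) (q r) * deriv q r = (starRingEnd ℂ) (U r) * deriv U r
          + ((starRingEnd ℂ) (q r - U r) * deriv q r + (starRingEnd ℂ) (U r) * (deriv q r - deriv U r)) := by
        rw [map_sub]; ring
      rw [f1, Complex.add_re]
      have f2 := re_U_dU hU r
      have f3 : ((starRingEnd ℂ) (q r - U r) * deriv q r + (starRingEnd ℂ) (U r) * (deriv q r - deriv U r)).re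
          ≤ eta * (8 * C + 1) := by
        refine (Complex.re_le_norm _).trans ((norm_add_le _ _).trans ?_)
        rw [norm_mul, norm_mul, RCLike.norm_conj, RCLike.norm_conj]
        have g1 := (h6 r (hsub r hr)).1
        have g2 := (h6 r (hsub r hr)).2
        have g3 := norm_U_le_one hU r
        have g4 : ‖deriv q r‖ ≤ 8 * C := by
          refine (hder r hr).trans ?_
          calc C * r * ‖q r‖ ≤ C * (39/10) * (10001/10000) :=
                mul_le_mul (mul_le_mul_of_nonneg_left hr.2 (by linarith)) (hhi' r hr) (norm_nonneg _)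
                  (by linarith)
            _ ≤ 8 * C := by linarith
        calc ‖q r - U r‖ * ‖deriv q r‖ + ‖U r‖ * ‖deriv q r - deriv U r‖
            ≤ eta * (8 * C) + 1 * eta :=
              add_le_add (mul_le_mul g1 g4 (norm_nonneg _) heta0.le)
                (mul_le_mul g3 g2 (norm_nonneg _) zero_le_one)
          _ = _ := by ring
      linarith
    have e2 : eta * (8 * C + 1) = 1 / 200000 := by
      rw [heta]
      have : (8 * C + 1) ≠ 0 := by positivity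
      field_simp
    have e3 : (1/4 : ℝ) ≤ Complex.normSq (q r) := by
      rw [Complex.normSq_eq_norm_sq]
      nlinarith
    rw [e0, div_le_iff₀ hns]
    rw [e2] at e1
    nlinarith
  refine coef_aux hq h8 hC hCp he.le hlo (fun r hr => (hhi' r hr).trans (by norm_num)) hder
    (fun r hr => (h2 r hr.1).trans (le_max_left _ _)) ?_ ?_ hrb
  · intro r hr
    have hN1 : (1:ℝ) ≤ (B.nn j : ℝ) := by exact_mod_cast h8
    have hPn : 0 ≤ ‖q r‖ ^ (B.nn j) := by positivity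
    unfold P1q
    rcases le_or_gt r (R + del0) with hc' | hc'
    · have f1 : (B.nn j : ℝ) * CCore.rho q (deriv q) r ≤ e := h3 r ⟨hr.1.le, hc'⟩
      have f2 : ((B.nn j : ℝ) * CCore.rho q (deriv q) r) * ((B.nn j : ℝ) * ‖q r‖ ^ (B.nn j))
          ≤ e * ((B.nn j : ℝ) * ‖q r‖ ^ (B.nn j)) :=
        mul_le_mul_of_nonneg_right f1 (by positivity)
      calc (B.nn j : ℝ) * ((B.nn j : ℝ) * CCore.rho q (deriv q) r * ‖q r‖ ^ (B.nn j))
          = ((B.nn j : ℝ) * CCore.rho q (deriv q) r) * ((B.nn j : ℝ) * ‖q r‖ ^ (B.nn j)) := by ring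
        _ ≤ e * ((B.nn j : ℝ) * ‖q r‖ ^ (B.nn j)) := f2
        _ ≤ _ := by linarith
    · have f1 := hrho r ⟨hr.1.le, hr.2⟩
      have f2 := h4 r hc'.le
      have f3 : (1:ℝ) ≤ r ^ 2 := by nlinarith
      have f4 : ‖q r‖ ^ (B.nn j) ≤ Real.exp (-c * B.nn j) :=
        f2.trans (div_le_self (Real.exp_pos _).le f3)
      have f5 : (B.nn j : ℝ) * ((B.nn j : ℝ) * CCore.rho q (deriv q) r * ‖q r‖ ^ (B.nn j))
          ≤ (B.nn j : ℝ) ^ 2 * Real.exp (-c * B.nn j) := by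
        have g1 : CCore.rho q (deriv q) r * ‖q r‖ ^ (B.nn j) ≤ 1 * Real.exp (-c * B.nn j) := by
          calc CCore.rho q (deriv q) r * ‖q r‖ ^ (B.nn j) ≤ 1 * ‖q r‖ ^ (B.nn j) :=
                mul_le_mul_of_nonneg_right (f1.trans (by norm_num)) hPn
            _ ≤ 1 * Real.exp (-c * B.nn j) := mul_le_mul_of_nonneg_left f4 zero_le_one
        calc (B.nn j : ℝ) * ((B.nn j : ℝ) * CCore.rho q (deriv q) r * ‖q r‖ ^ (B.nn j))
            = (B.nn j : ℝ) ^ 2 * (CCore.rho q (deriv q) r * ‖q r‖ ^ (B.nn j)) := by ring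
          _ ≤ (B.nn j : ℝ) ^ 2 * (1 * Real.exp (-c * B.nn j)) :=
              mul_le_mul_of_nonneg_left g1 (by positivity)
          _ = _ := by ring
      have f6 : 0 ≤ e * ((B.nn j : ℝ) * ‖q r‖ ^ (B.nn j)) := by positivity
      linarith
  · intro r hr
    exact m1_lo_aux hq.continuous hr hhi' (hlo' r ⟨hr.1.le, hr.2⟩) (hrho r ⟨hr.1.le, hr.2⟩)

end Crest.Agent.R086.CV
end

-- ▼ part R086/R3Asm
section

/-!
Row 86, Part C, regime (R3) (helper371): assembly of `R3Stmt`.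
-/

set_option autoImplicit false

open MeasureTheory Complex Set Filter Topology

namespace Crest.Agent.R086.R3

open CCore CEx

local notation "conj" => starRingEnd ℂ

theorem coef_mono {w b P P1 rho m : ℝ → ℝ} {C0 C0' e n rb : ℝ} (h : Coef w b P P1 rho m C0 e n rb)
    (hC : C0 ≤ C0') : Coef w b P P1 rho m C0' e n rb := by
  have h0 : 0 < C0 := by linarith [h.C0_one]
  exact
  { C0_one := h.C0_one.trans hC
    n_one := h.n_one
    e_nonneg := h.e_nonneg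
    rb_lo := h.rb_lo
    rb_hi := h.rb_hi.trans hC
    wlo := fun r hr => le_trans (by have := hr.1; gcongr) (h.wlo r hr)
    whi := fun r hr => (h.whi r hr).trans (by have := hr.1; gcongr)
    wcont := h.wcont
    bhi := fun r hr => (h.bhi r hr).trans (by have := hr.1; gcongr)
    bcont := h.bcont
    rhohi := fun r hr => (h.rhohi r hr).trans hC
    rhocont := h.rhocont
    P_nonneg := h.P_nonneg
    P_le := fun r hr => (h.P_le r hr).trans hC
    P_der := h.P_der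
    P1_cont := h.P1_cont
    P1_bd := h.P1_bd
    P1_le := h.P1_le
    m_der := h.m_der
    m_lo := fun r hr => le_trans (by have := hr.1; gcongr) (h.m_lo r hr)
    m_hi := fun r hr => (h.m_hi r hr).trans (by have := hr.1; gcongr)
    m1_lo := fun r hr => le_trans (by gcongr) (h.m1_lo r hr)
    m1_hi := fun r hr => (h.m1_hi r hr).trans hC }

/-! ### size parameters -/

theorem sz_le (l : ℕ) (m : ℂ) : sz l m ≤ (l : ℝ) * (l + 10) + 28 + |m.re| + |m.im| := by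
  unfold sz
  have h1 : ‖3 - m‖ ≤ 3 + (|m.re| + |m.im|) := by
    refine (norm_sub_le _ _).trans (add_le_add (by simp) (Complex.norm_le_abs_re_add_abs_im m))
  linarith

theorem sz_ge (l : ℕ) (m : ℂ) : (l : ℝ) * (l + 10) + 24 + |m.im| ≤ sz l m := by
  unfold sz
  have h1 : |m.im| ≤ ‖3 - m‖ := by
    have := Complex.abs_im_le_norm (3 - m)
    simp at this
    exact this
  linarith

variable {n : ℕ} (P : Profile n)

theorem mu_re (lam : ℂ) : (P.mu lam).re = lam.re + 1 / n := by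
  unfold Profile.mu
  simp

theorem mu_im (lam : ℂ) : (P.mu lam).im = lam.im - P.om := by
  unfold Profile.mu
  simp

theorem small_ev {c a e : ℝ} (hc : 0 < c) (N : ℕ) {nn : ℕ → ℕ} (hn : Tendsto nn atTop atTop) (he : 0 < e) :
    ∀ᶠ j in atTop, a * ((nn j : ℝ) ^ N * Real.exp (-c * nn j)) ≤ e := by
  have h1 : Tendsto (fun x : ℝ => a * (x ^ N * Real.exp (-c * x))) atTop (𝓝 0) := by
    have := Real.tendsto_pow_mul_exp_neg_atTop_nhds_zero N
    have h2 := (this.comp (tendsto_id.const_mul_atTop hc)).const_mul (a * (c ^ N)⁻¹)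
    rw [mul_zero] at h2
    refine h2.congr (fun x => ?_)
    simp only [Function.comp, id]
    have : c ≠ 0 := hc.ne'
    rw [mul_pow]
    field_simp
  have h2 : Tendsto (fun j => (nn j : ℝ)) atTop atTop := tendsto_natCast_atTop_atTop.comp hn
  have h3 := (h1.comp h2).eventually (Iio_mem_nhds he)
  filter_upwards [h3] with j hj
  exact le_of_lt hj

/-- `S = D = 0` gives `F = G = 0`. -/
theorem FG_zero {F G : ℝ → ℂ} {r : ℝ} (hq : P.q r ≠ 0) (hS : Sf P F G r = 0) (hD : Df P F G r = 0) :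
    F r = 0 ∧ G r = 0 := by
  unfold Sf at hS
  unfold Df at hD
  have hqc : conj (P.q r) ≠ 0 := by simpa using hq
  have h1 : F r / P.q r = 0 := by linear_combination hS + hD
  have h2 : G r / conj (P.q r) = 0 := by linear_combination hS - hD
  exact ⟨(div_eq_zero_iff.mp h1).resolve_right hq, (div_eq_zero_iff.mp h2).resolve_right hqc⟩

theorem norm_le_one_add_sq (x : ℝ) : x ≤ 1 + x ^ 2 := by nlinarith [sq_nonneg (x - 1)]

/-- the error constant -/
theorem dl_bd {er h1 h2 Cb X c cE nr k2 : ℝ} {KK : ℕ} (hX : 1 ≤ X) (her0 : 0 ≤ er)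
    (her : er ≤ Real.exp (-cE * nr) * X ^ KK) (h10 : 0 ≤ h1) (h20 : 0 ≤ h2)
    (hh : 8 + h1 + h2 ≤ Cb * X ^ 2) (hk : k2 ≤ X) (hk0 : 0 ≤ k2)
    (hs : 8 * (Real.exp (-cE * nr) * X ^ KK) ^ 2 * (Cb * X ^ 2) ^ 2 * X ≤ c) :
    8 * er ^ 2 * (8 + h1 + h2) ^ 2 ≤ c ∧ 8 * er ^ 2 * (8 + h1 + h2) ^ 2 * k2 ≤ c := by
  have hb : 8 * er ^ 2 * (8 + h1 + h2) ^ 2 ≤
      8 * (Real.exp (-cE * nr) * X ^ KK) ^ 2 * (Cb * X ^ 2) ^ 2 := by
    gcongr
  have h0 : 0 ≤ 8 * er ^ 2 * (8 + h1 + h2) ^ 2 := by positivity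
  have hp : 0 ≤ 8 * (Real.exp (-cE * nr) * X ^ KK) ^ 2 * (Cb * X ^ 2) ^ 2 := by positivity
  constructor
  · refine hb.trans (le_trans ?_ hs)
    exact le_mul_of_one_le_right hp hX
  · exact (mul_le_mul hb hk hk0 hp).trans hs

/-- body of `CaseII` -/
def Inst2 (C0 eta M c : ℝ) : Prop :=
  ∀ (w b P P1 rho m : ℝ → ℝ) (e n rb Lam eps : ℝ) (lam h1 h2 : ℂ) (S S1 D D1 : ℝ → ℂ) (dl : ℝ),
    Coef w b P P1 rho m C0 e n rb → Sol w b P rho Lam n eps lam S S1 D D1 rb →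
    Bdry w b rho S S1 D D1 h1 h2 dl rb →
    |lam.re| ≤ C0 → M ≤ Lam → |lam.im| * rb ^ 2 ≤ (1 - eta) * Lam →
    h1.re ≤ -(Real.sqrt Lam) / C0 → h2.re ≤ -(Real.sqrt Lam) / C0 →
    dl ≤ c →
    ∀ r ∈ Ioc 0 rb, S r = 0 ∧ D r = 0

/-- body of `CaseIII` -/
def Inst3 (C0 M c : ℝ) : Prop :=
  ∀ (w b P P1 rho m : ℝ → ℝ) (e n rb Lam eps k : ℝ) (lam h1 h2 : ℂ) (S S1 D D1 : ℝ → ℂ) (dl : ℝ),
    Coef w b P P1 rho m C0 e n rb → Sol w b P rho Lam n eps lam S S1 D D1 rb →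
    Bdry w b rho S S1 D D1 h1 h2 dl rb →
    |lam.re| ≤ C0 → M ≤ k → lam.im = -k ^ 2 → Lam ≤ C0 * k ^ 2 → e ≤ c →
    k / C0 ≤ h1.im → ‖h1‖ ≤ C0 * k →
    h2.re ≤ -k / C0 → ‖h2‖ ≤ C0 * k → ‖h2‖ ^ 2 ≤ Lam / rb ^ 2 + k ^ 2 + C0 → |h2.im| ≤ C0 / k →
    dl * k ^ 2 ≤ c →
    ∀ r ∈ Ioc 0 rb, S r = 0 ∧ D r = 0

/-- body of `DtnEv` -/
def EvAt (r δ A C M : ℝ) : Prop := ∀ (l : ℕ) (m : ℂ),
    0 < m.re → m.re ≤ A → M ≤ sz l m → δ * sz l m ≤ reV l m r →
    JCx.Phi l m r ≠ 0 ∧ (hh l m r).re ≤ -Real.sqrt (sz l m) / C ∧ ‖hh l m r‖ ^ 2 ≤ reV l m r + C ∧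
      |(hh l m r).im| ≤ C / Real.sqrt (sz l m)

/-- body of `DtnPr` -/
def PrAt (r δ A C M : ℝ) : Prop := ∀ (l : ℕ) (m : ℂ),
    0 < m.re → m.re ≤ A → M ≤ sz l m → reV l m r ≤ -(δ * sz l m) →
    JCx.Phi l m r ≠ 0 ∧ Real.sqrt (sz l m) / C ≤ (hh l m r).im ∧ ‖hh l m r‖ ≤ C * Real.sqrt (sz l m)

/-- EXT0 at one radius -/
def ExtAt (P : Profile n) (l : ℕ) (lam : ℂ) (F G : ℝ → ℂ) (r1 er rb : ℝ) : Prop :=
  ∃ c1 c2 : ℂ,
      ‖F rb - c1 * JCx.Phi l (P.mu lam) rb‖ ≤ er * NB r1 F G ∧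
      ‖deriv F rb - c1 * JCx.Phi1 l (P.mu lam) rb‖ ≤ er * NB r1 F G ∧
      ‖G rb - c2 * starRingEnd ℂ (JCx.Phi l (P.mu (starRingEnd ℂ lam)) rb)‖ ≤ er * NB r1 F G ∧
      ‖deriv G rb - c2 * starRingEnd ℂ (JCx.Phi1 l (P.mu (starRingEnd ℂ lam)) rb)‖ ≤ er * NB r1 F G

theorem reV_le_sz (l : ℕ) (m : ℂ) {r : ℝ} (hr : 1 ≤ r) : reV l m r ≤ sz l m := by
  unfold reV sz
  have h1 : m.im ≤ ‖3 - m‖ := by
    have := Complex.abs_im_le_norm (3 - m)
    simp at this
    exact (le_abs_self _).trans this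
  have h2 : ((l : ℝ) * (l + 10) + 99 / 4) / r ^ 2 ≤ (l : ℝ) * (l + 10) + 99 / 4 :=
    div_le_self (by positivity) (by nlinarith)
  have h3 : 0 ≤ r ^ 2 / 16 := by positivity
  linarith

theorem step2 {C' C0 C1 e M2 c2 Ce Me A er r1 Cb X cE nr : ℝ} {KK : ℕ} {lam : ℂ} {l : ℕ} {H : R12 → ℝ}
    {F G : ℝ → ℂ}
    (hI : Inst2 C0 (1 / 10) M2 c2) (hS : SolStmt) (hB : BdryStmt) (hev : EvAt (17 / 5) (1 / 500) A Ce Me)
    (hCe : 1 ≤ Ce) (hCe0 : Ce ≤ C0) (hC1 : C1 ≤ C0) (hC' : |C'| ≤ C0) (hA : A = |C'| + 1)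
    (hq : ∀ r, P.q r ≠ 0) (hom : |P.om| ≤ 1) (hn : 1 ≤ n)
    (hcoef : ∃ P1 m, CEx.Coef (CCore.w P.q) (CCore.b P.q (deriv P.q))
        (fun r => ‖P.q r‖ ^ n) P1 (CCore.rho P.q (deriv P.q)) m C1 e n (17 / 5))
    (hlow : 1 / 2 ≤ ‖P.q (17 / 5)‖) (hE : P.Eig lam l H F G) (hre0 : 0 ≤ lam.re) (hre : lam.re ≤ C')
    (hr1 : 0 < r1) (hr1' : r1 ≤ 17 / 5) (hext : ExtAt P l lam F G r1 er (17 / 5))
    (hcase : |lam.im| * (17 / 5) ^ 2 ≤ (1 - 1 / 10) * ((l : ℝ) * (l + 10)))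
    (hM2 : M2 ≤ (l : ℝ) * (l + 10)) (hMe : Me ≤ (l : ℝ) * (l + 10))
    (hbig : 1000 * (A + 10) ≤ (l : ℝ) * (l + 10))
    (hX : 1 ≤ X) (her0 : 0 ≤ er) (her : er ≤ Real.exp (-cE * nr) * X ^ KK)
    (hszX : 8 + 2 * (2 + Ce + sz l (P.mu lam) + sz l (P.mu (conj lam))) ≤ Cb * X ^ 2)
    (hs : 8 * (Real.exp (-cE * nr) * X ^ KK) ^ 2 * (Cb * X ^ 2) ^ 2 * X ≤ c2) :
    ∀ r ∈ Ioc (0 : ℝ) (17 / 5), Sf P F G r = 0 ∧ Df P F G r = 0 := by
  have hn0 : (0 : ℝ) < 1 / n := by positivity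
  have hn1 : (1 : ℝ) / n ≤ 1 := by
    rw [div_le_one (by positivity)]
    exact_mod_cast hn
  have hA0 : 0 ≤ |C'| := abs_nonneg _
  have hreC : lam.re ≤ |C'| := hre.trans (le_abs_self _)
  obtain ⟨om1, om2⟩ := abs_le.mp hom
  set Lam : ℝ := (l : ℝ) * (l + 10) with hLam
  have hLam0 : 0 ≤ Lam := by positivity
  have him : |lam.im| ≤ 9 / 115 * Lam := by
    have := abs_nonneg lam.im
    nlinarith
  have hgen : ∀ nu : ℂ, nu.re = lam.re → |nu.im| ≤ |lam.im| →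
      JCx.Phi l (P.mu nu) (17 / 5) ≠ 0 ∧ (hh l (P.mu nu) (17 / 5)).re ≤ -Real.sqrt Lam / C0 ∧
      ‖hh l (P.mu nu) (17 / 5)‖ ≤ 1 + Ce + sz l (P.mu nu) := by
    intro nu h1 h2
    have e1 : (P.mu nu).re = lam.re + 1 / n := by rw [mu_re, h1]
    have e2 : (P.mu nu).im = nu.im - P.om := mu_im P nu
    obtain ⟨i1, i2⟩ := abs_le.mp h2
    have hszlo := sz_ge l (P.mu nu)
    have hszhi := sz_le l (P.mu nu)
    have a1 : |(P.mu nu).re| ≤ A := by
      rw [e1, abs_of_nonneg (by positivity), hA]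
      linarith
    have a2 : |(P.mu nu).im| ≤ |lam.im| + 1 := by
      rw [e2, abs_le]
      constructor <;> linarith
    obtain ⟨a3, a4⟩ := abs_le.mp a2
    have a5 := abs_nonneg (P.mu nu).im
    obtain ⟨g1, g2, g3, g4⟩ := hev l (P.mu nu) (by rw [e1]; positivity) (le_trans (le_abs_self _) a1)
      (by linarith) (by
        unfold reV
        rw [← hLam] at hszhi ⊢
        norm_num
        linarith)
    have hsz0 : 0 ≤ Lam := hLam0
    refine ⟨g1, g2.trans ?_, ?_⟩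
    · rw [neg_div, neg_div, neg_le_neg_iff]
      have s1 : Real.sqrt Lam ≤ Real.sqrt (sz l (P.mu nu)) := Real.sqrt_le_sqrt (by linarith)
      exact div_le_div₀ (Real.sqrt_nonneg _) s1 (by linarith) hCe0
    · have t1 := norm_le_one_add_sq ‖hh l (P.mu nu) (17 / 5)‖
      have t2 := reV_le_sz l (P.mu nu) (r := 17 / 5) (by norm_num)
      linarith
  obtain ⟨b1, b2, b3⟩ := hgen lam rfl le_rfl
  obtain ⟨d1, d2, d3⟩ := hgen (conj lam) (by simp) (by simp)
  obtain ⟨P1, m, hco⟩ := hcoef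
  obtain ⟨c1, c2', x1, x2, x3, x4⟩ := hext
  have h20 : (1 : WithTop ℕ∞) ≤ (N0 : ℕ) := by
    have : (1 : ℕ) ≤ N0 := by unfold N0; norm_num
    exact_mod_cast this
  have dF : Differentiable ℝ F := (hE.mode.cF.of_le h20).differentiable (by norm_num)
  have dG : Differentiable ℝ G := (hE.mode.cG.of_le h20).differentiable (by norm_num)
  have hbd := hB n P hq l lam F G dF dG r1 (17 / 5) er c1 c2' hr1 hr1' (by norm_num) (by norm_num)
    her0 hlow b1 d1 x1 x2 x3 x4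
  have hsol := hS n P hq lam l H F G hE (17 / 5) (by norm_num)
  have hdl := dl_bd (k2 := 0) (h1 := ‖hh l (P.mu lam) (17 / 5)‖)
    (h2 := ‖hh l (P.mu (conj lam)) (17 / 5)‖) hX her0 her
    (norm_nonneg _) (norm_nonneg _) (by
      have := sz_ge l (P.mu lam)
      have := sz_ge l (P.mu (conj lam))
      have := abs_nonneg (P.mu lam).im
      have := abs_nonneg (P.mu (conj lam)).im
      linarith) (by linarith) le_rfl hs
  refine hI _ _ _ P1 _ m e n (17 / 5) Lam (1 / n) lam _ _ _ _ _ _ _ (coef_mono hco hC1) hsol hbd ?_ hM2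
    hcase b2 d2 hdl.1
  rw [abs_of_nonneg hre0]
  linarith

set_option maxHeartbeats 1000000 in
theorem step3 {C' C0 C1 M3 c3 Ce Me Cp Mp A er r1 Cb X cE nr : ℝ} {KK : ℕ} {lam : ℂ} {l : ℕ}
    {H : R12 → ℝ} {F G : ℝ → ℂ} {k : ℝ}
    (hI : Inst3 C0 M3 c3) (hS : SolStmt) (hB : BdryStmt) (hev : EvAt (19 / 5) (1 / 500) A Ce Me)
    (hpr : PrAt (19 / 5) (1 / 500) A Cp Mp)
    (hCe : 1 ≤ Ce) (hCe0 : Ce + 3 ≤ C0) (hCp : 1 ≤ Cp) (hCp0 : 4 * Cp ≤ C0) (h13 : 20 ≤ C0)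
    (hC1 : C1 ≤ C0) (hC' : |C'| ≤ C0) (hA : A = |C'| + 1)
    (hq : ∀ r, P.q r ≠ 0) (hom : |P.om| ≤ 1) (hn : 1 ≤ n)
    (hcoef : ∃ P1 m, CEx.Coef (CCore.w P.q) (CCore.b P.q (deriv P.q))
        (fun r => ‖P.q r‖ ^ n) P1 (CCore.rho P.q (deriv P.q)) m C1 c3 n (19 / 5))
    (hlow : 1 / 2 ≤ ‖P.q (19 / 5)‖) (hE : P.Eig lam l H F G) (hre0 : 0 ≤ lam.re) (hre : lam.re ≤ C')
    (hr1 : 0 < r1) (hr1' : r1 ≤ 19 / 5) (hext : ExtAt P l lam F G r1 er (19 / 5))
    (hk : 0 < k) (hk2 : |lam.im| = k ^ 2)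
    (hcase : (1 - 1 / 10) * ((l : ℝ) * (l + 10)) ≤ |lam.im| * (17 / 5) ^ 2)
    (hM3 : M3 ≤ k) (hMe : Me ≤ k ^ 2) (hMp : Mp ≤ k ^ 2) (hkC : C0 ≤ k ^ 2)
    (hbig : 1000 * (A + 10) ≤ k ^ 2)
    (hX : 1 ≤ X) (hXk : |lam.im| ≤ X) (her0 : 0 ≤ er) (her : er ≤ Real.exp (-cE * nr) * X ^ KK)
    (hszX : 8 + 2 * (2 + Ce + C0 * (sz l (P.mu lam) + sz l (P.mu (conj lam)))) ≤ Cb * X ^ 2)
    (hs : 8 * (Real.exp (-cE * nr) * X ^ KK) ^ 2 * (Cb * X ^ 2) ^ 2 * X ≤ c3) :
    ∀ r ∈ Ioc (0 : ℝ) (19 / 5), Sf P F G r = 0 ∧ Df P F G r = 0 := by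
  have hn0 : (0 : ℝ) < 1 / n := by positivity
  have hn1 : (1 : ℝ) / n ≤ 1 := by
    rw [div_le_one (by positivity)]
    exact_mod_cast hn
  have hA0 : 0 ≤ |C'| := abs_nonneg _
  have hreC : lam.re ≤ |C'| := hre.trans (le_abs_self _)
  obtain ⟨om1, om2⟩ := abs_le.mp hom
  set Lam : ℝ := (l : ℝ) * (l + 10) with hLam
  have hLam0 : 0 ≤ Lam := by positivity
  have hkk0 : 0 ≤ k ^ 2 := by positivity
  have hLk : Lam ≤ 129 / 10 * k ^ 2 := by
    rw [hk2] at hcase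
    linarith
  have hkk : 0 < k ^ 2 := by positivity
  have hk1 : 1 ≤ k := by
    have h1 : (1 : ℝ) ^ 2 ≤ k ^ 2 := by linarith
    exact (pow_le_pow_iff_left₀ zero_le_one hk.le two_ne_zero).mp h1
  have hkle : k ≤ k ^ 2 := by
    rw [sq]
    exact le_mul_of_one_le_right hk.le hk1
  have hC03 : 3 ≤ C0 ^ 2 := by
    rw [sq]
    calc (3 : ℝ) ≤ 20 * 20 := by norm_num
      _ ≤ C0 * C0 := by gcongr
  -- bounds for both channels
  have hsz : ∀ nu : ℂ, nu.re = lam.re → |nu.im| = k ^ 2 →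
      0 < (P.mu nu).re ∧ (P.mu nu).re ≤ A ∧ k ^ 2 ≤ sz l (P.mu nu) ∧
      sz l (P.mu nu) ≤ 14 * k ^ 2 + 29 + A ∧ k ≤ Real.sqrt (sz l (P.mu nu)) ∧
      Real.sqrt (sz l (P.mu nu)) ≤ 4 * k := by
    intro nu h1 h2
    have e1 : (P.mu nu).re = lam.re + 1 / n := by rw [mu_re, h1]
    have e2 : (P.mu nu).im = nu.im - P.om := mu_im P nu
    have hszlo := sz_ge l (P.mu nu)
    have hszhi := sz_le l (P.mu nu)
    rw [← hLam] at hszlo hszhi
    have a1 : |(P.mu nu).re| ≤ A := by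
      rw [e1, abs_of_nonneg (by positivity), hA]
      linarith
    have a2 : |(P.mu nu).im| ≤ k ^ 2 + 1 := by
      rw [e2, ← h2]
      exact (abs_sub _ _).trans (by linarith)
    have a3 : k ^ 2 - 1 ≤ |(P.mu nu).im| := by
      rw [e2, ← h2]
      have := abs_sub_abs_le_abs_sub nu.im P.om
      linarith
    have b1 : k ^ 2 ≤ sz l (P.mu nu) := by linarith
    have b2 : sz l (P.mu nu) ≤ 14 * k ^ 2 + 29 + A := by linarith
    refine ⟨by rw [e1]; positivity, (le_abs_self _).trans a1, b1, b2, Real.le_sqrt_of_sq_le b1, ?_⟩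
    rw [Real.sqrt_le_left (by positivity)]
    have e6 : (4 * k) ^ 2 = 16 * k ^ 2 := by ring
    rw [e6]
    linarith
  have hgen1 : ∀ nu : ℂ, nu.re = lam.re → nu.im = -k ^ 2 →
      JCx.Phi l (P.mu nu) (19 / 5) ≠ 0 ∧ k / C0 ≤ (hh l (P.mu nu) (19 / 5)).im ∧
      ‖hh l (P.mu nu) (19 / 5)‖ ≤ C0 * k ∧
      ‖hh l (P.mu nu) (19 / 5)‖ ≤ 1 + Ce + C0 * sz l (P.mu nu) := by
    intro nu h1 h2
    have h2' : |nu.im| = k ^ 2 := by rw [h2, abs_neg, abs_of_pos hkk]
    obtain ⟨a1, a2, a3, a4, a5, a6⟩ := hsz nu h1 h2'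
    obtain ⟨g1, g2, g3⟩ := hpr l (P.mu nu) a1 a2 (hMp.trans a3) (by
      unfold reV
      rw [mu_im, h2, ← hLam]
      norm_num
      linarith)
    have t2 : Cp * Real.sqrt (sz l (P.mu nu)) ≤ C0 * k := by
      calc Cp * Real.sqrt (sz l (P.mu nu)) ≤ Cp * (4 * k) := by gcongr
        _ = 4 * Cp * k := by ring
        _ ≤ C0 * k := by gcongr
    refine ⟨g1, le_trans ?_ g2, g3.trans t2, ?_⟩
    · exact div_le_div₀ (Real.sqrt_nonneg _) a5 (by linarith) (by linarith)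
    · have t3 : k ≤ sz l (P.mu nu) := by
        linarith
      have t4 : C0 * k ≤ C0 * sz l (P.mu nu) := by gcongr
      linarith
  have hgen2 : ∀ nu : ℂ, nu.re = lam.re → nu.im = k ^ 2 →
      JCx.Phi l (P.mu nu) (19 / 5) ≠ 0 ∧ (hh l (P.mu nu) (19 / 5)).re ≤ -k / C0 ∧
      ‖hh l (P.mu nu) (19 / 5)‖ ≤ C0 * k ∧
      ‖hh l (P.mu nu) (19 / 5)‖ ^ 2 ≤ Lam / (19 / 5) ^ 2 + k ^ 2 + C0 ∧
      |(hh l (P.mu nu) (19 / 5)).im| ≤ C0 / k ∧
      ‖hh l (P.mu nu) (19 / 5)‖ ≤ 1 + Ce + C0 * sz l (P.mu nu) := by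
    intro nu h1 h2
    have h2' : |nu.im| = k ^ 2 := by rw [h2, abs_of_pos hkk]
    obtain ⟨a1, a2, a3, a4, a5, a6⟩ := hsz nu h1 h2'
    obtain ⟨g1, g2, g3, g4⟩ := hev l (P.mu nu) a1 a2 (hMe.trans a3) (by
      unfold reV
      rw [mu_im, h2, ← hLam]
      norm_num
      linarith)
    have hrv : reV l (P.mu nu) (19 / 5) ≤ Lam / (19 / 5) ^ 2 + k ^ 2 + 3 := by
      unfold reV
      rw [mu_im, h2, ← hLam]
      norm_num
      linarith
    have hsq : ‖hh l (P.mu nu) (19 / 5)‖ ^ 2 ≤ Lam / (19 / 5) ^ 2 + k ^ 2 + C0 := by linarith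
    have hle : ‖hh l (P.mu nu) (19 / 5)‖ ≤ C0 * k := by
      refine abs_le_of_sq_le_sq' ?_ (by positivity) |>.2
      refine hsq.trans ?_
      have : Lam / (19 / 5) ^ 2 ≤ k ^ 2 := by
        rw [div_le_iff₀ (by norm_num)]
        linarith
      have e5 : (C0 * k) ^ 2 = C0 ^ 2 * k ^ 2 := by ring
      rw [e5]
      have e6 : 3 * k ^ 2 ≤ C0 ^ 2 * k ^ 2 := by gcongr
      linarith
    refine ⟨g1, g2.trans ?_, hle, hsq, g4.trans ?_, ?_⟩
    · rw [neg_div, neg_div, neg_le_neg_iff]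
      exact div_le_div₀ (Real.sqrt_nonneg _) a5 (by linarith) (by linarith)
    · exact div_le_div₀ (by linarith) (by linarith) hk a5
    · have t1 := norm_le_one_add_sq ‖hh l (P.mu nu) (19 / 5)‖
      have t2 := reV_le_sz l (P.mu nu) (r := 19 / 5) (by norm_num)
      have t3 : sz l (P.mu nu) ≤ C0 * sz l (P.mu nu) := by
        have : 0 ≤ sz l (P.mu nu) := by linarith
        exact le_mul_of_one_le_left this (by linarith)
      linarith
  obtain ⟨P1, m, hco⟩ := hcoef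
  obtain ⟨c1, c2', x1, x2, x3, x4⟩ := hext
  have h20 : (1 : WithTop ℕ∞) ≤ (N0 : ℕ) := by
    have : (1 : ℕ) ≤ N0 := by unfold N0; norm_num
    exact_mod_cast this
  have dF : Differentiable ℝ F := (hE.mode.cF.of_le h20).differentiable (by norm_num)
  have dG : Differentiable ℝ G := (hE.mode.cG.of_le h20).differentiable (by norm_num)
  have hsol := hS n P hq lam l H F G hE (19 / 5) (by norm_num)
  have hLC : Lam ≤ C0 * k ^ 2 := by
    have : 20 * k ^ 2 ≤ C0 * k ^ 2 := by gcongr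
    linarith
  have habs : |lam.re| ≤ C0 := by
    rw [abs_of_nonneg hre0]
    linarith
  have hdl0 : ∀ {h1 h2 : ℝ}, 0 ≤ h1 → 0 ≤ h2 → 8 + h1 + h2 ≤ Cb * X ^ 2 →
      8 * er ^ 2 * (8 + h1 + h2) ^ 2 * k ^ 2 ≤ c3 := by
    intro h1 h2 q1 q2 q3
    exact (dl_bd hX her0 her q1 q2 q3 (by rw [← hk2]; exact hXk) hkk.le hs).2
  have hCsz : 0 ≤ C0 * (sz l (P.mu lam) + sz l (P.mu (conj lam))) := by
    have z1 := sz_ge l (P.mu lam)
    have z2 := sz_ge l (P.mu (conj lam))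
    rw [← hLam] at z1 z2
    have z3 := abs_nonneg (P.mu lam).im
    have z4 := abs_nonneg (P.mu (conj lam)).im
    exact mul_nonneg (by linarith) (by linarith)
  rcases le_or_gt lam.im 0 with him | him
  · have hi : lam.im = -k ^ 2 := by rw [← hk2, abs_of_nonpos him]; ring
    obtain ⟨b1, b2, b3, b4⟩ := hgen1 lam rfl hi
    obtain ⟨d1, d2, d3, d4, d5, d6⟩ := hgen2 (conj lam) (by simp) (by simp [hi])
    have hbd := hB n P hq l lam F G dF dG r1 (19 / 5) er c1 c2' hr1 hr1' (by norm_num) (by norm_num)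
      her0 hlow b1 d1 x1 x2 x3 x4
    exact hI _ _ _ P1 _ m c3 n (19 / 5) Lam (1 / n) k lam _ _ _ _ _ _ _ (coef_mono hco hC1) hsol hbd habs
      hM3 hi hLC le_rfl b2 b3 d2 d3 d4 d5 (hdl0 (norm_nonneg _) (norm_nonneg _) (by linarith))
  · have hi : (conj lam).im = -k ^ 2 := by
      rw [Complex.conj_im, ← hk2, abs_of_pos him]
    have hi' : lam.im = k ^ 2 := by rw [← hk2, abs_of_pos him]
    obtain ⟨b1, b2, b3, b4⟩ := hgen1 (conj lam) (by simp) hi
    obtain ⟨d1, d2, d3, d4, d5, d6⟩ := hgen2 lam rfl hi'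
    have hbd := hB n P hq l lam F G dF dG r1 (19 / 5) er c1 c2' hr1 hr1' (by norm_num) (by norm_num)
      her0 hlow d1 b1 x1 x2 x3 x4
    have hfin := hI _ _ _ P1 _ m c3 n (19 / 5) Lam (1 / n) k (conj lam) _ _ _ _ _ _ _ (coef_mono hco hC1)
      (sol_swap hsol) (bdry_swap hbd) (by simpa using habs)
      hM3 hi hLC le_rfl b2 b3 d2 d3 d4 d5 (hdl0 (norm_nonneg _) (norm_nonneg _) (by linarith))
    intro r hr
    obtain ⟨f1, f2⟩ := hfin r hr
    simp only [neg_eq_zero, map_eq_zero] at f1 f2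
    exact ⟨f1, f2⟩

/-- polynomial bound of the size parameters -/
theorem szX {l : ℕ} {lam : ℂ} {A C0 Ce X : ℝ} (hom : |P.om| ≤ 1) (hX : 1 ≤ X) (hl : (l : ℝ) ≤ X)
    (hlam : ‖lam‖ ≤ X) (hC0 : 1 ≤ C0) (hCe : Ce ≤ C0) (hA : 0 ≤ A) (hn : 1 ≤ n)
    (hre : |lam.re| ≤ A) :
    8 + 2 * (2 + Ce + C0 * (sz l (P.mu lam) + sz l (P.mu (conj lam)))) ≤
      C0 * (14 + 4 * (42 + A)) * X ^ 2 := by
  have hn1 : (1 : ℝ) / n ≤ 1 := by
    rw [div_le_one (by positivity)]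
    exact_mod_cast hn
  have hn0 : (0 : ℝ) ≤ 1 / n := by positivity
  have hX2 : X ≤ X ^ 2 := by nlinarith
  have hX1 : 1 ≤ X ^ 2 := hX.trans hX2
  have him : |lam.im| ≤ X := (Complex.abs_im_le_norm lam).trans hlam
  have hL : (l : ℝ) * (l + 10) ≤ X ^ 2 + 10 * X ^ 2 := by
    have h0 : (0 : ℝ) ≤ l := by positivity
    nlinarith
  have key : ∀ nu : ℂ, nu.re = lam.re → |nu.im| = |lam.im| → sz l (P.mu nu) ≤ (42 + A) * X ^ 2 := by
    intro nu h1 h2
    have e1 : (P.mu nu).re = lam.re + 1 / n := by rw [mu_re, h1]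
    have e2 : (P.mu nu).im = nu.im - P.om := mu_im P nu
    have hszhi := sz_le l (P.mu nu)
    have a1 : |(P.mu nu).re| ≤ A + 1 := by
      rw [e1]
      refine (abs_add_le _ _).trans (add_le_add hre ?_)
      rw [abs_of_nonneg hn0]
      exact hn1
    have a2 : |(P.mu nu).im| ≤ X + 1 := by
      rw [e2]
      exact (abs_sub _ _).trans (by rw [h2]; linarith)
    have a3 : A ≤ A * X ^ 2 := le_mul_of_one_le_right hA hX1
    have e3 : (42 + A) * X ^ 2 = 42 * X ^ 2 + A * X ^ 2 := by ring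
    rw [e3]
    linarith
  have k1 := key lam rfl rfl
  have k2 := key (conj lam) (by simp) (by simp)
  have k3 : C0 * (sz l (P.mu lam) + sz l (P.mu (conj lam))) ≤ C0 * (2 * ((42 + A) * X ^ 2)) := by
    gcongr
    linarith
  have k4 : C0 ≤ C0 * X ^ 2 := le_mul_of_one_le_right (by linarith) hX1
  have e4 : C0 * (14 + 4 * (42 + A)) * X ^ 2 = 14 * (C0 * X ^ 2) + 2 * (C0 * (2 * ((42 + A) * X ^ 2))) := by
    ring
  rw [e4]
  linarith

set_option maxHeartbeats 1000000 in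
/-- **Regime (R3)** -/
theorem r3_of (h2 : CEx.CaseII) (h3 : CEx.CaseIII) (hS : SolStmt) (hB : BdryStmt) (hev : DtnEv)
    (hpr : DtnPr)
    (hE : ∀ (om0 R : ℝ) (U : ℝ → ℂ), LimitProfile om0 R U → ∀ B : BData om0 R U,
      B.EXT0 JCx.Phi JCx.Phi1) : R3Stmt := by
  intro om0 R U hU B C' K
  obtain ⟨C1, hC11, hcoef⟩ := CV.coef hU B
  obtain ⟨KK, cE, hcE, hext⟩ := hE om0 R U hU B (67 / 20) (by linarith [hU.R_hi])
  set A : ℝ := |C'| + 1 with hA
  have hA0 : 0 ≤ |C'| := abs_nonneg _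
  obtain ⟨Ce1, Me1, hCe1, hMe1, hev1⟩ := hev (17 / 5) (1 / 500) A (by norm_num) (by norm_num)
  obtain ⟨Ce2, Me2, hCe2, hMe2, hev2⟩ := hev (19 / 5) (1 / 500) A (by norm_num) (by norm_num)
  obtain ⟨Cp, Mp, hCp, hMp, hpr2⟩ := hpr (19 / 5) (1 / 500) A (by norm_num) (by norm_num)
  set C0 : ℝ := C1 + |C'| + 20 + Ce1 + Ce2 + 4 * Cp with hC0
  have hC01 : 1 ≤ C0 := by linarith
  obtain ⟨M2, c2, hM2, hc2, H2⟩ := h2 C0 (1 / 10) hC01 (by norm_num)
  obtain ⟨M3, c3, hM3, hc3, H3⟩ := h3 C0 hC01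
  have hI2 : Inst2 C0 (1 / 10) M2 c2 := H2
  have hI3 : Inst3 C0 M3 c3 := H3
  set T : ℝ := M2 + M3 + Me1 + Me2 + Mp + C0 + 1000 * (A + 10) with hT
  have hT1 : 1 ≤ T := by linarith
  have hTT : T ≤ T ^ 2 := by
    rw [sq]
    exact le_mul_of_one_le_right (by linarith) hT1
  set Cb : ℝ := C0 * (14 + 4 * (42 + A)) with hCb
  refine ⟨|C'| + 14 * T ^ 2, ?_⟩
  have hc : 0 < min c2 c3 := lt_min hc2 hc3
  have hsm := small_ev (c := 2 * cE) (a := 8 * Cb ^ 2 * 2 ^ (2 * KK + 5)) (e := min c2 c3) (by positivity)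
    (K * (2 * KK + 5)) B.nn_tendsto hc
  have hlim := B.om_tendsto.eventually (Icc_mem_nhds (a := 0) (b := 1) (by linarith [hU.om_lo])
    (by linarith [hU.om_hi]))
  filter_upwards [hcoef c3 hc3, hcoef 1 one_pos, hext, B.q_lower, hlim, hsm,
    B.nn_tendsto.eventually_ge_atTop 1] with j hj1 hj2 hj3 hj4 hj5 hj6 hj7
  intro lam l H F G hEig hre0 hNZ hre hlam hl
  by_contra hcon
  push Not at hcon
  have hom : |(B.P j).om| ≤ 1 := by
    rw [abs_of_nonneg hj5.1]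
    exact hj5.2
  have hnr : (1 : ℝ) ≤ (B.nn j : ℝ) := by exact_mod_cast hj7
  set N : ℝ := (B.nn j : ℝ) with hN
  set X : ℝ := 2 * N ^ K with hX
  have hNK : 1 ≤ N ^ K := one_le_pow₀ hnr
  have hX1 : 1 ≤ X := by linarith
  have hlX : (l : ℝ) ≤ X := by linarith
  have hlamX : ‖lam‖ ≤ X := by linarith
  have hlamX' : 1 + ‖lam‖ ≤ X := by linarith
  have hreA : |lam.re| ≤ A := by
    rw [abs_of_nonneg hre0, hA]
    linarith [le_abs_self C']
  have hsz := szX (B.P j) (C0 := C0) (Ce := Ce2) hom hX1 hlX hlamX hC01 (by linarith) (by linarith) hj7 hreA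
  have hsz1 := szX (B.P j) (C0 := C0) (Ce := Ce1) hom hX1 hlX hlamX hC01 (by linarith) (by linarith) hj7 hreA
  set er : ℝ := Real.exp (-cE * N) * (1 + ‖lam‖) ^ KK with her
  have her0 : 0 ≤ er := by positivity
  have her1 : er ≤ Real.exp (-cE * N) * X ^ KK := by
    rw [her]
    gcongr
  have hs : 8 * (Real.exp (-cE * N) * X ^ KK) ^ 2 * (Cb * X ^ 2) ^ 2 * X ≤ min c2 c3 := by
    refine le_trans (le_of_eq ?_) hj6
    have e1 : Real.exp (-(2 * cE) * N) = Real.exp (-cE * N) ^ 2 := by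
      rw [← Real.exp_nat_mul]
      congr 1
      push_cast
      ring
    rw [e1, hX]
    rw [pow_mul N K (2 * KK + 5)]
    ring
  have hsc2 := hs.trans (min_le_left c2 c3)
  have hsc3 := hs.trans (min_le_right c2 c3)
  have hq := B.q_ne j
  have hPair : (B.P j).Pair l H lam 0 (fun _ => 0) F G :=
    { sharm := hEig.mode.harm
      nrm := hEig.mode.norm
      cF := hEig.mode.cF
      cG := hEig.mode.cG
      pF := hEig.mode.pF
      pG := hEig.mode.pG
      xF := hEig.mode.xF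
      xG := hEig.mode.xG
      eqF := fun r hr => by rw [hEig.eq1 r hr]; ring
      eqG := fun r hr => by rw [hEig.eq2 r hr]; simp }
  obtain ⟨c1, c2', hx⟩ := hj3 l H lam F G hre0 hPair
  have hextAt : ∀ rb ∈ Icc (67 / 20 : ℝ) 8, ExtAt (B.P j) l lam F G (67 / 20) er rb := by
    intro rb hrb
    exact ⟨c1, c2', hx rb hrb⟩
  set Lam : ℝ := (l : ℝ) * (l + 10) with hLam
  have hlLam : (l : ℝ) ≤ Lam := by
    have h0 : (0 : ℝ) ≤ l := by positivity
    have h1 : (l : ℝ) * 10 ≤ (l : ℝ) * (l + 10) := by gcongr; linarith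
    rw [hLam]
    linarith
  have hLam0 : 0 ≤ Lam := by positivity
  have hlamle : ‖lam‖ ≤ |C'| + |lam.im| := by
    refine (Complex.norm_le_abs_re_add_abs_im lam).trans ?_
    have : |lam.re| ≤ |C'| := by
      rw [abs_of_nonneg hre0]
      exact hre.trans (le_abs_self _)
    linarith
  have him0 := abs_nonneg lam.im
  have hCsz : ∀ nu : ℂ, 0 ≤ sz l ((B.P j).mu nu) := by
    intro nu
    have z1 := sz_ge l ((B.P j).mu nu)
    have z3 := abs_nonneg ((B.P j).mu nu).im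
    rw [← hLam] at z1
    linarith
  obtain ⟨r0, hr0, hFG⟩ := hNZ
  rcases le_or_gt (|lam.im| * (17 / 5) ^ 2) ((1 - 1 / 10) * Lam) with hcase | hcase
  · have hbigL : T ^ 2 ≤ Lam := by
      norm_num at hcase
      linarith
    have hTL : T ≤ Lam := hTT.trans hbigL
    have hfin := step2 (B.P j) (r1 := 67 / 20) (Cb := Cb) (X := X) (cE := cE) (nr := N) (KK := KK) (er := er)
      (C1 := C1) (e := 1) hI2 hS hB hev1 hCe1 (by linarith) (by linarith) (by linarith) hA hq hom hj7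
      ⟨_, _, hj2 (17 / 5) (by constructor <;> norm_num)⟩ (hj4 (17 / 5) (by constructor <;> norm_num))
      hEig hre0 hre (by norm_num) (by norm_num) (hextAt (17 / 5) (by constructor <;> norm_num)) hcase
      (by linarith) (by linarith) (by linarith) hX1 her0 her1 (by
        refine le_trans ?_ hsz1
        have w1 := hCsz lam
        have w2 := hCsz (conj lam)
        have w3 : sz l ((B.P j).mu lam) + sz l ((B.P j).mu (conj lam)) ≤
          C0 * (sz l ((B.P j).mu lam) + sz l ((B.P j).mu (conj lam))) :=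
          le_mul_of_one_le_left (by linarith) hC01
        linarith) hsc2
    have hzero := uniq (B.nn j) (B.P j) lam l H F G hEig (17 / 5) (by norm_num)
      (fun r hr => FG_zero (B.P j) (hq r) (hfin r hr).1 (hfin r hr).2) r0 hr0
    rcases hFG with h | h
    · exact h hzero.1
    · exact h hzero.2
  · have hbigk : T ^ 2 ≤ |lam.im| := by
      norm_num at hcase
      linarith
    set k : ℝ := Real.sqrt |lam.im| with hk
    have hk2 : |lam.im| = k ^ 2 := (Real.sq_sqrt him0).symm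
    have hTk : T ≤ k := Real.le_sqrt_of_sq_le hbigk
    have hTk2 : T ≤ k ^ 2 := by rw [← hk2]; exact hTT.trans hbigk
    have hfin := step3 (B.P j) (r1 := 67 / 20) (Cb := Cb) (X := X) (cE := cE) (nr := N) (KK := KK) (er := er)
      (C1 := C1) (k := k) hI3 hS hB hev2 hpr2 hCe2 (by linarith) hCp (by linarith) (by linarith)
      (by linarith) (by linarith) hA hq hom hj7
      ⟨_, _, hj1 (19 / 5) (by constructor <;> norm_num)⟩ (hj4 (19 / 5) (by constructor <;> norm_num))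
      hEig hre0 hre (by norm_num) (by norm_num) (hextAt (19 / 5) (by constructor <;> norm_num))
      (by linarith) hk2 hcase.le (by linarith) (by linarith) (by linarith) (by linarith) (by linarith)
      hX1 ((Complex.abs_im_le_norm lam).trans hlamX) her0 her1 hsz hsc3
    have hzero := uniq (B.nn j) (B.P j) lam l H F G hEig (19 / 5) (by norm_num)
      (fun r hr => FG_zero (B.P j) (hq r) (hfin r hr).1 (hfin r hr).2) r0 hr0
    rcases hFG with h | h
    · exact h hzero.1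
    · exact h hzero.2

end Crest.Agent.R086.R3
end

-- ▼ part R086/Ext7
section

/-!
Row 86, exterior DtN (helper766), part 7: the form for `fo l mu` (Part A's outgoing solution) and
the corollaries (E) (evanescent) and (P) (propagating) wanted by C2/R3.
-/

set_option autoImplicit false

open MeasureTheory Complex Set Filter Topology

namespace Crest.Agent.R086.Ext

/-- `h = φ'/φ` at `r`, `φ = r^{11/2} e^{ir²/8} fo l mu`. -/
noncomputable def hh (l : ℕ) (mu : ℂ) (r : ℝ) : ℂ :=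
  A.fo1 l mu r / A.fo l mu r + 11 / (2 * r) + I * r / 4

/-- `(l+5)² - 1/4` -/
noncomputable def nu (l : ℕ) : ℝ := ((l : ℝ) + 5) ^ 2 - 1 / 4

theorem nu_eq (l : ℕ) : nu l = msq ((l : ℝ) + 6) := by
  unfold nu msq
  ring

theorem nu_ge (l : ℕ) : 24 ≤ nu l := by
  unfold nu
  have : (0 : ℝ) ≤ l := by positivity
  nlinarith

/-- the potential at `r` -/
noncomputable def Vf (l : ℕ) (mu : ℂ) (r : ℝ) : ℂ := nu l / r ^ 2 - r ^ 2 / 16 + I * (3 - mu)

theorem JCx_eq (a c z : ℂ) : JCx.J a c z = Jc a c z := rfl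

theorem fo_eq (l : ℕ) {mu : ℂ} (hmu : 0 < mu.re) {r : ℝ} (hr : 0 < r) :
    A.fo l mu r = (r : ℂ) ^ l * (-I * (mu + l / 2) * y0 ((l : ℝ) + 6) (mu + l / 2) r) ∧
    A.fo1 l mu r = (l : ℂ) / r * A.fo l mu r +
      (r : ℂ) ^ l * (-I * (mu + l / 2) * y1 ((l : ℝ) + 6) (mu + l / 2) r) := by
  have ha : 0 < (mu + (l : ℂ) / 2).re := by
    have h2 : ((l : ℂ) / 2).re = (l : ℝ) / 2 := by simp
    rw [Complex.add_re, h2]
    positivity
  have hz : 0 < (((r ^ 2 / 4 : ℝ) : ℂ)).re := by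
    rw [Complex.ofReal_re]
    positivity
  have e1 : (((r ^ 2 / 4 : ℝ) : ℂ)) = (r : ℂ) ^ 2 / 4 := by push_cast; rfl
  have e2 : (((l : ℝ) + 6 : ℝ) : ℂ) - 1 - (mu + (l : ℂ) / 2) = ((l : ℂ) + 6) - (mu + (l : ℂ) / 2) - 1 := by
    push_cast
    ring
  constructor
  · unfold A.fo
    rw [JCx.W_eq ha hz, JCx_eq]
    unfold y0
    rw [e2, e1]
  · unfold A.fo1
    congr 1
    unfold JCx.W1
    rw [JCx_eq]
    unfold y1
    rw [e2, e1]
    ring

/-- the theorem `dtn` for `fo l mu`. -/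
theorem dtn_fo {r δ : ℝ} (hr : 0 < r) (hδ : 0 < δ) : ∃ C Λ : ℝ, 0 < C ∧ 1 ≤ Λ ∧
    ∀ (l : ℕ) (mu : ℂ), 0 < mu.re → Λ ≤ nu l + ‖3 - mu‖ → δ * (nu l + ‖3 - mu‖) ≤ ‖Vf l mu r‖ →
      A.fo l mu r ≠ 0 ∧ ∃ κ : ℂ, κ ^ 2 = Vf l mu r ∧ 0 < (uu * κ).re ∧ κ ≠ 0 ∧
        ‖hh l mu r + κ + (-(2 * nu l / r ^ 3) - r / 8) / (4 * Vf l mu r)‖ ≤ C / ‖κ‖ := by
  obtain ⟨C, Λ, hC, hΛ, h⟩ := dtn hr hδ
  refine ⟨C, Λ, hC, hΛ, fun l mu hmu h1 h2 => ?_⟩
  have ha : 0 < (mu + (l : ℂ) / 2).re := by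
    have h2 : ((l : ℂ) / 2).re = (l : ℝ) / 2 := by simp
    rw [Complex.add_re, h2]
    positivity
  have hb : (6 : ℝ) ≤ (l : ℝ) + 6 := by
    have : (0 : ℝ) ≤ l := by positivity
    linarith
  have ha3 : ((l : ℝ) + 6) / 2 - 3 ≤ (mu + (l : ℂ) / 2).re := by
    have h2 : ((l : ℂ) / 2).re = (l : ℝ) / 2 := by simp
    rw [Complex.add_re, h2]
    linarith
  have e3 : (((l : ℝ) + 6 : ℝ) : ℂ) / 2 - (mu + (l : ℂ) / 2) = 3 - mu := by
    push_cast
    ring
  have eV : VV ((l : ℝ) + 6) (mu + (l : ℂ) / 2) r = Vf l mu r := by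
    unfold VV Vf
    rw [← nu_eq, e3]
  have hk := h ((l : ℝ) + 6) (mu + (l : ℂ) / 2) hb ha ha3 (by rw [e3, ← nu_eq]; exact h1)
    (by rw [e3, ← nu_eq, eV]; exact h2)
  obtain ⟨k1, k2, k3, k4⟩ := hk
  obtain ⟨f1, f2⟩ := fo_eq l hmu hr
  have hane : mu + (l : ℂ) / 2 ≠ 0 := by
    intro h0
    rw [h0] at ha
    simp at ha
  have hr0 : (r : ℂ) ≠ 0 := by exact_mod_cast hr.ne'
  have hfo : A.fo l mu r ≠ 0 := by
    rw [f1]
    exact mul_ne_zero (pow_ne_zero _ hr0) (mul_ne_zero (mul_ne_zero (neg_ne_zero.mpr I_ne_zero) hane) k1)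
  have hkne : kap ((l : ℝ) + 6) (mu + (l : ℂ) / 2) r ≠ 0 := by
    intro h0
    rw [h0] at k3
    simp at k3
  refine ⟨hfo, kap ((l : ℝ) + 6) (mu + (l : ℂ) / 2) r, ?_, k3, hkne, ?_⟩
  · rw [kap_sq, eV]
  · have e4 : hh l mu r + kap ((l : ℝ) + 6) (mu + (l : ℂ) / 2) r +
        (-(2 * nu l / r ^ 3) - r / 8) / (4 * Vf l mu r) =
        y1 ((l : ℝ) + 6) (mu + (l : ℂ) / 2) r / y0 ((l : ℝ) + 6) (mu + (l : ℂ) / 2) r +
          ss ((l : ℝ) + 6) r + kap ((l : ℝ) + 6) (mu + (l : ℂ) / 2) r +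
          qq ((l : ℝ) + 6) (mu + (l : ℂ) / 2) r := by
      unfold hh
      have e5 : A.fo1 l mu r / A.fo l mu r = (l : ℂ) / r +
          y1 ((l : ℝ) + 6) (mu + (l : ℂ) / 2) r / y0 ((l : ℝ) + 6) (mu + (l : ℂ) / 2) r := by
        rw [f2, add_div, mul_div_assoc, div_self hfo, mul_one]
        congr 1
        rw [f1]
        have hI := I_ne_zero
        have hrl : (r : ℂ) ^ l ≠ 0 := pow_ne_zero _ hr0
        rw [mul_div_mul_left _ _ hrl, mul_div_mul_left _ _ (mul_ne_zero (neg_ne_zero.mpr hI) hane)]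
      rw [e5]
      unfold ss qq
      rw [eV]
      unfold VV1
      rw [← nu_eq]
      have : (l : ℂ) / r + 11 / (2 * r) = (2 * (((l : ℝ) + 6 : ℝ) : ℂ) - 1) / (2 * r) := by
        push_cast
        field_simp
        ring
      rw [← this]
      ring
    rw [e4]
    exact k4

/-! ### elementary facts on the root -/

theorem root_evan {κ V : ℂ} {G : ℝ} (hκ : κ ^ 2 = V) (hu : 0 < (uu * κ).re) (hA : 0 < V.re)
    (hG : |V.im| ≤ G) :
    Real.sqrt V.re ≤ κ.re ∧ |κ.im| ≤ G / (2 * Real.sqrt V.re) ∧ κ.re ^ 2 - κ.im ^ 2 = V.re := by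
  have e1 : κ.re ^ 2 - κ.im ^ 2 = V.re := by rw [← hκ, sq, sq, sq, Complex.mul_re]
  have e2 : 2 * κ.re * κ.im = V.im := by rw [← hκ, sq, Complex.mul_im]; ring
  have e3 : 2 * κ.re - κ.im = (uu * κ).re := by
    unfold uu
    simp [Complex.mul_re]
  have hpos : 0 < κ.re := by
    by_contra hcon
    rw [not_lt] at hcon
    nlinarith
  have h1 : Real.sqrt V.re ≤ κ.re := by
    rw [Real.sqrt_le_left hpos.le]
    nlinarith [sq_nonneg κ.im]
  have hs : 0 < Real.sqrt V.re := Real.sqrt_pos.mpr hA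
  refine ⟨h1, ?_, e1⟩
  rw [le_div_iff₀ (by positivity)]
  have h2 : |V.im| = 2 * κ.re * |κ.im| := by
    rw [← e2, abs_mul, abs_of_pos (by positivity)]
  calc |κ.im| * (2 * Real.sqrt V.re) ≤ |κ.im| * (2 * κ.re) := by gcongr
    _ = |V.im| := by rw [h2]; ring
    _ ≤ G := hG

theorem root_prop {κ V : ℂ} {G : ℝ} (hκ : κ ^ 2 = V) (hu : 0 < (uu * κ).re) (hA : G < -V.re)
    (hG0 : 0 ≤ G) (hG : |V.im| ≤ G) :
    κ.im ≤ -Real.sqrt (-V.re) ∧ ‖κ‖ ^ 2 ≤ -V.re + G := by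
  have e1 : κ.re ^ 2 - κ.im ^ 2 = V.re := by rw [← hκ, sq, sq, sq, Complex.mul_re]
  have e2 : 2 * κ.re * κ.im = V.im := by rw [← hκ, sq, Complex.mul_im]; ring
  have e3 : 2 * κ.re - κ.im = (uu * κ).re := by
    unfold uu
    simp [Complex.mul_re]
  have him : κ.im < 0 := by
    by_contra hcon
    rw [not_lt] at hcon
    have h3 := (abs_le.mp hG).2
    nlinarith
  constructor
  · have h1 : Real.sqrt (-V.re) ≤ -κ.im := by
      rw [Real.sqrt_le_left (by linarith)]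
      nlinarith [sq_nonneg κ.re]
    linarith
  · rw [← norm_pow, hκ]
    have h4 := Complex.norm_le_abs_re_add_abs_im V
    rw [abs_of_neg (show V.re < 0 by linarith)] at h4
    linarith

end Crest.Agent.R086.Ext
end

-- ▼ part R086/Ext8
section

/-!
Row 86, exterior DtN (helper766), part 8: corollaries.  `h = hh l mu r = φ'/φ`,
`φ = r^{11/2} e^{ir²/8} fo l mu`.

* `evan` (E): `-x r² ≤ (1-η) ν`   (`x = Im lam`, `|Im mu - x| ≤ 1`, `0 < Re mu ≤ B`);
* `prop` (P): `(1+η) ν ≤ -x r²`.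
-/

set_option autoImplicit false

open MeasureTheory Complex Set Filter Topology

namespace Crest.Agent.R086.Ext

theorem Vf_re (l : ℕ) (mu : ℂ) (r : ℝ) : (Vf l mu r).re = nu l / r ^ 2 - r ^ 2 / 16 + mu.im := by
  have e : Vf l mu r = ((nu l / r ^ 2 - r ^ 2 / 16 : ℝ) : ℂ) + I * (3 - mu) := by
    unfold Vf
    push_cast
    rfl
  rw [e, Complex.add_re, Complex.ofReal_re]
  simp

theorem Vf_im (l : ℕ) (mu : ℂ) (r : ℝ) : (Vf l mu r).im = 3 - mu.re := by
  have e : Vf l mu r = ((nu l / r ^ 2 - r ^ 2 / 16 : ℝ) : ℂ) + I * (3 - mu) := by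
    unfold Vf
    push_cast
    rfl
  rw [e, Complex.add_im, Complex.ofReal_im]
  simp

/-- `q = V'/(4V)` -/
noncomputable def qf (l : ℕ) (mu : ℂ) (r : ℝ) : ℂ :=
  (-(2 * nu l / r ^ 3) - r / 8) / (4 * Vf l mu r)

theorem core {r δ G : ℝ} (hr : 0 < r) (hδ : 0 < δ) (hG : 3 ≤ G) : ∃ C M : ℝ, 1 ≤ C ∧ 1 ≤ M ∧
    ∀ (l : ℕ) (mu : ℂ), 0 < mu.re → |3 - mu.re| ≤ G → M ≤ nu l + |mu.im| →
      δ * (nu l + |mu.im|) ≤ |(Vf l mu r).re| →
      A.fo l mu r ≠ 0 ∧ ∃ κ e : ℂ, κ ^ 2 = Vf l mu r ∧ 0 < (uu * κ).re ∧ κ ≠ 0 ∧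
        hh l mu r = -κ - qf l mu r + e ∧ ‖e‖ ≤ C / ‖κ‖ ∧ ‖qf l mu r‖ ≤ C := by
  obtain ⟨C, Λ, hC, hΛ, h⟩ := dtn_fo hr (show (0 : ℝ) < δ / 2 by positivity)
  refine ⟨max 1 (max C ((2 / r ^ 3 + r / 8) / (4 * δ))), max Λ G, le_max_left _ _,
    hΛ.trans (le_max_left _ _), fun l mu hmu hγ hM hA => ?_⟩
  have hN := nu_ge l
  have hx : 0 ≤ |mu.im| := abs_nonneg _
  set S := nu l + |mu.im| with hS
  have hSΛ : Λ ≤ S := (le_max_left _ _).trans hM
  have hSG : G ≤ S := (le_max_right _ _).trans hM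
  have n1 : ‖3 - mu‖ ≤ G + |mu.im| := by
    have := Complex.norm_le_abs_re_add_abs_im (3 - mu)
    have e1 : (3 - mu).re = 3 - mu.re := by simp
    have e2 : (3 - mu).im = -mu.im := by simp
    rw [e1, e2, abs_neg] at this
    linarith
  have n2 : |mu.im| ≤ ‖3 - mu‖ := by
    have := Complex.abs_im_le_norm (3 - mu)
    have e2 : (3 - mu).im = -mu.im := by simp
    rwa [e2, abs_neg] at this
  have hVn : |(Vf l mu r).re| ≤ ‖Vf l mu r‖ := Complex.abs_re_le_norm _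
  obtain ⟨h1, κ, h2, h3, h4, h5⟩ := h l mu hmu (by linarith) (by
    have t1 : δ / 2 * (nu l + ‖3 - mu‖) ≤ δ / 2 * (2 * S) := by
      gcongr
      linarith
    linarith)
  have hS1 : 1 ≤ S := hΛ.trans hSΛ
  have hVp : δ * S ≤ ‖Vf l mu r‖ := hA.trans hVn
  refine ⟨h1, κ, hh l mu r + κ + qf l mu r, h2, h3, h4, by ring, ?_, ?_⟩
  · refine h5.trans ?_
    gcongr
    exact (le_max_left _ _).trans (le_max_right _ _)
  · refine le_trans ?_ ((le_max_right _ _).trans (le_max_right _ _))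
    unfold qf
    have e1 : (-(2 * (nu l : ℂ) / r ^ 3) - r / 8) = ((-(2 * nu l / r ^ 3) - r / 8 : ℝ) : ℂ) := by
      push_cast
      rfl
    rw [norm_div, norm_mul, e1, Complex.norm_real, Real.norm_eq_abs, abs_of_nonpos]
    · simp only [RCLike.norm_ofNat]
      have h6 : -(-(2 * nu l / r ^ 3) - r / 8) ≤ (2 / r ^ 3 + r / 8) * S := by
        have p1 : 2 * nu l / r ^ 3 ≤ 2 / r ^ 3 * S := by
          rw [div_mul_eq_mul_div]
          gcongr
          linarith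
        have p2 : r / 8 ≤ r / 8 * S := le_mul_of_one_le_right (by positivity) hS1
        linarith
      have hδS : 0 < δ * S := by positivity
      rw [div_le_div_iff₀ (by linarith) (by positivity)]
      calc -(-(2 * nu l / r ^ 3) - r / 8) * (4 * δ) ≤ ((2 / r ^ 3 + r / 8) * S) * (4 * δ) := by gcongr
        _ = (2 / r ^ 3 + r / 8) * (4 * (δ * S)) := by ring
        _ ≤ (2 / r ^ 3 + r / 8) * (4 * ‖Vf l mu r‖) := by gcongr
    · have : 0 ≤ 2 * nu l / r ^ 3 := by positivity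
      linarith

/-- signs of `q` in the evanescent case. -/
theorem qf_evan {l : ℕ} {mu : ℂ} {r G : ℝ} (hr : 0 < r) (hA : 0 < (Vf l mu r).re)
    (hG : |3 - mu.re| ≤ G) :
    (qf l mu r).re ≤ 0 ∧ |(qf l mu r).im| ≤ ‖qf l mu r‖ * G / (Vf l mu r).re := by
  set V := Vf l mu r with hV
  set q := qf l mu r with hq
  have hVne : V ≠ 0 := by
    intro h
    rw [h] at hA
    simp at hA
  have e1 : q * V = ((-(2 * nu l / r ^ 3) - r / 8 : ℝ) : ℂ) / 4 := by
    rw [hq]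
    unfold qf
    rw [← hV]
    push_cast
    field_simp
  have e1' : q * V = (((-(2 * nu l / r ^ 3) - r / 8) / 4 : ℝ) : ℂ) := by
    rw [e1]
    push_cast
    rfl
  have e2 : q.re * V.im + q.im * V.re = 0 := by
    have := congrArg Complex.im e1'
    rw [Complex.mul_im, Complex.ofReal_im] at this
    linarith
  have e3 : q.re * V.re - q.im * V.im = (-(2 * nu l / r ^ 3) - r / 8) / 4 := by
    have := congrArg Complex.re e1'
    rw [Complex.mul_re, Complex.ofReal_re] at this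
    linarith
  have hN := nu_ge l
  have hw : (-(2 * nu l / r ^ 3) - r / 8) / 4 ≤ 0 := by
    have : 0 ≤ 2 * nu l / r ^ 3 := by positivity
    linarith
  constructor
  · by_contra hcon
    rw [not_le] at hcon
    have h1 : q.im * V.re = -(q.re * V.im) := by linarith
    have h2 : (q.re * V.re - q.im * V.im) * V.re ≤ 0 := by
      rw [e3]
      exact mul_nonpos_of_nonpos_of_nonneg hw hA.le
    have h3 : (q.re * V.re - q.im * V.im) * V.re = q.re * V.re ^ 2 + q.re * V.im ^ 2 := by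
      linear_combination (-V.im) * h1
    have h4 : 0 < q.re * V.re ^ 2 := by positivity
    have h5 : 0 ≤ q.re * V.im ^ 2 := by positivity
    linarith
  · rw [le_div_iff₀ hA]
    have h1 : |q.im| * V.re = |q.re| * |V.im| := by
      rw [← abs_mul]
      have : q.re * V.im = -(q.im * V.re) := by linarith
      rw [this, abs_neg, abs_mul, abs_of_pos hA]
    rw [h1]
    have h2 : |V.im| ≤ G := by rw [hV, Vf_im]; exact hG
    have h3 := Complex.abs_re_le_norm q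
    gcongr

/-- evanescent corollary, non-glancing condition in the form `δ S ≤ Re V`. -/
theorem evan' {r δ G : ℝ} (hr : 0 < r) (hδ : 0 < δ) (hG : 3 ≤ G) : ∃ C M : ℝ, 1 ≤ C ∧ 1 ≤ M ∧
    ∀ (l : ℕ) (mu : ℂ), 0 < mu.re → |3 - mu.re| ≤ G → M ≤ nu l + |mu.im| →
      δ * (nu l + |mu.im|) ≤ (Vf l mu r).re →
      A.fo l mu r ≠ 0 ∧ (hh l mu r).re ≤ -(Real.sqrt (nu l + |mu.im|) / C) ∧
      ‖hh l mu r‖ ≤ C * Real.sqrt (nu l + |mu.im|) ∧
      |(hh l mu r).im| ≤ C / Real.sqrt (nu l + |mu.im|) ∧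
      ‖hh l mu r‖ ^ 2 ≤ nu l / r ^ 2 + mu.im + C := by
  obtain ⟨C, M, hC, hM1, h⟩ := core hr hδ hG
  set sd := Real.sqrt δ with hsd
  have hsdp : 0 < sd := Real.sqrt_pos.mpr hδ
  have hsd2 : sd ^ 2 = δ := Real.sq_sqrt hδ.le
  set c1 : ℝ := 2 / sd with hc1
  set c2 : ℝ := (1 / r ^ 2 + 1 + G) + 2 * C with hc2
  set c3 : ℝ := (G + C * G + C) / sd with hc3
  set c4 : ℝ := G ^ 2 + 2 * C + (2 * C) ^ 2 + (G + C * G + C) ^ 2 with hc4
  have p1 : 0 < c1 := by positivity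
  have p2 : 0 < c2 := by positivity
  have p3 : 0 < c3 := by positivity
  have p4 : 0 < c4 := by positivity
  refine ⟨1 + c1 + c2 + c3 + c4, max M ((4 * C + 1) ^ 2 / δ), by linarith,
    hM1.trans (le_max_left _ _), fun l mu hmu hγ hM hA => ?_⟩
  have hN := nu_ge l
  have hx : 0 ≤ |mu.im| := abs_nonneg _
  set S := nu l + |mu.im| with hS
  have hSM : M ≤ S := (le_max_left _ _).trans hM
  have hSC : (4 * C + 1) ^ 2 / δ ≤ S := (le_max_right _ _).trans hM
  have hS1 : 1 ≤ S := hM1.trans hSM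
  set Av := (Vf l mu r).re with hAv
  have hAp : 0 < Av := lt_of_lt_of_le (by positivity) hA
  obtain ⟨h1, κ, e, h2, h3, h4, h5, h6, h7⟩ := h l mu hmu hγ hSM (by rw [abs_of_pos hAp]; exact hA)
  have him : |(Vf l mu r).im| ≤ G := by rw [Vf_im]; exact hγ
  obtain ⟨k1, k2, k3⟩ := root_evan h2 h3 hAp him
  obtain ⟨q1, q2⟩ := qf_evan hr hAp hγ
  set sA := Real.sqrt Av with hsA
  have hsA2 : sA ^ 2 = Av := Real.sq_sqrt hAp.le
  have hsAp : 0 < sA := Real.sqrt_pos.mpr hAp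
  have hsS : 0 < Real.sqrt S := Real.sqrt_pos.mpr (by linarith)
  have hsS2 : Real.sqrt S ^ 2 = S := Real.sq_sqrt (by linarith)
  have hsS1 : 1 ≤ Real.sqrt S := by
    rw [Real.one_le_sqrt]; exact hS1
  have hsd_le : sd * Real.sqrt S ≤ sA := by
    rw [hsA]
    apply Real.le_sqrt_of_sq_le
    rw [mul_pow, hsd2, hsS2]
    exact hA
  have hsA4 : 4 * C + 1 ≤ sA := by
    rw [hsA]
    apply Real.le_sqrt_of_sq_le
    rw [div_le_iff₀ hδ] at hSC
    linarith
  have hκn : sA ≤ ‖κ‖ := k1.trans (Complex.re_le_norm κ)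
  have hκp : 0 < ‖κ‖ := by linarith
  have he : ‖e‖ ≤ C / sA := h6.trans (by gcongr)
  have he1 : ‖e‖ ≤ C := by
    refine he.trans (div_le_self (by linarith) (by linarith))
  have hκe : ‖κ‖ * ‖e‖ ≤ C := by
    calc ‖κ‖ * ‖e‖ ≤ ‖κ‖ * (C / ‖κ‖) := by gcongr
      _ = C := by field_simp
  have hre : (hh l mu r).re = -(κ.re + (qf l mu r).re - e.re) := by
    rw [h5]
    simp only [Complex.add_re, Complex.sub_re, Complex.neg_re]
    ring
  have himh : (hh l mu r).im = -(κ.im + (qf l mu r).im - e.im) := by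
    rw [h5]
    simp only [Complex.add_im, Complex.sub_im, Complex.neg_im]
    ring
  have eqre := abs_le.mp ((Complex.abs_re_le_norm (qf l mu r)).trans h7)
  have eere := abs_le.mp ((Complex.abs_re_le_norm e).trans he1)
  have hκS : ‖κ‖ ≤ (1 / r ^ 2 + 1 + G) * Real.sqrt S := by
    have g1 : (1 : ℝ) ≤ 1 / r ^ 2 + 1 + G := by
      have : 0 < 1 / r ^ 2 := by positivity
      linarith
    have g2 : ‖κ‖ ^ 2 ≤ ((1 / r ^ 2 + 1 + G) * Real.sqrt S) ^ 2 := by
      rw [← norm_pow, h2, mul_pow, hsS2]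
      have g3 := Complex.norm_le_abs_re_add_abs_im (Vf l mu r)
      rw [← hAv, abs_of_pos hAp] at g3
      have g4 : Av ≤ (1 / r ^ 2 + 1) * S := by
        rw [hAv, Vf_re]
        have g5 : nu l / r ^ 2 ≤ 1 / r ^ 2 * S := by
          rw [div_mul_eq_mul_div, one_mul]
          gcongr
          linarith
        have g6 := le_abs_self mu.im
        have g7 : 0 ≤ r ^ 2 / 16 := by positivity
        linarith
      have g8 : G ≤ G * S := le_mul_of_one_le_right (by linarith) hS1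
      have g9 : ‖Vf l mu r‖ ≤ (1 / r ^ 2 + 1 + G) * S := by linarith
      have g10 : (1 / r ^ 2 + 1 + G) * S ≤ (1 / r ^ 2 + 1 + G) ^ 2 * S := by
        gcongr
        exact le_self_pow₀ g1 two_ne_zero
      linarith
    exact le_of_sq_le_sq g2 (by positivity)
  have himb : |(hh l mu r).im| ≤ (G + C * G + C) / sA := by
    rw [himh, abs_neg]
    have t1 : |κ.im| ≤ G / sA := by
      refine k2.trans ?_
      apply div_le_div_of_nonneg_left (by linarith) hsAp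
      linarith
    have t2 : |(qf l mu r).im| ≤ C * G / sA := by
      refine q2.trans ?_
      have t3 : ‖qf l mu r‖ * G ≤ C * G := by gcongr
      have t4 : sA ≤ Av := by
        rw [← hsA2]
        exact le_self_pow₀ (by linarith) two_ne_zero
      have : 0 ≤ ‖qf l mu r‖ * G := by positivity
      apply div_le_div₀ (by positivity) t3 hsAp t4
    have t5 : |e.im| ≤ C / sA := (Complex.abs_im_le_norm e).trans he
    have t6 : |κ.im + (qf l mu r).im - e.im| ≤ |κ.im| + |(qf l mu r).im| + |e.im| := by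
      have := abs_sub (κ.im + (qf l mu r).im) e.im
      have := abs_add_le κ.im (qf l mu r).im
      linarith
    have t7 : (G + C * G + C) / sA = G / sA + C * G / sA + C / sA := by ring
    linarith
  have hDpos : 0 < 1 + c1 + c2 + c3 + c4 := by positivity
  refine ⟨h1, ?_, ?_, ?_, ?_⟩
  · -- (a)
    have a1 : (hh l mu r).re ≤ -(sA / 2) := by
      rw [hre]
      linarith [eqre.1, eere.2]
    have a2 : Real.sqrt S / (1 + c1 + c2 + c3 + c4) ≤ sA / 2 := by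
      rw [div_le_div_iff₀ hDpos (by norm_num)]
      have a3 : Real.sqrt S * 2 = c1 * (sd * Real.sqrt S) := by
        rw [hc1]
        field_simp
      rw [a3]
      calc c1 * (sd * Real.sqrt S) ≤ c1 * sA := by gcongr
        _ = sA * c1 := mul_comm _ _
        _ ≤ sA * (1 + c1 + c2 + c3 + c4) := by
            gcongr
            linarith
    linarith
  · -- (b)
    have b1 : ‖hh l mu r‖ ≤ ‖κ‖ + C + C := by
      rw [h5]
      calc ‖-κ - qf l mu r + e‖ ≤ ‖-κ - qf l mu r‖ + ‖e‖ := norm_add_le _ _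
        _ ≤ ‖-κ‖ + ‖qf l mu r‖ + ‖e‖ := by gcongr; exact norm_sub_le _ _
        _ ≤ ‖κ‖ + C + C := by rw [norm_neg]; gcongr
    have b2 : C + C ≤ 2 * C * Real.sqrt S := by
      have := mul_le_mul_of_nonneg_left hsS1 (show 0 ≤ 2 * C by linarith)
      linarith
    calc ‖hh l mu r‖ ≤ c2 * Real.sqrt S := by rw [hc2]; linarith
      _ ≤ (1 + c1 + c2 + c3 + c4) * Real.sqrt S := by
          gcongr
          linarith
  · -- (c)
    refine himb.trans ?_
    rw [div_le_div_iff₀ hsAp hsS]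
    have t1 : (G + C * G + C) * Real.sqrt S = c3 * (sd * Real.sqrt S) := by
      rw [hc3]
      field_simp
    rw [t1]
    calc c3 * (sd * Real.sqrt S) ≤ c3 * sA := by gcongr
      _ ≤ (1 + c1 + c2 + c3 + c4) * sA := by
          gcongr
          linarith
  · -- (d)
    have d0 : ‖hh l mu r‖ ^ 2 = (hh l mu r).re ^ 2 + (hh l mu r).im ^ 2 := by
      rw [← Complex.normSq_eq_norm_sq, Complex.normSq_apply]
      ring
    have d1 : (hh l mu r).im ^ 2 ≤ (G + C * G + C) ^ 2 := by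
      have : |(hh l mu r).im| ≤ G + C * G + C := by
        refine himb.trans ?_
        apply div_le_self (by positivity) (by linarith)
      rw [← sq_abs]
      gcongr
    have d2 : κ.re ^ 2 ≤ Av + G ^ 2 := by
      have : |κ.im| ≤ G := by
        refine k2.trans ?_
        apply div_le_self (by linarith) (by linarith)
      have : κ.im ^ 2 ≤ G ^ 2 := by
        rw [← sq_abs]
        gcongr
      linarith
    have d3 : κ.re * |e.re| ≤ C := by
      calc κ.re * |e.re| ≤ ‖κ‖ * ‖e‖ := by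
            apply mul_le_mul (Complex.re_le_norm κ) (Complex.abs_re_le_norm e) (abs_nonneg _) (norm_nonneg _)
        _ ≤ C := hκe
    have d4 : (hh l mu r).re ^ 2 ≤ κ.re ^ 2 + 2 * C + (2 * C) ^ 2 := by
      rw [hre]
      set t := (qf l mu r).re - e.re with ht
      have e1 : (-(κ.re + (qf l mu r).re - e.re)) ^ 2 = κ.re ^ 2 + 2 * (κ.re * t) + t ^ 2 := by
        rw [ht]; ring
      have e2 : κ.re * t ≤ C := by
        have : κ.re * t = κ.re * (qf l mu r).re - κ.re * e.re := by rw [ht]; ring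
        have t1 : κ.re * (qf l mu r).re ≤ 0 := mul_nonpos_of_nonneg_of_nonpos (by linarith) q1
        have t2 : -(κ.re * e.re) ≤ κ.re * |e.re| := by
          have hk0 : 0 ≤ κ.re := by linarith
          have hk1 := mul_le_mul_of_nonneg_left (neg_abs_le e.re) hk0
          rw [mul_neg] at hk1
          linarith
        linarith
      have e3 : t ^ 2 ≤ (2 * C) ^ 2 := by
        apply sq_le_sq'
        · rw [ht]; linarith [eqre.1, eere.2]
        · rw [ht]; linarith [eqre.2, eere.1]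
      rw [e1]
      linarith
    have d5 : Av ≤ nu l / r ^ 2 + mu.im := by
      rw [hAv, Vf_re]
      have : 0 ≤ r ^ 2 / 16 := by positivity
      linarith
    rw [d0]
    have : c4 ≤ 1 + c1 + c2 + c3 + c4 := by linarith
    linarith

/-- propagating corollary, non-glancing condition in the form `δ S ≤ -Re V`. -/
theorem prop' {r δ G : ℝ} (hr : 0 < r) (hδ : 0 < δ) (hG : 3 ≤ G) : ∃ C M : ℝ, 1 ≤ C ∧ 1 ≤ M ∧
    ∀ (l : ℕ) (mu : ℂ), 0 < mu.re → |3 - mu.re| ≤ G → M ≤ nu l + |mu.im| →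
      δ * (nu l + |mu.im|) ≤ -(Vf l mu r).re →
      A.fo l mu r ≠ 0 ∧ Real.sqrt (nu l + |mu.im|) / C ≤ (hh l mu r).im ∧
      ‖hh l mu r‖ ≤ C * Real.sqrt (nu l + |mu.im|) ∧ |(hh l mu r).re| ≤ C := by
  obtain ⟨C, M, hC, hM1, h⟩ := core hr hδ hG
  set sd := Real.sqrt δ with hsd
  have hsdp : 0 < sd := Real.sqrt_pos.mpr hδ
  have hsd2 : sd ^ 2 = δ := Real.sq_sqrt hδ.le
  set c1 : ℝ := 2 / sd with hc1
  set c2 : ℝ := (r ^ 2 + 1 + G) + 2 * C with hc2
  set c3 : ℝ := G + 2 * C with hc3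
  have p1 : 0 < c1 := by positivity
  have p2 : 0 < c2 := by positivity
  have p3 : 0 < c3 := by positivity
  refine ⟨1 + c1 + c2 + c3, max M (((4 * C + 1) ^ 2 + G + 1) / δ), by linarith,
    hM1.trans (le_max_left _ _), fun l mu hmu hγ hM hA => ?_⟩
  have hN := nu_ge l
  have hx : 0 ≤ |mu.im| := abs_nonneg _
  set S := nu l + |mu.im| with hS
  have hSM : M ≤ S := (le_max_left _ _).trans hM
  have hSC : ((4 * C + 1) ^ 2 + G + 1) / δ ≤ S := (le_max_right _ _).trans hM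
  have hS1 : 1 ≤ S := hM1.trans hSM
  set Av := -(Vf l mu r).re with hAv
  have hAp : 0 < Av := lt_of_lt_of_le (by positivity) hA
  have hAneg : (Vf l mu r).re < 0 := by linarith
  obtain ⟨h1, κ, e, h2, h3, h4, h5, h6, h7⟩ := h l mu hmu hγ hSM
    (by rw [abs_of_neg hAneg]; exact hA)
  have him : |(Vf l mu r).im| ≤ G := by rw [Vf_im]; exact hγ
  have hbigA : (4 * C + 1) ^ 2 + G + 1 ≤ Av := by
    rw [div_le_iff₀ hδ] at hSC
    linarith
  obtain ⟨k1, k2⟩ := root_prop h2 h3 (by rw [← hAv]; linarith [sq_nonneg (4 * C + 1)]) (by linarith) him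
  rw [← hAv] at k1 k2
  set sA := Real.sqrt Av with hsA
  have hsA2 : sA ^ 2 = Av := Real.sq_sqrt hAp.le
  have hsAp : 0 < sA := Real.sqrt_pos.mpr hAp
  have hsS : 0 < Real.sqrt S := Real.sqrt_pos.mpr (by linarith)
  have hsS2 : Real.sqrt S ^ 2 = S := Real.sq_sqrt (by linarith)
  have hsS1 : 1 ≤ Real.sqrt S := by
    rw [Real.one_le_sqrt]; exact hS1
  have hsd_le : sd * Real.sqrt S ≤ sA := by
    rw [hsA]
    apply Real.le_sqrt_of_sq_le
    rw [mul_pow, hsd2, hsS2]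
    exact hA
  have hsA4 : 4 * C + 1 ≤ sA := by
    rw [hsA]
    apply Real.le_sqrt_of_sq_le
    linarith
  have hκn : sA ≤ ‖κ‖ := by
    have := Complex.abs_im_le_norm κ
    have := neg_abs_le κ.im
    linarith
  have hκp : 0 < ‖κ‖ := by linarith
  have he : ‖e‖ ≤ C / sA := h6.trans (by gcongr)
  have he1 : ‖e‖ ≤ C := by
    refine he.trans (div_le_self (by linarith) (by linarith))
  have hre : (hh l mu r).re = -(κ.re + (qf l mu r).re - e.re) := by
    rw [h5]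
    simp only [Complex.add_re, Complex.sub_re, Complex.neg_re]
    ring
  have himh : (hh l mu r).im = -(κ.im + (qf l mu r).im - e.im) := by
    rw [h5]
    simp only [Complex.add_im, Complex.sub_im, Complex.neg_im]
    ring
  have eqre := abs_le.mp ((Complex.abs_re_le_norm (qf l mu r)).trans h7)
  have eqim := abs_le.mp ((Complex.abs_im_le_norm (qf l mu r)).trans h7)
  have eere := abs_le.mp ((Complex.abs_re_le_norm e).trans he1)
  have eeim := abs_le.mp ((Complex.abs_im_le_norm e).trans he1)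
  have hκS : ‖κ‖ ≤ (r ^ 2 + 1 + G) * Real.sqrt S := by
    have g1 : (1 : ℝ) ≤ r ^ 2 + 1 + G := by
      have : 0 < r ^ 2 := by positivity
      linarith
    have g2 : ‖κ‖ ^ 2 ≤ ((r ^ 2 + 1 + G) * Real.sqrt S) ^ 2 := by
      rw [mul_pow, hsS2]
      have g4 : Av ≤ (r ^ 2 + 1) * S := by
        rw [hAv, Vf_re]
        have g5 : 0 ≤ nu l / r ^ 2 := by positivity
        have g6 := neg_abs_le mu.im
        have g7 : r ^ 2 / 16 ≤ r ^ 2 * S := by
          have := mul_le_mul_of_nonneg_left hS1 (sq_nonneg r)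
          linarith [sq_nonneg r]
        linarith
      have g8 : G ≤ G * S := le_mul_of_one_le_right (by linarith) hS1
      have g9 : ‖κ‖ ^ 2 ≤ (r ^ 2 + 1 + G) * S := by linarith
      have g10 : (r ^ 2 + 1 + G) * S ≤ (r ^ 2 + 1 + G) ^ 2 * S := by
        gcongr
        exact le_self_pow₀ g1 two_ne_zero
      linarith
    exact le_of_sq_le_sq g2 (by positivity)
  have hDpos : 0 < 1 + c1 + c2 + c3 := by positivity
  refine ⟨h1, ?_, ?_, ?_⟩
  · have a1 : sA / 2 ≤ (hh l mu r).im := by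
      rw [himh]
      linarith [eqim.1, eqim.2, eeim.1, eeim.2]
    refine le_trans ?_ a1
    rw [div_le_div_iff₀ hDpos (by norm_num)]
    have a3 : Real.sqrt S * 2 = c1 * (sd * Real.sqrt S) := by
      rw [hc1]
      field_simp
    rw [a3]
    calc c1 * (sd * Real.sqrt S) ≤ c1 * sA := by gcongr
      _ = sA * c1 := mul_comm _ _
      _ ≤ sA * (1 + c1 + c2 + c3) := by
          gcongr
          linarith
  · have b1 : ‖hh l mu r‖ ≤ ‖κ‖ + C + C := by
      rw [h5]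
      calc ‖-κ - qf l mu r + e‖ ≤ ‖-κ - qf l mu r‖ + ‖e‖ := norm_add_le _ _
        _ ≤ ‖-κ‖ + ‖qf l mu r‖ + ‖e‖ := by gcongr; exact norm_sub_le _ _
        _ ≤ ‖κ‖ + C + C := by rw [norm_neg]; gcongr
    have b2 : C + C ≤ 2 * C * Real.sqrt S := by
      have := mul_le_mul_of_nonneg_left hsS1 (show 0 ≤ 2 * C by linarith)
      linarith
    calc ‖hh l mu r‖ ≤ c2 * Real.sqrt S := by rw [hc2]; linarith
      _ ≤ (1 + c1 + c2 + c3) * Real.sqrt S := by
          gcongr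
          linarith
  · -- real part
    have e1 : κ.re ^ 2 - κ.im ^ 2 = (Vf l mu r).re := by rw [← h2, sq, sq, sq, Complex.mul_re]
    have e2 : 2 * κ.re * κ.im = (Vf l mu r).im := by rw [← h2, sq, Complex.mul_im]; ring
    have hκre : |κ.re| ≤ G := by
      have t1 : 2 * (|κ.re| * |κ.im|) ≤ G := by
        rw [← abs_mul]
        have : |κ.re * κ.im| = |(Vf l mu r).im| / 2 := by
          rw [← e2, show 2 * κ.re * κ.im = 2 * (κ.re * κ.im) by ring, abs_mul]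
          simp
        rw [this]
        linarith
      have t2 : 1 ≤ |κ.im| := by
        have := neg_abs_le κ.im
        linarith
      have t3 : |κ.re| * 1 ≤ |κ.re| * |κ.im| := by gcongr
      have t4 := abs_nonneg κ.re
      linarith
    have t := abs_le.mp hκre
    rw [hre, abs_neg]
    rw [abs_le]
    constructor
    · linarith [eqre.1, eere.2, t.1]
    · linarith [eqre.2, eere.1, t.2]

end Crest.Agent.R086.Ext
end

-- ▼ part R086/R3Ev

/-!
Row 86, Part C, R3: the nodes `DtnEv` and `DtnPr` (helper766), from `Ext.evan'`, `Ext.prop'`.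
-/

set_option autoImplicit false

open MeasureTheory Complex Set Filter Topology

namespace Crest.Agent.R086.R3

theorem nu_eq_sz (l : ℕ) : Ext.nu l = (l : ℝ) * (l + 10) + 99 / 4 := by
  unfold Ext.nu
  ring

theorem hh_eq_ext (l : ℕ) (m : ℂ) (r : ℝ) : hh l m r = Ext.hh l m r := by
  have e1 : JCx.Phi l m r = A.fo l m r := rfl
  have e2 : JCx.Phi1 l m r = A.fo1 l m r := by
    unfold JCx.Phi1 A.fo1 A.fo JCx.zr
    ring
  unfold hh Ext.hh
  rw [e1, e2]
  push_cast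
  ring

theorem reV_eq (l : ℕ) (m : ℂ) (r : ℝ) : reV l m r = (Ext.Vf l m r).re := by
  rw [Ext.Vf_re, nu_eq_sz]
  rfl

theorem sz_bounds {l : ℕ} {m : ℂ} {G : ℝ} (hG : |3 - m.re| ≤ G) :
    Ext.nu l + |m.im| ≤ sz l m ∧ sz l m ≤ Ext.nu l + |m.im| + G := by
  have n1 : ‖3 - m‖ ≤ |3 - m.re| + |m.im| := by
    have := Complex.norm_le_abs_re_add_abs_im (3 - m)
    have e1 : (3 - m).re = 3 - m.re := by simp
    have e2 : (3 - m).im = -m.im := by simp
    rwa [e1, e2, abs_neg] at this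
  have n2 : |m.im| ≤ ‖3 - m‖ := by
    have := Complex.abs_im_le_norm (3 - m)
    have e2 : (3 - m).im = -m.im := by simp
    rwa [e2, abs_neg] at this
  unfold sz
  rw [← nu_eq_sz]
  constructor <;> linarith

theorem sqrt_cmp {S z G : ℝ} (h1 : S ≤ z) (h2 : z ≤ S + G) (hG : G ≤ S) (hS : 1 ≤ S) :
    Real.sqrt S ≤ Real.sqrt z ∧ Real.sqrt z ≤ 2 * Real.sqrt S := by
  refine ⟨Real.sqrt_le_sqrt h1, ?_⟩
  have : (2 : ℝ) * Real.sqrt S = Real.sqrt (4 * S) := by
    rw [Real.sqrt_mul (by norm_num), show (4 : ℝ) = 2 ^ 2 by norm_num, Real.sqrt_sq (by norm_num)]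
  rw [this]
  apply Real.sqrt_le_sqrt
  linarith

theorem gbound {m : ℂ} {A : ℝ} (h0 : 0 < m.re) (hA : m.re ≤ A) : |3 - m.re| ≤ 3 + |A| := by
  have := le_abs_self A
  have := abs_nonneg A
  rw [abs_le]
  constructor <;> linarith

theorem dtnEv : DtnEv := by
  intro r δ A hr hδ
  obtain ⟨C, M, hC, hM, h⟩ := Ext.evan' hr hδ (show (3 : ℝ) ≤ 3 + |A| by linarith [abs_nonneg A])
  have hr2 : 0 < r ^ 2 / 16 := by positivity
  refine ⟨2 * C + r ^ 2 / 16, M + 2 * (3 + |A|), by linarith, by linarith [abs_nonneg A],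
    fun l m h0 hA hMs hδs => ?_⟩
  have hG := gbound h0 hA
  obtain ⟨s1, s2⟩ := sz_bounds (l := l) hG
  have hA0 := abs_nonneg A
  have hMS : M ≤ Ext.nu l + |m.im| := by linarith
  have hGS : 3 + |A| ≤ Ext.nu l + |m.im| := by linarith
  obtain ⟨t1, t2⟩ := sqrt_cmp s1 s2 hGS (hM.trans hMS)
  rw [reV_eq] at hδs
  have hδS : δ * (Ext.nu l + |m.im|) ≤ (Ext.Vf l m r).re :=
    (mul_le_mul_of_nonneg_left s1 hδ.le).trans hδs
  obtain ⟨e1, e2, _, e4, e5⟩ := h l m h0 hG hMS hδS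
  have hSp : 0 < Real.sqrt (Ext.nu l + |m.im|) := Real.sqrt_pos.mpr (by linarith)
  have hzp : 0 < Real.sqrt (sz l m) := lt_of_lt_of_le hSp t1
  rw [hh_eq_ext, reV_eq]
  refine ⟨e1, ?_, ?_, ?_⟩
  · refine e2.trans ?_
    rw [neg_div, neg_le_neg_iff, div_le_div_iff₀ (by linarith) (by linarith)]
    nlinarith
  · refine e5.trans ?_
    rw [Ext.Vf_re]
    linarith
  · refine e4.trans ?_
    rw [div_le_div_iff₀ hSp hzp]
    nlinarith

theorem dtnPr : DtnPr := by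
  intro r δ A hr hδ
  obtain ⟨C, M, hC, hM, h⟩ := Ext.prop' hr hδ (show (3 : ℝ) ≤ 3 + |A| by linarith [abs_nonneg A])
  refine ⟨2 * C, M + 2 * (3 + |A|), by linarith, by linarith [abs_nonneg A], fun l m h0 hA hMs hδs => ?_⟩
  have hG := gbound h0 hA
  obtain ⟨s1, s2⟩ := sz_bounds (l := l) hG
  have hA0 := abs_nonneg A
  have hMS : M ≤ Ext.nu l + |m.im| := by linarith
  have hGS : 3 + |A| ≤ Ext.nu l + |m.im| := by linarith
  obtain ⟨t1, t2⟩ := sqrt_cmp s1 s2 hGS (hM.trans hMS)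
  rw [reV_eq] at hδs
  have hδS : δ * (Ext.nu l + |m.im|) ≤ -(Ext.Vf l m r).re := by
    have := mul_le_mul_of_nonneg_left s1 hδ.le
    linarith
  obtain ⟨e1, e2, e3, _⟩ := h l m h0 hG hMS hδS
  have hSp : 0 < Real.sqrt (Ext.nu l + |m.im|) := Real.sqrt_pos.mpr (by linarith)
  rw [hh_eq_ext]
  refine ⟨e1, ?_, ?_⟩
  · refine le_trans ?_ e2
    rw [div_le_div_iff₀ (by linarith) (by linarith)]
    nlinarith
  · refine e3.trans ?_
    have : C * Real.sqrt (Ext.nu l + |m.im|) ≤ C * Real.sqrt (sz l m) := by gcongr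
    have : 0 ≤ C * Real.sqrt (sz l m) := by positivity
    linarith

end Crest.Agent.R086.R3
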