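import Mathlib

/-!
Row 86, spherical harmonics, part 1 (helper475): Fischer inner product and the decomposition
`p = H + |x|^2 q` of homogeneous polynomials.
-/

set_option autoImplicit false

open MvPolynomial Finset

namespace Crest.Agent.R086.Sph

variable {σ : Type*} [Fintype σ] [DecidableEq σ]

/-- formal Laplacian -/
noncomputable def plap (p : MvPolynomial σ ℝ) : MvPolynomial σ ℝ := ∑ i, pderiv i (pderiv i p)


omit [DecidableEq σ] in
theorem plap_add (p q : MvPolynomial σ ℝ) : plap (p + q) = plap p + plap q := by
  simp [plap, Finset.sum_add_distrib]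

omit [DecidableEq σ] in
theorem plap_smul (c : ℝ) (p : MvPolynomial σ ℝ) : plap (c • p) = c • plap p := by
  simp [plap, Finset.smul_sum]

omit [DecidableEq σ] in
theorem plap_sub (p q : MvPolynomial σ ℝ) : plap (p - q) = plap p - plap q := by
  simp [plap, Finset.sum_sub_distrib]

/-- multi-index factorial -/
noncomputable def mfac (m : σ →₀ ℕ) : ℝ := ∏ i, ((m i).factorial : ℝ)

omit [DecidableEq σ] in
theorem mfac_pos (m : σ →₀ ℕ) : 0 < mfac m := by
  unfold mfac
  exact Finset.prod_pos (fun i _ => by exact_mod_cast Nat.factorial_pos _)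

theorem mfac_add_single (m : σ →₀ ℕ) (i : σ) :
    mfac (m + Finsupp.single i 1) = ((m i : ℝ) + 1) * mfac m := by
  unfold mfac
  rw [← Finset.mul_prod_erase Finset.univ _ (Finset.mem_univ i),
    ← Finset.mul_prod_erase Finset.univ (fun j => ((m j).factorial : ℝ)) (Finset.mem_univ i)]
  have h1 : (m + Finsupp.single i 1 : σ →₀ ℕ) i = m i + 1 := by simp
  rw [h1, Nat.factorial_succ]
  push_cast
  rw [mul_assoc]
  congr 2
  apply Finset.prod_congr rfl
  intro j hj
  have hj' : j ≠ i := Finset.ne_of_mem_erase hj
  simp [hj'.symm]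

/-- Fischer inner product. -/
noncomputable def fis (p q : MvPolynomial σ ℝ) : ℝ :=
  ∑ m ∈ p.support, coeff m p * mfac m * coeff m q

omit [DecidableEq σ] in
theorem fis_eq_sum {p q : MvPolynomial σ ℝ} {s : Finset (σ →₀ ℕ)} (hs : p.support ⊆ s) :
    fis p q = ∑ m ∈ s, coeff m p * mfac m * coeff m q := by
  unfold fis
  apply Finset.sum_subset hs
  intro m _ hm
  rw [notMem_support_iff.1 hm]; ring

theorem fis_add_left (p p' q : MvPolynomial σ ℝ) : fis (p + p') q = fis p q + fis p' q := by
  classical
  rw [fis_eq_sum (p := p) (s := p.support ∪ p'.support ∪ (p + p').support)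
      (fun x hx => by simp only [Finset.mem_union]; tauto),
    fis_eq_sum (p := p') (s := p.support ∪ p'.support ∪ (p + p').support)
      (fun x hx => by simp only [Finset.mem_union]; tauto),
    fis_eq_sum (p := p + p') (s := p.support ∪ p'.support ∪ (p + p').support)
      (fun x hx => by simp only [Finset.mem_union]; tauto), ← Finset.sum_add_distrib]
  apply Finset.sum_congr rfl
  intro m _
  rw [coeff_add]; ring

omit [DecidableEq σ] in
theorem fis_zero_left (q : MvPolynomial σ ℝ) : fis 0 q = 0 := by
  unfold fis
  simp

theorem fis_sum_left {ι : Type*} (s : Finset ι) (p : ι → MvPolynomial σ ℝ) (q : MvPolynomial σ ℝ) :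
    fis (∑ i ∈ s, p i) q = ∑ i ∈ s, fis (p i) q := by
  classical
  induction s using Finset.induction_on with
  | empty => simp [fis_zero_left]
  | insert a s ha ih => rw [Finset.sum_insert ha, Finset.sum_insert ha, fis_add_left, ih]

omit [DecidableEq σ] in
theorem fis_add_right (p q q' : MvPolynomial σ ℝ) : fis p (q + q') = fis p q + fis p q' := by
  unfold fis
  rw [← Finset.sum_add_distrib]
  apply Finset.sum_congr rfl
  intro m _
  rw [coeff_add]; ring

omit [DecidableEq σ] in
theorem fis_zero_right (p : MvPolynomial σ ℝ) : fis p 0 = 0 := by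
  unfold fis
  simp

omit [DecidableEq σ] in
theorem fis_sum_right {ι : Type*} (s : Finset ι) (p : MvPolynomial σ ℝ) (q : ι → MvPolynomial σ ℝ) :
    fis p (∑ i ∈ s, q i) = ∑ i ∈ s, fis p (q i) := by
  classical
  induction s using Finset.induction_on with
  | empty => simp [fis_zero_right]
  | insert a s ha ih => rw [Finset.sum_insert ha, Finset.sum_insert ha, fis_add_right, ih]

theorem fis_monomial (m : σ →₀ ℕ) (a : ℝ) (q : MvPolynomial σ ℝ) :
    fis (monomial m a) q = a * mfac m * coeff m q := by
  rw [fis_eq_sum (support_monomial_subset (s := m) (a := a))]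
  simp

/-- multiplication by `X i` is adjoint to `pderiv i`. -/
theorem fis_X_mul (i : σ) (p q : MvPolynomial σ ℝ) : fis (X i * p) q = fis p (pderiv i q) := by
  induction p using MvPolynomial.induction_on' with
  | monomial m a =>
    rw [X, monomial_mul, fis_monomial, fis_monomial, coeff_pderiv, add_comm (Finsupp.single i 1) m,
      mfac_add_single]
    ring
  | add p p' hp hp' => rw [mul_add, fis_add_left, fis_add_left, hp, hp']


omit [DecidableEq σ] in
theorem fis_self_eq_zero {p : MvPolynomial σ ℝ} (h : fis p p = 0) : p = 0 := by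
  by_contra hp
  have h1 : 0 < fis p p := by
    unfold fis
    apply Finset.sum_pos
    · intro m hm
      have hm' : coeff m p ≠ 0 := mem_support_iff.1 hm
      have := mfac_pos m
      have h3 : 0 < coeff m p * coeff m p := mul_self_pos.2 hm'
      nlinarith
    · rw [Finset.nonempty_iff_ne_empty]
      intro h3
      exact hp (by simpa using h3)
  linarith







/-- harmonic homogeneous polynomials -/
structure Harm (l : ℕ) (p : MvPolynomial σ ℝ) : Prop where
  hom : p.IsHomogeneous l
  harm : plap p = 0


end Crest.Agent.R086.Sph
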