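import Crest.Agent.R086.SHDefs
import Crest.Agent.R086.Sph1
import Crest.Agent.R086.SH1b

-- ▼ part R086/SH2a
section

/-!
Row 86, spherical harmonics, part 2a (helper475): the coefficient function
`coef f p r = ∫_{S^11} f(r w) p(w) dσ(w)` and its derivatives.
-/

set_option autoImplicit false

open MeasureTheory MvPolynomial
open scoped ContDiff Topology

namespace Crest.Agent.R086.Sph

/-- evaluation of a polynomial at a point of `R12` -/
noncomputable def ev (p : MvPolynomial (Fin 12) ℝ) (y : R12) : ℝ := eval (fun i => y i) p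

theorem continuous_ev (p : MvPolynomial (Fin 12) ℝ) : Continuous (ev p) := by
  unfold ev
  have : Continuous fun y : R12 => (fun i => y i : Fin 12 → ℝ) := by fun_prop
  exact (MvPolynomial.continuous_eval p).comp this

/-- spherical coefficient -/
noncomputable def coef (f : R12 → ℂ) (p : MvPolynomial (Fin 12) ℝ) (r : ℝ) : ℂ :=
  ∫ w : S11, f (r • (w : R12)) * ((ev p w : ℝ) : ℂ) ∂sig

/-- coefficient of the `j`-th radial derivative -/
noncomputable def dcoef (j : ℕ) (f : R12 → ℂ) (p : MvPolynomial (Fin 12) ℝ) (r : ℝ) : ℂ :=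
  ∫ w : S11, iteratedFDeriv ℝ j f (r • (w : R12)) (fun _ => (w : R12)) * ((ev p w : ℝ) : ℂ) ∂sig

theorem dcoef_zero (f : R12 → ℂ) (p : MvPolynomial (Fin 12) ℝ) : dcoef 0 f p = coef f p := by
  ext r
  simp [dcoef, coef]

/-- continuity of integrals over the sphere -/
theorem continuous_sphInt {F : ℝ → S11 → ℂ} (hF : Continuous (Function.uncurry F)) :
    Continuous fun r => ∫ w, F r w ∂sig := by
  have := continuous_parametric_integral_of_continuous (μ := sig) hF (isCompact_univ (X := S11))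
  simpa using this

/-- differentiation of integrals over the sphere -/
theorem hasDerivAt_sphInt {F F' : ℝ → S11 → ℂ} (hF : Continuous (Function.uncurry F))
    (hF' : Continuous (Function.uncurry F'))
    (h : ∀ r w, HasDerivAt (fun r => F r w) (F' r w) r) (r₀ : ℝ) :
    HasDerivAt (fun r => ∫ w, F r w ∂sig) (∫ w, F' r₀ w ∂sig) r₀ := by
  have hK : IsCompact (Metric.closedBall r₀ 1 ×ˢ (Set.univ : Set S11)) :=
    (isCompact_closedBall r₀ 1).prod isCompact_univ
  obtain ⟨C, hC⟩ := hK.exists_bound_of_continuousOn hF'.continuousOn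
  have hcont : ∀ r, Continuous (F r) := fun r => hF.comp (by fun_prop : Continuous fun w => (r, w))
  have hcont' : ∀ r, Continuous (F' r) := fun r => hF'.comp (by fun_prop : Continuous fun w => (r, w))
  have := hasDerivAt_integral_of_dominated_loc_of_deriv_le (μ := sig) (F := F) (F' := F')
    (x₀ := r₀) (s := Metric.ball r₀ 1) (bound := fun _ => C)
    (Metric.ball_mem_nhds _ one_pos)
    (Filter.Eventually.of_forall fun r => (hcont r).aestronglyMeasurable)
    ((hcont r₀).integrable_of_hasCompactSupport (HasCompactSupport.of_compactSpace _))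
    (hcont' r₀).aestronglyMeasurable
    (Filter.Eventually.of_forall fun w r hr =>
      hC (r, w) ⟨Metric.ball_subset_closedBall hr, Set.mem_univ _⟩)
    (integrable_const _)
    (Filter.Eventually.of_forall fun w r _ => h r w)
  exact this.2

theorem continuous_dint {f : R12 → ℂ} {k : ℕ} (hf : ContDiff ℝ k f) {j : ℕ} (hj : j ≤ k)
    (p : MvPolynomial (Fin 12) ℝ) :
    Continuous (Function.uncurry fun (r : ℝ) (w : S11) =>
      iteratedFDeriv ℝ j f (r • (w : R12)) (fun _ => (w : R12)) * ((ev p w : ℝ) : ℂ)) := by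
  have h1 : Continuous (iteratedFDeriv ℝ j f) :=
    hf.continuous_iteratedFDeriv (by exact_mod_cast hj)
  have h2 : Continuous fun q : ℝ × S11 => q.1 • ((q.2 : S11) : R12) := by fun_prop
  have h3 : Continuous fun q : ℝ × S11 => (fun _ => ((q.2 : S11) : R12) : Fin j → R12) := by
    fun_prop
  have h4 : Continuous fun q : ℝ × S11 =>
      iteratedFDeriv ℝ j f (q.1 • ((q.2 : S11) : R12)) (fun _ => ((q.2 : S11) : R12)) :=
    (h1.comp h2).eval h3
  have h5 : Continuous fun q : ℝ × S11 => ((ev p ((q.2 : S11) : R12) : ℝ) : ℂ) :=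
    Complex.continuous_ofReal.comp ((continuous_ev p).comp (by fun_prop))
  exact h4.mul h5

theorem hasDerivAt_dint {f : R12 → ℂ} {k : ℕ} (hf : ContDiff ℝ k f) {j : ℕ} (hj : j + 1 ≤ k)
    (r : ℝ) (w : R12) :
    HasDerivAt (fun r : ℝ => iteratedFDeriv ℝ j f (r • w) (fun _ => w))
      (iteratedFDeriv ℝ (j + 1) f (r • w) (fun _ => w)) r := by
  have h1 : Differentiable ℝ (iteratedFDeriv ℝ j f) :=
    hf.differentiable_iteratedFDeriv (by exact_mod_cast hj)
  have h2 : HasFDerivAt (iteratedFDeriv ℝ j f) (fderiv ℝ (iteratedFDeriv ℝ j f) (r • w)) (r • w) :=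
    (h1 _).hasFDerivAt
  have h3 : HasDerivAt (fun r : ℝ => r • w) w r := by
    simpa using (hasDerivAt_id r).smul_const w
  have h4 := h2.comp_hasDerivAt r h3
  have h5 := (ContinuousMultilinearMap.apply ℝ (fun _ : Fin j => R12) ℂ
    (fun _ => w)).hasFDerivAt.comp_hasDerivAt r h4
  rw [iteratedFDeriv_succ_apply_left]
  exact h5

theorem hasDerivAt_dcoef {f : R12 → ℂ} {k : ℕ} (hf : ContDiff ℝ k f) {j : ℕ} (hj : j + 1 ≤ k)
    (p : MvPolynomial (Fin 12) ℝ) (r : ℝ) :
    HasDerivAt (dcoef j f p) (dcoef (j + 1) f p r) r := by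
  unfold dcoef
  exact hasDerivAt_sphInt (continuous_dint hf (by omega) p) (continuous_dint hf hj p)
    (fun r w => (hasDerivAt_dint hf hj r (w : R12)).mul_const _) r

theorem continuous_dcoef {f : R12 → ℂ} {k : ℕ} (hf : ContDiff ℝ k f) {j : ℕ} (hj : j ≤ k)
    (p : MvPolynomial (Fin 12) ℝ) : Continuous (dcoef j f p) :=
  continuous_sphInt (continuous_dint hf hj p)

theorem iteratedDeriv_coef {f : R12 → ℂ} {k : ℕ} (hf : ContDiff ℝ k f)
    (p : MvPolynomial (Fin 12) ℝ) : ∀ j, j ≤ k → iteratedDeriv j (coef f p) = dcoef j f p := by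
  intro j
  induction j with
  | zero => intro _; rw [iteratedDeriv_zero, dcoef_zero]
  | succ j ih =>
    intro hj
    rw [iteratedDeriv_succ, ih (by omega)]
    ext r
    exact (hasDerivAt_dcoef hf hj p r).deriv

theorem contDiff_coef {f : R12 → ℂ} {k : ℕ} (hf : ContDiff ℝ k f)
    (p : MvPolynomial (Fin 12) ℝ) : ContDiff ℝ k (coef f p) := by
  rw [contDiff_nat_iff_iteratedDeriv]
  refine ⟨fun j hj => ?_, fun j hj => ?_⟩
  · rw [iteratedDeriv_coef hf p j hj]
    exact continuous_dcoef hf hj p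
  · rw [iteratedDeriv_coef hf p j hj.le]
    exact fun r => (hasDerivAt_dcoef hf hj p r).differentiableAt

/-- total mass of `|p|` on the sphere -/
noncomputable def mass (p : MvPolynomial (Fin 12) ℝ) : ℝ := ∫ w : S11, |ev p w| ∂sig

theorem norm_dcoef_le {f : R12 → ℂ} {j : ℕ} {C : ℝ} {r : ℝ}
    (hC : ∀ y : R12, ‖y‖ = |r| → ‖iteratedFDeriv ℝ j f y‖ ≤ C) (p : MvPolynomial (Fin 12) ℝ) :
    ‖dcoef j f p r‖ ≤ C * mass p := by
  unfold dcoef mass
  rw [← integral_const_mul]
  have hcont : Continuous (fun w : S11 => C * |ev p w|) :=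
    continuous_const.mul ((continuous_ev p).comp continuous_subtype_val).abs
  have hint : Integrable (fun w : S11 => C * |ev p w|) sig :=
    hcont.integrable_of_hasCompactSupport (HasCompactSupport.of_compactSpace _)
  refine norm_integral_le_of_norm_le hint (Filter.Eventually.of_forall fun w => ?_)
  have hw : ‖((w : S11) : R12)‖ = 1 := by simp
  rw [norm_mul, Complex.norm_real, Real.norm_eq_abs]
  apply mul_le_mul_of_nonneg_right _ (abs_nonneg _)
  have h1 := (iteratedFDeriv ℝ j f (r • (w : R12))).le_opNorm (fun _ => (w : R12))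
  have h2 : ∏ _i : Fin j, ‖((w : S11) : R12)‖ = 1 := by simp [hw]
  rw [h2, mul_one] at h1
  exact h1.trans (hC _ (by rw [norm_smul, hw, mul_one, Real.norm_eq_abs]))

theorem deriv_coef {f : R12 → ℂ} (hf : ContDiff ℝ 1 f) (p : MvPolynomial (Fin 12) ℝ) :
    deriv (coef f p) = dcoef 1 f p := by
  have := iteratedDeriv_coef (k := 1) (by exact_mod_cast hf) p 1 le_rfl
  rwa [iteratedDeriv_one] at this

theorem hasDerivAt_coef {f : R12 → ℂ} (hf : ContDiff ℝ 1 f) (p : MvPolynomial (Fin 12) ℝ) (r : ℝ) :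
    HasDerivAt (coef f p) (dcoef 1 f p r) r := by
  have := hasDerivAt_dcoef (k := 1) (j := 0) (by exact_mod_cast hf) le_rfl p r
  rwa [dcoef_zero] at this

/-- the Euler field acts as `r d/dr` -/
theorem coef_eul {f : R12 → ℂ} (p : MvPolynomial (Fin 12) ℝ) (r : ℝ) :
    coef (eul f) p r = r * dcoef 1 f p r := by
  unfold coef dcoef eul
  rw [← integral_const_mul]
  congr 1
  ext w
  rw [iteratedFDeriv_one_apply, map_smul]
  simp [mul_assoc]


theorem integrable_coef {f : R12 → ℂ} (hf : Continuous f) (p : MvPolynomial (Fin 12) ℝ) (r : ℝ) :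
    Integrable (fun w : S11 => f (r • (w : R12)) * ((ev p w : ℝ) : ℂ)) sig := by
  apply Continuous.integrable_of_hasCompactSupport _ (HasCompactSupport.of_compactSpace _)
  exact (hf.comp (by fun_prop)).mul
    (Complex.continuous_ofReal.comp ((continuous_ev p).comp continuous_subtype_val))






end Crest.Agent.R086.Sph
end

-- ▼ part R086/SH2b
section

/-!
Row 86, spherical harmonics, part 2b (helper475): polar coordinates and
the radial form of the Laplacian on spherical coefficients.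
-/

set_option autoImplicit false

open MeasureTheory MvPolynomial Set
open scoped ContDiff Topology

namespace Crest.Agent.R086.Sph

/-- **Polar coordinates** in `R12`. -/
theorem integral_polar (F : R12 → ℂ) (hF : Integrable F) :
    ∫ x, F x = ∫ r in Ioi (0 : ℝ), ((r ^ 11 : ℝ) : ℂ) * ∫ w : S11, F (r • (w : R12)) ∂sig := by
  have hmp := (volume : Measure R12).measurePreserving_homeomorphUnitSphereProd
  have hme := (homeomorphUnitSphereProd R12).measurableEmbedding
  let G : S11 × Ioi (0 : ℝ) → ℂ := fun q => F ((q.2 : ℝ) • (q.1 : R12))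
  have hG : ∀ x : ({(0 : R12)}ᶜ : Set R12), G (homeomorphUnitSphereProd R12 x) = F x := by
    intro x
    have hx : (x : R12) ≠ 0 := x.2
    have hn : ‖(x : R12)‖ ≠ 0 := norm_ne_zero_iff.2 hx
    simp only [G, homeomorphUnitSphereProd_apply_snd_coe, homeomorphUnitSphereProd_apply_fst_coe]
    rw [smul_smul, mul_inv_cancel₀ hn, one_smul]
  have h1 : ∫ x, F x = ∫ x : ({(0 : R12)}ᶜ : Set R12), F x ∂((volume : Measure R12).comap (↑)) := by
    rw [integral_subtype_comap (measurableSet_singleton _).compl F, restrict_compl_singleton]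
  have h2 : ∫ x : ({(0 : R12)}ᶜ : Set R12), F x ∂((volume : Measure R12).comap (↑))
      = ∫ q, G q ∂(sig.prod (Measure.volumeIoiPow (Module.finrank ℝ R12 - 1))) := by
    rw [← hmp.integral_comp hme G]
    congr 1; ext x; rw [hG]
  have hGi : Integrable G (sig.prod (Measure.volumeIoiPow (Module.finrank ℝ R12 - 1))) := by
    rw [← hmp.integrable_comp_emb hme]
    have h3 : G ∘ (homeomorphUnitSphereProd R12) = fun x : ({(0 : R12)}ᶜ : Set R12) => F x := by
      ext x; exact hG x
    rw [h3]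
    have h4 : IntegrableOn F ({(0 : R12)}ᶜ : Set R12) := hF.integrableOn
    rwa [integrableOn_iff_comap_subtypeVal (measurableSet_singleton _).compl] at h4
  have hfr : Module.finrank ℝ R12 - 1 = 11 := by simp
  rw [h1, h2, integral_prod_symm _ hGi, hfr]
  simp only [Measure.volumeIoiPow, ENNReal.ofReal]
  rw [integral_withDensity_eq_integral_smul ((measurable_subtype_coe.pow_const _).real_toNNReal)]
  rw [integral_subtype_comap measurableSet_Ioi
    (fun a : ℝ => Real.toNNReal (a ^ 11) • ∫ w : S11, F (a • (w : R12)) ∂sig)]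
  apply setIntegral_congr_fun measurableSet_Ioi
  intro r hr
  have hr' : (0 : ℝ) < r := hr
  show Real.toNNReal (r ^ 11) • _ = _
  rw [NNReal.smul_def, Real.coe_toNNReal _ (by positivity), Complex.real_smul]

/-- integral of a directional derivative of a compactly supported `C¹` function vanishes -/
theorem integral_fderiv_eq_zero {v : R12 → ℂ} (hv : ContDiff ℝ 1 v) (hc : HasCompactSupport v)
    (e : R12) : ∫ x, fderiv ℝ v x e = 0 := by
  have h1 := integral_mul_fderiv_eq_neg_fderiv_mul_of_integrable (μ := (volume : Measure R12))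
    (f := v) (g := fun _ => (1 : ℂ)) (v := e)
    (by
      have : Continuous fun x => fderiv ℝ v x e * 1 := by
        have := hv.continuous_fderiv (by norm_num)
        fun_prop
      refine this.integrable_of_hasCompactSupport ?_
      have h2 : HasCompactSupport fun x => fderiv ℝ v x e := hc.fderiv_apply ℝ e
      simpa using h2)
    (by simp)
    (by simpa using hv.continuous.integrable_of_hasCompactSupport hc)
    (fun x _ => (hv.differentiable (by norm_num)) x)
    (fun x _ => differentiableAt_const _)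
  simp only [fderiv_fun_const, Pi.zero_apply, zero_apply, mul_zero,
    integral_zero, mul_one] at h1
  exact (neg_eq_zero.1 h1.symm)

theorem hasFDerivAt_ev (p : MvPolynomial (Fin 12) ℝ) (y : R12) (i : Fin 12) :
    ContDiff ℝ ∞ (ev p) ∧ fderiv ℝ (ev p) y (ei i) = ev (pderiv i p) y := by
  induction p using MvPolynomial.induction_on with
  | C a =>
    have h : ev (C a) = fun _ => a := by ext y; simp [ev]
    refine ⟨by rw [h]; exact contDiff_const, ?_⟩
    rw [h]; simp [ev]
  | add p q hp hq =>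
    have h : ev (p + q) = fun y => ev p y + ev q y := by ext y; simp [ev]
    refine ⟨by rw [h]; exact hp.1.add hq.1, ?_⟩
    rw [h, fderiv_fun_add (hp.1.differentiable (by simp) y) (hq.1.differentiable (by simp) y)]
    simp only [add_apply, hp.2, hq.2]
    simp [ev]
  | mul_X p j hp =>
    have h : ev (p * X j) = fun y => ev p y * y j := by ext y; simp [ev]
    have hc : ContDiff ℝ ∞ fun y : R12 => y j := by fun_prop
    refine ⟨by rw [h]; exact hp.1.mul hc, ?_⟩
    rw [h, fderiv_fun_mul (hp.1.differentiable (by simp) y) (hc.differentiable (by simp) y)]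
    have hd : fderiv ℝ (fun y : R12 => y j) y = (EuclideanSpace.proj j : R12 →L[ℝ] ℝ) := by
      exact (EuclideanSpace.proj j : R12 →L[ℝ] ℝ).fderiv
    simp only [add_apply, smul_apply, hp.2, hd]
    rw [pderiv_mul, pderiv_X]
    by_cases hij : i = j
    · subst hij
      simp [ev, ei]
      ring
    · have hji : ¬ (j = i) := fun h => hij h.symm
      simp [ev, ei, hji]
      ring

theorem contDiff_ev (p : MvPolynomial (Fin 12) ℝ) : ContDiff ℝ ∞ (ev p) :=
  (hasFDerivAt_ev p 0 0).1

theorem fderiv_ev (p : MvPolynomial (Fin 12) ℝ) (y : R12) (i : Fin 12) :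
    fderiv ℝ (ev p) y (ei i) = ev (pderiv i p) y := (hasFDerivAt_ev p y i).2

theorem ev_smul {p : MvPolynomial (Fin 12) ℝ} {l : ℕ} (hp : p.IsHomogeneous l) (t : ℝ) (y : R12) :
    ev p (t • y) = t ^ l * ev p y := by
  unfold ev
  rw [eval_eq', eval_eq', Finset.mul_sum]
  apply Finset.sum_congr rfl
  intro d hd
  have h1 : ∑ i, d i = l := by
    have h2 := hp (mem_support_iff.1 hd)
    rw [Finsupp.weight_apply] at h2
    rw [← h2, Finsupp.sum_fintype _ _ (by simp)]
    simp
  have h3 : ∏ i, ((t • y : R12) i) ^ d i = t ^ l * ∏ i, (y i) ^ d i := by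
    rw [← h1, ← Finset.prod_pow_eq_pow_sum, ← Finset.prod_mul_distrib]
    apply Finset.prod_congr rfl
    intro i _
    simp [mul_pow]
  rw [h3]; ring

/-- Euler's identity -/
theorem sum_mul_ev_pderiv {p : MvPolynomial (Fin 12) ℝ} {l : ℕ} (hp : p.IsHomogeneous l)
    (y : R12) : ∑ i, y i * ev (pderiv i p) y = l * ev p y := by
  have h := congrArg (eval (fun i => y i)) hp.sum_X_mul_pderiv
  simpa [ev] using h

theorem sum_ev_pderiv2 {p : MvPolynomial (Fin 12) ℝ} (hp : plap p = 0) (y : R12) :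
    ∑ i, ev (pderiv i (pderiv i p)) y = 0 := by
  have h := congrArg (eval (fun i => y i)) hp
  simpa [ev, plap] using h

end Crest.Agent.R086.Sph
end

-- ▼ part R086/SH2c
section

/-!
Row 86, spherical harmonics, part 2c (helper475):
`(Δ f)_p = F'' + (11/r) F' - l(l+10)/r² F` for `F = coef f p`, `p` harmonic of degree `l`.
-/

set_option autoImplicit false

open MeasureTheory MvPolynomial Set
open scoped ContDiff Topology

namespace Crest.Agent.R086.Sph

/-- radial cut-off -/
noncomputable def radf (χ : ℝ → ℝ) (x : R12) : ℂ := ((χ ‖x‖ : ℝ) : ℂ)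

theorem radf_contDiff {χ : ℝ → ℝ} (hχ : ContDiff ℝ ∞ χ) (hs : tsupport χ ⊆ Ioi 0) :
    ContDiff ℝ ∞ (radf χ) := by
  rw [contDiff_iff_contDiffAt]
  intro x
  by_cases hx : x = 0
  · subst hx
    have h0 : (0 : ℝ) ∉ tsupport χ := fun h => lt_irrefl (0 : ℝ) (mem_Ioi.1 (hs h))
    have h1 : ∀ᶠ r in 𝓝 (0 : ℝ), χ r = 0 := by
      have := notMem_tsupport_iff_eventuallyEq.1 h0
      exact this
    have h2 : ∀ᶠ x : R12 in 𝓝 0, χ ‖x‖ = 0 := by
      have ht : Filter.Tendsto (fun x : R12 => ‖x‖) (𝓝 0) (𝓝 0) := by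
        simpa using (continuous_norm (E := R12)).tendsto 0
      exact ht.eventually h1
    have h3 : radf χ =ᶠ[𝓝 0] fun _ => (0 : ℂ) := by
      filter_upwards [h2] with x hx
      simp [radf, hx]
    exact contDiffAt_const.congr_of_eventuallyEq h3
  · have h1 : ContDiffAt ℝ ∞ (fun x : R12 => ‖x‖) x := contDiffAt_norm ℝ hx
    have h2 : ContDiffAt ℝ ∞ (fun x : R12 => χ ‖x‖) x := hχ.contDiffAt.comp x h1
    exact Complex.ofRealCLM.contDiff.contDiffAt.comp x h2

theorem radf_fderiv {χ : ℝ → ℝ} (hχ : ContDiff ℝ ∞ χ) (hs : tsupport χ ⊆ Ioi 0) (x : R12)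
    (i : Fin 12) : fderiv ℝ (radf χ) x (ei i) = (((deriv χ ‖x‖ / ‖x‖) * x i : ℝ) : ℂ) := by
  by_cases hx : x = 0
  · subst hx
    have h0 : (0 : ℝ) ∉ tsupport χ := fun h => lt_irrefl (0 : ℝ) (mem_Ioi.1 (hs h))
    have h1 : ∀ᶠ r in 𝓝 (0 : ℝ), χ r = 0 := notMem_tsupport_iff_eventuallyEq.1 h0
    have h2 : ∀ᶠ x : R12 in 𝓝 0, χ ‖x‖ = 0 := by
      have ht : Filter.Tendsto (fun x : R12 => ‖x‖) (𝓝 0) (𝓝 0) := by
        simpa using (continuous_norm (E := R12)).tendsto 0
      exact ht.eventually h1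
    have h3 : radf χ =ᶠ[𝓝 0] fun _ => (0 : ℂ) := by
      filter_upwards [h2] with x hx
      simp [radf, hx]
    rw [h3.fderiv_eq]
    simp
  · have hn : ‖x‖ ≠ 0 := norm_ne_zero_iff.2 hx
    have hn2 : ‖x‖ ^ 2 ≠ 0 := pow_ne_zero _ hn
    have h1 : HasFDerivAt (fun x : R12 => Real.sqrt (‖x‖ ^ 2))
        ((1 / (2 * Real.sqrt (‖x‖ ^ 2))) • (2 • (innerSL ℝ x))) x :=
      (hasStrictFDerivAt_norm_sq x).hasFDerivAt.sqrt hn2
    have h2 : (fun x : R12 => Real.sqrt (‖x‖ ^ 2)) = fun x => ‖x‖ := by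
      ext x; exact Real.sqrt_sq (norm_nonneg x)
    rw [h2, Real.sqrt_sq (norm_nonneg x)] at h1
    have h3 : HasDerivAt χ (deriv χ ‖x‖) ‖x‖ :=
      (hχ.differentiable (by simp) ‖x‖).hasDerivAt
    have h4 := h3.comp_hasFDerivAt x h1
    have h5 := Complex.ofRealCLM.hasFDerivAt.comp x h4
    have h6 : fderiv ℝ (radf χ) x = _ := h5.fderiv
    rw [h6]
    simp [ei, EuclideanSpace.inner_single_right]
    field_simp

/-- the vector field of Green's identity -/
noncomputable def gv (χ : ℝ → ℝ) (f : R12 → ℂ) (p : MvPolynomial (Fin 12) ℝ) (i : Fin 12)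
    (x : R12) : ℂ :=
  radf χ x * (fderiv ℝ f x (ei i) * ((ev p x : ℝ) : ℂ) - f x * ((ev (pderiv i p) x : ℝ) : ℂ))

theorem contDiff_evC (p : MvPolynomial (Fin 12) ℝ) :
    ContDiff ℝ ∞ (fun x : R12 => ((ev p x : ℝ) : ℂ)) :=
  Complex.ofRealCLM.contDiff.comp (contDiff_ev p)

theorem fderiv_evC (p : MvPolynomial (Fin 12) ℝ) (y : R12) (i : Fin 12) :
    fderiv ℝ (fun x : R12 => ((ev p x : ℝ) : ℂ)) y (ei i) = ((ev (pderiv i p) y : ℝ) : ℂ) := by
  have h1 : HasFDerivAt (ev p) (fderiv ℝ (ev p) y) y :=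
    ((contDiff_ev p).differentiable (by simp) y).hasFDerivAt
  have h2 := Complex.ofRealCLM.hasFDerivAt.comp y h1
  have h3 : fderiv ℝ (fun x : R12 => ((ev p x : ℝ) : ℂ)) y = _ := h2.fderiv
  rw [h3]
  simp [fderiv_ev]

theorem contDiff_fderiv_apply {f : R12 → ℂ} (hf : ContDiff ℝ 2 f) (e : R12) :
    ContDiff ℝ 1 (fun x => fderiv ℝ f x e) := by
  have h1 : ContDiff ℝ 1 (fderiv ℝ f) := hf.fderiv_right (by norm_num)
  exact h1.clm_apply contDiff_const

theorem fderiv_fderiv_apply {f : R12 → ℂ} (hf : ContDiff ℝ 2 f) (x e : R12) :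
    fderiv ℝ (fun x => fderiv ℝ f x e) x e = iteratedFDeriv ℝ 2 f x ![e, e] := by
  have h1 : DifferentiableAt ℝ (fderiv ℝ f) x :=
    (hf.fderiv_right (m := 1) (by norm_num)).differentiable (by norm_num) x
  rw [iteratedFDeriv_two_apply]
  have h2 := h1.hasFDerivAt.clm_apply (hasFDerivAt_const e x)
  rw [h2.fderiv]
  simp

theorem gv_contDiff {χ : ℝ → ℝ} (hχ : ContDiff ℝ ∞ χ) (hs : tsupport χ ⊆ Ioi 0) {f : R12 → ℂ}
    (hf : ContDiff ℝ 2 f) (p : MvPolynomial (Fin 12) ℝ) (i : Fin 12) :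
    ContDiff ℝ 1 (gv χ f p i) := by
  unfold gv
  have h1 : ContDiff ℝ 1 (radf χ) := (radf_contDiff hχ hs).of_le (by simp)
  have h2 : ContDiff ℝ 1 (fun x : R12 => ((ev p x : ℝ) : ℂ)) := (contDiff_evC p).of_le (by simp)
  have h3 : ContDiff ℝ 1 (fun x : R12 => ((ev (pderiv i p) x : ℝ) : ℂ)) :=
    (contDiff_evC _).of_le (by simp)
  have h4 : ContDiff ℝ 1 f := hf.of_le (by norm_num)
  exact h1.mul (((contDiff_fderiv_apply hf _).mul h2).sub (h4.mul h3))

theorem gv_fderiv {χ : ℝ → ℝ} (hχ : ContDiff ℝ ∞ χ) (hs : tsupport χ ⊆ Ioi 0) {f : R12 → ℂ}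
    (hf : ContDiff ℝ 2 f) (p : MvPolynomial (Fin 12) ℝ) (i : Fin 12) (x : R12) :
    fderiv ℝ (gv χ f p i) x (ei i) =
      radf χ x * (iteratedFDeriv ℝ 2 f x ![ei i, ei i] * ((ev p x : ℝ) : ℂ)
        - f x * ((ev (pderiv i (pderiv i p)) x : ℝ) : ℂ))
      + ((deriv χ ‖x‖ / ‖x‖ : ℝ) : ℂ) * ((x i : ℝ) : ℂ) *
        (fderiv ℝ f x (ei i) * ((ev p x : ℝ) : ℂ) - f x * ((ev (pderiv i p) x : ℝ) : ℂ)) := by
  have h1 : DifferentiableAt ℝ (radf χ) x := (radf_contDiff hχ hs).differentiable (by simp) x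
  have h2 : DifferentiableAt ℝ (fun x : R12 => ((ev p x : ℝ) : ℂ)) x :=
    (contDiff_evC p).differentiable (by simp) x
  have h3 : DifferentiableAt ℝ (fun x : R12 => ((ev (pderiv i p) x : ℝ) : ℂ)) x :=
    (contDiff_evC _).differentiable (by simp) x
  have h4 : DifferentiableAt ℝ f x := hf.differentiable (by norm_num) x
  have h5 : DifferentiableAt ℝ (fun x => fderiv ℝ f x (ei i)) x :=
    (contDiff_fderiv_apply hf _).differentiable (by norm_num) x
  have h6 := h1.hasFDerivAt.mul ((h5.hasFDerivAt.mul h2.hasFDerivAt).sub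
    (h4.hasFDerivAt.mul h3.hasFDerivAt))
  have h7 : fderiv ℝ (gv χ f p i) x = _ := h6.fderiv
  rw [h7]
  simp only [add_apply, smul_apply, sub_apply, smul_eq_mul, fderiv_evC,
    radf_fderiv hχ hs, fderiv_fderiv_apply hf, Pi.mul_apply, Pi.sub_apply]
  push_cast
  ring

theorem sum_smul_ei (x : R12) : ∑ i, (x i) • (ei i) = x := by
  have := (EuclideanSpace.basisFun (Fin 12) ℝ).sum_repr x
  simpa [ei] using this

theorem sum_fderiv_ei (f : R12 → ℂ) (x : R12) :
    ∑ i, ((x i : ℝ) : ℂ) * fderiv ℝ f x (ei i) = eul f x := by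
  have h := congrArg (fderiv ℝ f x) (sum_smul_ei x)
  rw [map_sum] at h
  unfold eul
  rw [← h]
  apply Finset.sum_congr rfl
  intro i _
  rw [map_smul, Complex.real_smul]

theorem hasCompactSupport_radf {χ : ℝ → ℝ} (hc : HasCompactSupport χ) :
    HasCompactSupport (radf χ) := by
  obtain ⟨C, hC⟩ := hc.isCompact.isBounded.subset_closedBall 0
  apply HasCompactSupport.of_support_subset_isCompact (isCompact_closedBall (0 : R12) C)
  intro x hx
  have h1 : χ ‖x‖ ≠ 0 := by
    intro h; exact hx (by simp [radf, h])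
  have h2 := hC (subset_tsupport χ h1)
  simpa using h2

/-- weak form of the radial reduction -/
theorem weak1 {χ : ℝ → ℝ} (hχ : ContDiff ℝ ∞ χ) (hc : HasCompactSupport χ)
    (hs : tsupport χ ⊆ Ioi 0) {f : R12 → ℂ} (hf : ContDiff ℝ 2 f)
    {p : MvPolynomial (Fin 12) ℝ} {l : ℕ} (hp : Harm l p) :
    Integrable (fun x : R12 => radf χ x * lap f x * ((ev p x : ℝ) : ℂ)
      + ((deriv χ ‖x‖ / ‖x‖ : ℝ) : ℂ) * (eul f x - l * f x) * ((ev p x : ℝ) : ℂ)) ∧
    ∫ x : R12, (radf χ x * lap f x * ((ev p x : ℝ) : ℂ)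
      + ((deriv χ ‖x‖ / ‖x‖ : ℝ) : ℂ) * (eul f x - l * f x) * ((ev p x : ℝ) : ℂ)) = 0 := by
  have hcs : ∀ i, HasCompactSupport (gv χ f p i) := fun i =>
    (hasCompactSupport_radf hc).mul_right
  have hint : ∀ i, Integrable (fun x => fderiv ℝ (gv χ f p i) x (ei i)) := by
    intro i
    have h1 : Continuous fun x => fderiv ℝ (gv χ f p i) x (ei i) := by
      have := (gv_contDiff hχ hs hf p i).continuous_fderiv (by norm_num)
      fun_prop
    exact h1.integrable_of_hasCompactSupport ((hcs i).fderiv_apply ℝ _)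
  have hsum : ∀ x : R12, ∑ i, fderiv ℝ (gv χ f p i) x (ei i)
      = radf χ x * lap f x * ((ev p x : ℝ) : ℂ)
      + ((deriv χ ‖x‖ / ‖x‖ : ℝ) : ℂ) * (eul f x - l * f x) * ((ev p x : ℝ) : ℂ) := by
    intro x
    have e1 : ∑ i, ((x i : ℝ) : ℂ) * ((ev (pderiv i p) x : ℝ) : ℂ) = l * ((ev p x : ℝ) : ℂ) := by
      have := congrArg (fun t : ℝ => (t : ℂ)) (sum_mul_ev_pderiv hp.hom x)
      push_cast at this
      exact this
    have e2 : ∑ i, ((ev (pderiv i (pderiv i p)) x : ℝ) : ℂ) = 0 := by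
      have := congrArg (fun t : ℝ => (t : ℂ)) (sum_ev_pderiv2 hp.harm x)
      push_cast at this
      exact this
    simp only [gv_fderiv hχ hs hf]
    rw [← sum_fderiv_ei f x]
    unfold lap
    have e3 : ∀ i : Fin 12, radf χ x * (iteratedFDeriv ℝ 2 f x ![ei i, ei i] * ((ev p x : ℝ) : ℂ)
        - f x * ((ev (pderiv i (pderiv i p)) x : ℝ) : ℂ))
      + ((deriv χ ‖x‖ / ‖x‖ : ℝ) : ℂ) * ((x i : ℝ) : ℂ) *
        (fderiv ℝ f x (ei i) * ((ev p x : ℝ) : ℂ) - f x * ((ev (pderiv i p) x : ℝ) : ℂ))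
      = (radf χ x * ((ev p x : ℝ) : ℂ)) * iteratedFDeriv ℝ 2 f x ![ei i, ei i]
        - (radf χ x * f x) * ((ev (pderiv i (pderiv i p)) x : ℝ) : ℂ)
        + (((deriv χ ‖x‖ / ‖x‖ : ℝ) : ℂ) * ((ev p x : ℝ) : ℂ)) * (((x i : ℝ) : ℂ) * fderiv ℝ f x (ei i))
        - (((deriv χ ‖x‖ / ‖x‖ : ℝ) : ℂ) * f x) * (((x i : ℝ) : ℂ) * ((ev (pderiv i p) x : ℝ) : ℂ)) := by
      intro i; ring
    rw [Finset.sum_congr rfl (fun i _ => e3 i), Finset.sum_sub_distrib, Finset.sum_add_distrib,
      Finset.sum_sub_distrib, ← Finset.mul_sum, ← Finset.mul_sum, ← Finset.mul_sum,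
      ← Finset.mul_sum, e1, e2]
    ring
  constructor
  · have := integrable_finsetSum Finset.univ (fun i (_ : i ∈ Finset.univ) => hint i)
    exact this.congr (Filter.Eventually.of_forall fun x => hsum x)
  · rw [← integral_congr_ae (Filter.Eventually.of_forall fun x => hsum x),
      integral_finsetSum _ (fun i _ => hint i)]
    apply Finset.sum_eq_zero
    intro i _
    exact integral_fderiv_eq_zero (gv_contDiff hχ hs hf p i) (hcs i) (ei i)

/-- weak form on the half line -/
theorem weak2 {χ : ℝ → ℝ} (hχ : ContDiff ℝ ∞ χ) (hc : HasCompactSupport χ)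
    (hs : tsupport χ ⊆ Ioi 0) {f : R12 → ℂ} (hf : ContDiff ℝ 2 f)
    {p : MvPolynomial (Fin 12) ℝ} {l : ℕ} (hp : Harm l p) :
    ∫ r in Ioi (0 : ℝ), ((χ r : ℝ) : ℂ) * ((r : ℂ) ^ (11 + l) * coef (lap f) p r)
      + ((deriv χ r : ℝ) : ℂ) * ((r : ℂ) ^ (10 + l) * (r * dcoef 1 f p r - l * coef f p r)) = 0 := by
  obtain ⟨hi, h0⟩ := weak1 hχ hc hs hf hp
  rw [integral_polar _ hi] at h0
  rw [← h0]
  apply setIntegral_congr_fun measurableSet_Ioi
  intro r hr
  have hr' : (0 : ℝ) < r := hr
  have hrc : (r : ℂ) ≠ 0 := by exact_mod_cast hr'.ne'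
  have hn : ∀ w : S11, ‖r • ((w : S11) : R12)‖ = r := by
    intro w
    have hw : ‖((w : S11) : R12)‖ = 1 := by simp
    rw [norm_smul, hw, mul_one, Real.norm_eq_abs, abs_of_pos hr']
  have hcl : Continuous (lap f) := by
    unfold lap
    apply continuous_finsetSum
    intro i _
    have h1 : Continuous (iteratedFDeriv ℝ 2 f) := hf.continuous_iteratedFDeriv (by norm_num)
    exact h1.eval continuous_const
  have hce : Continuous (eul f) := by
    unfold eul
    have h1 : Continuous (fderiv ℝ f) := hf.continuous_fderiv (by norm_num)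
    exact h1.clm_apply continuous_id
  have key : ∫ w : S11, (radf χ (r • (w : R12)) * lap f (r • (w : R12)) * ((ev p (r • (w : R12)) : ℝ) : ℂ)
      + ((deriv χ ‖r • (w : R12)‖ / ‖r • (w : R12)‖ : ℝ) : ℂ) * (eul f (r • (w : R12)) - l * f (r • (w : R12)))
        * ((ev p (r • (w : R12)) : ℝ) : ℂ)) ∂sig
      = ((χ r : ℝ) : ℂ) * (r : ℂ) ^ l * coef (lap f) p r
        + ((deriv χ r / r : ℝ) : ℂ) * (r : ℂ) ^ l * (coef (eul f) p r - l * coef f p r) := by
    have e1 : ∀ w : S11, (radf χ (r • (w : R12)) * lap f (r • (w : R12)) * ((ev p (r • (w : R12)) : ℝ) : ℂ)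
      + ((deriv χ ‖r • (w : R12)‖ / ‖r • (w : R12)‖ : ℝ) : ℂ) * (eul f (r • (w : R12)) - l * f (r • (w : R12)))
        * ((ev p (r • (w : R12)) : ℝ) : ℂ))
        = (((χ r : ℝ) : ℂ) * (r : ℂ) ^ l) * (lap f (r • (w : R12)) * ((ev p w : ℝ) : ℂ))
        + ((((deriv χ r / r : ℝ) : ℂ) * (r : ℂ) ^ l) * (eul f (r • (w : R12)) * ((ev p w : ℝ) : ℂ))
        - (((deriv χ r / r : ℝ) : ℂ) * (r : ℂ) ^ l * l) * (f (r • (w : R12)) * ((ev p w : ℝ) : ℂ))) := by
      intro w
      rw [hn w, ev_smul hp.hom]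
      unfold radf
      rw [hn w]
      push_cast
      ring
    simp_rw [e1]
    have i1 := (integrable_coef hcl p r).const_mul (((χ r : ℝ) : ℂ) * (r : ℂ) ^ l)
    have i2 := (integrable_coef hce p r).const_mul (((deriv χ r / r : ℝ) : ℂ) * (r : ℂ) ^ l)
    have i3 := (integrable_coef hf.continuous p r).const_mul (((deriv χ r / r : ℝ) : ℂ) * (r : ℂ) ^ l * l)
    have i23 : Integrable (fun w : S11 => (((deriv χ r / r : ℝ) : ℂ) * (r : ℂ) ^ l) *
        (eul f (r • (w : R12)) * ((ev p w : ℝ) : ℂ))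
        - (((deriv χ r / r : ℝ) : ℂ) * (r : ℂ) ^ l * l) * (f (r • (w : R12)) * ((ev p w : ℝ) : ℂ))) sig :=
      i2.sub i3
    rw [integral_add i1 i23, integral_sub i2 i3, integral_const_mul, integral_const_mul,
      integral_const_mul]
    unfold coef
    ring
  beta_reduce
  rw [key, coef_eul]
  push_cast
  field_simp
  ring

/-- **Radial form of the Laplacian.** -/
theorem coef_lap {f : R12 → ℂ} (hf : ContDiff ℝ 2 f)
    {p : MvPolynomial (Fin 12) ℝ} {l : ℕ} (hp : Harm l p) {r : ℝ} (hr : 0 < r) :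
    coef (lap f) p r = dcoef 2 f p r + 11 / r * dcoef 1 f p r
      - (l * (l + 10) : ℂ) / r ^ 2 * coef f p r := by
  have hcl : Continuous (lap f) := by
    unfold lap
    apply continuous_finsetSum
    intro i _
    have h1 : Continuous (iteratedFDeriv ℝ 2 f) := hf.continuous_iteratedFDeriv (by norm_num)
    exact h1.eval continuous_const
  have hL : Continuous (coef (lap f) p) := by
    have := continuous_dcoef (k := 0) (f := lap f) (contDiff_zero.2 hcl) le_rfl p
    rwa [dcoef_zero] at this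
  have hf2 : ContDiff ℝ (2 : ℕ) f := by exact_mod_cast hf
  have h0 : ∀ r, HasDerivAt (coef f p) (dcoef 1 f p r) r := by
    intro r
    have := hasDerivAt_dcoef (k := 2) (j := 0) hf2 (by norm_num) p r
    rwa [dcoef_zero] at this
  have h1 : ∀ r, HasDerivAt (dcoef 1 f p) (dcoef 2 f p r) r :=
    fun r => hasDerivAt_dcoef (k := 2) (j := 1) hf2 (by norm_num) p r
  have c0 : Continuous (coef f p) := continuous_iff_continuousAt.2 fun r => (h0 r).continuousAt
  have c1 : Continuous (dcoef 1 f p) := continuous_iff_continuousAt.2 fun r => (h1 r).continuousAt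
  have c2 : Continuous (dcoef 2 f p) := continuous_dcoef (k := 2) hf2 le_rfl p
  -- the primitive
  let g : ℝ → ℂ := fun r => (r : ℂ) ^ (10 + l) * (r * dcoef 1 f p r - l * coef f p r)
  let g' : ℝ → ℂ := fun r => (r : ℂ) ^ (11 + l) * dcoef 2 f p r + 11 * (r : ℂ) ^ (10 + l) * dcoef 1 f p r
    - (l * (l + 10) : ℂ) * (r : ℂ) ^ (9 + l) * coef f p r
  have hg : ∀ r, HasDerivAt g (g' r) r := by
    intro r
    have hid : HasDerivAt (fun r : ℝ => (r : ℂ)) 1 r := Complex.ofRealCLM.hasDerivAt
    have hpow : HasDerivAt (fun r : ℝ => (r : ℂ) ^ (10 + l)) (((10 + l : ℕ) : ℂ) * (r : ℂ) ^ (9 + l)) r := by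
      have := hid.fun_pow (10 + l)
      have e : 10 + l - 1 = 9 + l := by omega
      rw [e] at this
      simpa using this
    have h2 := hpow.fun_mul ((hid.fun_mul (h1 r)).fun_sub ((h0 r).const_mul (l : ℂ)))
    refine HasDerivAt.congr_deriv h2 ?_
    simp only [g']
    push_cast
    have e1 : (r : ℂ) ^ (10 + l) = (r : ℂ) ^ (9 + l) * r := by
      rw [show 10 + l = (9 + l) + 1 by ring, pow_succ]
    have e2 : (r : ℂ) ^ (11 + l) = (r : ℂ) ^ (9 + l) * r * r := by
      rw [show 11 + l = (9 + l) + 1 + 1 by ring, pow_succ, pow_succ]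
    rw [e1, e2]
    ring
  have cg : Continuous g := continuous_iff_continuousAt.2 fun r => (hg r).continuousAt
  have cg' : Continuous g' := by
    simp only [g']
    fun_prop
  let D : ℝ → ℂ := fun r => (r : ℂ) ^ (11 + l) * coef (lap f) p r - g' r
  have cD : Continuous D := by simp only [D]; fun_prop
  have hzero : ∀ χ : ℝ → ℝ, ContDiff ℝ ∞ χ → HasCompactSupport χ → tsupport χ ⊆ Ioi 0 →
      ∫ r, χ r • D r = 0 := by
    intro χ hχ hc hs
    have hw := weak2 hχ hc hs hf hp
    have hχ0 : ∀ r, r ∉ Ioi (0 : ℝ) → χ r = 0 := fun r hr => by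
      by_contra h; exact hr (hs (subset_tsupport χ h))
    have hdχ0 : ∀ r, r ∉ Ioi (0 : ℝ) → deriv χ r = 0 := fun r hr => by
      by_contra h
      exact hr (hs (support_deriv_subset h))
    have cχ : Continuous χ := hχ.continuous
    have cdχ : Continuous (deriv χ) := hχ.continuous_deriv (by simp)
    have hibp := integral_mul_deriv_eq_deriv_mul_of_integrable (A := ℂ)
      (u := fun r => ((χ r : ℝ) : ℂ)) (v := g) (u' := fun r => ((deriv χ r : ℝ) : ℂ)) (v' := g')
      (fun r _ => (hχ.differentiable (by simp) r).hasDerivAt.ofReal_comp)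
      (fun r _ => hg r)
      (by
        have h3 : Continuous fun r => ((χ r : ℝ) : ℂ) * g' r := by fun_prop
        refine h3.integrable_of_hasCompactSupport ?_
        exact (hc.comp_left (g := fun t : ℝ => (t : ℂ)) (by simp)).mul_right)
      (by
        have h3 : Continuous fun r => ((deriv χ r : ℝ) : ℂ) * g r := by fun_prop
        refine h3.integrable_of_hasCompactSupport ?_
        exact (hc.deriv.comp_left (g := fun t : ℝ => (t : ℂ)) (by simp)).mul_right)
      (by
        have h3 : Continuous fun r => ((χ r : ℝ) : ℂ) * g r := by fun_prop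
        refine h3.integrable_of_hasCompactSupport ?_
        exact (hc.comp_left (g := fun t : ℝ => (t : ℂ)) (by simp)).mul_right)
    have i1 : Integrable fun r => ((χ r : ℝ) : ℂ) * ((r : ℂ) ^ (11 + l) * coef (lap f) p r) := by
      have h3 : Continuous fun r => ((χ r : ℝ) : ℂ) * ((r : ℂ) ^ (11 + l) * coef (lap f) p r) := by
        fun_prop
      exact h3.integrable_of_hasCompactSupport
        (hc.comp_left (g := fun t : ℝ => (t : ℂ)) (by simp)).mul_right
    have i2 : Integrable fun r => ((deriv χ r : ℝ) : ℂ) * g r := by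
      have h3 : Continuous fun r => ((deriv χ r : ℝ) : ℂ) * g r := by fun_prop
      exact h3.integrable_of_hasCompactSupport
        (hc.deriv.comp_left (g := fun t : ℝ => (t : ℂ)) (by simp)).mul_right
    have i3 : Integrable fun r => ((χ r : ℝ) : ℂ) * g' r := by
      have h3 : Continuous fun r => ((χ r : ℝ) : ℂ) * g' r := by fun_prop
      exact h3.integrable_of_hasCompactSupport
        (hc.comp_left (g := fun t : ℝ => (t : ℂ)) (by simp)).mul_right
    have e1 : ∫ r, (((χ r : ℝ) : ℂ) * ((r : ℂ) ^ (11 + l) * coef (lap f) p r)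
        + ((deriv χ r : ℝ) : ℂ) * g r) = 0 := by
      rw [← hw, ← integral_indicator measurableSet_Ioi]
      apply integral_congr_ae
      refine Filter.Eventually.of_forall fun r => ?_
      by_cases hr : r ∈ Ioi (0 : ℝ)
      · simp only [indicator_of_mem hr]; rfl
      · simp only [indicator_of_notMem hr, hχ0 r hr, hdχ0 r hr]
        simp
    rw [integral_add i1 i2] at e1
    have e2 : ∫ r, χ r • D r = (∫ r, ((χ r : ℝ) : ℂ) * ((r : ℂ) ^ (11 + l) * coef (lap f) p r))
        - ∫ r, ((χ r : ℝ) : ℂ) * g' r := by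
      rw [← integral_sub i1 i3]
      congr 1
      ext r
      simp only [D, Complex.real_smul]
      ring
    rw [e2, hibp]
    linear_combination e1
  have hae := isOpen_Ioi.ae_eq_zero_of_integral_contDiff_smul_eq_zero
    (cD.locallyIntegrable.locallyIntegrableOn (Ioi (0 : ℝ))) hzero
  have hD : D r = 0 := by
    have h3 : D =ᵐ[volume.restrict (Ioi (0 : ℝ))] fun _ => 0 := by
      rw [Filter.EventuallyEq, ae_restrict_iff' measurableSet_Ioi]
      exact hae
    exact Measure.eqOn_open_of_ae_eq h3 isOpen_Ioi cD.continuousOn continuousOn_const hr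
  have hrc : (r : ℂ) ≠ 0 := by exact_mod_cast hr.ne'
  simp only [D, g'] at hD
  have e1 : (r : ℂ) ^ (10 + l) = (r : ℂ) ^ (9 + l) * r := by
    rw [show 10 + l = (9 + l) + 1 by ring, pow_succ]
  have e2 : (r : ℂ) ^ (11 + l) = (r : ℂ) ^ (9 + l) * r * r := by
    rw [show 11 + l = (9 + l) + 1 + 1 by ring, pow_succ, pow_succ]
  rw [e1, e2] at hD
  have hpw : (r : ℂ) ^ (9 + l) ≠ 0 := pow_ne_zero _ hrc
  have h4 : (r : ℂ) ^ (9 + l) * ((r : ℂ) ^ 2 * coef (lap f) p r - ((r : ℂ) ^ 2 * dcoef 2 f p r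
      + 11 * r * dcoef 1 f p r - (l * (l + 10) : ℂ) * coef f p r)) = 0 := by
    linear_combination hD
  have h5 := (mul_eq_zero.1 h4).resolve_left hpw
  field_simp
  linear_combination h5

end Crest.Agent.R086.Sph
end

-- ▼ part R086/SH2

/-!
Row 86, spherical harmonics, part 2 (helper475), in the terms of the frozen interface `SHDefs`:
`comp_lap`, `comp_eul`, smoothness of `comp H f`, parity, orthogonality, vanishing at `0`.
-/

set_option autoImplicit false

open MeasureTheory MvPolynomial Set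
open scoped ContDiff Topology Pointwise

namespace Crest.Agent.R086

open Sph

/-! ### smooth homogeneous functions of low degree are orthogonal to harmonics -/

theorem lap_comp_smul {u : R12 → ℂ} (hu : ContDiff ℝ 2 u) (t : ℝ) (y : R12) :
    lap (fun y => u (t • y)) y = (t : ℂ) ^ 2 * lap u (t • y) := by
  unfold lap
  rw [Finset.mul_sum]
  apply Finset.sum_congr rfl
  intro i _
  have h1 := (t • ContinuousLinearMap.id ℝ R12).iteratedFDeriv_comp_right hu y (i := 2) le_rfl
  have h2 : (u ∘ (t • ContinuousLinearMap.id ℝ R12 : R12 →L[ℝ] R12)) = fun y => u (t • y) := by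
    ext z; simp
  rw [h2] at h1
  rw [h1]
  have h3 : ((iteratedFDeriv ℝ 2 u ((t • ContinuousLinearMap.id ℝ R12 : R12 →L[ℝ] R12) y)).compContinuousLinearMap
      fun _ => (t • ContinuousLinearMap.id ℝ R12 : R12 →L[ℝ] R12)) ![ei i, ei i]
      = iteratedFDeriv ℝ 2 u (t • y) (fun k => t • (![ei i, ei i] k : R12)) := by
    rw [ContinuousMultilinearMap.compContinuousLinearMap_apply]
    simp
  rw [h3, ContinuousMultilinearMap.map_smul_univ]
  simp [pow_two]

theorem contDiff_lap {u : R12 → ℂ} (hu : ContDiff ℝ ∞ u) : ContDiff ℝ ∞ (lap u) := by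
  unfold lap
  apply ContDiff.sum
  intro i _
  have h1 : ContDiff ℝ ∞ (iteratedFDeriv ℝ 2 u) := hu.iteratedFDeriv_right le_rfl
  exact (ContinuousMultilinearMap.apply ℝ (fun _ : Fin 2 => R12) ℂ
    ![ei i, ei i]).contDiff.comp h1

/-- auxiliary: coefficient of a homogeneous function -/
theorem coef_homog {u : R12 → ℂ} {j : ℕ} (hh : ∀ (t : ℝ) (y : R12), u (t • y) = (t : ℂ) ^ j * u y)
    (p : MvPolynomial (Fin 12) ℝ) (r : ℝ) : coef u p r = (r : ℂ) ^ j * coef u p 1 := by
  unfold coef
  rw [← integral_const_mul]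
  congr 1
  ext w
  rw [hh, one_smul]
  ring

theorem homog_orth_aux (l : ℕ) (p : MvPolynomial (Fin 12) ℝ) (hp : Harm l p) :
    ∀ (j : ℕ) (u : R12 → ℂ), ContDiff ℝ ∞ u →
      (∀ (t : ℝ) (y : R12), u (t • y) = (t : ℂ) ^ j * u y) → j < l → coef u p 1 = 0 := by
  intro j
  induction j using Nat.strong_induction_on with
  | _ j ih =>
    intro u hu hh hjl
    have hu2 : ContDiff ℝ 2 u := hu.of_le (by norm_cast)
    -- coefficient of the Laplacian at 1 vanishes
    have hlap : coef (lap u) p 1 = 0 := by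
      have hs : ∀ (t : ℝ) (y : R12), (t : ℂ) ^ 2 * lap u (t • y) = (t : ℂ) ^ j * lap u y := by
        intro t y
        rw [← lap_comp_smul hu2 t y]
        have h1 : (fun y => u (t • y)) = fun y => (t : ℂ) ^ j * u y := by
          ext y; rw [hh]
        rw [h1]
        unfold lap
        rw [Finset.mul_sum]
        apply Finset.sum_congr rfl
        intro i _
        have h2 : (fun y => (t : ℂ) ^ j * u y) = ((t : ℂ) ^ j) • u := by
          ext y; simp
        rw [h2, iteratedFDeriv_const_smul_apply (hu2.contDiffAt)]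
        simp
      rcases Nat.lt_or_ge j 2 with hj | hj
      · -- the Laplacian vanishes identically
        have h0 : ∀ y, lap u y = 0 := by
          intro y
          have hc : Continuous (fun t : ℝ => lap u (t • y)) :=
            (contDiff_lap hu).continuous.comp (by fun_prop)
          -- for t ≠ 0 : t^(2-j) lap u (t y) = lap u y
          have h1 : ∀ t : ℝ, t ≠ 0 → (t : ℂ) ^ (2 - j) * lap u (t • y) = lap u y := by
            intro t ht
            have htc : (t : ℂ) ≠ 0 := by exact_mod_cast ht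
            have h2 := hs t y
            have h3 : (t : ℂ) ^ 2 = (t : ℂ) ^ j * (t : ℂ) ^ (2 - j) := by
              rw [← pow_add]; congr 1; omega
            rw [h3, mul_assoc] at h2
            exact mul_left_cancel₀ (pow_ne_zero _ htc) h2
          have hc2 : Continuous (fun t : ℝ => (t : ℂ) ^ (2 - j) * lap u (t • y)) := by fun_prop
          have h4 : Filter.Tendsto (fun t : ℝ => (t : ℂ) ^ (2 - j) * lap u (t • y)) (𝓝[≠] 0)
              (𝓝 ((((0 : ℝ) : ℂ)) ^ (2 - j) * lap u ((0 : ℝ) • y))) :=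
            (hc2.tendsto 0).mono_left nhdsWithin_le_nhds
          have h5 : Filter.Tendsto (fun t : ℝ => (t : ℂ) ^ (2 - j) * lap u (t • y)) (𝓝[≠] 0)
              (𝓝 (lap u y)) := by
            apply tendsto_const_nhds.congr'
            filter_upwards [self_mem_nhdsWithin] with t ht
            exact (h1 t ht).symm
          have h6 := tendsto_nhds_unique h5 h4
          rw [h6, Complex.ofReal_zero, zero_pow (by omega), zero_mul]
        unfold coef
        simp [h0]
      · -- induction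
        have hh' : ∀ (t : ℝ) (y : R12), lap u (t • y) = (t : ℂ) ^ (j - 2) * lap u y := by
          have h1 : ∀ (t : ℝ) (y : R12), t ≠ 0 → lap u (t • y) = (t : ℂ) ^ (j - 2) * lap u y := by
            intro t y ht
            have htc : (t : ℂ) ≠ 0 := by exact_mod_cast ht
            have h2 := hs t y
            have h3 : (t : ℂ) ^ j = (t : ℂ) ^ 2 * (t : ℂ) ^ (j - 2) := by
              rw [← pow_add]; congr 1; omega
            rw [h3, mul_assoc] at h2
            exact mul_left_cancel₀ (pow_ne_zero _ htc) h2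
          intro t y
          by_cases ht : t = 0
          · subst ht
            have hc : Continuous (fun t : ℝ => lap u (t • y)) :=
              (contDiff_lap hu).continuous.comp (by fun_prop)
            have hc2 : Continuous (fun t : ℝ => (t : ℂ) ^ (j - 2) * lap u y) := by fun_prop
            have h4 := (hc.tendsto 0).mono_left (nhdsWithin_le_nhds (s := {0}ᶜ))
            have h5 := (hc2.tendsto 0).mono_left (nhdsWithin_le_nhds (s := {0}ᶜ))
            have h6 : Filter.Tendsto (fun t : ℝ => lap u (t • y)) (𝓝[≠] 0)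
                (𝓝 ((((0 : ℝ) : ℂ)) ^ (j - 2) * lap u y)) := by
              apply h5.congr'
              filter_upwards [self_mem_nhdsWithin] with t ht
              exact (h1 t y ht).symm
            exact tendsto_nhds_unique h4 h6
          · exact h1 t y ht
        exact ih (j - 2) (by omega) (lap u) (contDiff_lap hu) hh' (by omega)
    -- the radial equation at r = 1
    have hF : coef u p = fun r : ℝ => (r : ℂ) ^ j * coef u p 1 := by
      ext r; exact coef_homog hh p r
    have hd1 : ∀ r, dcoef 1 u p r = (j : ℂ) * (r : ℂ) ^ (j - 1) * coef u p 1 := by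
      intro r
      have h1 := hasDerivAt_coef (hu.of_le (by simp) : ContDiff ℝ 1 u) p r
      have hid : HasDerivAt (fun r : ℝ => (r : ℂ)) 1 r := Complex.ofRealCLM.hasDerivAt
      have h2 := (hid.fun_pow j).mul_const (coef u p 1)
      rw [hF] at h1
      have h3 := h1.unique h2
      rw [h3]
      ring
    have hd2 : dcoef 2 u p 1 = (j : ℂ) * (j - 1) * coef u p 1 := by
      have h1 := hasDerivAt_dcoef (k := 2) (j := 1) (f := u) (by exact_mod_cast hu2) le_rfl p 1
      have hid : HasDerivAt (fun r : ℝ => (r : ℂ)) 1 (1 : ℝ) := Complex.ofRealCLM.hasDerivAt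
      have h2 := ((hid.fun_pow (j - 1)).const_mul (j : ℂ)).mul_const (coef u p 1)
      have h4 : dcoef 1 u p = fun r : ℝ => (j : ℂ) * (r : ℂ) ^ (j - 1) * coef u p 1 := by
        ext r; exact hd1 r
      rw [h4] at h1
      have h3 := h1.unique h2
      rw [h3]
      rcases Nat.eq_zero_or_pos j with hj | hj
      · subst hj; simp
      · have : ((j - 1 : ℕ) : ℂ) = (j : ℂ) - 1 := by
          rw [Nat.cast_sub hj]; simp
        simp [this]
    have h3 := coef_lap hu2 hp one_pos
    rw [hlap, hd2, hd1] at h3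
    have h4 : ((l : ℂ) * (l + 10) - j * (j + 10)) * coef u p 1 = 0 := by
      simp only [Complex.ofReal_one, one_pow, mul_one, div_one] at h3
      linear_combination h3
    rcases mul_eq_zero.1 h4 with h5 | h5
    · exfalso
      have h6 : ((l * (l + 10) : ℕ) : ℂ) = ((j * (j + 10) : ℕ) : ℂ) := by
        push_cast
        linear_combination h5
      have h7 : l * (l + 10) = j * (j + 10) := by exact_mod_cast h6
      nlinarith
    · exact h5

/-- **Orthogonality**: a smooth homogeneous function of degree `j < l` is orthogonal on the sphere to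
harmonics of degree `l`. -/
theorem homog_orth {l : ℕ} {H : R12 → ℝ} (hH : SHarm l H) {j : ℕ} (hj : j < l) {u : R12 → ℂ}
    (hu : ContDiff ℝ ∞ u) (hh : ∀ (t : ℝ) (y : R12), u (t • y) = (t : ℂ) ^ j * u y) :
    ∫ w : S11, ((H w : ℝ) : ℂ) * u w ∂sig = 0 := by
  obtain ⟨p, hp, rfl⟩ := hH.exists_harm
  have h := homog_orth_aux l p hp j u hu hh hj
  rw [← h]
  unfold coef
  congr 1
  ext w
  rw [one_smul, mul_comm]
  rfl

theorem SHarm.orth {l l' : ℕ} {H K : R12 → ℝ} (hH : SHarm l H) (hK : SHarm l' K) (hl : l ≠ l') :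
    ∫ w : S11, H w * K w ∂sig = 0 := by
  -- it is enough to treat `l' < l`
  have key : ∀ {a b : ℕ} {A B : R12 → ℝ}, SHarm a A → SHarm b B → b < a →
      ∫ w : S11, A w * B w ∂sig = 0 := by
    intro a b A B hA hB hba
    have h1 := homog_orth hA hba (u := fun y => ((B y : ℝ) : ℂ))
      (Complex.ofRealCLM.contDiff.comp hB.contDiff)
      (by intro t y; rw [hB.map_smul]; push_cast; ring)
    have h2 : ∫ w : S11, ((A w : ℝ) : ℂ) * ((B w : ℝ) : ℂ) ∂sig
        = ((∫ w : S11, A w * B w ∂sig : ℝ) : ℂ) := by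
      rw [← integral_complex_ofReal]
      congr 1; ext w; push_cast; ring
    rw [h2] at h1
    exact_mod_cast h1
  rcases lt_or_gt_of_ne hl with h | h
  · have := key hK hH h
    rw [← this]
    congr 1; ext w; ring
  · exact key hH hK h

/-! ### the interface theorems -/

theorem comp_eq_coef (p : MvPolynomial (Fin 12) ℝ) (f : R12 → ℂ) : comp (SH.pfun p) f = coef f p := by
  ext r
  unfold comp coef
  congr 1
  ext w
  rw [mul_comm]
  rfl

theorem comp_eul {l : ℕ} {H : R12 → ℝ} (hH : SHarm l H) {f : R12 → ℂ} (hf : ContDiff ℝ 1 f)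
    (r : ℝ) : comp H (eul f) r = (r : ℂ) * deriv (comp H f) r := by
  obtain ⟨p, hp, rfl⟩ := hH.exists_harm
  rw [comp_eq_coef, comp_eq_coef, coef_eul, deriv_coef hf]

/-- **The Laplacian on spherical coefficients.** -/
theorem comp_lap {l : ℕ} {H : R12 → ℝ} (hH : SHarm l H) {f : R12 → ℂ} (hf : ContDiff ℝ 2 f)
    {r : ℝ} (hr : 0 < r) : comp H (lap f) r = rlap l (comp H f) r := by
  obtain ⟨p, hp, rfl⟩ := hH.exists_harm
  rw [comp_eq_coef, comp_eq_coef, coef_lap hf hp hr]
  unfold rlap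
  have h1 : deriv (coef f p) = dcoef 1 f p := deriv_coef (hf.of_le (by norm_num)) p
  have h2 : deriv (dcoef 1 f p) r = dcoef 2 f p r :=
    (hasDerivAt_dcoef (k := 2) (j := 1) (by exact_mod_cast hf) le_rfl p r).deriv
  rw [h1, h2]

theorem contDiff_comp {l : ℕ} {H : R12 → ℝ} (hH : SHarm l H) {f : R12 → ℂ} {k : ℕ}
    (hf : ContDiff ℝ k f) : ContDiff ℝ k (comp H f) := by
  obtain ⟨p, hp, rfl⟩ := hH.exists_harm
  rw [comp_eq_coef]
  exact contDiff_coef hf p


/-- bound for the radial derivatives of a coefficient -/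
theorem norm_iteratedDeriv_comp_le {l : ℕ} {H : R12 → ℝ} (hH : SHarm l H) {f : R12 → ℂ} {k : ℕ}
    (hf : ContDiff ℝ k f) {j : ℕ} (hj : j ≤ k) {C r : ℝ}
    (hC : ∀ y : R12, ‖y‖ = |r| → ‖iteratedFDeriv ℝ j f y‖ ≤ C) :
    ‖iteratedDeriv j (comp H f) r‖ ≤ C * ∫ w : S11, |H w| ∂sig := by
  obtain ⟨p, hp, rfl⟩ := hH.exists_harm
  rw [comp_eq_coef, iteratedDeriv_coef hf p j hj]
  exact norm_dcoef_le hC p

/-- the surface measure is invariant under `w ↦ -w` -/
theorem measurePreserving_neg_sphere : MeasurePreserving (fun w : S11 => -w) sig sig := by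
  have hm : Measurable (fun w : S11 => -w) := by
    apply Measurable.subtype_mk
    exact measurable_subtype_coe.neg
  refine ⟨hm, ?_⟩
  ext s hs
  rw [Measure.map_apply hm hs]
  rw [Measure.toSphere_apply' _ (hm hs), Measure.toSphere_apply' _ hs]
  congr 1
  have h1 : (Ioo (0 : ℝ) 1 • (Subtype.val '' ((fun w : S11 => -w) ⁻¹' s)) : Set R12)
      = -(Ioo (0 : ℝ) 1 • (Subtype.val '' s)) := by
    ext x
    simp only [Set.mem_smul, Set.mem_neg, Set.mem_image, Set.mem_preimage]
    constructor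
    · rintro ⟨t, ht, _, ⟨w, hw, rfl⟩, rfl⟩
      exact ⟨t, ht, _, ⟨-w, hw, rfl⟩, by simp⟩
    · rintro ⟨t, ht, _, ⟨w, hw, rfl⟩, h⟩
      refine ⟨t, ht, _, ⟨-w, by simpa using hw, rfl⟩, ?_⟩
      have : x = -(-x) := (neg_neg x).symm
      rw [this, ← h]
      simp
  rw [h1, Measure.measure_neg]

/-- parity -/
theorem comp_neg_arg {l : ℕ} {H : R12 → ℝ} (hH : SHarm l H) (f : R12 → ℂ) (r : ℝ) :
    comp H f (-r) = (-1) ^ l * comp H f r := by
  unfold comp
  have hemb : MeasurableEmbedding (fun w : S11 => -w) := by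
    have : MeasurableEmbedding (Homeomorph.neg S11) := (Homeomorph.neg S11).measurableEmbedding
    exact this
  rw [← measurePreserving_neg_sphere.integral_comp hemb, ← integral_const_mul]
  congr 1
  ext w
  rw [coe_neg_sphere, hH.map_neg, neg_smul_neg]
  push_cast
  ring


end Crest.Agent.R086
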