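import Mathlib
import Crest.Agent.R086.Sph1

-- ▼ part R086/SH1
section

/-!
Row 86, spherical harmonics, part 1 (helper545): Fischer decomposition of polynomials and
completeness of harmonic homogeneous polynomials on the unit sphere of `EuclideanSpace ℝ (Fin d)`.
-/

set_option autoImplicit false

open MvPolynomial Finset MeasureTheory
open scoped BigOperators

namespace Crest.Agent.R086.SH

variable {d : ℕ}

/-- polynomial Laplacian -/
noncomputable def plap (p : MvPolynomial (Fin d) ℝ) : MvPolynomial (Fin d) ℝ :=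
  ∑ i, pderiv i (pderiv i p)

/-- `|x|²` as a polynomial -/
noncomputable def rho : MvPolynomial (Fin d) ℝ := ∑ i, X i ^ 2

lemma plap_add (p q : MvPolynomial (Fin d) ℝ) : plap (p + q) = plap p + plap q := by
  simp [plap, Finset.sum_add_distrib]

lemma plap_sub (p q : MvPolynomial (Fin d) ℝ) : plap (p - q) = plap p - plap q := by
  simp [plap, Finset.sum_sub_distrib]

lemma plap_smul (c : ℝ) (p : MvPolynomial (Fin d) ℝ) : plap (c • p) = c • plap p := by
  simp [plap, Finset.smul_sum]

/-- factorial of a multi-index -/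
noncomputable def mfac (a : Fin d →₀ ℕ) : ℝ := ∏ i, (Nat.factorial (a i) : ℝ)

lemma mfac_pos (a : Fin d →₀ ℕ) : 0 < mfac a :=
  Finset.prod_pos fun i _ => by exact_mod_cast Nat.factorial_pos _

lemma mfac_succ (i : Fin d) (b : Fin d →₀ ℕ) :
    mfac (Finsupp.single i 1 + b) = mfac b * (b i + 1) := by
  classical
  unfold mfac
  rw [← Finset.mul_prod_erase Finset.univ _ (Finset.mem_univ i),
    ← Finset.mul_prod_erase Finset.univ (fun j => ((Nat.factorial (b j) : ℕ) : ℝ)) (Finset.mem_univ i)]
  have h1 : ∏ x ∈ Finset.univ.erase i, (((Finsupp.single i 1 + b : Fin d →₀ ℕ) x).factorial : ℝ)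
      = ∏ x ∈ Finset.univ.erase i, ((b x).factorial : ℝ) := by
    refine Finset.prod_congr rfl fun x hx => ?_
    have hxi : x ≠ i := (Finset.mem_erase.mp hx).1
    simp [hxi.symm]
  rw [h1]
  have h2 : ((Finsupp.single i 1 + b : Fin d →₀ ℕ) i) = b i + 1 := by
    simp [add_comm]
  rw [h2, Nat.factorial_succ]
  push_cast
  ring

/-- Fischer pairing -/
noncomputable def fis (p q : MvPolynomial (Fin d) ℝ) : ℝ :=
  ∑ a ∈ p.support, mfac a * coeff a p * coeff a q

lemma fis_eq_of_subset (p q : MvPolynomial (Fin d) ℝ) {S : Finset (Fin d →₀ ℕ)}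
    (hS : p.support ⊆ S) : fis p q = ∑ a ∈ S, mfac a * coeff a p * coeff a q := by
  unfold fis
  refine Finset.sum_subset hS fun a _ ha => ?_
  have : coeff a p = 0 := by simpa using ha
  simp [this]

lemma fis_add_left (p p' q : MvPolynomial (Fin d) ℝ) : fis (p + p') q = fis p q + fis p' q := by
  classical
  rw [fis_eq_of_subset (p + p') q (S := p.support ∪ p'.support) (MvPolynomial.support_add),
    fis_eq_of_subset p q (S := p.support ∪ p'.support) Finset.subset_union_left,
    fis_eq_of_subset p' q (S := p.support ∪ p'.support) Finset.subset_union_right,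
    ← Finset.sum_add_distrib]
  refine Finset.sum_congr rfl fun a _ => ?_
  rw [coeff_add]; ring

lemma fis_sum_left {ι : Type*} (s : Finset ι) (p : ι → MvPolynomial (Fin d) ℝ)
    (q : MvPolynomial (Fin d) ℝ) : fis (∑ i ∈ s, p i) q = ∑ i ∈ s, fis (p i) q := by
  classical
  induction s using Finset.induction_on with
  | empty => simp [fis]
  | insert a s ha ih => rw [Finset.sum_insert ha, Finset.sum_insert ha, fis_add_left, ih]

lemma fis_sum_right {ι : Type*} (s : Finset ι) (p : MvPolynomial (Fin d) ℝ)
    (q : ι → MvPolynomial (Fin d) ℝ) : fis p (∑ i ∈ s, q i) = ∑ i ∈ s, fis p (q i) := by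
  classical
  unfold fis
  rw [Finset.sum_comm]
  refine Finset.sum_congr rfl fun a _ => ?_
  rw [coeff_sum, Finset.mul_sum]

lemma fis_zero_right (p : MvPolynomial (Fin d) ℝ) : fis p 0 = 0 := by simp [fis]

/-- adjointness of multiplication by `X i` and `∂_i` -/
lemma fis_X_mul (i : Fin d) (p q : MvPolynomial (Fin d) ℝ) :
    fis (X i * p) q = fis p (pderiv i q) := by
  classical
  unfold fis
  rw [support_X_mul, Finset.sum_map]
  refine Finset.sum_congr rfl fun b _ => ?_
  simp only [addLeftEmbedding_apply]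
  rw [coeff_X_mul, mfac_succ, coeff_pderiv, add_comm b (Finsupp.single i 1)]
  ring

lemma fis_rho_mul (p q : MvPolynomial (Fin d) ℝ) : fis (rho * p) q = fis p (plap q) := by
  unfold rho plap
  rw [Finset.sum_mul, fis_sum_left, fis_sum_right]
  refine Finset.sum_congr rfl fun i _ => ?_
  rw [pow_two, mul_assoc, fis_X_mul, fis_X_mul]

lemma fis_self_eq_zero {p : MvPolynomial (Fin d) ℝ} (h : fis p p = 0) : p = 0 := by
  unfold fis at h
  have h0 : ∀ a ∈ p.support, 0 ≤ mfac a * coeff a p * coeff a p := fun a _ => by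
    rw [mul_assoc]; exact mul_nonneg (mfac_pos a).le (mul_self_nonneg _)
  have h1 := (Finset.sum_eq_zero_iff_of_nonneg h0).mp h
  ext a
  by_cases ha : a ∈ p.support
  · have := h1 a ha
    rw [mul_assoc] at this
    have h2 := (mul_eq_zero.mp this).resolve_left (mfac_pos a).ne'
    simpa using h2
  · simpa using ha

lemma rho_ne_zero [NeZero d] : (rho : MvPolynomial (Fin d) ℝ) ≠ 0 := by
  intro h
  have := congrArg (MvPolynomial.eval (fun _ : Fin d => (1 : ℝ))) h
  simp [rho] at this
  exact NeZero.ne d this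

lemma plap_rho_mul_injective [NeZero d] {q : MvPolynomial (Fin d) ℝ}
    (h : plap (rho * q) = 0) : q = 0 := by
  have h1 : fis (rho * q) (rho * q) = 0 := by
    rw [fis_rho_mul, h, fis_zero_right]
  exact (mul_eq_zero.mp (fis_self_eq_zero h1)).resolve_left rho_ne_zero

lemma rho_hom : (rho : MvPolynomial (Fin d) ℝ).IsHomogeneous 2 := by
  unfold rho
  refine MvPolynomial.IsHomogeneous.sum _ _ _ fun i _ => ?_
  simpa using (isHomogeneous_X ℝ i).pow 2

lemma plap_hom {p : MvPolynomial (Fin d) ℝ} {k : ℕ} (hp : p.IsHomogeneous k) :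
    (plap p).IsHomogeneous (k - 2) := by
  unfold plap
  refine MvPolynomial.IsHomogeneous.sum _ _ _ fun i _ => ?_
  have := (hp.pderiv (i := i)).pderiv (i := i)
  simpa [Nat.sub_sub] using this

lemma plap_low {p : MvPolynomial (Fin d) ℝ} {k : ℕ} (hk : k < 2) (hp : p.IsHomogeneous k) :
    plap p = 0 := by
  unfold plap
  refine Finset.sum_eq_zero fun i _ => ?_
  have h1 : (pderiv i p).IsHomogeneous 0 := by
    have := hp.pderiv (i := i)
    have h0 : k - 1 = 0 := by omega
    rwa [h0] at this
  rw [← totalDegree_zero_iff_isHomogeneous] at h1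
  rw [MvPolynomial.totalDegree_eq_zero_iff_eq_C.mp h1, pderiv_C]

/-- One Fischer step. -/
theorem fischer_step [NeZero d] {p : MvPolynomial (Fin d) ℝ} {k : ℕ}
    (hp : p.IsHomogeneous (k + 2)) :
    ∃ h q : MvPolynomial (Fin d) ℝ, h.IsHomogeneous (k + 2) ∧ plap h = 0 ∧ q.IsHomogeneous k ∧
      p = h + rho * q := by
  have hfg : Module.Finite ℝ (homogeneousSubmodule (Fin d) ℝ k) :=
    Module.Finite.iff_fg.mpr (homogeneousSubmodule_fg (Fin d) ℝ k)
  let L : homogeneousSubmodule (Fin d) ℝ k →ₗ[ℝ] homogeneousSubmodule (Fin d) ℝ k :=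
    { toFun := fun q => ⟨plap (rho * (q : MvPolynomial (Fin d) ℝ)), by
        have h1 : (rho * (q : MvPolynomial (Fin d) ℝ)).IsHomogeneous (2 + k) :=
          rho_hom.mul q.2
        have h2 := plap_hom h1
        simpa [Nat.add_sub_cancel_left] using h2⟩
      map_add' := fun a b => by
        apply Subtype.ext
        simp [mul_add, plap_add]
      map_smul' := fun c a => by
        apply Subtype.ext
        simp [plap_smul] }
  have hinj : Function.Injective L := by
    rw [← LinearMap.ker_eq_bot, LinearMap.ker_eq_bot']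
    intro q hq
    apply Subtype.ext
    exact plap_rho_mul_injective (congrArg Subtype.val hq)
  have hsurj : Function.Surjective L := LinearMap.surjective_of_injective hinj
  obtain ⟨q, hq⟩ := hsurj ⟨plap p, by simpa using plap_hom hp⟩
  have hq' : plap (rho * (q : MvPolynomial (Fin d) ℝ)) = plap p := congrArg Subtype.val hq
  refine ⟨p - rho * (q : MvPolynomial (Fin d) ℝ), (q : MvPolynomial (Fin d) ℝ), ?_, ?_, q.2,
    by ring⟩
  · have h1 : (rho * (q : MvPolynomial (Fin d) ℝ)).IsHomogeneous (2 + k) := rho_hom.mul q.2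
    rw [add_comm 2 k] at h1
    exact hp.sub h1
  · rw [plap_sub, hq', sub_self]

/-- the unit sphere -/
abbrev Sph (d : ℕ) : Type := Metric.sphere (0 : EuclideanSpace ℝ (Fin d)) 1

/-- A polynomial as a function on Euclidean space. -/
noncomputable def pfun (p : MvPolynomial (Fin d) ℝ) (x : EuclideanSpace ℝ (Fin d)) : ℝ :=
  MvPolynomial.eval (fun i => x i) p

@[simp] lemma pfun_add (p q : MvPolynomial (Fin d) ℝ) (x) : pfun (p + q) x = pfun p x + pfun q x := by
  simp [pfun]

@[simp] lemma pfun_mul (p q : MvPolynomial (Fin d) ℝ) (x) : pfun (p * q) x = pfun p x * pfun q x := by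
  simp [pfun]

lemma pfun_sum {ι : Type*} (s : Finset ι) (p : ι → MvPolynomial (Fin d) ℝ) (x) :
    pfun (∑ i ∈ s, p i) x = ∑ i ∈ s, pfun (p i) x := by
  simp [pfun]

lemma pfun_rho (x : EuclideanSpace ℝ (Fin d)) : pfun rho x = ‖x‖ ^ 2 := by
  simp [pfun, rho, EuclideanSpace.norm_sq_eq]

lemma pfun_rho_sph (x : Sph d) : pfun rho (x : EuclideanSpace ℝ (Fin d)) = 1 := by
  rw [pfun_rho]
  have : ‖(x : EuclideanSpace ℝ (Fin d))‖ = 1 := by simp
  rw [this]; norm_num

lemma continuous_pfun (p : MvPolynomial (Fin d) ℝ) : Continuous (pfun p) := by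
  unfold pfun
  have h1 : Continuous fun x : EuclideanSpace ℝ (Fin d) => (fun i => x i : Fin d → ℝ) := by
    fun_prop
  exact (MvPolynomial.continuous_eval p).comp h1

lemma pfun_smul_of_hom {p : MvPolynomial (Fin d) ℝ} {l : ℕ} (hp : p.IsHomogeneous l) (t : ℝ)
    (x : EuclideanSpace ℝ (Fin d)) : pfun p (t • x) = t ^ l * pfun p x := by
  unfold pfun
  rw [eval_eq', eval_eq', Finset.mul_sum]
  refine Finset.sum_congr rfl fun a ha => ?_
  have hdeg : ∑ i, a i = l := by
    have h1 : a.degree = l := by
      rw [Finsupp.degree_eq_weight_one]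
      exact hp (mem_support_iff.mp ha)
    simpa [Finsupp.degree_eq_sum] using h1
  have h2 : ∀ i, (t • x) i = t * x i := fun i => by simp
  simp only [h2, mul_pow, Finset.prod_mul_distrib]
  rw [Finset.prod_pow_eq_pow_sum, hdeg]
  ring

/-- The space spanned on the sphere by the harmonic homogeneous polynomials. -/
def HSpan (d : ℕ) : Submodule ℝ (Sph d → ℝ) :=
  Submodule.span ℝ {g | ∃ (l : ℕ) (h : MvPolynomial (Fin d) ℝ), h.IsHomogeneous l ∧ plap h = 0 ∧
    g = fun x : Sph d => pfun h x}

lemma hom_mem_HSpan [NeZero d] (k : ℕ) : ∀ p : MvPolynomial (Fin d) ℝ, p.IsHomogeneous k →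
    (fun x : Sph d => pfun p x) ∈ HSpan d := by
  induction k using Nat.strong_induction_on with
  | _ k ih =>
    intro p hp
    by_cases hk : k < 2
    · exact Submodule.subset_span ⟨k, p, hp, plap_low hk hp, rfl⟩
    · obtain ⟨m, rfl⟩ : ∃ m, k = m + 2 := ⟨k - 2, by omega⟩
      obtain ⟨h, q, hh, hl, hq, hpq⟩ := fischer_step hp
      have h1 : (fun x : Sph d => pfun p x) = (fun x : Sph d => pfun h x) + fun x : Sph d => pfun q x := by
        funext x
        rw [hpq]
        simp [pfun_rho_sph]
      rw [h1]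
      exact Submodule.add_mem _ (Submodule.subset_span ⟨_, h, hh, hl, rfl⟩) (ih m (by omega) q hq)

lemma poly_mem_HSpan [NeZero d] (p : MvPolynomial (Fin d) ℝ) :
    (fun x : Sph d => pfun p x) ∈ HSpan d := by
  have h1 : (fun x : Sph d => pfun p x) =
      ∑ i ∈ Finset.range (p.totalDegree + 1), fun x : Sph d => pfun (homogeneousComponent i p) x := by
    funext x
    rw [Finset.sum_apply, ← pfun_sum, sum_homogeneousComponent]
  rw [h1]
  exact Submodule.sum_mem _ fun i _ => hom_mem_HSpan i _ (homogeneousComponent_isHomogeneous i p)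

/-- coordinate functions on the sphere -/
noncomputable def crd (i : Fin d) : C(Sph d, ℝ) :=
  ⟨fun x => (x : EuclideanSpace ℝ (Fin d)) i, by fun_prop⟩

/-- the algebra of polynomial functions on the sphere -/
noncomputable def polyAlg (d : ℕ) : Subalgebra ℝ C(Sph d, ℝ) :=
  (MvPolynomial.aeval (R := ℝ) (crd (d := d))).range

lemma aeval_crd_apply (p : MvPolynomial (Fin d) ℝ) (x : Sph d) :
    (MvPolynomial.aeval (R := ℝ) (crd (d := d)) p) x = pfun p x := by
  induction p using MvPolynomial.induction_on with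
  | C a => simp [pfun]
  | add p q hp hq => simp [hp, hq]
  | mul_X p i hp => simp [hp, pfun, crd]

lemma polyAlg_dense : (polyAlg d).topologicalClosure = ⊤ := by
  apply ContinuousMap.subalgebra_topologicalClosure_eq_top_of_separatesPoints
  intro x y hxy
  have : ∃ i, (x : EuclideanSpace ℝ (Fin d)) i ≠ (y : EuclideanSpace ℝ (Fin d)) i := by
    by_contra hcon
    push Not at hcon
    apply hxy
    apply Subtype.ext
    ext i
    exact hcon i
  obtain ⟨i, hi⟩ := this
  refine ⟨crd i, ⟨crd i, ?_, rfl⟩, hi⟩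
  exact ⟨X i, by simp⟩

/-- sphere measure -/
noncomputable abbrev sg (d : ℕ) : Measure (Sph d) :=
  (volume : Measure (EuclideanSpace ℝ (Fin d))).toSphere

/-- COMPLETENESS (real form). -/
theorem complete_real [NeZero d] (f : Sph d → ℝ) (hf : Continuous f)
    (h : ∀ (l : ℕ) (p : MvPolynomial (Fin d) ℝ), p.IsHomogeneous l → plap p = 0 →
      ∫ x, f x * pfun p x ∂(sg d) = 0) : ∀ x, f x = 0 := by
  have hint : ∀ g : Sph d → ℝ, Continuous g → Integrable (fun x => f x * g x) (sg d) := by
    intro g hg
    exact (hf.mul hg).integrable_of_hasCompactSupport (HasCompactSupport.of_compactSpace _)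
  -- all polynomials
  have hpoly : ∀ p : MvPolynomial (Fin d) ℝ, ∫ x, f x * pfun p x ∂(sg d) = 0 := by
    intro p
    have key : ∀ g ∈ HSpan d, Continuous g ∧ ∫ x, f x * g x ∂(sg d) = 0 := by
      intro g hg
      refine Submodule.span_induction (p := fun g _ => Continuous g ∧ ∫ x, f x * g x ∂(sg d) = 0)
        ?_ ?_ ?_ ?_ hg
      · rintro _ ⟨l, q, hq, hl, rfl⟩
        exact ⟨(continuous_pfun q).comp continuous_subtype_val, h l q hq hl⟩
      · exact ⟨continuous_zero, by simp⟩
      · rintro g1 g2 _ _ ⟨c1, i1⟩ ⟨c2, i2⟩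
        refine ⟨c1.add c2, ?_⟩
        simp only [Pi.add_apply, mul_add]
        rw [integral_add (hint _ c1) (hint _ c2), i1, i2, add_zero]
      · rintro c g _ ⟨c1, i1⟩
        refine ⟨continuous_const.smul c1, ?_⟩
        have : (fun x => f x * (c • g) x) = fun x => c * (f x * g x) := by
          funext x; simp; ring
        rw [this, integral_const_mul, i1, mul_zero]
    exact (key _ (poly_mem_HSpan p)).2
  -- the functional
  let F : C(Sph d, ℝ) := ⟨f, hf⟩
  have hcl : IsClosed {g : C(Sph d, ℝ) | ∫ x, f x * g x ∂(sg d) = 0} := by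
    have hcont : Continuous fun g : C(Sph d, ℝ) => ∫ x, f x * g x ∂(sg d) := by
      have hK : 0 ≤ ∫ x, |f x| ∂(sg d) := integral_nonneg fun x => abs_nonneg _
      have hfi : Integrable f (sg d) := by
        simpa using hint 1 continuous_one
      refine (LipschitzWith.of_dist_le_mul (K := Real.toNNReal (∫ x, |f x| ∂(sg d)))
        fun g1 g2 => ?_).continuous
      rw [Real.coe_toNNReal _ hK, dist_eq_norm,
        ← integral_sub (hint _ g1.continuous) (hint _ g2.continuous), ← integral_mul_const]
      refine norm_integral_le_of_norm_le (hfi.abs.mul_const _) (Filter.Eventually.of_forall fun x => ?_)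
      rw [← mul_sub, norm_mul, Real.norm_eq_abs]
      refine mul_le_mul_of_nonneg_left ?_ (abs_nonneg _)
      rw [← dist_eq_norm]
      exact ContinuousMap.dist_apply_le_dist x
    exact isClosed_eq hcont continuous_const
  have hmem : F ∈ {g : C(Sph d, ℝ) | ∫ x, f x * g x ∂(sg d) = 0} := by
    have hsub : ((polyAlg d).topologicalClosure : Set C(Sph d, ℝ)) ⊆
        {g : C(Sph d, ℝ) | ∫ x, f x * g x ∂(sg d) = 0} := by
      rw [Subalgebra.topologicalClosure_coe]
      refine closure_minimal ?_ hcl
      rintro _ ⟨p, rfl⟩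
      have := hpoly p
      simpa [aeval_crd_apply] using this
    apply hsub
    rw [polyAlg_dense]
    trivial
  have h2 : ∫ x, f x * f x ∂(sg d) = 0 := hmem
  have h3 : (fun x => f x * f x) = 0 := by
    have hc : Continuous fun x => f x * f x := hf.mul hf
    have h4 := (integral_eq_zero_iff_of_nonneg (fun x => mul_self_nonneg (f x)) (hint f hf)).mp h2
    exact (hc.ae_eq_iff_eq (sg d) continuous_zero).mp h4
  intro x
  have := congrFun h3 x
  simpa using this

/-- COMPLETENESS (complex form): a continuous complex function on the sphere which is orthogonal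
to all (real) harmonic homogeneous polynomials vanishes. -/
theorem complete_complex [NeZero d] (f : Sph d → ℂ) (hf : Continuous f)
    (h : ∀ (l : ℕ) (p : MvPolynomial (Fin d) ℝ), p.IsHomogeneous l → plap p = 0 →
      ∫ x, f x * ((pfun p x : ℝ) : ℂ) ∂(sg d) = 0) : ∀ x, f x = 0 := by
  have hint : ∀ p : MvPolynomial (Fin d) ℝ,
      Integrable (fun x : Sph d => f x * ((pfun p x : ℝ) : ℂ)) (sg d) := by
    intro p
    refine Continuous.integrable_of_hasCompactSupport (hf.mul ?_) (HasCompactSupport.of_compactSpace _)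
    exact Complex.continuous_ofReal.comp ((continuous_pfun p).comp continuous_subtype_val)
  have hre : ∀ x, (f x).re = 0 := by
    refine complete_real (fun x => (f x).re) (Complex.continuous_re.comp hf) fun l p hp hl => ?_
    have h1 := congrArg Complex.re (h l p hp hl)
    have h2 : (∫ x, f x * ((pfun p x : ℝ) : ℂ) ∂(sg d)).re =
        ∫ x, (f x * ((pfun p x : ℝ) : ℂ)).re ∂(sg d) := (integral_re (hint p)).symm
    rw [h2] at h1
    simpa using h1
  have him : ∀ x, (f x).im = 0 := by
    refine complete_real (fun x => (f x).im) (Complex.continuous_im.comp hf) fun l p hp hl => ?_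
    have h1 := congrArg Complex.im (h l p hp hl)
    have h2 : (∫ x, f x * ((pfun p x : ℝ) : ℂ) ∂(sg d)).im =
        ∫ x, (f x * ((pfun p x : ℝ) : ℂ)).im ∂(sg d) := (integral_im (hint p)).symm
    rw [h2] at h1
    simpa using h1
  intro x
  exact Complex.ext (hre x) (him x)

/-! ### polynomials as smooth functions -/

lemma hasFDerivAt_pfun (p : MvPolynomial (Fin d) ℝ) (y : EuclideanSpace ℝ (Fin d)) :
    HasFDerivAt (pfun p)
      (∑ i, pfun (pderiv i p) y • (EuclideanSpace.proj i : EuclideanSpace ℝ (Fin d) →L[ℝ] ℝ)) y := by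
  induction p using MvPolynomial.induction_on with
  | C a =>
    have : pfun (C a : MvPolynomial (Fin d) ℝ) = fun _ => a := by funext x; simp [pfun]
    rw [this]
    have h2 : (∑ i, pfun (pderiv i (C a : MvPolynomial (Fin d) ℝ)) y •
        (EuclideanSpace.proj i : EuclideanSpace ℝ (Fin d) →L[ℝ] ℝ)) = 0 := by
      refine Finset.sum_eq_zero fun i _ => ?_
      simp [pfun]
    rw [h2]
    exact hasFDerivAt_const _ _
  | add p q hp hq =>
    have h1 : pfun (p + q) = fun x => pfun p x + pfun q x := by funext x; simp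
    rw [h1]
    have h2 := hp.add hq
    convert! h2 using 1
    rw [← Finset.sum_add_distrib]
    refine Finset.sum_congr rfl fun i _ => ?_
    rw [map_add, pfun_add, add_smul]
  | mul_X p j hp =>
    have h1 : pfun (p * X j) = fun x => pfun p x * x j := by funext x; simp [pfun]
    rw [h1]
    have h3 : HasFDerivAt (fun x : EuclideanSpace ℝ (Fin d) => x j)
        (EuclideanSpace.proj j : EuclideanSpace ℝ (Fin d) →L[ℝ] ℝ) y :=
      (EuclideanSpace.proj j : EuclideanSpace ℝ (Fin d) →L[ℝ] ℝ).hasFDerivAt
    have h2 := hp.mul h3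
    convert! h2 using 1
    have h4 : ∀ i, pfun (pderiv i (p * X j)) y = pfun (pderiv i p) y * y j +
        pfun p y * (if i = j then 1 else 0) := by
      intro i
      rw [pderiv_mul, pfun_add, pfun_mul, pfun_mul]
      congr 1
      · simp [pfun]
      · congr 1
        by_cases hij : i = j
        · subst hij; simp [pfun]
        · rw [pderiv_X_of_ne (Ne.symm hij)]; simp [pfun, hij]
    simp only [h4, add_smul, Finset.sum_add_distrib]
    rw [add_comm]
    congr 1
    · simp
    · rw [Finset.smul_sum]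
      refine Finset.sum_congr rfl fun i _ => ?_
      rw [smul_smul, mul_comm]

lemma fderiv_pfun_single (p : MvPolynomial (Fin d) ℝ) (y : EuclideanSpace ℝ (Fin d)) (i : Fin d) :
    fderiv ℝ (pfun p) y (EuclideanSpace.single i 1) = pfun (pderiv i p) y := by
  rw [(hasFDerivAt_pfun p y).fderiv]
  simp [Finset.sum_ite_eq']

lemma contDiff_pfun (p : MvPolynomial (Fin d) ℝ) : ContDiff ℝ ⊤ (pfun p) := by
  induction p using MvPolynomial.induction_on with
  | C a =>
    have : pfun (C a : MvPolynomial (Fin d) ℝ) = fun _ => a := by funext x; simp [pfun]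
    rw [this]; exact contDiff_const
  | add p q hp hq =>
    have h1 : pfun (p + q) = fun x => pfun p x + pfun q x := by funext x; simp
    rw [h1]; exact hp.add hq
  | mul_X p j hp =>
    have h1 : pfun (p * X j) = fun x => pfun p x * x j := by funext x; simp [pfun]
    rw [h1]
    exact hp.mul (EuclideanSpace.proj j : EuclideanSpace ℝ (Fin d) →L[ℝ] ℝ).contDiff

/-- The Laplacian of a polynomial function is the polynomial Laplacian. -/
lemma lap_pfun (p : MvPolynomial (Fin d) ℝ) (y : EuclideanSpace ℝ (Fin d)) :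
    ∑ i, iteratedFDeriv ℝ 2 (pfun p) y ![EuclideanSpace.single i 1, EuclideanSpace.single i 1]
      = pfun (plap p) y := by
  unfold plap
  rw [pfun_sum]
  refine Finset.sum_congr rfl fun i _ => ?_
  rw [iteratedFDeriv_two_apply]
  simp only [Matrix.cons_val_zero, Matrix.cons_val_one]
  have hd : DifferentiableAt ℝ (fderiv ℝ (pfun p)) y :=
    (((contDiff_pfun p).fderiv_right (m := 1) le_top).differentiable (by norm_num)) y
  have h1 : fderiv ℝ (fderiv ℝ (pfun p)) y (EuclideanSpace.single i 1) (EuclideanSpace.single i 1)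
      = fderiv ℝ (fun z => fderiv ℝ (pfun p) z (EuclideanSpace.single i 1)) y
        (EuclideanSpace.single i 1) := by
    rw [fderiv_clm_apply hd (differentiableAt_const _)]
    simp
  rw [h1]
  have h2 : (fun z => fderiv ℝ (pfun p) z (EuclideanSpace.single i 1)) = pfun (pderiv i p) := by
    funext z; exact fderiv_pfun_single p z i
  rw [h2, fderiv_pfun_single]

end Crest.Agent.R086.SH
end

-- ▼ part R086/SphComp

/-!
Row 86, spherical harmonics (helper545): completeness on `ℝ^d`, in terms of helper475's `Harm`.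
-/

set_option autoImplicit false

open MeasureTheory

namespace Crest.Agent.R086.SH

variable {d : ℕ}


/-- COMPLETENESS on `ℝ^d`: if all coefficients
`∫_S f(r w) p(w) dσ(w)` (`r > 0`, `p` harmonic homogeneous) vanish then `f = 0`. -/
theorem eq_zero_of_coef [NeZero d] (f : EuclideanSpace ℝ (Fin d) → ℂ) (hf : Continuous f)
    (h : ∀ (l : ℕ) (p : MvPolynomial (Fin d) ℝ), Sph.Harm l p → ∀ r : ℝ, 0 < r →
      ∫ w : Metric.sphere (0 : EuclideanSpace ℝ (Fin d)) 1,
        f (r • (w : EuclideanSpace ℝ (Fin d))) *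
          ((MvPolynomial.eval (fun i => (w : EuclideanSpace ℝ (Fin d)) i) p : ℝ) : ℂ)
          ∂((volume : Measure (EuclideanSpace ℝ (Fin d))).toSphere) = 0) :
    ∀ y, f y = 0 := by
  -- away from the origin
  have h1 : ∀ y, y ≠ 0 → f y = 0 := by
    intro y hy
    have hn : 0 < ‖y‖ := norm_pos_iff.mpr hy
    have h2 := complete_complex (d := d) (fun w => f (‖y‖ • (w : EuclideanSpace ℝ (Fin d))))
      (hf.comp (by fun_prop))
      (fun l p hp hl => h l p ⟨hp, hl⟩ ‖y‖ hn)
    have h3 := h2 ⟨(‖y‖)⁻¹ • y, by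
      rw [mem_sphere_zero_iff_norm, norm_smul, norm_inv, norm_norm, inv_mul_cancel₀ hn.ne']⟩
    simpa [smul_smul, mul_inv_cancel₀ hn.ne'] using h3
  intro y
  by_cases hy : y = 0
  · subst hy
    -- density of the complement of the origin
    have : Nontrivial (EuclideanSpace ℝ (Fin d)) := by
      refine ⟨⟨EuclideanSpace.single 0 1, 0, ?_⟩⟩
      intro h0
      have := congrArg (fun v : EuclideanSpace ℝ (Fin d) => v 0) h0
      simp at this
    have hd : Dense ({0}ᶜ : Set (EuclideanSpace ℝ (Fin d))) := dense_compl_singleton 0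
    have hcl : IsClosed {z : EuclideanSpace ℝ (Fin d) | f z = 0} :=
      isClosed_eq hf continuous_const
    have hsub : (Set.univ : Set (EuclideanSpace ℝ (Fin d))) ⊆ {z | f z = 0} := by
      rw [← hd.closure_eq]
      exact closure_minimal (fun z hz => h1 z hz) hcl
    exact hsub (Set.mem_univ 0)
  · exact h1 y hy


end Crest.Agent.R086.SH
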