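import Crest.Agent.R086.SHX
import Crest.Agent.R086.SH2
import Crest.Agent.R086.SHF

-- ▼ part R086/SHMain
section

/-!
Row 86, spherical harmonics: assembly `ModeGood → SpecGood` (helper512).
-/

set_option autoImplicit false

open MeasureTheory Complex
open scoped ContDiff

namespace Crest.Agent.R086.SH

/-- facts provided by SH2 (475) and SHF (851) -/
structure Facts (N : ℕ) : Prop where
  comp_lap : ∀ (l : ℕ) (H : R12 → ℝ) (f : R12 → ℂ), SHarm l H → ContDiff ℝ 2 f →
    ∀ r : ℝ, 0 < r → comp H (lap f) r = rlap l (comp H f) r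
  comp_eul : ∀ (l : ℕ) (H : R12 → ℝ) (f : R12 → ℂ), SHarm l H → ContDiff ℝ 1 f →
    ∀ r : ℝ, 0 < r → comp H (eul f) r = (r : ℂ) * deriv (comp H f) r
  contDiff : ∀ (l : ℕ) (H : R12 → ℝ) (f : R12 → ℂ), SHarm l H → ContDiff ℝ N f →
    ContDiff ℝ N (comp H f)
  parity : ∀ (l : ℕ) (H : R12 → ℝ) (f : R12 → ℂ), SHarm l H → Continuous f →
    ∀ r : ℝ, comp H f (-r) = (-1) ^ l * comp H f r
  orth : ∀ (l l' : ℕ) (H H' : R12 → ℝ), SHarm l H → SHarm l' H' → l ≠ l' →
    ∫ w : S11, H w * H' w ∂sig = 0
  inX : ∀ (l : ℕ) (H : R12 → ℝ) (f : R12 → ℂ), SHarm l H → InX N f → InX N (modeFn H (comp H f))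

variable {n : ℕ} (P : Profile n)

lemma comp_modes1 {H : R12 → ℝ} (hH : Continuous H) (c : Option (Option (Fin 12)) → ℂ) {r : ℝ}
    (hr : 0 < r) :
    comp H (fun y => ∑ m, c m * P.mode1 m y) r =
      c none * ((I * P.q r) * m0 H) + (c (some none) * (P.rtime r * m0 H) +
        ∑ j : Fin 12, c (some (some j)) * (deriv P.q r * m1 H j)) := by
  have hc : ∀ m, Continuous (fun y => c m * P.mode1 m y) :=
    fun m => continuous_const.mul (mode1_cont P m)
  rw [comp_sum _ hH hc]
  simp only [comp_const_mul, Fintype.sum_option]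
  rw [comp_mode1_none P H hr, comp_mode1_time P H hr]
  simp only [comp_mode1_tr P H _ hr]

lemma comp_modes2 {H : R12 → ℝ} (hH : Continuous H) (c : Option (Option (Fin 12)) → ℂ) {r : ℝ}
    (hr : 0 < r) :
    comp H (fun y => ∑ m, c m * P.mode2 m y) r =
      c none * (starRingEnd ℂ (I * P.q r) * m0 H) + (c (some none) * (starRingEnd ℂ (P.rtime r) * m0 H) +
        ∑ j : Fin 12, c (some (some j)) * (starRingEnd ℂ (deriv P.q r) * m1 H j)) := by
  have hc : ∀ m, Continuous (fun y => c m * P.mode2 m y) :=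
    fun m => continuous_const.mul (mode2_cont P m)
  rw [comp_sum _ hH hc]
  simp only [comp_const_mul, Fintype.sum_option, comp_mode2]
  rw [comp_mode1_none P H hr, comp_mode1_time P H hr]
  simp only [comp_mode1_tr P H _ hr, map_mul, m0_conj, m1_conj]

variable {N : ℕ}

lemma m0_eq_zero (hF : Facts N) {l : ℕ} {H : R12 → ℝ} (hH : SHarm l H) (hl : l ≠ 0) : m0 H = 0 := by
  have h := hF.orth l 0 H (fun _ => 1) hH (SHarm.const 1) hl
  unfold m0
  rw [integral_complex_ofReal]
  simpa using h

lemma m1_eq_zero (hF : Facts N) {l : ℕ} {H : R12 → ℝ} (hH : SHarm l H) (hl : l ≠ 1) (j : Fin 12) :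
    m1 H j = 0 := by
  have h := hF.orth l 1 H (fun y => y j) hH (SHarm.coord j) hl
  unfold m1
  have e : (fun w : S11 => ((H w : ℝ) : ℂ) * (((w : R12) j : ℝ) : ℂ)) =
      fun w : S11 => ((H w * (w : R12) j : ℝ) : ℂ) := by funext w; push_cast; rfl
  rw [e, integral_complex_ofReal]
  exact_mod_cast h

lemma SHarm.mul_coord {i j : Fin 12} (hij : i ≠ j) : SHarm 2 (fun y : R12 => y i * y j) := by
  have h1 : (fun y : R12 => y i * y j) = pfun (MvPolynomial.X i * MvPolynomial.X j) := by
    funext y; simp [pfun]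
  rw [h1]
  refine Crest.Agent.R086.SHarm.of_harm
    ⟨(MvPolynomial.isHomogeneous_X _ _).mul (MvPolynomial.isHomogeneous_X _ _), ?_⟩
  show plap (MvPolynomial.X i * MvPolynomial.X j) = 0
  unfold plap
  refine Finset.sum_eq_zero fun k _ => ?_
  rw [MvPolynomial.pderiv_mul]
  by_cases hk : i = k
  · subst hk
    rw [MvPolynomial.pderiv_X_of_ne hij.symm, MvPolynomial.pderiv_X_self]
    simp [MvPolynomial.pderiv_X_of_ne hij.symm]
  · rw [MvPolynomial.pderiv_X_of_ne hk]
    by_cases hk' : j = k
    · subst hk'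
      simp [MvPolynomial.pderiv_X_of_ne hk]
    · rw [MvPolynomial.pderiv_X_of_ne hk']
      simp

lemma m1_coord_ne (hF : Facts N) {i j : Fin 12} (hij : i ≠ j) : m1 (fun y => y i) j = 0 := by
  have h := hF.orth 2 0 (fun y => y i * y j) (fun _ => 1) (SHarm.mul_coord hij) (SHarm.const 1)
    (by norm_num)
  unfold m1
  have e : (fun w : S11 => (((w : R12) i : ℝ) : ℂ) * (((w : R12) j : ℝ) : ℂ)) =
      fun w : S11 => (((w : R12) i * (w : R12) j : ℝ) : ℂ) := by funext w; push_cast; rfl
  rw [e, integral_complex_ofReal]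
  simp only [mul_one] at h
  exact_mod_cast h

/-- second moment -/
noncomputable def B (j : Fin 12) : ℝ := ∫ w : S11, ((w : R12) j) ^ 2 ∂sig

lemma m1_coord_self (j : Fin 12) : m1 (fun y => y j) j = (B j : ℂ) := by
  unfold m1 B
  have e : (fun w : S11 => (((w : R12) j : ℝ) : ℂ) * (((w : R12) j : ℝ) : ℂ)) =
      fun w : S11 => ((((w : R12) j) ^ 2 : ℝ) : ℂ) := by funext w; push_cast; ring
  rw [e, integral_complex_ofReal]

lemma B_pos (j : Fin 12) : 0 < B j := by
  have h0 : 0 ≤ B j := integral_nonneg fun w => sq_nonneg _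
  rcases h0.eq_or_lt with h | h
  · exfalso
    have h1 := (SHarm.coord j).eq_zero_of_integral_sq h.symm (ei j)
    simp [ei] at h1
  · exact h

/-- total mass -/
noncomputable def A0 : ℝ := ∫ _w : S11, (1 : ℝ) ^ 2 ∂sig

lemma m0_one : m0 (fun _ => 1) = (A0 : ℂ) := by
  unfold m0 A0
  simp

lemma A0_pos : 0 < A0 := by
  have h0 : 0 ≤ A0 := integral_nonneg fun w => sq_nonneg _
  rcases h0.eq_or_lt with h | h
  · exfalso
    have h1 := (SHarm.const 1).eq_zero_of_integral_sq h.symm 0
    simp at h1
  · exact h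



lemma comp_sum_left {ι : Type*} (s : Finset ι) {H : ι → R12 → ℝ} (hH : ∀ i, Continuous (H i))
    {f : R12 → ℂ} (hf : Continuous f) (r : ℝ) :
    comp (fun y => ∑ i ∈ s, H i y) f r = ∑ i ∈ s, comp (H i) f r := by
  unfold comp
  rw [← integral_finsetSum s (fun i _ => comp_integrable (hH i) hf r)]
  congr 1; funext w; push_cast; rw [Finset.sum_mul]

/-- from `InEr` for normalised harmonics of degree `l` to any -/
theorem specGood_of_modeGood_aux (hF : Facts N) (hN : 2 ≤ N) (h : P.ModeGood N) : P.SpecGood N := by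
  intro lam hlam f g hf hg hE
  obtain ⟨c, hc1, hc2⟩ := hE
  have hfN : ContDiff ℝ N f := InX.contDiff hf
  have hgN : ContDiff ℝ N g := InX.contDiff hg
  have h2N : ((2 : ℕ∞) : ℕ∞ω) ≤ ((N : ℕ∞) : ℕ∞ω) := by exact_mod_cast hN
  have hf2 : ContDiff ℝ 2 f := hfN.of_le h2N
  have hg2 : ContDiff ℝ 2 g := hgN.of_le h2N
  have hf1 : ContDiff ℝ 1 f := hf2.of_le (by norm_num)
  have hg1 : ContDiff ℝ 1 g := hg2.of_le (by norm_num)
  have hfc := hf2.continuous
  have hgc := hg2.continuous
  have hlf : Continuous fun y => lam * f y := continuous_const.mul hfc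
  have hlg : Continuous fun y => lam * g y := continuous_const.mul hgc
  -- the key statement
  have key : ∀ (l : ℕ) (H : R12 → ℝ), SHarm l H → (∫ w : S11, (H w) ^ 2 ∂sig) = 1 →
      P.InEr l (comp H f) (comp H g) := by
    intro l H hH hnorm
    have hHc := hH.continuous
    have e1 : ∀ r : ℝ, 0 < r → P.rgen1 l (comp H f) (comp H g) r - lam * comp H f r =
        c none * ((I * P.q r) * m0 H) + (c (some none) * (P.rtime r * m0 H) +
        ∑ j : Fin 12, c (some (some j)) * (deriv P.q r * m1 H j)) := by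
      intro r hr
      rw [← comp_modes1 P hHc c hr]
      have : (fun y => ∑ m, c m * P.mode1 m y) = fun y => P.gen1 f g y - lam * f y := by
        funext y; exact (hc1 y).symm
      rw [this, comp_sub hHc (gen1_cont P hf2 hg2) hlf, comp_const_mul,
        comp_gen1 P hHc hf2 hg2 hr, hF.comp_lap l H f hH hf2 r hr, hF.comp_eul l H f hH hf1 r hr]
      rfl
    have e2 : ∀ r : ℝ, 0 < r → P.rgen2 l (comp H f) (comp H g) r - lam * comp H g r =
        c none * (starRingEnd ℂ (I * P.q r) * m0 H) + (c (some none) *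
        (starRingEnd ℂ (P.rtime r) * m0 H) +
        ∑ j : Fin 12, c (some (some j)) * (starRingEnd ℂ (deriv P.q r) * m1 H j)) := by
      intro r hr
      rw [← comp_modes2 P hHc c hr]
      have : (fun y => ∑ m, c m * P.mode2 m y) = fun y => P.gen2 f g y - lam * g y := by
        funext y; exact (hc2 y).symm
      rw [this, comp_sub hHc (gen2_cont P hf2 hg2) hlg, comp_const_mul,
        comp_gen2 P hHc hf2 hg2 hr, hF.comp_lap l H g hH hg2 r hr, hF.comp_eul l H g hH hg1 r hr]
      rfl
    refine h lam hlam l H hH hnorm _ _ (hF.contDiff l H f hH hfN) (hF.contDiff l H g hH hgN)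
      (hF.parity l H f hH hfc) (hF.parity l H g hH hgc) (hF.inX l H f hH hf) (hF.inX l H g hH hg) ?_
    refine ⟨?_, ?_, ?_⟩
    · intro hl
      refine ⟨c none * m0 H, c (some none) * m0 H, fun r hr => ?_⟩
      have hm1 : ∀ j, m1 H j = 0 := fun j => m1_eq_zero hF hH (by omega) j
      constructor
      · show P.rgen1 l (comp H f) (comp H g) r - lam * comp H f r = _
        rw [e1 r hr]; simp only [hm1, mul_zero, Finset.sum_const_zero]; ring
      · show P.rgen2 l (comp H f) (comp H g) r - lam * comp H g r = _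
        rw [e2 r hr]; simp only [hm1, mul_zero, Finset.sum_const_zero]; ring
    · intro hl
      refine ⟨∑ j : Fin 12, c (some (some j)) * m1 H j, fun r hr => ?_⟩
      have hm0 : m0 H = 0 := m0_eq_zero hF hH (by omega)
      constructor
      · show P.rgen1 l (comp H f) (comp H g) r - lam * comp H f r = _
        rw [e1 r hr, hm0, Finset.sum_mul]
        simp only [mul_zero, zero_add]
        exact Finset.sum_congr rfl fun j _ => by ring
      · show P.rgen2 l (comp H f) (comp H g) r - lam * comp H g r = _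
        rw [e2 r hr, hm0, Finset.sum_mul]
        simp only [mul_zero, zero_add]
        exact Finset.sum_congr rfl fun j _ => by ring
    · intro hl r hr
      have hm0 : m0 H = 0 := m0_eq_zero hF hH (by omega)
      have hm1 : ∀ j, m1 H j = 0 := fun j => m1_eq_zero hF hH (by omega) j
      constructor
      · show P.rgen1 l (comp H f) (comp H g) r - lam * comp H f r = _
        rw [e1 r hr]; simp only [hm0, hm1, mul_zero, Finset.sum_const_zero, add_zero]
      · show P.rgen2 l (comp H f) (comp H g) r - lam * comp H g r = _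
        rw [e2 r hr]; simp only [hm0, hm1, mul_zero, Finset.sum_const_zero, add_zero]
  -- degree zero
  have hA := A0_pos
  have hsA : (Real.sqrt A0)⁻¹ ≠ 0 := (inv_pos.mpr (Real.sqrt_pos.mpr hA)).ne'
  obtain ⟨a, b, hab⟩ := (key 0 (fun y => (Real.sqrt A0)⁻¹ * (fun _ => 1) y)
    ((SHarm.const 1).const_mul _) (by
      have : (fun w : S11 => ((Real.sqrt A0)⁻¹ * (fun _ : R12 => (1 : ℝ)) (w : R12)) ^ 2) =
          fun w : S11 => A0⁻¹ * (1 : ℝ) ^ 2 := by
        funext w
        simp only [mul_pow, inv_pow, Real.sq_sqrt hA.le]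
      rw [this, integral_const_mul]
      exact inv_mul_cancel₀ hA.ne')).1 rfl
  -- degree one
  have hsB : ∀ j, (Real.sqrt (B j))⁻¹ ≠ 0 := fun j =>
    (inv_pos.mpr (Real.sqrt_pos.mpr (B_pos j))).ne'
  have hone : ∀ j : Fin 12, ∃ a : ℂ, ∀ r : ℝ, 0 < r →
      comp (fun y => (Real.sqrt (B j))⁻¹ * (fun y => y j) y) f r = a * deriv P.q r ∧
      comp (fun y => (Real.sqrt (B j))⁻¹ * (fun y => y j) y) g r =
        a * starRingEnd ℂ (deriv P.q r) := by
    intro j
    refine (key 1 (fun y => (Real.sqrt (B j))⁻¹ * (fun y => y j) y)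
      ((SHarm.coord j).const_mul _) ?_).2.1 rfl
    have : (fun w : S11 => ((Real.sqrt (B j))⁻¹ * (fun y : R12 => y j) (w : R12)) ^ 2) =
        fun w : S11 => (B j)⁻¹ * ((w : R12) j) ^ 2 := by
      funext w
      simp only [mul_pow, inv_pow, Real.sq_sqrt (B_pos j).le]
    rw [this, integral_const_mul]
    exact inv_mul_cancel₀ (B_pos j).ne'
  choose al hal using hone
  -- the coefficients
  set s0 : ℂ := (((Real.sqrt A0)⁻¹ : ℝ) : ℂ) with hs0
  have hs0' : s0 ≠ 0 := by rw [hs0]; exact_mod_cast hsA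
  have hA' : (A0 : ℂ) ≠ 0 := by exact_mod_cast hA.ne'
  let d : Option (Option (Fin 12)) → ℂ := fun m =>
    match m with
    | none => a / s0 / A0
    | some none => b / s0 / A0
    | some (some j) => al j / (((Real.sqrt (B j))⁻¹ : ℝ) : ℂ) / (B j : ℂ)
  have hfg1 : Continuous fun y => f y - ∑ m, d m * P.mode1 m y :=
    hfc.sub (continuous_finsetSum _ fun m _ => continuous_const.mul (mode1_cont P m))
  have hfg2 : Continuous fun y => g y - ∑ m, d m * P.mode2 m y :=
    hgc.sub (continuous_finsetSum _ fun m _ => continuous_const.mul (mode2_cont P m))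
  have hS1 : Continuous fun y => ∑ m, d m * P.mode1 m y :=
    continuous_finsetSum _ fun m _ => continuous_const.mul (mode1_cont P m)
  have hS2 : Continuous fun y => ∑ m, d m * P.mode2 m y :=
    continuous_finsetSum _ fun m _ => continuous_const.mul (mode2_cont P m)
  -- degree 0 vanishing
  have z0 : ∀ r : ℝ, 0 < r → comp (fun _ => 1) (fun y => f y - ∑ m, d m * P.mode1 m y) r = 0 ∧
      comp (fun _ => 1) (fun y => g y - ∑ m, d m * P.mode2 m y) r = 0 := by
    intro r hr
    have hm1 : ∀ j, m1 (fun _ => 1) j = 0 := fun j =>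
      m1_eq_zero hF (SHarm.const 1) (by norm_num) j
    obtain ⟨u1, u2⟩ := hab r hr
    rw [comp_smul_left] at u1 u2
    rw [comp_sub continuous_const hfc hS1, comp_sub continuous_const hgc hS2,
      comp_modes1 P continuous_const d hr, comp_modes2 P continuous_const d hr, m0_one]
    simp only [hm1, mul_zero, Finset.sum_const_zero, add_zero, d]
    constructor
    · have : comp (fun _ => 1) f r = (a * (I * P.q r) + b * P.rtime r) / s0 := by
        rw [eq_div_iff hs0', ← u1]; ring
      rw [this]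
      field_simp
      ring
    · have : comp (fun _ => 1) g r = (a * starRingEnd ℂ (I * P.q r) +
          b * starRingEnd ℂ (P.rtime r)) / s0 := by
        rw [eq_div_iff hs0', ← u2]; ring
      rw [this]
      field_simp
      ring
  -- degree 1 vanishing
  have z1 : ∀ (j : Fin 12) (r : ℝ), 0 < r →
      comp (fun y => y j) (fun y => f y - ∑ m, d m * P.mode1 m y) r = 0 ∧
      comp (fun y => y j) (fun y => g y - ∑ m, d m * P.mode2 m y) r = 0 := by
    intro j r hr
    have hc : Continuous fun y : R12 => y j := (SHarm.coord j).continuous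
    have hm0 : m0 (fun y => y j) = 0 := m0_eq_zero hF (SHarm.coord j) (by norm_num)
    obtain ⟨u1, u2⟩ := hal j r hr
    rw [comp_smul_left] at u1 u2
    have hB' : (B j : ℂ) ≠ 0 := by exact_mod_cast (B_pos j).ne'
    have hsB' : (((Real.sqrt (B j))⁻¹ : ℝ) : ℂ) ≠ 0 := by exact_mod_cast hsB j
    rw [comp_sub hc hfc hS1, comp_sub hc hgc hS2,
      comp_modes1 P hc d hr, comp_modes2 P hc d hr, hm0]
    simp only [mul_zero, zero_add]
    rw [Finset.sum_eq_single j (fun i _ hij => by rw [m1_coord_ne hF (Ne.symm hij)]; ring)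
      (by simp), Finset.sum_eq_single j (fun i _ hij => by rw [m1_coord_ne hF (Ne.symm hij)]; ring)
      (by simp), m1_coord_self]
    simp only [d]
    constructor
    · have : comp (fun y => y j) f r = (al j * deriv P.q r) / (((Real.sqrt (B j))⁻¹ : ℝ) : ℂ) := by
        rw [eq_div_iff hsB', ← u1]; ring
      rw [this]
      field_simp
      ring
    · have : comp (fun y => y j) g r = (al j * starRingEnd ℂ (deriv P.q r)) /
          (((Real.sqrt (B j))⁻¹ : ℝ) : ℂ) := by
        rw [eq_div_iff hsB', ← u2]; ring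
      rw [this]
      field_simp
      ring
  -- all degrees
  have zall : ∀ (l : ℕ) (H : R12 → ℝ), SHarm l H → (∫ w : S11, (H w) ^ 2 ∂sig) = 1 →
      ∀ r : ℝ, 0 < r → comp H (fun y => f y - ∑ m, d m * P.mode1 m y) r = 0 ∧
      comp H (fun y => g y - ∑ m, d m * P.mode2 m y) r = 0 := by
    intro l H hH hnorm r hr
    have hHc := hH.continuous
    rcases Nat.lt_or_ge l 2 with hl | hl
    · interval_cases l
      · have e : H = fun y => H 0 * (fun _ => 1) y := by
          funext y; simpa using hH.eq_const y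
        rw [e, comp_smul_left, comp_smul_left, (z0 r hr).1, (z0 r hr).2]
        simp
      · have e : H = fun y => ∑ j : Fin 12, (fun j y => H (ei j) * (fun y : R12 => y j) y) j y := by
          funext y; exact hH.eq_linear y
        have hcj : ∀ j : Fin 12, Continuous (fun y : R12 => H (ei j) * (fun y : R12 => y j) y) :=
          fun j => continuous_const.mul (SHarm.coord j).continuous
        rw [e, comp_sum_left _ hcj hfg1, comp_sum_left _ hcj hfg2]
        simp only [comp_smul_left, (z1 _ r hr).1, (z1 _ r hr).2]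
        simp
    · have hm0 : m0 H = 0 := m0_eq_zero hF hH (by omega)
      have hm1 : ∀ j, m1 H j = 0 := fun j => m1_eq_zero hF hH (by omega) j
      have h3 := (key l H hH hnorm).2.2 hl r hr
      rw [comp_sub hHc hfc hS1, comp_sub hHc hgc hS2, comp_modes1 P hHc d hr,
        comp_modes2 P hHc d hr, h3.1, h3.2]
      simp [hm0, hm1]
  have r1 := completeness' _ hfg1 (fun l H hH hn r hr => (zall l H hH hn r hr).1)
  have r2 := completeness' _ hfg2 (fun l H hH hn r hr => (zall l H hH hn r hr).2)
  refine ⟨d, fun y => ?_, fun y => ?_⟩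
  · exact sub_eq_zero.mp (congrFun r1 y)
  · exact sub_eq_zero.mp (congrFun r2 y)

end Crest.Agent.R086.SH
end

-- ▼ part R086/SHFinal

/-!
Row 86: `specGood_of_modeGood` (helper512; inputs by 545, 475, 851).
-/

set_option autoImplicit false

open MeasureTheory Complex
open scoped ContDiff

namespace Crest.Agent.R086

theorem SH.facts (N : ℕ) : SH.Facts N where
  comp_lap := fun _ _ _ hH hf _ hr => comp_lap hH hf hr
  comp_eul := fun _ _ _ hH hf r _ => comp_eul hH hf r
  contDiff := fun _ _ _ hH hf => contDiff_comp hH hf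
  parity := fun _ _ f hH _ r => comp_neg_arg hH f r
  orth := fun _ _ _ _ hH hK hl => SHarm.orth hH hK hl
  inX := fun _ _ _ hH hf => SHF.inX_modeFn hH hf

/-- REDUCTION: Part C only has to prove `P.ModeGood N0`. -/
theorem specGood_of_modeGood {n : ℕ} (P : Profile n) {N : ℕ} (hN : 2 ≤ N) (h : P.ModeGood N) :
    P.SpecGood N :=
  SH.specGood_of_modeGood_aux P (SH.facts N) hN h

end Crest.Agent.R086
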