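import Crest.Agent.R086.SHX
import Crest.Agent.R086.SH2
import Crest.Agent.R086.XOut
import Crest.Agent.R086.Phi
import Crest.Agent.R086.DCcv
import Crest.Agent.R086.DGen

-- ▼ part R086/XReg
section

/-!
Row 86 (S0114), node EXT (helper684), part 1: regularity of Fourier-`L¹` functions and of their
spherical components: `‖D^j f‖ ≤ ∫ ‖ξ‖^j ‖a‖`, `comp H f` has bounded derivatives.
-/

set_option autoImplicit false

open MeasureTheory Complex Set
open scoped ContDiff FourierTransform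

namespace Crest.Agent.R086.XExt

open Crest.Agent.R086.SH Crest.Agent.R086.XOut

theorem norm_iteratedFDeriv_le {N : ℕ} {a f : R12 → ℂ} (h : Rep N a f) {j : ℕ} (hj : j ≤ N)
    (y : R12) : ‖iteratedFDeriv ℝ j f y‖ ≤ ∫ ξ : R12, ‖ξ‖ ^ j * ‖a ξ‖ := by
  set g : R12 →L[ℝ] R12 := (-(2 * Real.pi)⁻¹ : ℝ) • ContinuousLinearMap.id ℝ R12 with hg
  have hfg : f = (𝓕 a) ∘ g := by
    funext y
    rw [Rep.eq_fourier h y]
    simp [hg]
  have hint : ∀ k : ℕ, ((k : ℕ∞) ≤ ((N : ℕ) : ℕ∞)) → Integrable (fun v : R12 => ‖v‖ ^ k * ‖a v‖) :=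
    fun k hk => Rep.integrable_pow h (by exact_mod_cast hk)
  have hcd : ContDiff ℝ ((N : ℕ∞) : ℕ∞ω) (𝓕 a) := Real.contDiff_fourier hint
  have hjN : ((j : ℕ) : ℕ∞ω) ≤ (((N : ℕ∞)) : ℕ∞ω) := by exact_mod_cast hj
  rw [hfg, g.iteratedFDeriv_comp_right hcd y hjN]
  refine (ContinuousMultilinearMap.norm_compContinuousLinearMap_le _ _).trans ?_
  have hgn : ‖g‖ ≤ (2 * Real.pi)⁻¹ := by
    rw [hg, norm_smul, Real.norm_eq_abs, abs_neg, abs_of_pos (by positivity)]
    exact mul_le_of_le_one_right (by positivity) ContinuousLinearMap.norm_id_le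
  have h1 : ‖iteratedFDeriv ℝ j (𝓕 a) (g y)‖ ≤ (2 * Real.pi) ^ j * ∫ ξ : R12, ‖ξ‖ ^ j * ‖a ξ‖ := by
    rw [Real.iteratedFDeriv_fourier (N := (N : ℕ∞)) hint (Rep.aestronglyMeasurable h)
      (by exact_mod_cast hj)]
    refine (VectorFourier.norm_fourierIntegral_le_integral_norm _ _ _ _ _).trans ?_
    rw [← integral_const_mul]
    refine integral_mono_of_nonneg (Filter.Eventually.of_forall fun v => norm_nonneg _)
      ((hint j (by exact_mod_cast hj)).const_mul _) (Filter.Eventually.of_forall fun v => ?_)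
    refine (VectorFourier.norm_fourierPowSMulRight_le _ a v j).trans ?_
    have h2 : (2 * Real.pi * ‖innerSL ℝ (E := R12)‖) ^ j ≤ (2 * Real.pi) ^ j := by
      refine pow_le_pow_left₀ (by positivity) ?_ j
      exact mul_le_of_le_one_right (by positivity) (norm_innerSL_le ℝ)
    calc (2 * Real.pi * ‖innerSL ℝ (E := R12)‖) ^ j * ‖v‖ ^ j * ‖a v‖
        ≤ (2 * Real.pi) ^ j * ‖v‖ ^ j * ‖a v‖ := by gcongr
      _ = (2 * Real.pi) ^ j * (‖v‖ ^ j * ‖a v‖) := by ring
  have h3 : ∏ _i : Fin j, ‖g‖ ≤ ((2 * Real.pi)⁻¹) ^ j := by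
    rw [Finset.prod_const, Finset.card_univ, Fintype.card_fin]
    exact pow_le_pow_left₀ (norm_nonneg _) hgn j
  have hI : 0 ≤ ∫ ξ : R12, ‖ξ‖ ^ j * ‖a ξ‖ := integral_nonneg fun ξ => by positivity
  calc ‖iteratedFDeriv ℝ j (𝓕 a) (g y)‖ * ∏ _i : Fin j, ‖g‖
      ≤ ((2 * Real.pi) ^ j * ∫ ξ : R12, ‖ξ‖ ^ j * ‖a ξ‖) * ((2 * Real.pi)⁻¹) ^ j := by gcongr
    _ = ∫ ξ : R12, ‖ξ‖ ^ j * ‖a ξ‖ := by
        rw [mul_comm, ← mul_assoc, ← mul_pow, inv_mul_cancel₀ (by positivity), one_pow, one_mul]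

/-- the weighted norm of a density -/
noncomputable def xn (N : ℕ) (a : R12 → ℂ) : ℝ := ∫ ξ : R12, (1 + ‖ξ‖) ^ N * ‖a ξ‖

theorem Rep.integrable_wt {N : ℕ} {a f : R12 → ℂ} (h : Rep N a f) {k : ℕ} (hk : k ≤ N) :
    Integrable (fun ξ : R12 => (1 + ‖ξ‖) ^ k * ‖a ξ‖) := by
  refine h.1.norm.mono' ?_ ?_
  · exact (((continuous_const.add continuous_norm).pow k).aestronglyMeasurable).mul
      (Rep.aestronglyMeasurable h).norm
  · filter_upwards with ξ
    rw [Real.norm_of_nonneg (by positivity), norm_mul, Complex.norm_real,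
      Real.norm_of_nonneg (by positivity)]
    refine mul_le_mul_of_nonneg_right ?_ (norm_nonneg _)
    exact pow_le_pow_right₀ (by linarith [norm_nonneg ξ]) hk

theorem xn_nonneg (N : ℕ) (a : R12 → ℂ) : 0 ≤ xn N a := integral_nonneg fun ξ => by positivity

theorem norm_iteratedFDeriv_le_xn {N : ℕ} {a f : R12 → ℂ} (h : Rep N a f) {j m : ℕ} (hj : j ≤ m)
    (hm : m ≤ N) (y : R12) : ‖iteratedFDeriv ℝ j f y‖ ≤ xn m a := by
  refine (norm_iteratedFDeriv_le h (hj.trans hm) y).trans ?_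
  refine integral_mono_of_nonneg (Filter.Eventually.of_forall fun v => by positivity)
    (Rep.integrable_wt h hm) (Filter.Eventually.of_forall fun v => ?_)
  show ‖v‖ ^ j * ‖a v‖ ≤ (1 + ‖v‖) ^ m * ‖a v‖
  have : ‖v‖ ^ j ≤ (1 + ‖v‖) ^ m :=
    (pow_le_pow_left₀ (norm_nonneg v) (by linarith) j).trans
      (pow_le_pow_right₀ (by linarith [norm_nonneg v]) hj)
  gcongr

/-- `∫_S |H|` -/
noncomputable def hm (H : R12 → ℝ) : ℝ := ∫ w : S11, |H w| ∂sig

theorem hm_nonneg (H : R12 → ℝ) : 0 ≤ hm H := integral_nonneg fun _ => abs_nonneg _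

theorem norm_comp_le {N l : ℕ} {H : R12 → ℝ} (hH : SHarm l H) {a f : R12 → ℂ} (h : Rep N a f)
    {j m : ℕ} (hj : j ≤ m) (hm' : m ≤ N) (r : ℝ) :
    ‖iteratedDeriv j (comp H f) r‖ ≤ hm H * xn m a := by
  have hcd : ContDiff ℝ N f := InX.contDiff ⟨a, h⟩
  have := norm_iteratedDeriv_comp_le hH hcd (hj.trans hm') (r := r)
    (fun y _ => norm_iteratedFDeriv_le_xn h hj hm' y)
  rw [mul_comm]
  exact this

theorem BD_comp {l : ℕ} {H : R12 → ℝ} (hH : SHarm l H) {f : R12 → ℂ} {N : ℕ} (h : InX N f)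
    {k : ℕ} (hk : k ≤ N) (r1 : ℝ) : BD r1 k (comp H f) := by
  obtain ⟨a, ha⟩ := h
  refine BD_of_iteratedDeriv ?_ (fun j hj => ⟨hm H * xn k a, fun r _ => norm_comp_le hH ha hj hk r⟩)
  exact (contDiff_comp hH (InX.contDiff ⟨a, ha⟩)).of_le (by exact_mod_cast hk)

end Crest.Agent.R086.XExt
end

-- ▼ part R086/XExt1
section

/-!
Row 86 (S0114), node EXT (helper684), part 2: the scalar exterior theorem.
-/

set_option autoImplicit false

open MeasureTheory Complex Set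
open scoped ContDiff

namespace Crest.Agent.R086.XExt

open Crest.Agent.R086.SH Crest.Agent.R086.XOut
open Crest.Agent.R086.JCx (Phi Phi1)

/-- existence part of the resolvent of `L0` in the Wiener algebra (470's RES), `sg = 1`. -/
def ResEx (N : ℕ) : Prop := ∀ mu : ℂ, 0 < mu.re → ∀ b h : R12 → ℂ, Rep N b h →
  ∃ a f : R12 → ℂ, Rep N a f ∧
    (∀ y, I * lap f y - (1 / 2) * eul f y - mu * f y = -h y) ∧
    ∀ M ≤ N, xn M a ≤ xn M b / mu.re

theorem free_Phi {l : ℕ} {mu : ℂ} (hmu : 0 < mu.re) {r1 : ℝ} (hr1 : 0 ≤ r1) :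
    Free r1 ((l : ℂ) * (l + 10)) mu (Phi l mu) (Phi1 l mu) := by
  have hl : (0 : ℝ) ≤ l := Nat.cast_nonneg l
  have h : -1 - (l : ℝ) / 2 < mu.re := by linarith
  exact ⟨fun r hr => JCx.Phi_hasDerivAt h (lt_of_le_of_lt hr1 hr),
    fun r hr => JCx.Phi1_hasDerivAt h (lt_of_le_of_lt hr1 hr)⟩

theorem BD_Phi {l : ℕ} {mu : ℂ} (hmu : 0 < mu.re) {r1 : ℝ} (hr1 : 0 < r1) (k : ℕ) :
    BD r1 k (Phi l mu) := by
  have hl : (0 : ℝ) ≤ l := Nat.cast_nonneg l
  have h : -1 - (l : ℝ) / 2 < mu.re := by linarith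
  have hsm : ∀ r, 0 < r → ContDiffAt ℝ ∞ (Phi l mu) r := fun r hr => JCx.Phi_contDiffAt h hr _
  have key : ∀ (k j : ℕ), BD r1 k (iteratedDeriv j (Phi l mu)) := by
    intro k
    induction k with
    | zero =>
      intro j
      obtain ⟨C, hC, hb⟩ := JCx.Phi_bound l (x0 := mu.re) (x1 := mu.re) (y := |mu.im|) h hr1 j
      refine ⟨C * r1 ^ (-2 * mu.re - (j : ℝ)), fun r hr => ?_⟩
      refine (hb mu le_rfl le_rfl le_rfl r hr.le).trans ?_
      refine mul_le_mul_of_nonneg_left ?_ hC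
      refine Real.rpow_le_rpow_of_nonpos hr1 hr.le ?_
      have : (0 : ℝ) ≤ j := Nat.cast_nonneg j
      linarith
    | succ k ih =>
      intro j
      refine ⟨(ih j).bdd, iteratedDeriv (j + 1) (Phi l mu), fun r hr => ?_, ih (j + 1)⟩
      have hr' : 0 < r := hr1.trans hr
      have hd : DifferentiableAt ℝ (iteratedDeriv j (Phi l mu)) r := by
        have h1 : ContDiffAt ℝ ((j : ℕ∞) + 1 : ℕ∞) (Phi l mu) r := (hsm r hr').of_le (by exact_mod_cast le_top)
        have h2 := ContDiffWithinAt.differentiableWithinAt_iteratedDerivWithin (m := j)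
          (contDiffWithinAt_univ.2 h1) (by exact_mod_cast Nat.lt_succ_self j) (by simp [uniqueDiffOn_univ])
        rw [iteratedDerivWithin_univ] at h2
        exact differentiableWithinAt_univ.1 h2
      rw [iteratedDeriv_succ]
      exact hd.hasDerivAt
  simpa using key k 0

theorem Phi_ne {l : ℕ} {mu : ℂ} (hmu : 0 < mu.re) (r1 : ℝ) : ∃ r0, r1 < r0 ∧ Phi l mu r0 ≠ 0 := by
  have hl : (0 : ℝ) ≤ l := Nat.cast_nonneg l
  have h : -1 - (l : ℝ) / 2 < mu.re := by linarith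
  obtain ⟨r0, h1, h2⟩ := ((JCx.Phi_eventually_ne_zero h).and (Filter.eventually_gt_atTop r1)).exists
  exact ⟨r0, h2, h1⟩

/-! ### inhomogeneous radial equation -/

/-- `(L0 - mu) F = h` in radial form on `(r1,∞)` -/
structure FreeS (r1 : ℝ) (kap mu : ℂ) (F F1 h : ℝ → ℂ) : Prop where
  d0 : ∀ r, r1 < r → HasDerivAt F (F1 r) r
  d1 : ∀ r, r1 < r → HasDerivAt F1
    (-(11 / (r : ℂ) + I * r / 2) * F1 r - (I * mu - kap / (r : ℂ) ^ 2) * F r - I * h r) r

namespace FreeS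
variable {r1 : ℝ} {kap mu mu' : ℂ} {F F1 h G G1 k : ℝ → ℂ}

theorem add (hF : FreeS r1 kap mu F F1 h) (hG : FreeS r1 kap mu G G1 k) :
    FreeS r1 kap mu (fun r => F r + G r) (fun r => F1 r + G1 r) (fun r => h r + k r) :=
  ⟨fun r hr => (hF.d0 r hr).add (hG.d0 r hr), fun r hr =>
    ((hF.d1 r hr).add (hG.d1 r hr)).congr_deriv (by ring)⟩

theorem const_mul (c : ℂ) (hF : FreeS r1 kap mu F F1 h) :
    FreeS r1 kap mu (fun r => c * F r) (fun r => c * F1 r) (fun r => c * h r) :=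
  ⟨fun r hr => (hF.d0 r hr).const_mul c, fun r hr =>
    ((hF.d1 r hr).const_mul c).congr_deriv (by ring)⟩

theorem congr (hF : FreeS r1 kap mu F F1 h) (hh : ∀ r, r1 < r → h r = k r) :
    FreeS r1 kap mu F F1 k :=
  ⟨hF.d0, fun r hr => by rw [← hh r hr]; exact hF.d1 r hr⟩

theorem change (hF : FreeS r1 kap mu F F1 h) (mu' : ℂ) :
    FreeS r1 kap mu' F F1 (fun r => h r - (mu' - mu) * F r) :=
  ⟨hF.d0, fun r hr => (hF.d1 r hr).congr_deriv (by ring)⟩

theorem of_free (hF : Free r1 kap mu F F1) : FreeS r1 kap mu F F1 (fun _ => 0) :=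
  ⟨hF.d0, fun r hr => (hF.d1 r hr).congr_deriv (by ring)⟩

theorem free (hF : FreeS r1 kap mu F F1 h) (h0 : ∀ r, r1 < r → h r = 0) : Free r1 kap mu F F1 :=
  ⟨hF.d0, fun r hr => (hF.d1 r hr).congr_deriv (by rw [h0 r hr]; ring)⟩

theorem mono {r2 : ℝ} (h12 : r1 ≤ r2) (hF : FreeS r1 kap mu F F1 h) : FreeS r2 kap mu F F1 h :=
  ⟨fun r hr => hF.d0 r (lt_of_le_of_lt h12 hr), fun r hr => hF.d1 r (lt_of_le_of_lt h12 hr)⟩

end FreeS

/-- the radial equation of a component -/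
theorem freeS_comp {N l : ℕ} (hN : 2 ≤ N) {H : R12 → ℝ} (hH : SHarm l H) {mu : ℂ} {f h : R12 → ℂ}
    (hf : InX N f) (eq : ∀ y, I * lap f y - (1 / 2) * eul f y - mu * f y = h y) :
    FreeS 0 ((l : ℂ) * (l + 10)) mu (comp H f) (deriv (comp H f)) (comp H h) := by
  have hcd : ContDiff ℝ 2 f := (InX.contDiff hf).of_le (by exact_mod_cast hN)
  have hc1 : ContDiff ℝ 1 f := hcd.of_le (by norm_num)
  have hHc : Continuous H := hH.continuous
  have hC : ContDiff ℝ 2 (comp H f) := by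
    have := contDiff_comp hH (k := 2) (f := f) (by exact_mod_cast hcd)
    exact_mod_cast this
  have hC1 : ContDiff ℝ 1 (deriv (comp H f)) := by
    have h2 : ContDiff ℝ (1 + 1) (comp H f) := by
      have : ((1 : WithTop ℕ∞) + 1) = 2 := by norm_num
      rw [this]; exact hC
    exact (contDiff_succ_iff_deriv.1 h2).2.2
  refine ⟨fun r hr => ((hC.differentiable (by norm_num)) r).hasDerivAt, fun r hr => ?_⟩
  refine (((hC1.differentiable (by norm_num)) r).hasDerivAt).congr_deriv ?_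
  have hr' : (r : ℂ) ≠ 0 := by exact_mod_cast hr.ne'
  have e1 := comp_lap hH hcd hr
  have e2 := comp_eul hH hc1 r
  have e3 : comp H h r = I * comp H (lap f) r - (1 / 2) * comp H (eul f) r - mu * comp H f r := by
    have : h = fun y => (I * lap f y - (1 / 2) * eul f y) - mu * f y := by
      funext y; rw [← eq y]
    rw [this]
    have c1 : Continuous (fun y => I * lap f y) := continuous_const.mul (lap_cont hcd)
    have c2 : Continuous (fun y => (1 / 2) * eul f y) := continuous_const.mul (eul_cont hc1)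
    have c3 : Continuous (fun y => mu * f y) := continuous_const.mul hcd.continuous
    have e4 : comp H (fun y => (I * lap f y - (1 / 2) * eul f y) - mu * f y) r
        = comp H (fun y => I * lap f y - (1 / 2) * eul f y) r - comp H (fun y => mu * f y) r :=
      comp_sub hHc (c1.sub c2) c3 r
    rw [e4, comp_sub hHc c1 c2, SH.comp_const_mul, SH.comp_const_mul, SH.comp_const_mul]
  rw [e1, e2] at e3
  unfold rlap at e3
  rw [e3]
  have hI : I * I = -1 := I_mul_I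
  field_simp
  linear_combination ((deriv (deriv (comp H f)) r) * (r : ℂ) ^ 2 * 2 + 22 * (r : ℂ) * deriv (comp H f) r
    - 2 * (l : ℂ) * (l + 10) * comp H f r) * hI

theorem norm_comp_xn {N l : ℕ} (hN : 1 ≤ N) {H : R12 → ℝ} (hH : SHarm l H) {a f : R12 → ℂ}
    (h : Rep N a f) (r : ℝ) :
    ‖comp H f r‖ ≤ hm H * xn 1 a ∧ ‖deriv (comp H f) r‖ ≤ hm H * xn 1 a := by
  constructor
  · simpa using norm_comp_le hH h (j := 0) (m := 1) (by norm_num) hN r
  · have := norm_comp_le hH h (j := 1) (m := 1) le_rfl hN r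
    rwa [iteratedDeriv_one] at this

/-- `Z = (Φ(mus) - Φ(mu)) / (mus - mu)` -/
noncomputable def Zf (l : ℕ) (mu mus : ℂ) (r : ℝ) : ℂ := (Phi l mus r - Phi l mu r) / (mus - mu)
noncomputable def Zf1 (l : ℕ) (mu mus : ℂ) (r : ℝ) : ℂ := (Phi1 l mus r - Phi1 l mu r) / (mus - mu)

theorem freeS_Z {l : ℕ} {mu mus : ℂ} (hmu : 0 < mu.re) (hmus : 0 < mus.re) (hne : mus ≠ mu)
    {r1 : ℝ} (hr1 : 0 ≤ r1) :
    FreeS r1 ((l : ℂ) * (l + 10)) mu (Zf l mu mus) (Zf1 l mu mus) (Phi l mus) := by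
  have h1 := (FreeS.of_free (free_Phi (l := l) hmus hr1)).change mu
  have h2 := FreeS.of_free (free_Phi (l := l) hmu hr1)
  have h3 := (h1.add (h2.const_mul (-1))).const_mul ((mus - mu)⁻¹)
  have hne' : mus - mu ≠ 0 := sub_ne_zero.2 hne
  refine ⟨fun r hr => ?_, fun r hr => ?_⟩
  · have := h3.d0 r hr
    refine HasDerivAt.congr_deriv (f := Zf l mu mus) (this.congr_of_eventuallyEq ?_) ?_
    · filter_upwards with s
      unfold Zf; field_simp; ring
    · unfold Zf1; field_simp; ring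
  · have := h3.d1 r hr
    refine HasDerivAt.congr_deriv (f := Zf1 l mu mus) (this.congr_of_eventuallyEq ?_) ?_
    · filter_upwards with s
      unfold Zf1; field_simp; ring
    · unfold Zf Zf1; field_simp; ring

theorem BD_Z {l : ℕ} {mu mus : ℂ} (hmu : 0 < mu.re) (hmus : 0 < mus.re)
    {r1 : ℝ} (hr1 : 0 < r1) (k : ℕ) : BD r1 k (Zf l mu mus) := by
  have := ((BD_Phi (l := l) hmus hr1 k).sub (BD_Phi (l := l) hmu hr1 k)).const_mul ((mus - mu)⁻¹)
  exact this.congr (fun r _ => by unfold Zf; ring)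


end Crest.Agent.R086.XExt
end

-- ▼ part R086/XAlg

/-!
Row 86 (S0114), node EXT (helper684), part 3: products and conjugates of Fourier-`L¹` functions.
-/

set_option autoImplicit false

open MeasureTheory Complex Set
open scoped ContDiff ComplexConjugate

namespace Crest.Agent.R086.XExt

open Crest.Agent.R086.SH

theorem rep_mono {N M : ℕ} (hM : M ≤ N) {a f : R12 → ℂ} (h : Rep N a f) : Rep M a f := by
  refine ⟨?_, h.2⟩
  have hm : AEStronglyMeasurable (fun ξ : R12 => (((1 + ‖ξ‖) ^ M : ℝ) : ℂ) * a ξ) := by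
    have hc : Continuous fun ξ : R12 => (((1 + ‖ξ‖) ^ M : ℝ) : ℂ) := by fun_prop
    exact hc.aestronglyMeasurable.mul (SH.Rep.aestronglyMeasurable h)
  refine (Rep.integrable_wt h hM).mono' hm (Filter.Eventually.of_forall fun ξ => ?_)
  rw [norm_mul, Complex.norm_real, Real.norm_of_nonneg (by positivity)]



theorem rep_add {N : ℕ} {a b f g : R12 → ℂ} (ha : Rep N a f) (hb : Rep N b g) :
    Rep N (fun ξ => a ξ + b ξ) (fun y => f y + g y) ∧
      ∀ M ≤ N, xn M (fun ξ => a ξ + b ξ) ≤ xn M a + xn M b := by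
  have ia := DGen.integrable_rep ha
  have ib := DGen.integrable_rep hb
  have key : ∀ {c : R12 → ℂ} (hc : Integrable c) (y : R12),
      Integrable fun ξ : R12 => exp (I * ((inner ℝ ξ y : ℝ) : ℂ)) * c ξ := by
    intro c hc y
    have hm : AEStronglyMeasurable fun ξ : R12 => exp (I * ((inner ℝ ξ y : ℝ) : ℂ)) := by
      have : Continuous fun ξ : R12 => exp (I * ((inner ℝ ξ y : ℝ) : ℂ)) := by fun_prop
      exact this.aestronglyMeasurable
    refine hc.norm.mono' (hm.mul hc.aestronglyMeasurable) (Filter.Eventually.of_forall fun ξ => ?_)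
    have : ‖exp (I * ((inner ℝ ξ y : ℝ) : ℂ))‖ = 1 := by
      rw [mul_comm]; exact Complex.norm_exp_ofReal_mul_I _
    rw [norm_mul, this, one_mul]
  refine ⟨⟨?_, fun y => ?_⟩, fun M hM => ?_⟩
  · refine (ha.1.add hb.1).congr (Filter.Eventually.of_forall fun ξ => ?_)
    simp only [Pi.add_apply]; ring
  · show f y + g y = ∫ ξ : R12, exp (I * ((inner ℝ ξ y : ℝ) : ℂ)) * (a ξ + b ξ)
    rw [ha.2 y, hb.2 y, ← integral_add (key ia y) (key ib y)]
    congr 1; funext ξ; ring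
  · unfold xn
    rw [← integral_add (Rep.integrable_wt ha hM) (Rep.integrable_wt hb hM)]
    refine integral_mono_of_nonneg (Filter.Eventually.of_forall fun ξ => by positivity)
      ((Rep.integrable_wt ha hM).add (Rep.integrable_wt hb hM))
      (Filter.Eventually.of_forall fun ξ => ?_)
    show (1 + ‖ξ‖) ^ M * ‖a ξ + b ξ‖ ≤ (1 + ‖ξ‖) ^ M * ‖a ξ‖ + (1 + ‖ξ‖) ^ M * ‖b ξ‖
    rw [← mul_add]
    exact mul_le_mul_of_nonneg_left (norm_add_le _ _) (by positivity)

theorem rep_const_mul {N : ℕ} (c : ℂ) {a f : R12 → ℂ} (ha : Rep N a f) :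
    Rep N (fun ξ => c * a ξ) (fun y => c * f y) ∧ ∀ M, xn M (fun ξ => c * a ξ) = ‖c‖ * xn M a := by
  refine ⟨⟨?_, fun y => ?_⟩, fun M => ?_⟩
  · refine (ha.1.const_mul c).congr (Filter.Eventually.of_forall fun ξ => ?_)
    simp only; ring
  · show c * f y = ∫ ξ : R12, exp (I * ((inner ℝ ξ y : ℝ) : ℂ)) * (c * a ξ)
    rw [ha.2 y, ← integral_const_mul]
    congr 1; funext ξ; ring
  · unfold xn
    rw [← integral_const_mul]
    congr 1; funext ξ; rw [norm_mul]; ring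




end Crest.Agent.R086.XExt
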