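import Crest.Agent.R086.C34Defs
import Crest.Agent.R086.XBd
import Crest.Agent.R086.CLift
import Crest.Agent.R086.XAlg
import Crest.Agent.R086.Res2
import Crest.Agent.R086.DSpec

-- ▼ part R086/ExtDefs
section

/-!
Row 86, Part C, node EXT: frozen scalar form (helper684) consumed by ExtA.lean (helper384).
`(L0 - mu) f = i Δ f - ½ y·∇ f - mu f`.
-/

set_option autoImplicit false

open MeasureTheory Complex Set Filter Topology
open scoped ContDiff

namespace Crest.Agent.R086.ExtA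

/-- SCALAR FORM, source free. -/
def ScalExt0 (Phi Phi1 : ℕ → ℂ → ℝ → ℂ) : Prop :=
  ∃ C0 : ℝ, 0 < C0 ∧ ∀ (l : ℕ) (H : R12 → ℝ), SHarm l H → (∫ w : S11, (H w) ^ 2 ∂sig) = 1 →
    ∀ mu : ℂ, 0 < mu.re → ∀ r2 : ℝ, 0 < r2 → ∀ (f hc ht : R12 → ℂ) (b : ℝ),
      InX N0 f → InX N0 ht → XBd 1 ht b → (∀ y, r2 ≤ ‖y‖ → hc y = 0) →
      (∀ y, I * lap f y - (1 / 2) * eul f y - mu * f y = hc y + ht y) →
      ∃ c : ℂ, ∀ r, r2 < r →
        ‖comp H f r - c * Phi l mu r‖ ≤ C0 * (b / mu.re) ∧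
        ‖deriv (comp H f) r - c * Phi1 l mu r‖ ≤ C0 * (b / mu.re)

/-- SCALAR FORM with a symmetry mode as source, `mu ≠ mus`. -/
def ScalExts (Phi Phi1 : ℕ → ℂ → ℝ → ℂ) : Prop :=
  ∃ C0 : ℝ, 0 < C0 ∧ ∀ (l : ℕ) (H : R12 → ℝ), SHarm l H → (∫ w : S11, (H w) ^ 2 ∂sig) = 1 →
    ∀ mus : ℂ, 0 < mus.re → ∀ r2 : ℝ, 0 < r2 → ∀ (e kc kt : R12 → ℂ) (bk : ℝ),
      InX N0 e → InX N0 kt → XBd 1 kt bk → (∀ y, r2 ≤ ‖y‖ → kc y = 0) →
      (∀ y, I * lap e y - (1 / 2) * eul e y - mus * e y = kc y + kt y) →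
      ∃ ga : ℂ, (∀ r, r2 < r →
          ‖comp H e r - ga * Phi l mus r‖ ≤ C0 * (bk / mus.re) ∧
          ‖deriv (comp H e) r - ga * Phi1 l mus r‖ ≤ C0 * (bk / mus.re)) ∧
        ∀ mu : ℂ, 0 < mu.re → mu ≠ mus → ∀ (f hc ht : R12 → ℂ) (b : ℝ) (be : ℂ),
          InX N0 f → InX N0 ht → XBd 1 ht b → (∀ y, r2 ≤ ‖y‖ → hc y = 0) →
          (∀ y, I * lap f y - (1 / 2) * eul f y - mu * f y = hc y + ht y + be * e y) →
          ∃ c : ℂ, ∀ r, r2 < r →
            ‖comp H f r - (c * Phi l mu r + be * ga * ((Phi l mu r - Phi l mus r) / (mu - mus)))‖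
              ≤ C0 * (b / mu.re + ‖be‖ * bk / (mu.re * mus.re)) ∧
            ‖deriv (comp H f) r
                - (c * Phi1 l mu r + be * ga * ((Phi1 l mu r - Phi1 l mus r) / (mu - mus)))‖
              ≤ C0 * (b / mu.re + ‖be‖ * bk / (mu.re * mus.re))

end Crest.Agent.R086.ExtA
end

-- ▼ part R086/ExtA
section

/-!
Row 86, node EXT, part A (helper384): from `Pair` / `BData` / `REG` to the hypotheses of the scalar form,
and the final theorems `ext0`, `exts`.
-/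

set_option autoImplicit false

open MeasureTheory Complex Set Filter Topology
open scoped ContDiff

namespace Crest.Agent.R086.ExtA

open Crest.Agent.R086.XA

local notation "conj" => starRingEnd ℂ

theorem exists_isCut {a b : ℝ} (ha : 0 < a) (hab : a < b) : ∃ χ : R12 → ℝ, IsCut χ a b := by
  let φ : ContDiffBump (0 : R12) := ⟨a, b, ha, hab⟩
  exact ⟨φ, ⟨ha, hab, φ.contDiff, fun y hy => φ.one_of_mem_closedBall (by simpa using hy),
    fun y hy => φ.zero_of_le_dist (by simpa using hy), fun y => φ.nonneg, fun y => φ.le_one⟩⟩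

/-! ### conjugation -/

theorem modeFn_conj (H : R12 → ℝ) (F : ℝ → ℂ) :
    modeFn H (fun r => conj (F r)) = fun y => conj (modeFn H F y) := by
  funext y; unfold modeFn; simp

theorem deriv_conj' (F : ℝ → ℂ) : deriv (fun r => conj (F r)) = fun r => conj (deriv F r) := by
  funext r
  exact deriv.star (f := F)

theorem rlap_conj (l : ℕ) (F : ℝ → ℂ) (r : ℝ) :
    rlap l (fun r => conj (F r)) r = conj (rlap l F r) := by
  unfold rlap
  rw [deriv_conj', deriv_conj']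
  simp [map_ofNat]

section
variable {n : ℕ} (P : Profile n)

theorem rgen1_conj (l : ℕ) (F G : ℝ → ℂ) (r : ℝ) :
    P.rgen1 l (fun r => conj (G r)) (fun r => conj (F r)) r = conj (P.rgen2 l F G r) := by
  unfold Profile.rgen1 Profile.rgen2 Profile.rV1 Profile.rV2 Profile.rV2c
  rw [rlap_conj, deriv_conj']
  simp [map_ofNat]
  try ring

theorem rgen2_conj (l : ℕ) (F G : ℝ → ℂ) (r : ℝ) :
    P.rgen2 l (fun r => conj (G r)) (fun r => conj (F r)) r = conj (P.rgen1 l F G r) := by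
  unfold Profile.rgen1 Profile.rgen2 Profile.rV1 Profile.rV2 Profile.rV2c
  rw [rlap_conj, deriv_conj']
  simp [map_ofNat]
  try ring

variable {P}

theorem pair_conj {l : ℕ} {H : R12 → ℝ} {lam al : ℂ} {e F G : ℝ → ℂ}
    (h : P.Pair l H lam al e F G) :
    P.Pair l H (conj lam) (conj al) e (fun r => conj (G r)) (fun r => conj (F r)) where
  sharm := h.sharm
  nrm := h.nrm
  cF := Complex.conjCLE.contDiff.comp h.cG
  cG := Complex.conjCLE.contDiff.comp h.cF
  pF := fun r => by rw [h.pG r]; simp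
  pG := fun r => by rw [h.pF r]; simp
  xF := by rw [modeFn_conj]; exact inX_conj h.xG
  xG := by rw [modeFn_conj]; exact inX_conj h.xF
  eqF := fun r hr => by
    rw [rgen1_conj, ← map_mul, ← map_sub, h.eqG r hr]; simp
  eqG := fun r hr => by
    rw [rgen2_conj, ← map_mul, ← map_sub, h.eqF r hr]; simp

theorem NB_conj (rho : ℝ) (F G : ℝ → ℂ) :
    NB rho (fun r => conj (G r)) (fun r => conj (F r)) = NB rho F G := by
  unfold NB
  simp only [RCLike.norm_conj]
  congr 1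
  refine intervalIntegral.integral_congr fun r _ => ?_
  ring

/-- the equation of the first component on `R12` -/
theorem pair_eq1 {l : ℕ} {H : R12 → ℝ} {lam al : ℂ} {e F G : ℝ → ℂ}
    (h : P.Pair l H lam al e F G) (he : Continuous (modeFn H e)) (y : R12) :
    I * lap (modeFn H F) y - (1 / 2) * eul (modeFn H F) y - P.mu lam * modeFn H F y
      = I * (P.V1 y * modeFn H F y + P.V2 y * modeFn H G y) + al * modeFn H e y := by
  have hE : modeFn H (fun r => al * e r) = fun y => al * modeFn H e y := by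
    funext y; unfold modeFn; ring
  have hf : ContDiff ℝ 2 (modeFn H F) := (SH.InX.contDiff h.xF).of_le (by norm_num)
  have hg : ContDiff ℝ 2 (modeFn H G) := (SH.InX.contDiff h.xG).of_le (by norm_num)
  have h1 := CLift.lift1 P h.sharm (E := fun r => al * e r) (lam := lam)
    (h.cF.of_le (by norm_num)) hf hg (by rw [hE]; exact continuous_const.mul he)
    (fun r hr => h.eqF r hr) y
  rw [hE] at h1
  simp only at h1
  unfold Profile.gen1 at h1
  unfold Profile.mu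
  linear_combination h1

end

/-! ### numbers -/

theorem ev_exp (C : ℝ) (K : ℕ) {c : ℝ} (hc : 0 < c) :
    ∀ᶠ n : ℕ in atTop, C * (n : ℝ) ^ K * Real.exp (-c * n) ≤ Real.exp (-(c / 2) * n) := by
  have h1 : Tendsto (fun n : ℕ => (c / 2) * (n : ℝ)) atTop atTop :=
    tendsto_natCast_atTop_atTop.const_mul_atTop (by positivity)
  have h2 := (Real.tendsto_pow_mul_exp_neg_atTop_nhds_zero K).comp h1
  have h3 := h2.const_mul (C * (2 / c) ^ K)
  rw [mul_zero] at h3
  filter_upwards [h3.eventually_le_const one_pos] with n hn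
  simp only [Function.comp] at hn
  have h4 : Real.exp (-c * n) = Real.exp (-(c / 2 * n)) * Real.exp (-(c / 2) * n) := by
    rw [← Real.exp_add]; congr 1; ring
  rw [h4]
  have h5 : C * (n : ℝ) ^ K * (Real.exp (-(c / 2 * n)) * Real.exp (-(c / 2) * n))
      = (C * (2 / c) ^ K * ((c / 2 * n) ^ K * Real.exp (-(c / 2 * n)))) *
        Real.exp (-(c / 2) * n) := by
    rw [mul_pow]
    have : (2 / c) ^ K * (c / 2) ^ K = 1 := by
      rw [← mul_pow]
      have : 2 / c * (c / 2) = 1 := by field_simp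
      rw [this, one_pow]
    linear_combination (-(C * (n : ℝ) ^ K * Real.exp (-(c / 2 * n)) *
      Real.exp (-(c / 2) * n))) * this
  rw [h5]
  exact mul_le_of_le_one_left (Real.exp_pos _).le hn

theorem mu_re {n : ℕ} (P : Profile n) (lam : ℂ) : (P.mu lam).re = lam.re + 1 / n := by
  unfold Profile.mu
  have : (1 / (n : ℂ)).re = 1 / (n : ℝ) := by
    rw [show (1 / (n : ℂ)) = ((1 / (n : ℝ) : ℝ) : ℂ) by push_cast; ring]
    exact Complex.ofReal_re _
  rw [Complex.sub_re, Complex.add_re, this]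
  simp

/-! ### the tail source -/

/-- the core part of `V x` -/
noncomputable def hcs {n : ℕ} (P : Profile n) (χ : R12 → ℝ) (f g : R12 → ℂ) (y : R12) : ℂ :=
  I * (((χ y : ℝ) : ℂ) * P.V1 y * f y + ((χ y : ℝ) : ℂ) * P.V2 y * g y)

/-- the tail part of `V x` -/
noncomputable def hts {n : ℕ} (P : Profile n) (χ : R12 → ℝ) (f g : R12 → ℂ) (y : R12) : ℂ :=
  I * ((((1 - χ y : ℝ) : ℂ) * P.V1 y) * f y + (((1 - χ y : ℝ) : ℂ) * P.V2 y) * g y)

theorem hcs_add_hts {n : ℕ} (P : Profile n) (χ : R12 → ℝ) (f g : R12 → ℂ) (y : R12) :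
    hcs P χ f g y + hts P χ f g y = I * (P.V1 y * f y + P.V2 y * g y) := by
  unfold hcs hts; push_cast; ring

theorem hcs_zero {n : ℕ} (P : Profile n) {χ : R12 → ℝ} {a b : ℝ} (h : IsCut χ a b)
    (f g : R12 → ℂ) (y : R12) (hy : b ≤ ‖y‖) : hcs P χ f g y = 0 := by
  unfold hcs; rw [h.zero y hy]; simp

theorem hts_inX {n : ℕ} (P : Profile n) {χ : R12 → ℝ} {E : ℝ}
    (h1 : XBd 20 (fun y => ((1 - χ y : ℝ) : ℂ) * P.V1 y) E)
    (h2 : XBd 20 (fun y => ((1 - χ y : ℝ) : ℂ) * P.V2 y) E)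
    {f g : R12 → ℂ} (hf : InX N0 f) (hg : InX N0 g) : InX N0 (hts P χ f g) :=
  inX_const_mul I (inX_add (inX_mul (xbd_inX h1) hf) (inX_mul (xbd_inX h2) hg))

theorem hts_xbd {n : ℕ} (P : Profile n) {χ : R12 → ℝ} {E : ℝ}
    (h1 : XBd 20 (fun y => ((1 - χ y : ℝ) : ℂ) * P.V1 y) E)
    (h2 : XBd 20 (fun y => ((1 - χ y : ℝ) : ℂ) * P.V2 y) E)
    {f g : R12 → ℂ} {A : ℝ} (hf : XBd 1 f A) (hg : XBd 1 g A) : XBd 1 (hts P χ f g) (2 * E * A) := by
  have h3 := xbd_const_mul I (xbd_add (xbd_mul (xbd_mono (by norm_num) h1) hf)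
    (xbd_mul (xbd_mono (by norm_num) h2) hg))
  refine xbd_le ?_ h3
  rw [Complex.norm_I]; linarith

theorem hh_one {H : R12 → ℝ} (h : (∫ w : S11, (H w) ^ 2 ∂sig) = 1) :
    (∫ w : S11, ((H w : ℝ) : ℂ) * ((H w : ℝ) : ℂ) ∂sig) = 1 := by
  have h1 : (∫ w : S11, (((H w) ^ 2 : ℝ) : ℂ) ∂sig) = ((∫ w : S11, (H w) ^ 2 ∂sig : ℝ) : ℂ) :=
    integral_ofReal
  rw [h, Complex.ofReal_one] at h1
  rw [← h1]
  refine integral_congr_ae (Eventually.of_forall fun w => ?_)
  simp only; push_cast; ring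

theorem comp_self {H : R12 → ℝ} (h : (∫ w : S11, (H w) ^ 2 ∂sig) = 1) (F : ℝ → ℂ) {r : ℝ}
    (hr : 0 < r) : comp H (modeFn H F) r = F r := by
  rw [CLift.comp_modeFn H H F hr, hh_one h, one_mul]

theorem deriv_comp_self {H : R12 → ℝ} (h : (∫ w : S11, (H w) ^ 2 ∂sig) = 1) (F : ℝ → ℂ) {r : ℝ}
    (hr : 0 < r) : deriv (comp H (modeFn H F)) r = deriv F r := by
  refine Filter.EventuallyEq.deriv_eq ?_
  filter_upwards [Ioi_mem_nhds hr] with s hs using comp_self h F hs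

theorem inv_mu_le {n : ℕ} (hn : 1 ≤ n) (P : Profile n) {lam : ℂ} (hlam : 0 ≤ lam.re) :
    0 < (P.mu lam).re ∧ (P.mu lam).re⁻¹ ≤ n := by
  have hn0 : (0 : ℝ) < n := by exact_mod_cast (by omega : 0 < n)
  rw [mu_re]
  have h1 : 0 < 1 / (n : ℝ) := by positivity
  refine ⟨by linarith, ?_⟩
  rw [inv_le_comm₀ (by linarith) hn0]
  rw [one_div] at h1 ⊢
  linarith

section
variable {om0 R : ℝ} {U : ℝ → ℂ} (B : BData om0 R U)

/-- first component, source free -/
theorem first0 {Phi Phi1 : ℕ → ℂ → ℝ → ℂ} (hS : ScalExt0 Phi Phi1) (hR0 : 0 < R) (hR : B.REG)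
    {r1 : ℝ} (hr1 : R < r1) :
    ∃ K : ℕ, ∃ c : ℝ, 0 < c ∧ ∀ᶠ j in atTop,
      ∀ (l : ℕ) (H : R12 → ℝ) (lam : ℂ) (F G : ℝ → ℂ),
      0 ≤ lam.re → (B.P j).Pair l H lam 0 (fun _ => 0) F G →
      ∃ c1 : ℂ, ∀ r ∈ Icc r1 8,
        ‖F r - c1 * Phi l ((B.P j).mu lam) r‖
          ≤ Real.exp (-c * B.nn j) * (1 + ‖lam‖) ^ K * NB r1 F G ∧
        ‖deriv F r - c1 * Phi1 l ((B.P j).mu lam) r‖
          ≤ Real.exp (-c * B.nn j) * (1 + ‖lam‖) ^ K * NB r1 F G := by
  obtain ⟨K, hK⟩ := hR r1 hr1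
  have q1 : R < (2 * R + r1) / 3 := by linarith
  have q2 : (2 * R + r1) / 3 < (R + 2 * r1) / 3 := by linarith
  have q3 : (R + 2 * r1) / 3 < r1 := by linarith
  obtain ⟨χ, hχ⟩ := exists_isCut (hR0.trans q1) q2
  obtain ⟨c, hc, hT⟩ := B.tail _ _ q1 q2 χ hχ
  obtain ⟨C0, hC0, hS⟩ := hS
  refine ⟨K, c / 2, by positivity, ?_⟩
  filter_upwards [hK, hT, B.nn_tendsto.eventually (ev_exp (C0 * 2) (K + 1) hc),
    B.nn_tendsto.eventually (eventually_ge_atTop 1)] with j hK hT hn hn1 l H lam F G hlam hp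
  obtain ⟨bF, bG⟩ := hK l H lam 0 (fun _ => 0) F G hlam hp (Or.inl ⟨rfl, rfl⟩)
  rw [norm_zero, add_zero] at bF bG
  have hb := hts_xbd (B.P j) hT.1 hT.2.1 bF bG
  have hi := hts_inX (B.P j) hT.1 hT.2.1 hp.xF hp.xG
  obtain ⟨hmu, hmu'⟩ := inv_mu_le hn1 (B.P j) hlam
  have hz : modeFn H (fun _ => 0) = fun _ => 0 := CLift.modeFn_zero H
  obtain ⟨c1, h1⟩ := hS l H hp.sharm hp.nrm ((B.P j).mu lam) hmu _ ((hR0.trans q1).trans q2)
    (modeFn H F) (hcs (B.P j) χ (modeFn H F) (modeFn H G)) _ _ hp.xF hi hb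
    (hcs_zero (B.P j) hχ _ _) (fun y => by
      rw [hcs_add_hts, pair_eq1 hp (by rw [hz]; exact continuous_const) y]; simp)
  refine ⟨c1, fun r hr => ?_⟩
  have hr0 : 0 < r := (hR0.trans hr1).trans_le hr.1
  have h2 := h1 r (q3.trans_le hr.1)
  rw [comp_self hp.nrm F hr0, deriv_comp_self hp.nrm F hr0] at h2
  have hNB : 0 ≤ NB r1 F G := Real.sqrt_nonneg _
  have hE : C0 * (2 * Real.exp (-c * B.nn j) * (((B.nn j : ℝ) * (1 + ‖lam‖)) ^ K * NB r1 F G) /
      ((B.P j).mu lam).re) ≤ Real.exp (-(c / 2) * B.nn j) * (1 + ‖lam‖) ^ K * NB r1 F G := by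
    have h3 : C0 * (2 * Real.exp (-c * B.nn j) * (((B.nn j : ℝ) * (1 + ‖lam‖)) ^ K * NB r1 F G) /
        ((B.P j).mu lam).re) = (C0 * 2 * Real.exp (-c * B.nn j) * (B.nn j : ℝ) ^ K *
          ((1 + ‖lam‖) ^ K * NB r1 F G)) * ((B.P j).mu lam).re⁻¹ := by
      rw [mul_pow]; field_simp
    rw [h3]
    have h4 : 0 ≤ C0 * 2 * Real.exp (-c * B.nn j) * (B.nn j : ℝ) ^ K *
          ((1 + ‖lam‖) ^ K * NB r1 F G) := by positivity
    refine (mul_le_mul_of_nonneg_left hmu' h4).trans ?_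
    have h5 : 0 ≤ (1 + ‖lam‖) ^ K * NB r1 F G := by positivity
    have h6 := mul_le_mul_of_nonneg_right hn h5
    rw [pow_succ] at h6
    nlinarith [h6]
  exact ⟨h2.1.trans hE, h2.2.trans hE⟩

theorem ext0 {Phi Phi1 : ℕ → ℂ → ℝ → ℂ} (hS : ScalExt0 Phi Phi1) (hR0 : 0 < R) (hR : B.REG) :
    B.EXT0 Phi Phi1 := by
  intro r1 hr1
  obtain ⟨K, c, hc, h⟩ := first0 B hS hR0 hR hr1
  refine ⟨K, c, hc, ?_⟩
  filter_upwards [h] with j h l H lam F G hlam hp
  obtain ⟨c1, h1⟩ := h l H lam F G hlam hp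
  have hp' := pair_conj hp
  rw [map_zero] at hp'
  obtain ⟨c2, h2⟩ := h l H (conj lam) _ _ (by simpa using hlam) hp'
  refine ⟨c1, conj c2, fun r hr => ?_⟩
  have h3 := h2 r hr
  rw [NB_conj, deriv_conj', RCLike.norm_conj] at h3
  refine ⟨(h1 r hr).1, (h1 r hr).2, ?_, ?_⟩
  · have h4 := h3.1
    rw [← RCLike.norm_conj] at h4
    simpa only [map_sub, map_mul, Complex.conj_conj] using h4
  · have h4 := h3.2
    rw [← RCLike.norm_conj] at h4
    simpa only [map_sub, map_mul, Complex.conj_conj] using h4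

end

end Crest.Agent.R086.ExtA
end

-- ▼ part R086/ExtB
section

/-!
Row 86, node EXT, part B (helper384): the case of a symmetry mode as source.
-/

set_option autoImplicit false

open MeasureTheory Complex Set Filter Topology
open scoped ContDiff

namespace Crest.Agent.R086.ExtA

open Crest.Agent.R086.XA

local notation "conj" => starRingEnd ℂ

/-! ### the limit `mu → mus` -/

theorem limit_case {Ph Ph1 : ℂ → ℝ → ℂ} {mus w : ℂ} {F F1 : ℝ → ℂ} {E C1 r2 : ℝ}
    (hd : ∀ r, r2 < r → DifferentiableAt ℂ (fun m => Ph m r) mus)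
    (hd1 : ∀ r, r2 < r → DifferentiableAt ℂ (fun m => Ph1 m r) mus)
    (hne : ∃ r, r2 < r ∧ Ph mus r ≠ 0) (hC1 : 0 ≤ C1)
    (h : ∀ d : ℝ, 0 < d → d ≤ 1 → ∃ c : ℂ, ∀ r, r2 < r →
      ‖F r - (c * Ph (mus + d) r + w * ((Ph (mus + d) r - Ph mus r) / ((mus + d) - mus)))‖
        ≤ E + d * C1 ∧
      ‖F1 r - (c * Ph1 (mus + d) r + w * ((Ph1 (mus + d) r - Ph1 mus r) / ((mus + d) - mus)))‖
        ≤ E + d * C1) :
    ∃ c : ℂ, ∀ r, r2 < r →
      ‖F r - (c * Ph mus r + w * deriv (fun m => Ph m r) mus)‖ ≤ E ∧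
      ‖F1 r - (c * Ph1 mus r + w * deriv (fun m => Ph1 m r) mus)‖ ≤ E := by
  set d : ℕ → ℝ := fun k => 1 / ((k : ℝ) + 1) with hdk
  have d0 : ∀ k, 0 < d k := fun k => by simp only [hdk]; positivity
  have d1 : ∀ k, d k ≤ 1 := fun k => by
    simp only [hdk]
    rw [div_le_one (by positivity)]
    linarith [(Nat.cast_nonneg k : (0 : ℝ) ≤ k)]
  have dt : Tendsto d atTop (𝓝 0) := tendsto_one_div_add_atTop_nhds_zero_nat
  have dtc : Tendsto (fun k => mus + (d k : ℂ)) atTop (𝓝 mus) := by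
    have h1 : Tendsto (fun k => (d k : ℂ)) atTop (𝓝 0) := by
      have := (Complex.continuous_ofReal.tendsto 0).comp dt
      rw [Complex.ofReal_zero] at this
      exact this
    simpa using h1.const_add mus
  have dtn : Tendsto (fun k => mus + (d k : ℂ)) atTop (𝓝[≠] mus) := by
    refine tendsto_nhdsWithin_iff.2 ⟨dtc, Eventually.of_forall fun k => ?_⟩
    simp only [mem_compl_iff, mem_singleton_iff, add_eq_left]
    exact_mod_cast (d0 k).ne'
  choose c hc using fun k => h (d k) (d0 k) (d1 k)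
  -- values and slopes
  have vt : ∀ {Q : ℂ → ℝ → ℂ} {r : ℝ}, DifferentiableAt ℂ (fun m => Q m r) mus →
      Tendsto (fun k => Q (mus + (d k : ℂ)) r) atTop (𝓝 (Q mus r)) := fun hq =>
    hq.continuousAt.tendsto.comp dtc
  have st : ∀ {Q : ℂ → ℝ → ℂ} {r : ℝ}, DifferentiableAt ℂ (fun m => Q m r) mus →
      Tendsto (fun k => (Q (mus + (d k : ℂ)) r - Q mus r) / ((mus + (d k : ℂ)) - mus)) atTop
        (𝓝 (deriv (fun m => Q m r) mus)) := by
    intro Q r hq
    have h1 := hasDerivAt_iff_tendsto_slope.1 hq.hasDerivAt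
    have h2 := h1.comp dtn
    refine h2.congr fun k => ?_
    simp only [Function.comp, slope_def_field]
  obtain ⟨rs, hrs, hrne⟩ := hne
  -- boundedness of `c`
  have hb1 : ∃ M : ℝ, ∀ k, ‖c k * Ph (mus + (d k : ℂ)) rs‖ ≤ M := by
    obtain ⟨M, hM⟩ := (st (hd rs hrs)).norm.bddAbove_range
    refine ⟨‖F rs‖ + (E + C1) + ‖w‖ * M, fun k => ?_⟩
    have h1 := (hc k rs hrs).1
    have h2 : ‖(Ph (mus + (d k : ℂ)) rs - Ph mus rs) / ((mus + (d k : ℂ)) - mus)‖ ≤ M :=
      hM ⟨k, rfl⟩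
    set X := c k * Ph (mus + (d k : ℂ)) rs
    set Y := (Ph (mus + (d k : ℂ)) rs - Ph mus rs) / ((mus + (d k : ℂ)) - mus)
    have h3 : X = F rs - (F rs - (X + w * Y)) - w * Y := by ring
    have h4 : ‖X‖ ≤ ‖F rs‖ + ‖F rs - (X + w * Y)‖ + ‖w * Y‖ := by
      conv_lhs => rw [h3]
      exact (norm_sub_le _ _).trans (add_le_add (norm_sub_le _ _) le_rfl)
    have h5 : ‖w * Y‖ ≤ ‖w‖ * M := by
      rw [norm_mul]; exact mul_le_mul_of_nonneg_left h2 (norm_nonneg _)
    have h6 : d k * C1 ≤ 1 * C1 := mul_le_mul_of_nonneg_right (d1 k) hC1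
    linarith
  obtain ⟨M, hM⟩ := hb1
  have hp : 0 < ‖Ph mus rs‖ / 2 := by
    have := norm_pos_iff.2 hrne
    positivity
  have hev : ∀ᶠ k in atTop, ‖Ph mus rs‖ / 2 ≤ ‖Ph (mus + (d k : ℂ)) rs‖ := by
    have h1 := (vt (hd rs hrs)).norm
    exact h1.eventually_const_le (by linarith)
  have hcb : ∀ᶠ k in atTop, c k ∈ Metric.closedBall (0 : ℂ) (M / (‖Ph mus rs‖ / 2)) := by
    filter_upwards [hev] with k hk
    rw [mem_closedBall_zero_iff, le_div_iff₀ hp]
    refine le_trans ?_ (hM k)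
    rw [norm_mul]
    exact mul_le_mul_of_nonneg_left hk (norm_nonneg _)
  obtain ⟨c0, -, φ, hφ, hct⟩ := tendsto_subseq_of_frequently_bounded
    (Metric.isBounded_closedBall) hcb.frequently
  have hφt : Tendsto φ atTop atTop := hφ.tendsto_atTop
  have key : ∀ {Q : ℂ → ℝ → ℂ} {G : ℝ → ℂ} {r : ℝ}, DifferentiableAt ℂ (fun m => Q m r) mus →
      (∀ k, ‖G r - (c k * Q (mus + (d k : ℂ)) r
        + w * ((Q (mus + (d k : ℂ)) r - Q mus r) / ((mus + (d k : ℂ)) - mus)))‖ ≤ E + d k * C1) →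
      ‖G r - (c0 * Q mus r + w * deriv (fun m => Q m r) mus)‖ ≤ E := by
    intro Q G r hq hk
    have t1 : Tendsto (fun k => c (φ k) * Q (mus + (d (φ k) : ℂ)) r
        + w * ((Q (mus + (d (φ k) : ℂ)) r - Q mus r) / ((mus + (d (φ k) : ℂ)) - mus))) atTop
        (𝓝 (c0 * Q mus r + w * deriv (fun m => Q m r) mus)) :=
      (hct.mul ((vt hq).comp hφt)).add (((st hq).comp hφt).const_mul w)
    have t2 : Tendsto (fun k => E + d (φ k) * C1) atTop (𝓝 E) := by
      have := ((dt.comp hφt).mul_const C1).const_add E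
      simpa using this
    exact le_of_tendsto_of_tendsto' (t1.const_sub (G r)).norm t2 fun k => hk (φ k)
  exact ⟨c0, fun r hr => ⟨key (hd r hr) fun k => (hc k r hr).1,
    key (hd1 r hr) fun k => (hc k r hr).2⟩⟩

/-! ### the symmetry modes are bounded -/

section
variable {om0 R : ℝ} {U : ℝ → ℂ} (B : BData om0 R U)

theorem sym_bd : ∃ M : ℝ, 0 ≤ M ∧ ∀ᶠ j in atTop, ∀ (l : ℕ) (ls : ℝ) (e : ℝ → ℂ),
    (B.P j).IsSym l ls e → 0 ≤ ls ∧ ls ≤ 1 ∧ ∀ r : ℝ, 0 ≤ r → ‖e r‖ ≤ M := by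
  obtain ⟨A, hA, hdec⟩ := B.decay2
  obtain ⟨C, hder⟩ := B.q_der
  have hom : ∀ᶠ j in atTop, |(B.P j).om| ≤ |om0| + 1 :=
    (B.om_tendsto.abs).eventually_le_const (by linarith)
  refine ⟨A + (1 + (|om0| + 1)) * A + |C| * A, by positivity, ?_⟩
  filter_upwards [hdec, hder, hom, B.nn_tendsto.eventually (eventually_ge_atTop 1)]
    with j hdec hder hom hn1 l ls e hs
  have hq : ∀ r : ℝ, 0 ≤ r → ‖(B.P j).q r‖ ≤ A := by
    intro r hr
    refine le_trans ?_ (hdec r hr).2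
    refine le_mul_of_one_le_right (norm_nonneg _) ?_
    exact Real.one_le_rpow (by linarith) (by positivity)
  have hCA : 0 ≤ |C| * A := by positivity
  have hoA : 0 ≤ (1 + (|om0| + 1)) * A := by positivity
  have hdq : ∀ r : ℝ, 0 ≤ r → ‖deriv (B.P j).q r‖ ≤ |C| * A ∧
      ‖(r : ℂ) * deriv (B.P j).q r‖ ≤ |C| * A := by
    intro r hr
    have h1 := (hder r hr).1
    have h2 := hq r hr
    have h3 : 0 < 1 + r ^ 2 := by positivity
    have h4 : r / (1 + r ^ 2) ≤ 1 := by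
      rw [div_le_one h3]; nlinarith [sq_nonneg (r - 1)]
    have h5 : r * (r / (1 + r ^ 2)) ≤ 1 := by
      rw [← mul_div_assoc, div_le_one h3]; nlinarith
    have h6 : 0 ≤ r / (1 + r ^ 2) := by positivity
    have h7 : C * (r / (1 + r ^ 2)) * ‖(B.P j).q r‖ ≤ |C| * (r / (1 + r ^ 2)) * A := by
      refine mul_le_mul ?_ h2 (norm_nonneg _) (by positivity)
      exact mul_le_mul_of_nonneg_right (le_abs_self C) h6
    constructor
    · refine (h1.trans h7).trans ?_
      have : |C| * (r / (1 + r ^ 2)) ≤ |C| * 1 := mul_le_mul_of_nonneg_left h4 (abs_nonneg C)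
      nlinarith
    · rw [norm_mul, Complex.norm_real, Real.norm_of_nonneg hr]
      refine (mul_le_mul_of_nonneg_left (h1.trans h7) hr).trans ?_
      have : |C| * (r * (r / (1 + r ^ 2))) ≤ |C| * 1 := mul_le_mul_of_nonneg_left h5 (abs_nonneg C)
      have h8 := mul_le_mul_of_nonneg_right this hA.le
      linarith
  rcases hs with ⟨-, hls, rfl⟩ | ⟨-, hls, rfl⟩ | ⟨-, hls, rfl⟩
  · refine ⟨by linarith, by linarith, fun r hr => ?_⟩
    rw [norm_mul, Complex.norm_I, one_mul]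
    linarith [hq r hr]
  · refine ⟨by linarith, by linarith, fun r hr => ?_⟩
    unfold Profile.rtime
    have h1 : ‖(1 : ℂ) / (B.nn j : ℂ) - I * (B.P j).om‖ ≤ 1 + (|om0| + 1) := by
      refine (norm_sub_le _ _).trans (add_le_add ?_ ?_)
      · rw [norm_div, norm_one, Complex.norm_natCast]
        have : (1 : ℝ) ≤ B.nn j := by exact_mod_cast hn1
        rw [div_le_one (by linarith)]; exact this
      · rw [norm_mul, Complex.norm_I, one_mul, Complex.norm_real]; exact hom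
    have h2 := norm_add_le (((1 : ℂ) / (B.nn j : ℂ) - I * (B.P j).om) * (B.P j).q r)
      ((1 / 2) * ((r : ℂ) * deriv (B.P j).q r))
    have h3 : ‖((1 : ℂ) / (B.nn j : ℂ) - I * (B.P j).om) * (B.P j).q r‖
        ≤ (1 + (|om0| + 1)) * A := by
      rw [norm_mul]
      exact mul_le_mul h1 (hq r hr) (norm_nonneg _) (by positivity)
    have h4 : ‖(1 / 2 : ℂ) * ((r : ℂ) * deriv (B.P j).q r)‖ ≤ |C| * A := by
      rw [norm_mul]
      have h5 := (hdq r hr).2
      have h6 : ‖(1 / 2 : ℂ)‖ = 1 / 2 := by norm_num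
      rw [h6]
      linarith [norm_nonneg ((r : ℂ) * deriv (B.P j).q r)]
    linarith
  · refine ⟨by linarith, by linarith, fun r hr => ?_⟩
    linarith [(hdq r hr).1]

theorem NB_le {r1 M : ℝ} (hr1 : 0 ≤ r1) {F G : ℝ → ℂ}
    (cF : Continuous F) (cG : Continuous G)
    (hF : ∀ r, 0 ≤ r → ‖F r‖ ≤ M) (hG : ∀ r, 0 ≤ r → ‖G r‖ ≤ M) :
    NB r1 F G ≤ Real.sqrt (r1 ^ 12 * (2 * M ^ 2)) := by
  unfold NB
  refine Real.sqrt_le_sqrt ?_
  have h1 : (∫ r in (0 : ℝ)..r1, r ^ 11 * (‖F r‖ ^ 2 + ‖G r‖ ^ 2))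
      ≤ ∫ _ in (0 : ℝ)..r1, r1 ^ 11 * (2 * M ^ 2) := by
    refine intervalIntegral.integral_mono_on hr1 ?_ ?_ fun r hr => ?_
    · exact Continuous.intervalIntegrable (by fun_prop) _ _
    · exact continuous_const.intervalIntegrable _ _
    · have h2 : r ^ 11 ≤ r1 ^ 11 := pow_le_pow_left₀ hr.1 hr.2 11
      have h3 := pow_le_pow_left₀ (norm_nonneg _) (hF r hr.1) 2
      have h4 := pow_le_pow_left₀ (norm_nonneg _) (hG r hr.1) 2
      exact mul_le_mul h2 (by linarith) (by positivity) (by positivity)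
  refine h1.trans (le_of_eq ?_)
  rw [intervalIntegral.integral_const, smul_eq_mul]; ring

end

theorem err_num {C0 E L Mn T a n x y c' : ℝ} {K : ℕ} (hC0 : 0 ≤ C0) (hE : 0 ≤ E) (hL : 0 ≤ L)
    (hMn : 0 ≤ Mn) (hT : 0 ≤ T) (ha : 0 ≤ a) (haT : a ≤ T) (hn : 1 ≤ n) (hx0 : 0 ≤ x) (hx : x ≤ n)
    (hy0 : 0 ≤ y) (hy : y ≤ n) (h : C0 * 2 * (L ^ K + 2 ^ K * Mn) * n ^ (K + 2) * E ≤ c') :
    C0 * (2 * E * ((n * L) ^ K * T) * x + a * (2 * E * ((2 * n) ^ K * Mn)) * (x * y)) ≤ c' * T := by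
  have hn0 : 0 ≤ n := by linarith
  have hx2 : x ≤ n ^ 2 := by nlinarith
  have hxy : x * y ≤ n ^ 2 := by
    rw [pow_two]; exact mul_le_mul hx hy hy0 hn0
  have h1 : 2 * E * ((n * L) ^ K * T) * x ≤ 2 * E * ((n * L) ^ K * T) * n ^ 2 :=
    mul_le_mul_of_nonneg_left hx2 (by positivity)
  have h2 : a * (2 * E * ((2 * n) ^ K * Mn)) * (x * y) ≤ T * (2 * E * ((2 * n) ^ K * Mn)) * n ^ 2 := by
    refine mul_le_mul (mul_le_mul_of_nonneg_right haT (by positivity)) hxy (by positivity)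
      (by positivity)
  have h3 : C0 * (2 * E * ((n * L) ^ K * T) * n ^ 2 + T * (2 * E * ((2 * n) ^ K * Mn)) * n ^ 2)
      = C0 * 2 * (L ^ K + 2 ^ K * Mn) * n ^ (K + 2) * E * T := by
    rw [mul_pow, mul_pow, pow_add]; ring
  calc _ ≤ C0 * (2 * E * ((n * L) ^ K * T) * n ^ 2 + T * (2 * E * ((2 * n) ^ K * Mn)) * n ^ 2) :=
        mul_le_mul_of_nonneg_left (add_le_add h1 h2) hC0
    _ = _ := h3
    _ ≤ c' * T := mul_le_mul_of_nonneg_right h hT

section
variable {om0 R : ℝ} {U : ℝ → ℂ} (B : BData om0 R U)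

theorem firsts {Phi Phi1 : ℕ → ℂ → ℝ → ℂ} (hS : ScalExts Phi Phi1) (hSym : SymStmt)
    (hPh : PhiFacts Phi Phi1)
    (hne : ∀ (l : ℕ) (m : ℂ), 0 < m.re → ∀ r0 : ℝ, 0 < r0 → ∃ r, r0 < r ∧ Phi l m r ≠ 0)
    (hR0 : 0 < R) (hR : B.REG) {r1 : ℝ} (hr1 : R < r1) (La : ℝ) :
    ∃ c : ℝ, 0 < c ∧ ∀ᶠ j in atTop,
    ∀ (l : ℕ) (ls : ℝ) (e : ℝ → ℂ), (B.P j).IsSym l ls e →
    ∀ (H : R12 → ℝ), SHarm l H → (∫ w : S11, (H w) ^ 2 ∂sig) = 1 → ∃ ga : ℂ,
    (∀ r ∈ Icc r1 8,
      ‖e r - ga * Phi l ((B.P j).mu ls) r‖ ≤ Real.exp (-c * B.nn j) ∧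
      ‖deriv e r - ga * Phi1 l ((B.P j).mu ls) r‖ ≤ Real.exp (-c * B.nn j)) ∧
    ∀ (lam al : ℂ) (F G : ℝ → ℂ),
    0 ≤ lam.re → ‖lam‖ ≤ La → (B.P j).Pair l H lam al e F G →
    ∃ c1 : ℂ, ∀ r ∈ Icc r1 8,
      ‖F r - (c1 * Phi l ((B.P j).mu lam) r
          + al * ga * dslope (fun m => Phi l m r) ((B.P j).mu ls) ((B.P j).mu lam))‖
        ≤ Real.exp (-c * B.nn j) * (NB r1 F G + ‖al‖) ∧
      ‖deriv F r - (c1 * Phi1 l ((B.P j).mu lam) r
          + al * ga * dslope (fun m => Phi1 l m r) ((B.P j).mu ls) ((B.P j).mu lam))‖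
        ≤ Real.exp (-c * B.nn j) * (NB r1 F G + ‖al‖) := by
  obtain ⟨K, hK⟩ := hR r1 hr1
  have q1 : R < (2 * R + r1) / 3 := by linarith
  have q2 : (2 * R + r1) / 3 < (R + 2 * r1) / 3 := by linarith
  have q3 : (R + 2 * r1) / 3 < r1 := by linarith
  have q4 : 0 < (R + 2 * r1) / 3 := (hR0.trans q1).trans q2
  obtain ⟨χ, hχ⟩ := exists_isCut (hR0.trans q1) q2
  obtain ⟨c, hc, hT⟩ := B.tail _ _ q1 q2 χ hχ
  obtain ⟨C0, hC0, hS⟩ := hS
  obtain ⟨M, hM0, hM⟩ := sym_bd B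
  set Mn := Real.sqrt (r1 ^ 12 * (2 * M ^ 2)) with hMn
  have hMn0 : 0 ≤ Mn := Real.sqrt_nonneg _
  set L := 1 + |La| with hL
  have hL0 : 0 ≤ L := by positivity
  refine ⟨c / 2, by positivity, ?_⟩
  filter_upwards [hK, hT, hM,
    B.nn_tendsto.eventually (ev_exp (C0 * 2 * (L ^ K + 2 ^ K * Mn)) (K + 2) hc),
    B.nn_tendsto.eventually (eventually_ge_atTop 1)] with j hK hT hM hn hn1 l ls e hs H hH hnrm
  obtain ⟨hls0, hls1, hMe⟩ := hM l ls e hs
  set n : ℝ := (B.nn j : ℝ) with hndef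
  have hn1' : 1 ≤ n := by rw [hndef]; exact_mod_cast hn1
  have hn0 : 0 ≤ n := by linarith
  set E := Real.exp (-c * n) with hEdef
  have hE0 : 0 ≤ E := (Real.exp_pos _).le
  -- the symmetry mode
  have hsp := hSym _ (B.P j) l ls e H hs hH hnrm
  have hlsre : (0 : ℝ) ≤ ((ls : ℂ)).re := by simpa using hls0
  have hls' : ‖(ls : ℂ)‖ ≤ 1 := by rw [Complex.norm_real, Real.norm_of_nonneg hls0]; exact hls1
  obtain ⟨bE, bE'⟩ := hK l H (ls : ℂ) 0 (fun _ => 0) e _ hlsre hsp (Or.inl ⟨rfl, rfl⟩)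
  have hNBe : NB r1 e (fun r => conj (e r)) ≤ Mn :=
    NB_le (hR0.trans hr1).le hsp.cF.continuous hsp.cG.continuous hMe
      (fun r hr => by rw [RCLike.norm_conj]; exact hMe r hr)
  have hAe : (n * (1 + ‖(ls : ℂ)‖)) ^ K * (NB r1 e (fun r => conj (e r)) + ‖(0 : ℂ)‖)
      ≤ (2 * n) ^ K * Mn := by
    rw [norm_zero, add_zero]
    refine mul_le_mul (pow_le_pow_left₀ (by positivity) ?_ K) hNBe (Real.sqrt_nonneg _)
      (by positivity)
    nlinarith
  have bE := xbd_le hAe bE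
  have bE' := xbd_le hAe bE'
  have hkt := hts_xbd (B.P j) hT.1 hT.2.1 bE bE'
  have hkti := hts_inX (B.P j) hT.1 hT.2.1 hsp.xF hsp.xG
  obtain ⟨hmus, hmus'⟩ := inv_mu_le hn1 (B.P j) hlsre
  have hz : modeFn H (fun _ => 0) = fun _ => 0 := CLift.modeFn_zero H
  have hce : Continuous (modeFn H e) := (SH.InX.contDiff hsp.xF).continuous
  obtain ⟨ga, hga, hf⟩ := hS l H hH hnrm ((B.P j).mu ls) hmus _ q4
    (modeFn H e) (hcs (B.P j) χ (modeFn H e) (modeFn H (fun r => conj (e r)))) _ _ hsp.xF hkti hkt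
    (hcs_zero (B.P j) hχ _ _) (fun y => by
      rw [hcs_add_hts, pair_eq1 hsp (by rw [hz]; exact continuous_const) y]; simp)
  refine ⟨ga, fun r hr => ?_, ?_⟩
  · have hr0 : 0 < r := (hR0.trans hr1).trans_le hr.1
    have h2 := hga r (q3.trans_le hr.1)
    rw [comp_self hnrm e hr0, deriv_comp_self hnrm e hr0] at h2
    have h3 : C0 * (2 * E * ((2 * n) ^ K * Mn) / ((B.P j).mu ls).re) ≤ Real.exp (-(c / 2) * n) := by
      have h4 : 0 ≤ C0 * (2 * E * ((2 * n) ^ K * Mn)) := by positivity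
      have h5 : C0 * (2 * E * ((2 * n) ^ K * Mn) / ((B.P j).mu ls).re)
          = C0 * (2 * E * ((2 * n) ^ K * Mn)) * (((B.P j).mu ls).re)⁻¹ := by
        rw [div_eq_mul_inv]; ring
      rw [h5]
      refine (mul_le_mul_of_nonneg_left hmus' h4).trans (le_trans ?_ hn)
      have h6 : C0 * (2 * E * ((2 * n) ^ K * Mn)) * n
          = (C0 * 2 * E * n ^ K * (2 ^ K * Mn)) * n := by rw [mul_pow]; ring
      have h7 : C0 * 2 * (L ^ K + 2 ^ K * Mn) * n ^ (K + 2) * E
          = (C0 * 2 * E * n ^ K * (L ^ K + 2 ^ K * Mn)) * n ^ 2 := by rw [pow_add]; ring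
      rw [h7]
      change C0 * (2 * E * ((2 * n) ^ K * Mn)) * n ≤ _
      rw [h6]
      have hLK : 0 ≤ L ^ K := by positivity
      refine mul_le_mul (mul_le_mul_of_nonneg_left (by linarith) (by positivity)) (by nlinarith)
        hn0 (by positivity)
    exact ⟨h2.1.trans h3, h2.2.trans h3⟩
  · intro lam al F G hlam hLa hp
    set T := NB r1 F G + ‖al‖ with hTdef
    have hNB : 0 ≤ NB r1 F G := Real.sqrt_nonneg _
    have hT0 : 0 ≤ T := by positivity
    have haT : ‖al‖ ≤ T := by rw [hTdef]; linarith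
    obtain ⟨bF, bG⟩ := hK l H lam al e F G hlam hp (Or.inr ⟨ls, hs⟩)
    have hAf : (n * (1 + ‖lam‖)) ^ K * T ≤ (n * L) ^ K * T := by
      refine mul_le_mul_of_nonneg_right (pow_le_pow_left₀ (by positivity) ?_ K) hT0
      refine mul_le_mul_of_nonneg_left ?_ hn0
      have := le_abs_self La
      linarith
    have bF := xbd_le hAf bF
    have bG := xbd_le hAf bG
    have hb := hts_xbd (B.P j) hT.1 hT.2.1 bF bG
    have hi := hts_inX (B.P j) hT.1 hT.2.1 hp.xF hp.xG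
    obtain ⟨hmu, hmu'⟩ := inv_mu_le hn1 (B.P j) hlam
    have herr := err_num (C0 := C0) (E := E) (L := L) (Mn := Mn) (T := T) (a := ‖al‖) (n := n)
      (x := ((B.P j).mu lam).re⁻¹) (y := ((B.P j).mu ls).re⁻¹) (K := K)
      hC0.le hE0 hL0 hMn0 hT0 (norm_nonneg _) haT hn1' (by positivity) hmu' (by positivity) hmus' hn
    have herr' : C0 * (2 * E * ((n * L) ^ K * T) / ((B.P j).mu lam).re + ‖al‖ *
        (2 * E * ((2 * n) ^ K * Mn)) / (((B.P j).mu lam).re * ((B.P j).mu ls).re))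
        ≤ Real.exp (-(c / 2) * n) * T := by
      refine le_trans (le_of_eq ?_) herr
      rw [div_eq_mul_inv, div_eq_mul_inv, mul_inv]
    -- the equation
    have heq : ∀ y, I * lap (modeFn H F) y - (1 / 2) * eul (modeFn H F) y
        - (B.P j).mu lam * modeFn H F y = hcs (B.P j) χ (modeFn H F) (modeFn H G) y
          + hts (B.P j) χ (modeFn H F) (modeFn H G) y + al * modeFn H e y := fun y => by
      rw [hcs_add_hts, pair_eq1 hp hce y]
    have fin : (∃ c1 : ℂ, ∀ r, (R + 2 * r1) / 3 < r →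
        ‖comp H (modeFn H F) r - (c1 * Phi l ((B.P j).mu lam) r + al * ga *
          dslope (fun m => Phi l m r) ((B.P j).mu ls) ((B.P j).mu lam))‖
          ≤ C0 * (2 * E * ((n * L) ^ K * T) / ((B.P j).mu lam).re + ‖al‖ *
            (2 * E * ((2 * n) ^ K * Mn)) / (((B.P j).mu lam).re * ((B.P j).mu ls).re)) ∧
        ‖deriv (comp H (modeFn H F)) r - (c1 * Phi1 l ((B.P j).mu lam) r + al * ga *
          dslope (fun m => Phi1 l m r) ((B.P j).mu ls) ((B.P j).mu lam))‖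
          ≤ C0 * (2 * E * ((n * L) ^ K * T) / ((B.P j).mu lam).re + ‖al‖ *
            (2 * E * ((2 * n) ^ K * Mn)) / (((B.P j).mu lam).re * ((B.P j).mu ls).re))) := by
      by_cases hlm : (B.P j).mu lam = (B.P j).mu ls
      · -- the limit case
        rw [hlm] at heq ⊢
        have hdo : ∀ {Q : ℕ → ℂ → ℝ → ℂ} (_ : ∀ l, ∀ r : ℝ, 0 < r →
            DifferentiableOn ℂ (fun m => Q l m r) {m : ℂ | -(1 / 4) < m.re}) (r : ℝ),
            (R + 2 * r1) / 3 < r → DifferentiableAt ℂ (fun m => Q l m r) ((B.P j).mu ls) := by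
          intro Q hQ r hr
          refine (hQ l r (q4.trans hr)).differentiableAt ?_
          have ho : IsOpen {m : ℂ | -(1 / 4) < m.re} :=
            isOpen_lt continuous_const Complex.continuous_re
          refine ho.mem_nhds ?_
          simp only [mem_setOf_eq]
          linarith
        have hlim := limit_case (Ph := Phi l) (Ph1 := Phi1 l) (mus := (B.P j).mu ls) (w := al * ga)
          (F := comp H (modeFn H F)) (F1 := deriv (comp H (modeFn H F)))
          (E := C0 * (2 * E * ((n * L) ^ K * T) / ((B.P j).mu ls).re + ‖al‖ *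
            (2 * E * ((2 * n) ^ K * Mn)) / (((B.P j).mu ls).re * ((B.P j).mu ls).re)))
          (C1 := C0 * ((n * L) ^ K * T / ((B.P j).mu ls).re)) (r2 := (R + 2 * r1) / 3)
          (hdo hPh.hol) (hdo hPh.hol1) (hne l _ hmus _ q4) (by positivity) ?_
        · obtain ⟨c1, h1⟩ := hlim
          refine ⟨c1, fun r hr => ?_⟩
          rw [dslope_same, dslope_same]
          exact h1 r hr
        · intro d hd0 hd1
          have hd : 0 < ((B.P j).mu ls + (d : ℂ)).re := by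
            rw [Complex.add_re, Complex.ofReal_re]; linarith
          have hne' : (B.P j).mu ls + (d : ℂ) ≠ (B.P j).mu ls := by
            simp only [ne_eq, add_eq_left]
            exact_mod_cast hd0.ne'
          have hb' := xbd_add hb (xbd_const_mul (-(d : ℂ)) bF)
          have hi' := inX_add hi (inX_const_mul (-(d : ℂ)) hp.xF)
          obtain ⟨c1, h1⟩ := hf ((B.P j).mu ls + (d : ℂ)) hd hne' (modeFn H F)
            (hcs (B.P j) χ (modeFn H F) (modeFn H G)) _ _ al hp.xF hi' hb'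
            (hcs_zero (B.P j) hχ _ _) (fun y => by linear_combination heq y)
          refine ⟨c1, fun r hr => ?_⟩
          have hnd : ‖(-(d : ℂ))‖ = d := by
            rw [norm_neg, Complex.norm_real, Real.norm_of_nonneg hd0.le]
          have hre : ((B.P j).mu ls + (d : ℂ)).re = ((B.P j).mu ls).re + d := by
            rw [Complex.add_re, Complex.ofReal_re]
          have hle : C0 * ((2 * E * ((n * L) ^ K * T) + ‖(-(d : ℂ))‖ * ((n * L) ^ K * T)) /
              ((B.P j).mu ls + (d : ℂ)).re + ‖al‖ * (2 * E * ((2 * n) ^ K * Mn)) /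
              (((B.P j).mu ls + (d : ℂ)).re * ((B.P j).mu ls).re))
              ≤ C0 * (2 * E * ((n * L) ^ K * T) / ((B.P j).mu ls).re + ‖al‖ *
                (2 * E * ((2 * n) ^ K * Mn)) / (((B.P j).mu ls).re * ((B.P j).mu ls).re))
                + d * (C0 * ((n * L) ^ K * T / ((B.P j).mu ls).re)) := by
            rw [hnd, hre]
            have g1 : (2 * E * ((n * L) ^ K * T) + d * ((n * L) ^ K * T)) /
                (((B.P j).mu ls).re + d) ≤ (2 * E * ((n * L) ^ K * T) + d * ((n * L) ^ K * T)) /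
                ((B.P j).mu ls).re :=
              div_le_div_of_nonneg_left (by positivity) hmus (by linarith)
            have g2 : ‖al‖ * (2 * E * ((2 * n) ^ K * Mn)) /
                ((((B.P j).mu ls).re + d) * ((B.P j).mu ls).re)
                ≤ ‖al‖ * (2 * E * ((2 * n) ^ K * Mn)) /
                (((B.P j).mu ls).re * ((B.P j).mu ls).re) :=
              div_le_div_of_nonneg_left (by positivity) (by positivity)
                (mul_le_mul_of_nonneg_right (by linarith) hmus.le)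
            have g3 := mul_le_mul_of_nonneg_left (add_le_add g1 g2) hC0.le
            refine g3.trans (le_of_eq ?_)
            rw [add_div]
            ring
          exact ⟨(h1 r hr).1.trans hle, (h1 r hr).2.trans hle⟩
      · obtain ⟨c1, h1⟩ := hf ((B.P j).mu lam) hmu hlm (modeFn H F)
          (hcs (B.P j) χ (modeFn H F) (modeFn H G)) _ _ al hp.xF hi hb
          (hcs_zero (B.P j) hχ _ _) heq
        refine ⟨c1, fun r hr => ?_⟩
        rw [dslope_of_ne _ hlm, dslope_of_ne _ hlm, slope_def_field, slope_def_field]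
        exact h1 r hr
    obtain ⟨c1, h1⟩ := fin
    refine ⟨c1, fun r hr => ?_⟩
    have hr0 : 0 < r := (hR0.trans hr1).trans_le hr.1
    have h2 := h1 r (q3.trans_le hr.1)
    rw [comp_self hnrm F hr0, deriv_comp_self hnrm F hr0] at h2
    exact ⟨h2.1.trans herr', h2.2.trans herr'⟩

theorem exts' {Phi Phi1 : ℕ → ℂ → ℝ → ℂ} (hS : ScalExts Phi Phi1) (hSym : SymStmt)
    (hPh : PhiFacts Phi Phi1)
    (hne : ∀ (l : ℕ) (m : ℂ), 0 < m.re → ∀ r0 : ℝ, 0 < r0 → ∃ r, r0 < r ∧ Phi l m r ≠ 0)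
    (hR0 : 0 < R) (hR : B.REG) : B.EXTs' Phi Phi1 := by
  intro r1 hr1 La
  obtain ⟨c, hc, h⟩ := firsts B hS hSym hPh hne hR0 hR hr1 La
  refine ⟨c, hc, ?_⟩
  filter_upwards [h] with j h l ls e hs H hH hnrm
  obtain ⟨ga, hga, hf⟩ := h l ls e hs H hH hnrm
  refine ⟨ga, hga, ?_⟩
  intro lam al F G hlam hLa hp
  obtain ⟨c1, h1⟩ := hf lam al F G hlam hLa hp
  obtain ⟨c2, h2⟩ := hf (conj lam) (conj al) _ _ (by simpa using hlam) (by simpa using hLa)
    (pair_conj hp)
  refine ⟨c1, conj c2, fun r hr => ?_⟩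
  have h3 := h2 r hr
  rw [NB_conj, deriv_conj', RCLike.norm_conj] at h3
  refine ⟨(h1 r hr).1, (h1 r hr).2, ?_, ?_⟩
  · have h4 := h3.1
    rw [← RCLike.norm_conj] at h4
    simpa only [map_sub, map_add, map_mul, Complex.conj_conj, mul_assoc] using h4
  · have h4 := h3.2
    rw [← RCLike.norm_conj] at h4
    simpa only [map_sub, map_add, map_mul, Complex.conj_conj, mul_assoc] using h4

end

end Crest.Agent.R086.ExtA
end

-- ▼ part R086/XExt2

/-!
Row 86 (S0114), node EXT (helper684), part 4: resolvent existence in the form `ResEx`, and the frozen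
scalar statements `ScalExt0`, `ScalExts`.
-/

set_option autoImplicit false

open MeasureTheory Complex Set
open scoped ContDiff

namespace Crest.Agent.R086.XExt

open Crest.Agent.R086.SH Crest.Agent.R086.XOut
open Crest.Agent.R086.JCx (Phi Phi1)

/-- existence for the resolvent (from 470's Res1, Res2) -/
theorem resEx {N : ℕ} (hN : 2 ≤ N) : ResEx N := by
  intro mu hmu b h hb
  have hbW : Wie.WInt N b := gint_of_integrable hb.1
  refine ⟨Res.resDen 1 mu b, ft (Res.resDen 1 mu b), ⟨?_, fun y => rfl⟩, fun y => ?_,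
    fun M hM => ?_⟩
  · have h1 := Res.wint_resDen (sg := 1) hmu hbW
    refine Integrable.congr h1 (Filter.Eventually.of_forall fun ξ => ?_)
    simp only [Wie.wtV_apply, Wie.wt, Complex.real_smul]
  · have h1 := Res.res_eqn (sg := 1) hmu (Wie.WInt.of_le' hN hbW) y
    rw [DGen.ft_rep hb] at h1
    simpa using h1
  · exact Res.xn_resDen_le (sg := 1) hmu (Wie.WInt.of_le' hM hbW)

/-- densities are unique -/
theorem rep_unique {N M : ℕ} {a b f : R12 → ℂ} (ha : Rep N a f) (hb : Rep M b f) :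
    a =ᵐ[volume] b := by
  have hd : Rep 0 (fun ξ => a ξ + (-1) * b ξ) (fun y => f y + (-1) * f y) :=
    (rep_add (rep_mono (Nat.zero_le _) ha) (rep_const_mul (-1) (rep_mono (Nat.zero_le _) hb)).1).1
  have h0 := DSpec.ft_eq_zero (DGen.integrable_rep hd) (fun p => by
    rw [DGen.ft_rep hd]; ring)
  filter_upwards [h0] with ξ hξ
  linear_combination hξ

theorem xn_congr {M : ℕ} {a b : R12 → ℂ} (h : a =ᵐ[volume] b) : xn M a = xn M b := by
  refine integral_congr_ae ?_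
  filter_upwards [h] with ξ hξ
  rw [hξ]

/-- `InX 20` and `XBd 1` give one density with both -/
theorem exists_rep {N : ℕ} {f : R12 → ℂ} {B : ℝ} (h : InX N f) (hB : XBd 1 f B) :
    ∃ a : R12 → ℂ, Rep N a f ∧ xn 1 a ≤ B := by
  obtain ⟨a, ha⟩ := h
  obtain ⟨b, hb, hb'⟩ := hB
  refine ⟨a, ha, ?_⟩
  rw [xn_congr (rep_unique ha hb)]
  exact hb'

/-- universal constant bounding `∫ |H|` for normalised `H` -/
noncomputable def CH : ℝ := ((sig : Measure S11).real univ + 1) / 2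

theorem CH_pos : 0 < CH := by
  unfold CH
  have : 0 ≤ (sig : Measure S11).real univ := measureReal_nonneg
  positivity

theorem hm_le {l : ℕ} {H : R12 → ℝ} (hH : SHarm l H) (hn : (∫ w : S11, (H w) ^ 2 ∂sig) = 1) :
    hm H ≤ CH := by
  have hc : Continuous fun w : S11 => H w := hH.continuous.comp continuous_subtype_val
  have i1 : Integrable (fun w : S11 => |H w|) sig :=
    hc.abs.integrable_of_hasCompactSupport (HasCompactSupport.of_compactSpace _)
  have i2 : Integrable (fun w : S11 => (1 + (H w) ^ 2) / 2) sig :=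
    ((continuous_const.add (hc.pow 2)).div_const 2).integrable_of_hasCompactSupport
      (HasCompactSupport.of_compactSpace _)
  have i3 : Integrable (fun w : S11 => (H w) ^ 2) sig :=
    (hc.pow 2).integrable_of_hasCompactSupport (HasCompactSupport.of_compactSpace _)
  calc hm H ≤ ∫ w : S11, (1 + (H w) ^ 2) / 2 ∂sig := by
        refine integral_mono i1 i2 fun w => ?_
        have := sq_abs (H w)
        nlinarith [sq_nonneg (|H w| - 1)]
    _ = CH := by
        rw [integral_div, integral_add (integrable_const _) i3, hn, integral_const]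
        simp [CH]

/-- first step: the source mode -/
theorem ext_e {l : ℕ} {H : R12 → ℝ} (hH : SHarm l H) {mus : ℂ} (hmus : 0 < mus.re) {r2 : ℝ}
    (hr2 : 0 < r2) {e kc kt bt : R12 → ℂ} (he : InX 20 e) (hbt : Rep 20 bt kt)
    (eqe : ∀ y, I * lap e y - (1 / 2) * eul e y - mus * e y = kc y + kt y)
    (kc0 : ∀ y, r2 ≤ ‖y‖ → kc y = 0) :
    ∃ (ga : ℂ) (a1 k1 : R12 → ℂ), Rep 20 a1 k1 ∧ xn 1 a1 ≤ xn 1 bt / mus.re ∧
      ∀ r, r2 < r → comp H e r + comp H k1 r = ga * Phi l mus r ∧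
        deriv (comp H e) r + deriv (comp H k1) r = ga * Phi1 l mus r := by
  obtain ⟨a1, k1, ra1, eq1, n1⟩ := resEx (N := 20) (by norm_num) mus hmus bt kt hbt
  have sph : ∀ {r : ℝ}, r2 < r → ∀ w : S11, r2 ≤ ‖r • (w : R12)‖ := by
    intro r hr w
    rw [norm_smul_w (hr2.trans hr).le w]; exact hr.le
  have SE := (freeS_comp (by norm_num) hH he eqe).mono hr2.le
  have SE' : FreeS r2 ((l : ℂ) * (l + 10)) mus (comp H e) (deriv (comp H e)) (comp H kt) := by
    refine SE.congr (fun r hr => comp_congr (fun w => ?_))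
    rw [kc0 _ (sph hr w), zero_add]
  have SK := (freeS_comp (by norm_num) hH ⟨a1, ra1⟩ eq1).mono hr2.le
  have neg : ∀ (g : R12 → ℂ) (r : ℝ), comp H (fun y => -g y) r = -comp H g r := by
    intro g r
    have : (fun y => -g y) = fun y => (-1) * g y := by funext y; ring
    rw [this, SH.comp_const_mul]; ring
  have FE : Free r2 ((l : ℂ) * (l + 10)) mus (fun r => comp H e r + comp H k1 r)
      (fun r => deriv (comp H e) r + deriv (comp H k1) r) := by
    refine (SE'.add SK).free (fun r _ => ?_)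
    show comp H kt r + comp H (fun y => -kt y) r = 0
    rw [neg]; ring
  obtain ⟨ga, hga⟩ := out_unique hr2.le FE (free_Phi (l := l) hmus hr2.le)
    ((BD_comp hH he (by norm_num) r2).add (BD_comp hH ⟨a1, ra1⟩ (by norm_num) r2))
    (BD_Phi hmus hr2 13) (Phi_ne hmus r2)
  exact ⟨ga, a1, k1, ra1, n1 1 (by norm_num), hga⟩

/-- second step -/
theorem ext_f {l : ℕ} {H : R12 → ℝ} (hH : SHarm l H) {mu mus beta : ℂ}
    (hmu : 0 < mu.re) (hmus : 0 < mus.re) (hne : mus ≠ mu) {r2 : ℝ} (hr2 : 0 < r2)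
    {f e hc ht b : R12 → ℂ} (hf : InX 20 f) (ce : Continuous e) (hb : Rep 20 b ht)
    (eqf : ∀ y, I * lap f y - (1 / 2) * eul f y - mu * f y = hc y + ht y + beta * e y)
    (hc0 : ∀ y, r2 ≤ ‖y‖ → hc y = 0) {ga : ℂ} {a1 k1 : R12 → ℂ} (ra1 : Rep 20 a1 k1)
    (hga : ∀ r, r2 < r → comp H e r + comp H k1 r = ga * Phi l mus r) :
    ∃ c : ℂ, ∀ r, r2 < r →
      ‖comp H f r - (c * Phi l mu r + beta * ga * Zf l mu mus r)‖
        ≤ hm H * (xn 1 b / mu.re + ‖beta‖ * (xn 1 a1 / mu.re)) ∧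
      ‖deriv (comp H f) r - (c * Phi1 l mu r + beta * ga * Zf1 l mu mus r)‖
        ≤ hm H * (xn 1 b / mu.re + ‖beta‖ * (xn 1 a1 / mu.re)) := by
  have hHc : Continuous H := hH.continuous
  have hm0 := hm_nonneg H
  obtain ⟨a2, g2, ra2, eq2, n2⟩ := resEx (N := 20) (by norm_num) mu hmu b ht hb
  obtain ⟨a3, g3, ra3, eq3, n3⟩ := resEx (N := 20) (by norm_num) mu hmu a1 k1 ra1
  have ct : Continuous ht := (InX.contDiff ⟨b, hb⟩).continuous
  have sph : ∀ {r : ℝ}, r2 < r → ∀ w : S11, r2 ≤ ‖r • (w : R12)‖ := by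
    intro r hr w
    rw [norm_smul_w (hr2.trans hr).le w]; exact hr.le
  have SF := (freeS_comp (by norm_num) hH hf eqf).mono hr2.le
  have SF' : FreeS r2 ((l : ℂ) * (l + 10)) mu (comp H f) (deriv (comp H f))
      (fun r => comp H ht r + beta * comp H e r) := by
    refine SF.congr (fun r hr => ?_)
    have : comp H (fun y => hc y + ht y + beta * e y) r = comp H (fun y => ht y + beta * e y) r :=
      comp_congr (fun w => by rw [hc0 _ (sph hr w), zero_add])
    show comp H (fun y => hc y + ht y + beta * e y) r = _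
    have e5 : comp H (fun y => ht y + beta * e y) r = comp H ht r + comp H (fun y => beta * e y) r :=
      comp_add hHc ct (continuous_const.mul ce) r
    rw [this, e5, SH.comp_const_mul]
  have S2 := (freeS_comp (by norm_num) hH ⟨a2, ra2⟩ eq2).mono hr2.le
  have S3 := (freeS_comp (by norm_num) hH ⟨a3, ra3⟩ eq3).mono hr2.le
  have neg : ∀ (g : R12 → ℂ) (r : ℝ), comp H (fun y => -g y) r = -comp H g r := by
    intro g r
    have : (fun y => -g y) = fun y => (-1) * g y := by funext y; ring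
    rw [this, SH.comp_const_mul]; ring
  have FZ := (freeS_Z (l := l) hmu hmus hne hr2.le).const_mul (-(beta * ga))
  have FY : Free r2 ((l : ℂ) * (l + 10)) mu
      (fun r => comp H f r + comp H g2 r + (-beta) * comp H g3 r + -(beta * ga) * Zf l mu mus r)
      (fun r => deriv (comp H f) r + deriv (comp H g2) r + (-beta) * deriv (comp H g3) r
        + -(beta * ga) * Zf1 l mu mus r) := by
    refine (((SF'.add S2).add (S3.const_mul (-beta))).add FZ).free (fun r hr => ?_)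
    have h1 := hga r hr
    show comp H ht r + beta * comp H e r + comp H (fun y => -ht y) r
      + -beta * comp H (fun y => -k1 y) r + -(beta * ga) * Phi l mus r = 0
    rw [neg, neg]
    linear_combination beta * h1
  obtain ⟨c, hcc⟩ := out_unique hr2.le FY (free_Phi (l := l) hmu hr2.le)
    ((((BD_comp hH hf (by norm_num) r2).add (BD_comp hH ⟨a2, ra2⟩ (by norm_num) r2)).add
      ((BD_comp hH ⟨a3, ra3⟩ (by norm_num) r2).const_mul (-beta))).add
      ((BD_Z hmu hmus hr2 13).const_mul _))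
    (BD_Phi hmu hr2 13) (Phi_ne hmu r2)
  have b2 := n2 1 (by norm_num)
  have b3 := n3 1 (by norm_num)
  refine ⟨c, fun r hr => ?_⟩
  obtain ⟨p2, q2⟩ := norm_comp_xn (by norm_num) hH ra2 r
  obtain ⟨p3, q3⟩ := norm_comp_xn (by norm_num) hH ra3 r
  obtain ⟨u2, v2⟩ := hcc r hr
  have est : ∀ x y : ℂ, ‖x‖ ≤ hm H * xn 1 a2 → ‖y‖ ≤ hm H * xn 1 a3 →
      ‖-x + beta * y‖ ≤ hm H * (xn 1 b / mu.re + ‖beta‖ * (xn 1 a1 / mu.re)) := by
    intro x y hx hy
    calc ‖-x + beta * y‖ ≤ ‖-x‖ + ‖beta * y‖ := norm_add_le _ _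
      _ = ‖x‖ + ‖beta‖ * ‖y‖ := by rw [norm_neg, norm_mul]
      _ ≤ hm H * xn 1 a2 + ‖beta‖ * (hm H * xn 1 a3) := by gcongr
      _ ≤ hm H * (xn 1 b / mu.re) + ‖beta‖ * (hm H * (xn 1 a1 / mu.re)) := by gcongr
      _ = _ := by ring
  refine ⟨?_, ?_⟩
  · have : comp H f r - (c * Phi l mu r + beta * ga * Zf l mu mus r)
        = -comp H g2 r + beta * comp H g3 r := by linear_combination u2
    rw [this]
    exact est _ _ p2 p3
  · have : deriv (comp H f) r - (c * Phi1 l mu r + beta * ga * Zf1 l mu mus r)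
        = -deriv (comp H g2) r + beta * deriv (comp H g3) r := by linear_combination v2
    rw [this]
    exact est _ _ q2 q3

theorem rep_zero (N : ℕ) : Rep N (fun _ => 0) (fun _ => 0) := by
  refine ⟨by simp, fun y => by simp⟩


/-- **ScalExt0** -/
theorem scalExt0 : ExtA.ScalExt0 Phi Phi1 := by
  refine ⟨CH, CH_pos, ?_⟩
  intro l H hH hn mu hmu r2 hr2 f hc ht b hf hht hB hc0 eqf
  obtain ⟨a, ha, hab⟩ := exists_rep hht hB
  have hmus : 0 < (mu + 1).re := by simp; linarith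
  obtain ⟨c, hcc⟩ := ext_f hH hmu hmus (by simp) hr2 (beta := 0) (e := fun _ => 0) hf
    continuous_const ha (fun y => by rw [eqf y]; ring) hc0 (ga := 0) (rep_zero 20)
    (fun r _ => by simp [comp])
  refine ⟨c, fun r hr => ?_⟩
  obtain ⟨h1, h2⟩ := hcc r hr
  have hle : hm H * (xn 1 a / mu.re + ‖(0 : ℂ)‖ * (xn 1 (fun _ : R12 => (0 : ℂ)) / mu.re))
      ≤ CH * (b / mu.re) := by
    rw [norm_zero, zero_mul, add_zero]
    have h3 := hm_le hH hn
    have h4 : xn 1 a / mu.re ≤ b / mu.re := div_le_div_of_nonneg_right hab hmu.le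
    have h5 : 0 ≤ xn 1 a / mu.re := div_nonneg (xn_nonneg _ _) hmu.le
    exact mul_le_mul h3 h4 h5 CH_pos.le
  constructor
  · refine le_trans (le_of_eq ?_) (h1.trans hle)
    congr 1; ring
  · refine le_trans (le_of_eq ?_) (h2.trans hle)
    congr 1; ring

/-- **ScalExts** -/
theorem scalExts : ExtA.ScalExts Phi Phi1 := by
  refine ⟨CH, CH_pos, ?_⟩
  intro l H hH hn mus hmus r2 hr2 e kc kt bk he hkt hBk kc0 eqe
  obtain ⟨at', hat, hatb⟩ := exists_rep hkt hBk
  obtain ⟨ga, a1, k1, ra1, n1, hga⟩ := ext_e hH hmus hr2 he hat eqe kc0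
  have hm0 := hm_nonneg H
  have hCH := hm_le hH hn
  have n1' : xn 1 a1 ≤ bk / mus.re := n1.trans (div_le_div_of_nonneg_right hatb hmus.le)
  refine ⟨ga, fun r hr => ?_, ?_⟩
  · obtain ⟨p1, q1⟩ := norm_comp_xn (by norm_num) hH ra1 r
    obtain ⟨u1, v1⟩ := hga r hr
    have hle : hm H * xn 1 a1 ≤ CH * (bk / mus.re) :=
      mul_le_mul hCH n1' (xn_nonneg _ _) CH_pos.le
    constructor
    · have : comp H e r - ga * Phi l mus r = -comp H k1 r := by linear_combination u1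
      rw [this, norm_neg]
      exact p1.trans hle
    · have : deriv (comp H e) r - ga * Phi1 l mus r = -deriv (comp H k1) r := by
        linear_combination v1
      rw [this, norm_neg]
      exact q1.trans hle
  · intro mu hmu hne f hc ht b be hf hht hB hc0 eqf
    obtain ⟨a, ha, hab⟩ := exists_rep hht hB
    have ce : Continuous e := (InX.contDiff he).continuous
    obtain ⟨c, hcc⟩ := ext_f hH hmu hmus hne.symm hr2 hf ce ha eqf hc0 ra1
      (fun r hr => (hga r hr).1)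
    have hne1 : mu - mus ≠ 0 := sub_ne_zero.2 hne
    have hne2 : mus - mu ≠ 0 := sub_ne_zero.2 hne.symm
    refine ⟨c, fun r hr => ?_⟩
    obtain ⟨h1, h2⟩ := hcc r hr
    have hle : hm H * (xn 1 a / mu.re + ‖be‖ * (xn 1 a1 / mu.re))
        ≤ CH * (b / mu.re + ‖be‖ * bk / (mu.re * mus.re)) := by
      have h4 : xn 1 a / mu.re ≤ b / mu.re := div_le_div_of_nonneg_right hab hmu.le
      have h5 : 0 ≤ xn 1 a / mu.re := div_nonneg (xn_nonneg _ _) hmu.le
      have h6 : xn 1 a1 / mu.re ≤ bk / mus.re / mu.re := div_le_div_of_nonneg_right n1' hmu.le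
      have h7 : 0 ≤ xn 1 a1 / mu.re := div_nonneg (xn_nonneg _ _) hmu.le
      have h8 : ‖be‖ * bk / (mu.re * mus.re) = ‖be‖ * (bk / mus.re / mu.re) := by
        field_simp
      rw [h8]
      refine mul_le_mul hCH (add_le_add h4 (mul_le_mul_of_nonneg_left h6 (norm_nonneg _)))
        (by positivity) CH_pos.le
    constructor
    · refine le_trans (le_of_eq ?_) (h1.trans hle)
      congr 1
      unfold Zf
      have : (Phi l mu r - Phi l mus r) / (mu - mus) = (Phi l mus r - Phi l mu r) / (mus - mu) := by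
        field_simp; ring
      rw [this]
    · refine le_trans (le_of_eq ?_) (h2.trans hle)
      congr 1
      unfold Zf1
      have : (Phi1 l mu r - Phi1 l mus r) / (mu - mus) = (Phi1 l mus r - Phi1 l mu r) / (mus - mu) := by
        field_simp; ring
      rw [this]

end Crest.Agent.R086.XExt
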