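import Crest.Agent.R086.R3Defs
import Crest.Agent.R086.CInst
import Crest.Agent.R086.XExt2_Mg
import Crest.Agent.R086.C4Phi
import Crest.Agent.R086.CRegB
import Crest.Agent.R086.CReg
import Crest.Agent.R086.CSym_Mg
import Mathlib
import Crest.Agent.R086.C34Defs
import Crest.Agent.R086.ABIface
import Crest.Agent.R086.Phi
import Crest.Agent.R086.XOut
import Crest.Agent.R086.C4Red
import Crest.Agent.R086.C4Defs
import Crest.Agent.R086.XAlg
import Crest.Agent.R086.CLift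
import Crest.Agent.R086.R1Final_Mg
import Crest.Agent.R086.R3Ev_Mg
import Crest.Agent.R086.CaseII
import Crest.Agent.R086.CaseIIIc
import Crest.Agent.R086.CIIIb
import Crest.Agent.R086.C4BC
import Crest.Agent.R086.C4NTMain
import Crest.Agent.R086.C4Inst
import Crest.Agent.R086.Defs
import Crest.Agent.R086.SHFinal
import Crest.Agent.R086.BCIface

-- ▼ part R086/R3Sol
section

/-!
Row 86, Part C, regime (R3): node SOL (helper310).
-/

set_option autoImplicit false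

namespace Crest.Agent.R086.R3

theorem solStmt : SolStmt := fun _ P h0 _ _ _ _ _ hE _ _ => CInst.sol P (fun r _ => h0 r) hE

end Crest.Agent.R086.R3
end

-- ▼ part R086/R3Bdry
section

/-!
Row 86, Part C, regime (R3), node BDRY (helper35): EXT0 errors at `rb` imply the boundary relations.
-/

set_option autoImplicit false

open MeasureTheory Complex Set Filter Topology

namespace Crest.Agent.R086.R3Bdry

open CCore CEx R3

local notation "conj" => starRingEnd ℂ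

theorem algF {q q1 F F1 c ph ph1 : ℂ} {rb : ℝ} (hq : q ≠ 0) (hph : ph ≠ 0) (hrb : rb ≠ 0) :
    ((F1 - F / q * q1) / q) - ((((11 / (2 * rb) : ℝ) : ℂ) + I * ((rb / 4 : ℝ) : ℂ) + ph1 / ph)
      - (((11 / rb + 2 * (q1 / q).re) / 2 : ℝ) : ℂ)
      - I * (((2 * (q1 / q).im + rb / 2) / 2 : ℝ) : ℂ)) * (F / q)
      = ((F1 - c * ph1) - (ph1 / ph) * (F - c * ph)) / q := by
  set x : ℝ := (q1 / q).re
  set y : ℝ := (q1 / q).im
  have hz : q1 / q = x + y * I := (Complex.re_add_im (q1 / q)).symm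
  have h1 : q1 = (x + y * I) * q := by rw [← hz]; field_simp
  have hrb' : (rb : ℂ) ≠ 0 := by exact_mod_cast hrb
  rw [h1]
  push_cast
  field_simp
  ring

theorem algG {q q1 F F1 c ph ph1 : ℂ} {rb : ℝ} (hq : q ≠ 0) (hph : ph ≠ 0) (hrb : rb ≠ 0) :
    ((F1 - F / conj q * conj q1) / conj q) -
      (conj ((((11 / (2 * rb) : ℝ) : ℂ) + I * ((rb / 4 : ℝ) : ℂ) + ph1 / ph))
      - (((11 / rb + 2 * (q1 / q).re) / 2 : ℝ) : ℂ)
      + I * (((2 * (q1 / q).im + rb / 2) / 2 : ℝ) : ℂ)) * (F / conj q)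
      = ((F1 - c * conj ph1) - (conj (ph1 / ph)) * (F - c * conj ph)) / conj q := by
  have h := algF (q := q) (q1 := q1) (F := conj F) (F1 := conj F1) (c := conj c) (ph := ph)
    (ph1 := ph1) (rb := rb) hq hph hrb
  have h2 := congrArg (starRingEnd ℂ) h
  simp only [map_sub, map_mul, map_div₀, map_add, Complex.conj_conj, Complex.conj_I,
    Complex.conj_ofReal] at h2 ⊢
  rw [← h2]
  ring

theorem normBound {q F F1 c ph ph1 : ℂ} {er N hn : ℝ} (hq : 1 / 2 ≤ ‖q‖) (her : 0 ≤ er)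
    (hN : 0 ≤ N) (e1 : ‖F - c * ph‖ ≤ er * N) (e2 : ‖F1 - c * ph1‖ ≤ er * N)
    (hh : ‖ph1 / ph‖ ≤ hn - 1) :
    ‖((F1 - c * ph1) - (ph1 / ph) * (F - c * ph)) / q‖ ^ 2 ≤ 4 * er ^ 2 * hn ^ 2 * N ^ 2 := by
  have h1 : ‖(F1 - c * ph1) - (ph1 / ph) * (F - c * ph)‖ ≤ hn * (er * N) := by
    refine (norm_sub_le _ _).trans ?_
    rw [norm_mul]
    have h0 : 0 ≤ er * N := by positivity
    have := mul_le_mul hh e1 (norm_nonneg _) (le_trans (norm_nonneg _) hh)
    nlinarith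
  have hq0 : 0 < ‖q‖ := by linarith
  have h2 : ‖((F1 - c * ph1) - (ph1 / ph) * (F - c * ph)) / q‖ ≤ 2 * (hn * (er * N)) := by
    rw [norm_div, div_le_iff₀ hq0]
    have h3 : 0 ≤ hn * (er * N) := (norm_nonneg _).trans h1
    nlinarith
  calc ‖((F1 - c * ph1) - (ph1 / ph) * (F - c * ph)) / q‖ ^ 2 ≤ (2 * (hn * (er * N))) ^ 2 :=
        pow_le_pow_left₀ (norm_nonneg _) h2 2
    _ = 4 * er ^ 2 * hn ^ 2 * N ^ 2 := by ring

theorem cont_q {n : ℕ} (P : Profile n) : Continuous P.q :=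
  P.smooth.continuous.comp (continuous_id.smul continuous_const)

/-- `∫_0^{rb} r¹¹(|F|²+|G|²) = 2 (‖S‖² + ‖D‖²)` -/
theorem L2_eq {n : ℕ} (P : Profile n) (hq : ∀ r, P.q r ≠ 0) {F G : ℝ → ℂ} (hF : Continuous F)
    (hG : Continuous G) (rb : ℝ) :
    ∫ r in (0 : ℝ)..rb, r ^ 11 * (‖F r‖ ^ 2 + ‖G r‖ ^ 2) =
      2 * (L2 (w P.q) (Sf P F G) rb + L2 (w P.q) (Df P F G) rb) := by
  have hqc := cont_q P
  have hqb : Continuous fun r => conj (P.q r) := Complex.continuous_conj.comp hqc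
  have hqb0 : ∀ r, conj (P.q r) ≠ 0 := fun r => by simpa using hq r
  have hS : Continuous (Sf P F G) :=
    ((hF.div hqc hq).add (hG.div hqb hqb0)).div_const 2
  have hD : Continuous (Df P F G) :=
    ((hF.div hqc hq).sub (hG.div hqb hqb0)).div_const 2
  have hw : Continuous (w P.q) := by
    unfold CCore.w
    exact (hqc.norm.pow 2).mul (continuous_id.pow 11)
  unfold L2
  have i1 : IntervalIntegrable (fun r => w P.q r * ‖Sf P F G r‖ ^ 2) volume 0 rb :=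
    (hw.mul (hS.norm.pow 2)).intervalIntegrable _ _
  have i2 : IntervalIntegrable (fun r => w P.q r * ‖Df P F G r‖ ^ 2) volume 0 rb :=
    (hw.mul (hD.norm.pow 2)).intervalIntegrable _ _
  rw [← intervalIntegral.integral_add i1 i2, ← intervalIntegral.integral_const_mul]
  refine intervalIntegral.integral_congr fun r _ => ?_
  simp only [CCore.w, Sf, Df]
  have h1 : ‖(F r / P.q r + G r / conj (P.q r)) / 2‖ ^ 2 + ‖(F r / P.q r - G r / conj (P.q r)) / 2‖ ^ 2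
      = (‖F r / P.q r‖ ^ 2 + ‖G r / conj (P.q r)‖ ^ 2) / 2 := by
    have hp := parallelogram_law_with_norm ℝ (F r / P.q r) (G r / conj (P.q r))
    rw [norm_div, norm_div, div_pow, div_pow]
    have h2 : ‖(2 : ℂ)‖ = 2 := by simp
    rw [h2]
    nlinarith
  have hn : ‖P.q r‖ ≠ 0 := norm_ne_zero_iff.2 (hq r)
  have h2 : ‖F r / P.q r‖ ^ 2 = ‖F r‖ ^ 2 / ‖P.q r‖ ^ 2 := by rw [norm_div, div_pow]
  have h3 : ‖G r / conj (P.q r)‖ ^ 2 = ‖G r‖ ^ 2 / ‖P.q r‖ ^ 2 := by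
    rw [norm_div, div_pow, RCLike.norm_conj]
  have h4 : ‖P.q r‖ ^ 2 * r ^ 11 * ‖(F r / P.q r + G r / conj (P.q r)) / 2‖ ^ 2 +
      ‖P.q r‖ ^ 2 * r ^ 11 * ‖(F r / P.q r - G r / conj (P.q r)) / 2‖ ^ 2
      = ‖P.q r‖ ^ 2 * r ^ 11 * ((‖F r / P.q r‖ ^ 2 + ‖G r / conj (P.q r)‖ ^ 2) / 2) := by
    rw [← h1]; ring
  rw [h4, h2, h3]
  field_simp

theorem NB_sq {n : ℕ} (P : Profile n) (hq : ∀ r, P.q r ≠ 0) {F G : ℝ → ℂ} (hF : Continuous F)
    (hG : Continuous G) {r1 rb : ℝ} (h1 : 0 < r1) (h2 : r1 ≤ rb) :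
    NB r1 F G ^ 2 ≤ 2 * (L2 (w P.q) (Sf P F G) rb + L2 (w P.q) (Df P F G) rb) := by
  have hc : Continuous fun r : ℝ => r ^ 11 * (‖F r‖ ^ 2 + ‖G r‖ ^ 2) := by fun_prop
  have hnn : ∀ r : ℝ, 0 ≤ r → 0 ≤ r ^ 11 * (‖F r‖ ^ 2 + ‖G r‖ ^ 2) := fun r hr => by positivity
  have h3 : 0 ≤ ∫ r in (0 : ℝ)..r1, r ^ 11 * (‖F r‖ ^ 2 + ‖G r‖ ^ 2) :=
    intervalIntegral.integral_nonneg h1.le fun r hr => hnn r hr.1
  rw [NB, Real.sq_sqrt h3, ← L2_eq P hq hF hG rb]
  have h4 : 0 ≤ ∫ r in r1..rb, r ^ 11 * (‖F r‖ ^ 2 + ‖G r‖ ^ 2) :=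
    intervalIntegral.integral_nonneg h2 fun r hr => hnn r (h1.le.trans hr.1)
  have h5 := intervalIntegral.integral_add_adjacent_intervals (μ := volume) (hc.intervalIntegrable 0 r1)
    (hc.intervalIntegrable r1 rb)
  linarith

/-- **NODE BDRY** -/
theorem bdryStmt : BdryStmt := by
  intro n P hq l lam F G hF hG r1 rb er c1 c2 hr1 hr1b hrb1 hrb4 her hqb hP1 hP2 e1 e2 e3 e4
  have hrb0 : rb ≠ 0 := by positivity
  have hFc := hF.continuous
  have hGc := hG.continuous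
  set p1 := JCx.Phi l (P.mu lam) rb
  set p11 := JCx.Phi1 l (P.mu lam) rb
  set p2 := JCx.Phi l (P.mu (conj lam)) rb
  set p21 := JCx.Phi1 l (P.mu (conj lam)) rb
  set h1 := hh l (P.mu lam) rb with hh1
  set h2 := hh l (P.mu (conj lam)) rb with hh2
  set N := NB r1 F G
  have hN : 0 ≤ N := Real.sqrt_nonneg _
  have hNB := NB_sq P hq hFc hGc hr1 hr1b
  set Lt := L2 (w P.q) (Sf P F G) rb + L2 (w P.q) (Df P F G) rb
  have hLt : 0 ≤ Lt := by nlinarith [sq_nonneg N]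
  have hsmall : ‖((11 / (2 * rb) : ℝ) : ℂ) + I * ((rb / 4 : ℝ) : ℂ)‖ ≤ 13 / 2 := by
    refine (norm_add_le _ _).trans ?_
    rw [norm_mul, Complex.norm_I, one_mul, Complex.norm_real, Complex.norm_real,
      Real.norm_of_nonneg (by positivity), Real.norm_of_nonneg (by positivity)]
    have : 11 / (2 * rb) ≤ 11 / 2 := by
      rw [div_le_div_iff₀ (by positivity) (by norm_num)]; nlinarith
    linarith
  have hb1 : ‖p11 / p1‖ ≤ (8 + ‖h1‖ + ‖h2‖) - 1 := by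
    have : p11 / p1 = h1 - (((11 / (2 * rb) : ℝ) : ℂ) + I * ((rb / 4 : ℝ) : ℂ)) := by
      rw [hh1, hh]; ring
    rw [this]
    refine (norm_sub_le _ _).trans ?_
    linarith [norm_nonneg h2]
  have hb2 : ‖p21 / p2‖ ≤ (8 + ‖h1‖ + ‖h2‖) - 1 := by
    have : p21 / p2 = h2 - (((11 / (2 * rb) : ℝ) : ℂ) + I * ((rb / 4 : ℝ) : ℂ)) := by
      rw [hh2, hh]; ring
    rw [this]
    refine (norm_sub_le _ _).trans ?_
    linarith [norm_nonneg h1]
  have hb2' : ‖conj p21 / conj p2‖ ≤ (8 + ‖h1‖ + ‖h2‖) - 1 := by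
    rw [← map_div₀, RCLike.norm_conj]; exact hb2
  have hfin : ∀ z : ℝ, z ≤ 4 * er ^ 2 * (8 + ‖h1‖ + ‖h2‖) ^ 2 * N ^ 2 →
      z ≤ 8 * er ^ 2 * (8 + ‖h1‖ + ‖h2‖) ^ 2 * Lt := by
    intro z hz
    refine hz.trans ?_
    have h0 : 0 ≤ 4 * er ^ 2 * (8 + ‖h1‖ + ‖h2‖) ^ 2 := by positivity
    have := mul_le_mul_of_nonneg_left hNB h0
    linarith
  refine ⟨by positivity, ?_, ?_⟩
  · have ea : (S1f P F G rb + D1f P F G rb) = (deriv F rb - F rb / P.q rb * deriv P.q rb) / P.q rb := by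
      rw [S1f, D1f, quo1]; ring
    have eb : (Sf P F G rb + Df P F G rb) = F rb / P.q rb := by
      rw [Sf, Df]; ring
    rw [ea, eb]
    have h3 := algF (q := P.q rb) (q1 := deriv P.q rb) (F := F rb) (F1 := deriv F rb) (c := c1)
      (ph := p1) (ph1 := p11) (rb := rb) (hq rb) hP1 hrb0
    have h4 := normBound (q := P.q rb) (F := F rb) (F1 := deriv F rb) (c := c1) (ph := p1)
      (ph1 := p11) hqb her hN e1 e2 hb1
    refine hfin _ ?_
    rw [← h3] at h4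
    exact h4
  · have ea : (S1f P F G rb - D1f P F G rb) =
        (deriv G rb - G rb / conj (P.q rb) * conj (deriv P.q rb)) / conj (P.q rb) := by
      rw [S1f, D1f, quo1c]; ring
    have eb : (Sf P F G rb - Df P F G rb) = G rb / conj (P.q rb) := by
      rw [Sf, Df]; ring
    rw [ea, eb]
    have h3 := algG (q := P.q rb) (q1 := deriv P.q rb) (F := G rb) (F1 := deriv G rb) (c := c2)
      (ph := p2) (ph1 := p21) (rb := rb) (hq rb) hP2 hrb0
    have hqb' : 1 / 2 ≤ ‖conj (P.q rb)‖ := by rw [RCLike.norm_conj]; exact hqb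
    have h4 := normBound (q := conj (P.q rb)) (F := G rb) (F1 := deriv G rb) (c := c2)
      (ph := conj p2) (ph1 := conj p21) hqb' her hN e3 e4 hb2'
    refine hfin _ ?_
    rw [map_div₀] at h3
    rw [← h3] at h4
    exact h4

end Crest.Agent.R086.R3Bdry
end

-- ▼ part R086/ExtC
section

/-!
Row 86, node EXT (helper384, with 684's scalar form): final theorems for `JCx.Phi`, unconditional.
-/

set_option autoImplicit false

open MeasureTheory Complex Set Filter Topology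

namespace Crest.Agent.R086.ExtA

section
variable {om0 R : ℝ} {U : ℝ → ℂ} (B : BData om0 R U)

theorem ext0_final (hR0 : 0 < R) (hR : B.REG) : B.EXT0 JCx.Phi JCx.Phi1 :=
  ext0 B XExt.scalExt0 hR0 hR

theorem phi_ne (l : ℕ) (m : ℂ) (hm : 0 < m.re) (r0 : ℝ) (_ : 0 < r0) :
    ∃ r, r0 < r ∧ JCx.Phi l m r ≠ 0 := by
  have h : -1 - (l : ℝ) / 2 < m.re := by
    have : (0 : ℝ) ≤ l := Nat.cast_nonneg l
    linarith
  obtain ⟨r, hr⟩ := ((eventually_gt_atTop r0).and (JCx.Phi_eventually_ne_zero h)).exists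
  exact ⟨r, hr.1, hr.2⟩

theorem exts_final (hR0 : 0 < R) (hSym : SymStmt) (hR : B.REG) : B.EXTs' JCx.Phi JCx.Phi1 :=
  exts' B XExt.scalExts hSym phiFacts phi_ne hR0 hR

end

section
variable {om0 R : ℝ} {U : ℝ → ℂ}

theorem reg (hL : LimitProfile om0 R U) (B : BData om0 R U) : B.REG :=
  CRegB.reg_of CSym.symStmt B (by have := hL.R_lo; linarith)
    (CReg.regStmt Res.smoStmt (by have := hL.R_lo; linarith) B)

/-- **EXT0, unconditional** -/
theorem ext0U (hL : LimitProfile om0 R U) (B : BData om0 R U) : B.EXT0 JCx.Phi JCx.Phi1 :=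
  ext0_final B (by have := hL.R_lo; linarith) (reg hL B)

/-- **EXTs', unconditional** -/
theorem extsU (hL : LimitProfile om0 R U) (B : BData om0 R U) : B.EXTs' JCx.Phi JCx.Phi1 :=
  exts_final B (by have := hL.R_lo; linarith) CSym.symStmt (reg hL B)

end

end Crest.Agent.R086.ExtA
end

-- ▼ part R086/C4Fin
section

/-!
Row 86, Part C, node ALG of C4 (helper512): the limit linear algebra.
-/

set_option autoImplicit false

open Complex Set Filter Topology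

namespace Crest.Agent.R086.C4Fin

local notation "conj" => starRingEnd ℂ

/-- the nondegenerate linear algebra step -/
theorem alg_nondeg {p q pt qt c1 c2 : ℂ} (hD : p * qt + pt * q ≠ 0)
    (h1 : c1 * p + c2 * pt = 0) (h2 : c1 * q - c2 * qt = 0) : c1 = 0 ∧ c2 = 0 := by
  constructor
  · have : c1 * (p * qt + pt * q) = 0 := by linear_combination qt * h1 + pt * h2
    exact (mul_eq_zero.1 this).resolve_right hD
  · have : c2 * (p * qt + pt * q) = 0 := by linear_combination q * h1 - p * h2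
    exact (mul_eq_zero.1 this).resolve_right hD

/-- the simple-zero linear algebra step -/
theorem alg_simple {p q pt qt p' q' pt' qt' g1 g2 c1 c2 a : ℂ}
    (hD : p * qt + pt * q = 0) (hD' : p' * qt + p * qt' + (pt' * q + pt * q') ≠ 0)
    (hg : g1 ≠ 0 ∨ g2 ≠ 0) (hg1 : g1 * p + g2 * pt = 0) (hg2 : g1 * q - g2 * qt = 0)
    (h1 : c1 * p + c2 * pt + a * (g1 * p' + g2 * pt') = 0)
    (h2 : c1 * q - c2 * qt + a * (g1 * q' - g2 * qt') = 0) :
    a = 0 ∧ ∃ t : ℂ, c1 = t * g1 ∧ c2 = t * g2 := by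
  have e1 : a * (p' * qt + p * qt' + (pt' * q + pt * q')) * g1 = 0 := by
    linear_combination qt * h1 + pt * h2 - c1 * hD + a * qt' * hg1 + a * pt' * hg2
  have e2 : a * (p' * qt + p * qt' + (pt' * q + pt * q')) * g2 = 0 := by
    linear_combination q * h1 - p * h2 - c2 * hD + a * q' * hg1 - a * p' * hg2
  have ha : a = 0 := by
    rcases hg with h | h
    · have := (mul_eq_zero.1 e1).resolve_right h
      exact (mul_eq_zero.1 this).resolve_right hD'
    · have := (mul_eq_zero.1 e2).resolve_right h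
      exact (mul_eq_zero.1 this).resolve_right hD'
  refine ⟨ha, ?_⟩
  rw [ha] at h1 h2
  have k : c1 * g2 - c2 * g1 = 0 := by
    by_contra hk
    have k1 : (c1 * g2 - c2 * g1) * p = 0 := by linear_combination g2 * h1 - c2 * hg1
    have k2 : (c1 * g2 - c2 * g1) * pt = 0 := by linear_combination c1 * hg1 - g1 * h1
    have k3 : (c1 * g2 - c2 * g1) * q = 0 := by linear_combination g2 * h2 - c2 * hg2
    have k4 : (c1 * g2 - c2 * g1) * qt = 0 := by linear_combination g1 * h2 - c1 * hg2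
    have z1 := (mul_eq_zero.1 k1).resolve_left hk
    have z2 := (mul_eq_zero.1 k2).resolve_left hk
    have z3 := (mul_eq_zero.1 k3).resolve_left hk
    have z4 := (mul_eq_zero.1 k4).resolve_left hk
    apply hD'
    rw [z1, z2, z3, z4]
    ring
  rcases hg with h | h
  · refine ⟨c1 / g1, by field_simp, ?_⟩
    field_simp
    linear_combination -k
  · refine ⟨c2 / g2, ?_, by field_simp⟩
    field_simp
    linear_combination k

section
variable {Phi Phi1 : ℕ → ℂ → ℝ → ℂ} {om0 R : ℝ} {l : ℕ}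

/-- (ALG1) -/
theorem alg1 {lam c1 c2 : ℂ} (hD : DetL Phi Phi1 om0 R l lam ≠ 0)
    (h1 : c1 * Phi l (lam - I * om0) R + c2 * conj (Phi l (conj lam - I * om0) R) = 0)
    (h2 : c1 * PsiL Phi Phi1 R l (lam - I * om0) - c2 * conj (PsiL Phi Phi1 R l (conj lam - I * om0)) = 0) :
    c1 = 0 ∧ c2 = 0 := by
  unfold DetL at hD
  exact alg_nondeg hD h1 h2

theorem isOpen_quarter : IsOpen {m : ℂ | -(1 / 4) < m.re} := isOpen_lt continuous_const continuous_re

theorem PsiL_diffOn (hP : PhiFacts Phi Phi1) (hR : 0 < R) :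
    DifferentiableOn ℂ (fun m => PsiL Phi Phi1 R l m) {m : ℂ | -(1 / 4) < m.re} := by
  unfold PsiL
  exact (hP.hol1 l R hR).sub ((hP.hol l R hR).const_mul _)

/-- the derivative of `lam ↦ f (lam - I om0)` -/
theorem hasDerivAt_shift {f : ℂ → ℂ} {om0 : ℝ} {ls : ℝ} {f' : ℂ}
    (hf : HasDerivAt f f' ((ls : ℂ) - I * om0)) :
    HasDerivAt (fun lam : ℂ => f (lam - I * om0)) f' (ls : ℂ) := by
  have h1 : HasDerivAt (fun lam : ℂ => lam - I * om0) 1 (ls : ℂ) := (hasDerivAt_id _).sub_const _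
  have := HasDerivAt.comp (ls : ℂ) (h₂ := f) (h := fun lam : ℂ => lam - I * om0) hf h1
  rw [mul_one] at this
  exact this

/-- the derivative of `lam ↦ conj (f (conj lam - I om0))` -/
theorem hasDerivAt_shift_conj {f : ℂ → ℂ} {om0 : ℝ} {ls : ℝ} {f' : ℂ}
    (hf : HasDerivAt f f' ((ls : ℂ) - I * om0)) :
    HasDerivAt (fun lam : ℂ => conj (f (conj lam - I * om0))) (conj f') (ls : ℂ) := by
  have h1 := hasDerivAt_shift hf
  have h2 := h1.conj_conj
  simp only [Complex.conj_ofReal] at h2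
  exact h2

/-- derivative of `DetL` at a real point -/
theorem hasDerivAt_DetL (hP : PhiFacts Phi Phi1) (hR : 0 < R) {ls : ℝ} (hls : 0 ≤ ls) :
    HasDerivAt (DetL Phi Phi1 om0 R l)
      (deriv (fun m => Phi l m R) ((ls : ℂ) - I * om0) *
          conj (PsiL Phi Phi1 R l ((ls : ℂ) - I * om0)) +
        Phi l ((ls : ℂ) - I * om0) R *
          conj (deriv (fun m => PsiL Phi Phi1 R l m) ((ls : ℂ) - I * om0)) +
      (conj (deriv (fun m => Phi l m R) ((ls : ℂ) - I * om0)) *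
          PsiL Phi Phi1 R l ((ls : ℂ) - I * om0) +
        conj (Phi l ((ls : ℂ) - I * om0) R) *
          deriv (fun m => PsiL Phi Phi1 R l m) ((ls : ℂ) - I * om0))) (ls : ℂ) := by
  have hmem : ((ls : ℂ) - I * om0) ∈ {m : ℂ | -(1 / 4) < m.re} := by
    simp only [Set.mem_ofPred_eq, sub_re, ofReal_re, mul_re, I_re, zero_mul, I_im, ofReal_im, mul_zero,
      sub_zero]
    linarith
  have d1 : HasDerivAt (fun m => Phi l m R) (deriv (fun m => Phi l m R) ((ls : ℂ) - I * om0))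
      ((ls : ℂ) - I * om0) :=
    ((hP.hol l R hR).differentiableAt (isOpen_quarter.mem_nhds hmem)).hasDerivAt
  have d2 : HasDerivAt (fun m => PsiL Phi Phi1 R l m)
      (deriv (fun m => PsiL Phi Phi1 R l m) ((ls : ℂ) - I * om0)) ((ls : ℂ) - I * om0) :=
    ((PsiL_diffOn hP hR).differentiableAt (isOpen_quarter.mem_nhds hmem)).hasDerivAt
  have s1 := hasDerivAt_shift d1
  have s2 := hasDerivAt_shift d2
  have t1 := hasDerivAt_shift_conj d1
  have t2 := hasDerivAt_shift_conj d2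
  have := (s1.mul t2).add (t1.mul s2)
  simp only [Complex.conj_ofReal] at this
  exact this

/-- (ALG2) -/
theorem alg2 (hP : PhiFacts Phi Phi1) (hR : 0 < R) {ls : ℝ} (hls : 0 ≤ ls)
    (hD : DetL Phi Phi1 om0 R l (ls : ℂ) = 0) (hD' : deriv (DetL Phi Phi1 om0 R l) (ls : ℂ) ≠ 0)
    {ga c1 c2 al : ℂ} (hga : ga ≠ 0)
    (hg1 : ga * Phi l ((ls : ℂ) - I * om0) R + conj (ga * Phi l ((ls : ℂ) - I * om0) R) = 0)
    (hg2 : ga * PsiL Phi Phi1 R l ((ls : ℂ) - I * om0)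
      - conj (ga * PsiL Phi Phi1 R l ((ls : ℂ) - I * om0)) = 0)
    (h1 : c1 * Phi l ((ls : ℂ) - I * om0) R + c2 * conj (Phi l ((ls : ℂ) - I * om0) R)
      + al * (ga * deriv (fun m => Phi l m R) ((ls : ℂ) - I * om0)
        + conj (ga * deriv (fun m => Phi l m R) ((ls : ℂ) - I * om0))) = 0)
    (h2 : c1 * PsiL Phi Phi1 R l ((ls : ℂ) - I * om0)
      - c2 * conj (PsiL Phi Phi1 R l ((ls : ℂ) - I * om0))
      + al * (ga * deriv (fun m => PsiL Phi Phi1 R l m) ((ls : ℂ) - I * om0)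
        - conj (ga * deriv (fun m => PsiL Phi Phi1 R l m) ((ls : ℂ) - I * om0))) = 0) :
    al = 0 ∧ ∃ c : ℂ, c1 = c * ga ∧ c2 = c * conj ga := by
  have hd := hasDerivAt_DetL (om0 := om0) (l := l) hP hR hls
  rw [hd.deriv] at hD'
  unfold DetL at hD
  rw [Complex.conj_ofReal] at hD
  simp only [map_mul] at hg1 hg2 h1 h2
  exact alg_simple hD hD' (Or.inl hga) hg1 hg2 h1 h2

end

end Crest.Agent.R086.C4Fin
end

-- ▼ part R086/C4FinAux
section

/-!
Row 86, Part C, node C4Fin (helper512): the final limit / linear algebra step for bounded `(lam, l)`.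
-/

set_option autoImplicit false

open Complex Set Filter Topology

namespace Crest.Agent.R086.C4FinAux

open Crest.Agent.R086.JCx Crest.Agent.R086.XOut

local notation "conj" => starRingEnd ℂ

/-! ### identification of `A.fo` with `Phi` -/



/-! ### linear algebra -/


/-! ### derivative in `mu` -/


/-- the open half plane where everything is defined -/
def HP (l : ℕ) : Set ℂ := {mu : ℂ | -1 - (l : ℝ) / 2 < mu.re}








/-- `(Phi, Phi1)` never vanishes. -/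
theorem Phi_ne {l : ℕ} {mu : ℂ} (h : mu ∈ HP l) {r : ℝ} (hr : 0 < r) :
    Phi l mu r ≠ 0 ∨ Phi1 l mu r ≠ 0 := by
  by_contra hcon
  push Not at hcon
  have hF : Free 0 ((l : ℂ) * (l + 10)) mu (Phi l mu) (Phi1 l mu) :=
    ⟨fun r hr => Phi_hasDerivAt h hr, fun r hr => Phi1_hasDerivAt h hr⟩
  have hZ : Free 0 ((l : ℂ) * (l + 10)) mu (fun _ => 0) (fun _ => 0) :=
    ⟨fun r _ => hasDerivAt_const r 0, fun r _ => by simpa using hasDerivAt_const r (0 : ℂ)⟩
  have hu := hF.unique le_rfl hZ hr hcon.1 hcon.2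
  obtain ⟨r1, h1, h2⟩ := ((Phi_eventually_ne_zero h).and (eventually_gt_atTop 0)).exists
  exact h1 (hu r1 h2).1

end Crest.Agent.R086.C4FinAux
end

-- ▼ part R086/C4NS
section

/-!
Row 86 (S0114), Part C, node N7/NS (helper684): source free pairs away from the symmetry values vanish for
all large `j`, uniformly for `‖lam‖ ≤ La` (contradiction along an ultrafilter).
-/

set_option autoImplicit false

open MeasureTheory Complex Set Filter Topology
open scoped ContDiff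

namespace Crest.Agent.R086.C4NS

open Crest.Agent.R086.XExt

local notation "conj" => starRingEnd ℂ

/-! ### `NB` -/

theorem NB_nonneg (rho : ℝ) (F G : ℝ → ℂ) : 0 ≤ NB rho F G := Real.sqrt_nonneg _

theorem NB_smul (rho : ℝ) (t : ℂ) (F G : ℝ → ℂ) :
    NB rho (fun r => t * F r) (fun r => t * G r) = ‖t‖ * NB rho F G := by
  unfold NB
  have e : ∀ r : ℝ, r ^ 11 * (‖t * F r‖ ^ 2 + ‖t * G r‖ ^ 2)
      = ‖t‖ ^ 2 * (r ^ 11 * (‖F r‖ ^ 2 + ‖G r‖ ^ 2)) := fun r => by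
    rw [norm_mul, norm_mul]; ring
  simp only [e]
  rw [intervalIntegral.integral_const_mul, Real.sqrt_mul (by positivity),
    Real.sqrt_sq (norm_nonneg _)]

theorem c_dens {F G : ℝ → ℂ} (hF : Continuous F) (hG : Continuous G) :
    Continuous (fun r : ℝ => r ^ 11 * (‖F r‖ ^ 2 + ‖G r‖ ^ 2)) := by fun_prop

theorem NB_mono {F G : ℝ → ℂ} (hF : Continuous F) (hG : Continuous G) {a b : ℝ} (ha : 0 ≤ a)
    (hab : a ≤ b) : NB a F G ≤ NB b F G := by
  unfold NB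
  refine Real.sqrt_le_sqrt ?_
  have hc := c_dens hF hG
  rw [← intervalIntegral.integral_add_adjacent_intervals (hc.intervalIntegrable 0 a)
    (hc.intervalIntegrable a b)]
  have : 0 ≤ ∫ r in a..b, r ^ 11 * (‖F r‖ ^ 2 + ‖G r‖ ^ 2) := by
    refine intervalIntegral.integral_nonneg hab fun r hr => ?_
    have : 0 ≤ r := ha.trans hr.1
    positivity
  linarith

/-! ### scaling of source free pairs -/

theorem deriv_mul_const' {F : ℝ → ℂ} (hF : ContDiff ℝ 1 F) (t : ℂ) :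
    deriv (fun r => t * F r) = fun r => t * deriv F r := by
  funext r
  exact ((hF.differentiable (by norm_num) r).hasDerivAt.const_mul t).deriv

theorem rlap_smul (l : ℕ) {F : ℝ → ℂ} (hF : ContDiff ℝ 2 F) (t : ℂ) (r : ℝ) :
    rlap l (fun r => t * F r) r = t * rlap l F r := by
  unfold rlap
  rw [deriv_mul_const' (hF.of_le (by norm_num)) t,
    deriv_mul_const' (C4Red.contDiff_deriv hF) t]
  ring

theorem modeFn_smul (H : R12 → ℝ) (F : ℝ → ℂ) (t : ℂ) :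
    modeFn H (fun r => t * F r) = fun y => t * modeFn H F y := by
  funext y
  unfold modeFn
  ring

theorem pair_smul {n : ℕ} {P : Profile n} {l : ℕ} {H : R12 → ℝ} {lam : ℂ} {F G : ℝ → ℂ}
    (h : P.Pair l H lam 0 (fun _ => 0) F G) (t : ℂ) :
    P.Pair l H lam 0 (fun _ => 0) (fun r => t * F r) (fun r => t * G r) := by
  have k := C4Red.two_le_N0
  have hF : ContDiff ℝ 2 F := h.cF.of_le k
  have hG : ContDiff ℝ 2 G := h.cG.of_le k
  refine ⟨h.sharm, h.nrm, contDiff_const.mul h.cF, contDiff_const.mul h.cG, ?_, ?_, ?_, ?_, ?_, ?_⟩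
  · intro r; rw [h.pF r]; ring
  · intro r; rw [h.pG r]; ring
  · rw [modeFn_smul]
    obtain ⟨a, ha⟩ := h.xF
    exact ⟨_, (rep_const_mul t ha).1⟩
  · rw [modeFn_smul]
    obtain ⟨a, ha⟩ := h.xG
    exact ⟨_, (rep_const_mul t ha).1⟩
  · intro r hr
    have e := h.eqF r hr
    unfold Profile.rgen1 at e ⊢
    rw [rlap_smul l hF t r, deriv_mul_const' (hF.of_le (by norm_num)) t]
    linear_combination t * e
  · intro r hr
    have e := h.eqG r hr
    unfold Profile.rgen2 at e ⊢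
    rw [rlap_smul l hG t r, deriv_mul_const' (hG.of_le (by norm_num)) t]
    simp only [map_zero] at e ⊢
    linear_combination t * e

/-! ### vanishing from `REG` -/

theorem XBd_zero {f : R12 → ℂ} {M : ℝ} (h : XBd 1 f M) (hM : M ≤ 0) (y : R12) : f y = 0 := by
  obtain ⟨a, ha, hb⟩ := h
  have h1 := norm_iteratedFDeriv_le_xn ha (j := 0) (m := 1) (by norm_num) le_rfl y
  rw [norm_iteratedFDeriv_zero] at h1
  have h2 : xn 1 a ≤ M := hb
  exact norm_le_zero_iff.1 (h1.trans (h2.trans hM))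

theorem exists_H_ne {H : R12 → ℝ} (hn : (∫ w : S11, (H w) ^ 2 ∂sig) = 1) : ∃ w : S11, H w ≠ 0 := by
  by_contra hcon
  push Not at hcon
  have : (∫ w : S11, (H w) ^ 2 ∂sig) = 0 := by
    simp [hcon]
  rw [this] at hn
  exact zero_ne_one hn

theorem modeFn_zero {H : R12 → ℝ} (hn : (∫ w : S11, (H w) ^ 2 ∂sig) = 1) {F : ℝ → ℂ}
    (h : ∀ y, modeFn H F y = 0) {r : ℝ} (hr : 0 < r) : F r = 0 := by
  obtain ⟨w, hw⟩ := exists_H_ne hn
  have hw1 : ‖(w : R12)‖ = 1 := by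
    have := w.2
    simpa using this
  have e := h (r • (w : R12))
  unfold modeFn at e
  have e1 : ‖r • (w : R12)‖ = r := by
    rw [norm_smul, hw1, mul_one, Real.norm_of_nonneg hr.le]
  rw [e1, smul_smul, inv_mul_cancel₀ hr.ne', one_smul] at e
  rcases mul_eq_zero.1 e with h | h
  · exact absurd (by exact_mod_cast h) hw
  · exact h

/-! ### nonvanishing of `Phi` -/

theorem Phi_exists_ne {l : ℕ} {m : ℂ} (hm : -(1 / 4) < m.re) {a b : ℝ} (ha : 0 < a) (hab : a < b) :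
    ∃ r ∈ Ioo a b, JCx.Phi l m r ≠ 0 := by
  by_contra hcon
  push Not at hcon
  set c := (a + b) / 2 with hc
  have hca : c ∈ Ioo a b := ⟨by rw [hc]; linarith, by rw [hc]; linarith⟩
  have hc0 : 0 < c := ha.trans hca.1
  have e : JCx.Phi l m =ᶠ[𝓝 c] fun _ => 0 := by
    filter_upwards [Ioo_mem_nhds hca.1 hca.2] with r hr using hcon r hr
  have hd := phiFacts.der l m hm c hc0
  have h1 : JCx.Phi1 l m c = 0 := by
    have := hd.deriv
    rw [e.deriv_eq] at this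
    rw [← this]; simp
  have hH : m ∈ C4FinAux.HP l := by
    show -1 - (l : ℝ) / 2 < m.re
    have : (0 : ℝ) ≤ (l : ℝ) / 2 := by positivity
    linarith
  rcases C4FinAux.Phi_ne hH hc0 with h | h
  · exact h (hcon c hca)
  · exact h h1

theorem Phi_exists_ne2 {l : ℕ} {m m' : ℂ} (hm : -(1 / 4) < m.re) (hm' : -(1 / 4) < m'.re) {a b : ℝ}
    (ha : 0 < a) (hab : a < b) : ∃ r ∈ Ioo a b, JCx.Phi l m r ≠ 0 ∧ JCx.Phi l m' r ≠ 0 := by
  obtain ⟨r, hr, h1⟩ := Phi_exists_ne (l := l) hm ha hab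
  have hr0 : 0 < r := ha.trans hr.1
  have hc : ContinuousAt (JCx.Phi l m) r := (phiFacts.der l m hm r hr0).continuousAt
  have hev : ∀ᶠ x in 𝓝 r, JCx.Phi l m x ≠ 0 ∧ x ∈ Ioo a b :=
    (hc.eventually_ne h1).and (Ioo_mem_nhds hr.1 hr.2)
  obtain ⟨ε, hε, hball⟩ := Metric.eventually_nhds_iff.1 hev
  obtain ⟨x, hx, h2⟩ := Phi_exists_ne (l := l) hm' (a := r) (b := r + ε) hr0 (by linarith)
  have := hball (y := x) (by rw [Real.dist_eq, abs_of_pos (by linarith [hx.1])]; linarith [hx.2])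
  exact ⟨x, this.2, this.1, h2⟩

/-! ### uniform products -/

theorem unif_mul {ι : Type*} {φ : Filter ι} {f : ι → ℝ → ℂ} {g : ℝ → ℂ} {K : Set ℝ}
    (h : TendstoUniformlyOn f g φ K) {M : ℝ} (hM : ∀ r ∈ K, ‖g r‖ ≤ M) {c : ι → ℂ} {c0 : ℂ}
    (hc : Tendsto c φ (𝓝 c0)) {ε : ℝ} (hε : 0 < ε) :
    ∀ᶠ j in φ, ∀ r ∈ K, ‖c j * f j r - c0 * g r‖ ≤ ε := by
  set M' := |M| + 1 with hM'
  have hM0 : 0 < M' := by positivity
  have h1 : ∀ᶠ j in φ, ‖c j - c0‖ < min 1 (ε / (2 * M')) := by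
    have := (Metric.tendsto_nhds.1 hc) (min 1 (ε / (2 * M'))) (by positivity)
    filter_upwards [this] with j hj
    rwa [dist_eq_norm] at hj
  have h2 := (Metric.tendstoUniformlyOn_iff.1 h) (ε / (2 * (‖c0‖ + 1))) (by positivity)
  filter_upwards [h1, h2] with j h1 h2 r hr
  have e1 : c j * f j r - c0 * g r = c j * (f j r - g r) + (c j - c0) * g r := by ring
  rw [e1]
  have a1 : ‖c j‖ ≤ ‖c0‖ + 1 := by
    have : ‖c j - c0‖ ≤ 1 := h1.le.trans (min_le_left _ _)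
    calc ‖c j‖ = ‖c0 + (c j - c0)‖ := by congr 1; ring
      _ ≤ ‖c0‖ + ‖c j - c0‖ := norm_add_le _ _
      _ ≤ ‖c0‖ + 1 := by linarith
  have a2 : ‖f j r - g r‖ ≤ ε / (2 * (‖c0‖ + 1)) := by
    have := (h2 r hr).le
    rwa [dist_comm, dist_eq_norm] at this
  have a3 : ‖c j - c0‖ ≤ ε / (2 * M') := h1.le.trans (min_le_right _ _)
  have a4 : ‖g r‖ ≤ M' := (hM r hr).trans ((le_abs_self M).trans (by rw [hM']; linarith))
  calc ‖c j * (f j r - g r) + (c j - c0) * g r‖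
      ≤ ‖c j‖ * ‖f j r - g r‖ + ‖c j - c0‖ * ‖g r‖ := by
        refine (norm_add_le _ _).trans ?_
        rw [norm_mul, norm_mul]
    _ ≤ (‖c0‖ + 1) * (ε / (2 * (‖c0‖ + 1))) + (ε / (2 * M')) * M' := by
        gcongr
    _ = ε := by field_simp; ring

theorem exists_bound_Icc {f : ℝ → ℂ} {a b : ℝ} (h : ContinuousOn f (Icc a b)) :
    ∃ M, ∀ r ∈ Icc a b, ‖f r‖ ≤ M := isCompact_Icc.exists_bound_of_continuousOn h


section
variable {om0 R : ℝ} {U : ℝ → ℂ} (B : BData om0 R U)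

/-- a normalised source free pair of `B.P j` away from the symmetry values -/
structure Bad (La : ℝ) (l j : ℕ) (lam : ℂ) (H : R12 → ℝ) (F G : ℝ → ℂ) : Prop where
  re : 0 ≤ lam.re
  bd : ‖lam‖ ≤ La
  far : ∀ (ls : ℝ) (e : ℝ → ℂ), (B.P j).IsSym l ls e → 1 / 4 < ‖(ls : ℂ) - lam‖
  pair : (B.P j).Pair l H lam 0 (fun _ => 0) F G
  nb : NB 8 F G = 1

theorem exists_bad (hR8 : R < 8) (hReg : B.REG) (La : ℝ) (l : ℕ) :
    ∀ᶠ j in atTop, ∀ lam : ℂ, 0 ≤ lam.re → ‖lam‖ ≤ La → ¬ C4Red.NS (B.P j) l lam →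
      ∃ (H : R12 → ℝ) (F G : ℝ → ℂ), Bad B La l j lam H F G := by
  obtain ⟨K, hK⟩ := hReg 8 hR8
  filter_upwards [hK] with j hj lam hre hbd hns
  unfold C4Red.NS at hns
  push Not at hns
  obtain ⟨far, H, F, G, hp, r, hr, hne⟩ := hns
  have hx := hj l H lam 0 (fun _ => 0) F G hre hp (Or.inl ⟨rfl, rfl⟩)
  have hpos : 0 < NB 8 F G := by
    rcases (NB_nonneg 8 F G).eq_or_lt with h | h
    · exfalso
      rw [← h] at hx
      have zF : F r = 0 := modeFn_zero hp.nrm (XBd_zero hx.1 (by simp)) hr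
      have zG : G r = 0 := modeFn_zero hp.nrm (XBd_zero hx.2 (by simp)) hr
      exact hne zF zG
    · exact h
  have hp' := pair_smul hp (((NB 8 F G)⁻¹ : ℝ) : ℂ)
  refine ⟨H, _, _, hre, hbd, far, hp', ?_⟩
  rw [NB_smul, Complex.norm_real, Real.norm_of_nonneg (inv_nonneg.2 hpos.le),
    inv_mul_cancel₀ hpos.ne']

theorem mu_tendsto {φ : Filter ℕ} (hφ : φ ≤ atTop) {lam : ℕ → ℂ} {ls : ℂ}
    (h : Tendsto lam φ (𝓝 ls)) :
    Tendsto (fun j => (B.P j).mu (lam j)) φ (𝓝 (ls - I * om0)) := by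
  have hn : Tendsto (fun j => (1 : ℂ) / (B.nn j : ℂ)) φ (𝓝 0) :=
    ((tendsto_one_div_atTop_nhds_zero_nat (𝕜 := ℂ)).comp B.nn_tendsto).mono_left hφ
  have ho : Tendsto (fun j => ((B.P j).om : ℂ)) φ (𝓝 (om0 : ℂ)) :=
    (Complex.continuous_ofReal.tendsto om0).comp (B.om_tendsto.mono_left hφ)
  have := (h.add hn).sub (ho.const_mul I)
  rw [add_zero] at this
  exact this

theorem exp_tendsto {φ : Filter ℕ} (hφ : φ ≤ atTop) {c : ℝ} (hc : 0 < c) (A : ℝ) :
    Tendsto (fun j => Real.exp (-c * B.nn j) * A) φ (𝓝 0) := by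
  have h1 : Tendsto (fun j => (B.nn j : ℝ)) atTop atTop :=
    tendsto_natCast_atTop_atTop.comp B.nn_tendsto
  have h2 : Tendsto (fun j => c * (B.nn j : ℝ)) atTop atTop := h1.const_mul_atTop hc
  have h3 : Tendsto (fun j => Real.exp (-(c * (B.nn j : ℝ)))) atTop (𝓝 0) :=
    Real.tendsto_exp_neg_atTop_nhds_zero.comp h2
  have h4 := (h3.mono_left hφ).mul_const A
  rw [zero_mul] at h4
  refine h4.congr fun j => ?_
  rw [neg_mul]

/-- a bounded sequence converges along an ultrafilter -/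
theorem ultra_lim (φ : Ultrafilter ℕ) {z : ℕ → ℂ} {C : ℝ} (h : ∀ᶠ j in φ, ‖z j‖ ≤ C) :
    ∃ w : ℂ, Tendsto z φ (𝓝 w) := by
  have hK : IsCompact (Metric.closedBall (0 : ℂ) C) := isCompact_closedBall 0 C
  have hm : Metric.closedBall (0 : ℂ) C ∈ (φ.map z) := by
    show ∀ᶠ j in φ, z j ∈ Metric.closedBall (0 : ℂ) C
    filter_upwards [h] with j hj
    simpa using hj
  obtain ⟨w, _, hw⟩ := hK.ultrafilter_le_nhds' (φ.map z) hm
  exact ⟨w, hw⟩

/-- the limit of a bad sequence -/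
theorem limit (hR0 : 0 < R) (hR6 : R < 6) (hBC : B.C4BC) (hE : B.EXT0 JCx.Phi JCx.Phi1)
    {La : ℝ} {l : ℕ} (φ : Ultrafilter ℕ) (hφ : (φ : Filter ℕ) ≤ atTop) {lam : ℕ → ℂ}
    {H : ℕ → R12 → ℝ} {F G : ℕ → ℝ → ℂ} (hbad : ∀ᶠ j in φ, Bad B La l j (lam j) (H j) (F j) (G j))
    {ls : ℂ} (hls : Tendsto lam φ (𝓝 ls)) (hre : 0 ≤ ls.re) :
    ∃ c1 c2 : ℂ, ∀ d : ℝ, 0 < d → ∀ ε : ℝ, 0 < ε → ∀ᶠ j in φ, ∀ r ∈ Icc (R + d) 8,
      ‖F j r - c1 * JCx.Phi l (ls - I * om0) r‖ ≤ ε ∧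
      ‖deriv (F j) r - c1 * JCx.Phi1 l (ls - I * om0) r‖ ≤ ε ∧
      ‖G j r - c2 * conj (JCx.Phi l (conj ls - I * om0) r)‖ ≤ ε ∧
      ‖deriv (G j) r - c2 * conj (JCx.Phi1 l (conj ls - I * om0) r)‖ ≤ ε := by
  set m : ℂ := ls - I * om0 with hm
  set m' : ℂ := conj ls - I * om0 with hm'
  have hmre : -(1 / 4) < m.re := by
    rw [hm]; simp; linarith
  have hmre' : -(1 / 4) < m'.re := by
    rw [hm']; simp; linarith
  have hmu : Tendsto (fun j => (B.P j).mu (lam j)) φ (𝓝 m) := mu_tendsto B hφ hls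
  have hmu' : Tendsto (fun j => (B.P j).mu (conj (lam j))) φ (𝓝 m') :=
    mu_tendsto B hφ ((Complex.continuous_conj.tendsto ls).comp hls)
  obtain ⟨r3, hr3, hne, hne'⟩ := Phi_exists_ne2 (l := l) hmre hmre' hR0 hR6
  -- `F j r3`, `G j r3` are bounded
  obtain ⟨C, d0, hd0, hC⟩ := hBC La l
  have hbd : ∀ᶠ j in φ, ‖F j r3‖ ≤ C ∧ ‖G j r3‖ ≤ C := by
    have h1 := hφ (hC (min d0 (r3 - R)) (lt_min hd0 (by linarith [hr3.1])) (min_le_left _ _))
    filter_upwards [hbad, h1] with j hb hj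
    have := (hj (H j) (lam j) 0 (fun _ => 0) (F j) (G j) hb.re hb.bd (by simp) hb.pair
      (Or.inl ⟨rfl, rfl⟩) hb.nb.le).2.2 r3 ⟨by linarith [min_le_right d0 (r3 - R)], hr3.2.le⟩
    exact this
  obtain ⟨f3, hf3⟩ := ultra_lim φ (hbd.mono fun _ h => h.1)
  obtain ⟨g3, hg3⟩ := ultra_lim φ (hbd.mono fun _ h => h.2)
  have hcne' : conj (JCx.Phi l m' r3) ≠ 0 := by simpa using hne'
  refine ⟨f3 / JCx.Phi l m r3, g3 / conj (JCx.Phi l m' r3), fun d hd ε hε => ?_⟩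
  set d' := min d (r3 - R) with hd'
  have hd'0 : 0 < d' := lt_min hd (by linarith [hr3.1])
  have hRd : 0 < R + d' := by linarith
  obtain ⟨K, c, hc, hK⟩ := hE (R + d') (by linarith)
  -- the constants
  have hex : ∀ j, ∃ c1 c2 : ℂ, (Bad B La l j (lam j) (H j) (F j) (G j) → (∀ (l : ℕ) (H : R12 → ℝ) (lam : ℂ) (F G : ℝ → ℂ),
    0 ≤ lam.re → (B.P j).Pair l H lam 0 (fun _ => 0) F G →
    ∃ c1 c2 : ℂ, ∀ r ∈ Icc (R + d') 8,
      ‖F r - c1 * JCx.Phi l ((B.P j).mu lam) r‖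
        ≤ Real.exp (-c * B.nn j) * (1 + ‖lam‖) ^ K * NB (R + d') F G ∧
      ‖deriv F r - c1 * JCx.Phi1 l ((B.P j).mu lam) r‖
        ≤ Real.exp (-c * B.nn j) * (1 + ‖lam‖) ^ K * NB (R + d') F G ∧
      ‖G r - c2 * starRingEnd ℂ (JCx.Phi l ((B.P j).mu (starRingEnd ℂ lam)) r)‖
        ≤ Real.exp (-c * B.nn j) * (1 + ‖lam‖) ^ K * NB (R + d') F G ∧
      ‖deriv G r - c2 * starRingEnd ℂ (JCx.Phi1 l ((B.P j).mu (starRingEnd ℂ lam)) r)‖
        ≤ Real.exp (-c * B.nn j) * (1 + ‖lam‖) ^ K * NB (R + d') F G) →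
      ∀ r ∈ Icc (R + d') 8,
      ‖F j r - c1 * JCx.Phi l ((B.P j).mu (lam j)) r‖ ≤ Real.exp (-c * B.nn j) * (1 + La) ^ K ∧
      ‖deriv (F j) r - c1 * JCx.Phi1 l ((B.P j).mu (lam j)) r‖
        ≤ Real.exp (-c * B.nn j) * (1 + La) ^ K ∧
      ‖G j r - c2 * conj (JCx.Phi l ((B.P j).mu (conj (lam j))) r)‖
        ≤ Real.exp (-c * B.nn j) * (1 + La) ^ K ∧
      ‖deriv (G j) r - c2 * conj (JCx.Phi1 l ((B.P j).mu (conj (lam j))) r)‖
        ≤ Real.exp (-c * B.nn j) * (1 + La) ^ K) := by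
    intro j
    by_cases hb : Bad B La l j (lam j) (H j) (F j) (G j)
    · by_cases h : (∀ (l : ℕ) (H : R12 → ℝ) (lam : ℂ) (F G : ℝ → ℂ),
        0 ≤ lam.re → (B.P j).Pair l H lam 0 (fun _ => 0) F G →
        ∃ c1 c2 : ℂ, ∀ r ∈ Icc (R + d') 8,
          ‖F r - c1 * JCx.Phi l ((B.P j).mu lam) r‖
            ≤ Real.exp (-c * B.nn j) * (1 + ‖lam‖) ^ K * NB (R + d') F G ∧
          ‖deriv F r - c1 * JCx.Phi1 l ((B.P j).mu lam) r‖
            ≤ Real.exp (-c * B.nn j) * (1 + ‖lam‖) ^ K * NB (R + d') F G ∧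
          ‖G r - c2 * starRingEnd ℂ (JCx.Phi l ((B.P j).mu (starRingEnd ℂ lam)) r)‖
            ≤ Real.exp (-c * B.nn j) * (1 + ‖lam‖) ^ K * NB (R + d') F G ∧
          ‖deriv G r - c2 * starRingEnd ℂ (JCx.Phi1 l ((B.P j).mu (starRingEnd ℂ lam)) r)‖
            ≤ Real.exp (-c * B.nn j) * (1 + ‖lam‖) ^ K * NB (R + d') F G)
      · obtain ⟨c1, c2, h12⟩ := h l (H j) (lam j) (F j) (G j) hb.re hb.pair
        refine ⟨c1, c2, fun _ _ r hr => ?_⟩
        have hE0 : Real.exp (-c * B.nn j) * (1 + ‖lam j‖) ^ K * NB (R + d') (F j) (G j)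
            ≤ Real.exp (-c * B.nn j) * (1 + La) ^ K := by
          have n1 : NB (R + d') (F j) (G j) ≤ 1 := by
            rw [← hb.nb]
            refine NB_mono (hb.pair.cF.continuous) (hb.pair.cG.continuous) hRd.le ?_
            have := min_le_right d (r3 - R)
            have := hr3.2
            linarith
          have n2 : (1 + ‖lam j‖) ^ K ≤ (1 + La) ^ K :=
            pow_le_pow_left₀ (by positivity) (by linarith [hb.bd]) K
          have n3 : 0 ≤ (1 + ‖lam j‖) ^ K := by positivity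
          calc Real.exp (-c * B.nn j) * (1 + ‖lam j‖) ^ K * NB (R + d') (F j) (G j)
              ≤ Real.exp (-c * B.nn j) * (1 + ‖lam j‖) ^ K * 1 := by gcongr
            _ = Real.exp (-c * B.nn j) * (1 + ‖lam j‖) ^ K := mul_one _
            _ ≤ Real.exp (-c * B.nn j) * (1 + La) ^ K := by gcongr
        obtain ⟨a1, a2, a3, a4⟩ := h12 r hr
        exact ⟨a1.trans hE0, a2.trans hE0, a3.trans hE0, a4.trans hE0⟩
      · exact ⟨0, 0, fun _ h' => absurd h' h⟩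
    · exact ⟨0, 0, fun h' => absurd h' hb⟩
  choose c1 c2 hcc using hex
  have hmain : ∀ᶠ j in φ, ∀ r ∈ Icc (R + d') 8,
      ‖F j r - c1 j * JCx.Phi l ((B.P j).mu (lam j)) r‖ ≤ Real.exp (-c * B.nn j) * (1 + La) ^ K ∧
      ‖deriv (F j) r - c1 j * JCx.Phi1 l ((B.P j).mu (lam j)) r‖
        ≤ Real.exp (-c * B.nn j) * (1 + La) ^ K ∧
      ‖G j r - c2 j * conj (JCx.Phi l ((B.P j).mu (conj (lam j))) r)‖
        ≤ Real.exp (-c * B.nn j) * (1 + La) ^ K ∧
      ‖deriv (G j) r - c2 j * conj (JCx.Phi1 l ((B.P j).mu (conj (lam j))) r)‖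
        ≤ Real.exp (-c * B.nn j) * (1 + La) ^ K := by
    filter_upwards [hbad, hφ hK] with j hb hj using hcc j hb hj
  have hexp : Tendsto (fun j => Real.exp (-c * B.nn j) * (1 + La) ^ K) φ (𝓝 0) :=
    exp_tendsto B hφ hc _
  have hr3mem : r3 ∈ Icc (R + d') 8 := ⟨by linarith [min_le_right d (r3 - R)], by linarith [hr3.2]⟩
  -- uniform convergence of `Phi`
  obtain ⟨u1, u2⟩ := phiFacts.unif l hmre hmu (a := R + d') (b := 8) hRd
  obtain ⟨u3, u4⟩ := phiFacts.unif l hmre' hmu' (a := R + d') (b := 8) hRd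
  have conjU : ∀ {f : ℕ → ℝ → ℂ} {g : ℝ → ℂ} {s : Set ℝ}, TendstoUniformlyOn f g φ s →
      TendstoUniformlyOn (fun j r => conj (f j r)) (fun r => conj (g r)) φ s := by
    intro f g s h
    rw [Metric.tendstoUniformlyOn_iff] at h ⊢
    intro ε hε
    filter_upwards [h ε hε] with j hj r hr
    have := hj r hr
    rw [dist_eq_norm] at this ⊢
    rwa [← map_sub, Complex.norm_conj]
  have v3 := conjU u3
  have v4 := conjU u4
  -- convergence of the constants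
  have cv : ∀ {f : ℕ → ℂ} {f0 : ℂ} {k p : ℕ → ℂ} {p0 : ℂ}, Tendsto f φ (𝓝 f0) → Tendsto p φ (𝓝 p0) →
      p0 ≠ 0 → (∀ᶠ j in φ, ‖f j - k j * p j‖ ≤ Real.exp (-c * B.nn j) * (1 + La) ^ K) →
      Tendsto k φ (𝓝 (f0 / p0)) := by
    intro f f0 k p p0 hf hp hp0 hb
    have h0 : Tendsto (fun j => f j - k j * p j) φ (𝓝 0) := squeeze_zero_norm' hb hexp
    have h1 : Tendsto (fun j => k j * p j) φ (𝓝 f0) := by
      have := hf.sub h0
      rw [sub_zero] at this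
      refine this.congr fun j => ?_
      ring
    have h2 := h1.div hp hp0
    refine h2.congr' ?_
    filter_upwards [hp.eventually_ne hp0] with j hj
    simp only [Pi.div_apply]
    field_simp
  have hp1 : Tendsto (fun j => JCx.Phi l ((B.P j).mu (lam j)) r3) φ (𝓝 (JCx.Phi l m r3)) :=
    u1.tendsto_at hr3mem
  have hp2 : Tendsto (fun j => conj (JCx.Phi l ((B.P j).mu (conj (lam j))) r3)) φ
      (𝓝 (conj (JCx.Phi l m' r3))) := v3.tendsto_at hr3mem
  have hc1 := cv hf3 hp1 hne (hmain.mono fun j hj => (hj r3 hr3mem).1)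
  have hc2 := cv hg3 hp2 hcne' (hmain.mono fun j hj => (hj r3 hr3mem).2.2.1)
  -- bounds
  have hcont : ∀ {m : ℂ}, -(1 / 4) < m.re → ContinuousOn (JCx.Phi l m) (Icc (R + d') 8) ∧
      ContinuousOn (JCx.Phi1 l m) (Icc (R + d') 8) := by
    intro m hm
    constructor
    · intro r hr
      exact (phiFacts.der l m hm r (lt_of_lt_of_le hRd hr.1)).continuousAt.continuousWithinAt
    · have h1 := phiFacts.cont1 l
      have h2 : ContinuousOn (fun r : ℝ => (m, r)) (Icc (R + d') 8) := by fun_prop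
      exact h1.comp h2 fun r hr => ⟨hm, lt_of_lt_of_le hRd hr.1⟩
  have hc' : ∀ {f : ℝ → ℂ}, ContinuousOn f (Icc (R + d') 8) →
      ContinuousOn (fun r => conj (f r)) (Icc (R + d') 8) := fun h =>
    Complex.continuous_conj.comp_continuousOn h
  obtain ⟨M1, hM1⟩ := exists_bound_Icc (hcont hmre).1
  obtain ⟨M2, hM2⟩ := exists_bound_Icc (hcont hmre).2
  obtain ⟨M3, hM3⟩ := exists_bound_Icc (hc' (hcont hmre').1)
  obtain ⟨M4, hM4⟩ := exists_bound_Icc (hc' (hcont hmre').2)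
  have w1 := unif_mul u1 hM1 hc1 (half_pos hε)
  have w2 := unif_mul u2 hM2 hc1 (half_pos hε)
  have w3 := unif_mul v3 hM3 hc2 (half_pos hε)
  have w4 := unif_mul v4 hM4 hc2 (half_pos hε)
  have he2 : ∀ᶠ j in φ, Real.exp (-c * B.nn j) * (1 + La) ^ K ≤ ε / 2 :=
    (hexp.eventually (gt_mem_nhds (half_pos hε))).mono fun _ h => h.le
  filter_upwards [hmain, w1, w2, w3, w4, he2] with j hj w1 w2 w3 w4 he r hr
  have hr' : r ∈ Icc (R + d') 8 := ⟨by linarith [hr.1, min_le_left d (r3 - R)], hr.2⟩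
  obtain ⟨a1, a2, a3, a4⟩ := hj r hr'
  have tri : ∀ {x y z : ℂ}, ‖x - y‖ ≤ Real.exp (-c * B.nn j) * (1 + La) ^ K → ‖y - z‖ ≤ ε / 2 →
      ‖x - z‖ ≤ ε := by
    intro x y z h1 h2
    calc ‖x - z‖ = ‖(x - y) + (y - z)‖ := by congr 1; ring
      _ ≤ ‖x - y‖ + ‖y - z‖ := norm_add_le _ _
      _ ≤ ε := by linarith
  exact ⟨tri a1 (w1 r hr'), tri a2 (w2 r hr'), tri a3 (w3 r hr'), tri a4 (w4 r hr')⟩

/-- **NS** (node N7, source free part) -/
theorem ns (hR0 : 0 < R) (hR6 : R < 6) (hReg : B.REG) (hBC : B.C4BC) (hNT : B.C4NT)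
    (hE : B.EXT0 JCx.Phi JCx.Phi1) (hL : LimitSpec JCx.Phi JCx.Phi1 om0 R) (La : ℝ) (l : ℕ) :
    ∀ᶠ j in atTop, ∀ lam : ℂ, 0 ≤ lam.re → ‖lam‖ ≤ La → C4Red.NS (B.P j) l lam := by
  by_contra hcon
  have hfr : ∃ᶠ j in atTop, ∃ lam : ℂ, 0 ≤ lam.re ∧ ‖lam‖ ≤ La ∧ ¬ C4Red.NS (B.P j) l lam := by
    rw [Filter.not_eventually] at hcon
    refine hcon.mono fun j hj => ?_
    push Not at hj
    exact hj
  have hfr2 := hfr.and_eventually (exists_bad B (by linarith) hReg La l)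
  have hfr3 : ∃ᶠ j in atTop, ∃ (lam : ℂ) (H : R12 → ℝ) (F G : ℝ → ℂ), Bad B La l j lam H F G := by
    refine hfr2.mono fun j hj => ?_
    obtain ⟨⟨lam, h1, h2, h3⟩, h4⟩ := hj
    obtain ⟨H, F, G, hb⟩ := h4 lam h1 h2 h3
    exact ⟨lam, H, F, G, hb⟩
  set S : Set ℕ := {j | ∃ (lam : ℂ) (H : R12 → ℝ) (F G : ℝ → ℂ), Bad B La l j lam H F G} with hS
  have : NeBot (atTop ⊓ 𝓟 S) := frequently_mem_iff_neBot.1 hfr3
  set φ : Ultrafilter ℕ := Ultrafilter.of (atTop ⊓ 𝓟 S) with hφd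
  have hφle : (φ : Filter ℕ) ≤ atTop ⊓ 𝓟 S := Ultrafilter.of_le _
  have hφ : (φ : Filter ℕ) ≤ atTop := hφle.trans inf_le_left
  have hφS : ∀ᶠ j in φ, j ∈ S := hφle (mem_inf_of_right (mem_principal_self S))
  have hch : ∀ j, ∃ (lam : ℂ) (H : R12 → ℝ) (F G : ℝ → ℂ), j ∈ S → Bad B La l j lam H F G := by
    intro j
    by_cases h : j ∈ S
    · obtain ⟨lam, H, F, G, hb⟩ := h
      exact ⟨lam, H, F, G, fun _ => hb⟩
    · exact ⟨0, 0, 0, 0, fun h' => absurd h' h⟩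
  choose lam H F G hb using hch
  have hbad : ∀ᶠ j in φ, Bad B La l j (lam j) (H j) (F j) (G j) := hφS.mono fun j hj => hb j hj
  obtain ⟨ls, hls⟩ := ultra_lim φ (hbad.mono fun _ h => h.bd)
  have hre : 0 ≤ ls.re := by
    have h1 : Tendsto (fun j => (lam j).re) φ (𝓝 ls.re) := (Complex.continuous_re.tendsto ls).comp hls
    exact ge_of_tendsto h1 (hbad.mono fun _ h => h.re)
  -- `DetL ≠ 0`
  have far : ∀ (s : ℝ), (∀ j, ∃ e, (B.P j).IsSym l s e) → ls ≠ (s : ℂ) := by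
    intro s hs heq
    have h1 : ∀ᶠ j in φ, 1 / 4 ≤ ‖(s : ℂ) - lam j‖ := hbad.mono fun j h => by
      obtain ⟨e, he⟩ := hs j
      exact (h.far s e he).le
    have h2 : Tendsto (fun j => ‖(s : ℂ) - lam j‖) φ (𝓝 ‖(s : ℂ) - ls‖) :=
      (hls.const_sub (s : ℂ)).norm
    have h3 := ge_of_tendsto h2 h1
    rw [heq, sub_self, norm_zero] at h3
    norm_num at h3
  have hD : DetL JCx.Phi JCx.Phi1 om0 R l ls ≠ 0 := by
    refine hL.ne_zero l ls hre ?_ ?_
    · rintro ⟨hl, h | h⟩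
      · refine far 0 (fun j => ⟨_, Or.inl ⟨hl, rfl, rfl⟩⟩) ?_
        rw [h]; simp
      · refine far 1 (fun j => ⟨_, Or.inr (Or.inl ⟨hl, rfl, rfl⟩)⟩) ?_
        rw [h]; simp
    · rintro ⟨hl, h⟩
      refine far (1 / 2) (fun j => ⟨_, Or.inr (Or.inr ⟨hl, rfl, rfl⟩)⟩) ?_
      rw [h]; push_cast; rfl
  obtain ⟨c1, c2, hlim⟩ := limit B hR0 hR6 hBC hE φ hφ hbad hls hre
  set m : ℂ := ls - I * om0 with hm
  set m' : ℂ := conj ls - I * om0 with hm'
  have hmre : -(1 / 4) < m.re := by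
    rw [hm]; simp; linarith
  have hmre' : -(1 / 4) < m'.re := by
    rw [hm']; simp; linarith
  -- boundary relations
  obtain ⟨C, d0, hd0, hC⟩ := hBC La l
  have hrel : ∀ d : ℝ, 0 < d → d ≤ d0 → R + d ≤ 8 →
      ‖c1 * JCx.Phi l m (R + d) + c2 * conj (JCx.Phi l m' (R + d))‖ ≤ C * Real.sqrt d ∧
      ‖(c1 * JCx.Phi1 l m (R + d) - c2 * conj (JCx.Phi1 l m' (R + d))) - (l : ℂ) / (R : ℂ) *
        (c1 * JCx.Phi l m (R + d) - c2 * conj (JCx.Phi l m' (R + d)))‖ ≤ C * Real.sqrt d := by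
    intro d hd hdd hd8
    have h1 := (hC d hd hdd).filter_mono hφ
    have key : ∀ ε : ℝ, 0 < ε →
        ‖c1 * JCx.Phi l m (R + d) + c2 * conj (JCx.Phi l m' (R + d))‖ ≤
          C * Real.sqrt d + (2 + 2 * ‖(l : ℂ) / (R : ℂ)‖) * ε ∧
        ‖(c1 * JCx.Phi1 l m (R + d) - c2 * conj (JCx.Phi1 l m' (R + d))) - (l : ℂ) / (R : ℂ) *
          (c1 * JCx.Phi l m (R + d) - c2 * conj (JCx.Phi l m' (R + d)))‖ ≤
          C * Real.sqrt d + (2 + 2 * ‖(l : ℂ) / (R : ℂ)‖) * ε := by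
      intro ε hε
      obtain ⟨j, hj1, hj2, hj3⟩ := (hbad.and (h1.and (hlim d hd ε hε))).exists
      obtain ⟨b1, b2, _⟩ := hj2 (H j) (lam j) 0 (fun _ => 0) (F j) (G j) hj1.re hj1.bd (by simp)
        hj1.pair (Or.inl ⟨rfl, rfl⟩) hj1.nb.le
      obtain ⟨a1, a2, a3, a4⟩ := hj3 (R + d) ⟨le_rfl, hd8⟩
      set X := JCx.Phi l m (R + d)
      set X1 := JCx.Phi1 l m (R + d)
      set Y := conj (JCx.Phi l m' (R + d))
      set Y1 := conj (JCx.Phi1 l m' (R + d))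
      set q := (l : ℂ) / (R : ℂ)
      have hq := norm_nonneg q
      constructor
      · have e : c1 * X + c2 * Y = (F j (R + d) + G j (R + d)) - (F j (R + d) - c1 * X)
            - (G j (R + d) - c2 * Y) := by ring
        rw [e]
        calc _ ≤ ‖F j (R + d) + G j (R + d)‖ + ‖F j (R + d) - c1 * X‖ + ‖G j (R + d) - c2 * Y‖ := by
              refine (norm_sub_le _ _).trans ?_
              gcongr
              exact norm_sub_le _ _
          _ ≤ C * Real.sqrt d + ε + ε := by gcongr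
          _ ≤ _ := by nlinarith
      · have e : (c1 * X1 - c2 * Y1) - q * (c1 * X - c2 * Y)
            = (deriv (F j) (R + d) - deriv (G j) (R + d) - q * (F j (R + d) - G j (R + d)))
              - (deriv (F j) (R + d) - c1 * X1) + (deriv (G j) (R + d) - c2 * Y1)
              + q * (F j (R + d) - c1 * X) - q * (G j (R + d) - c2 * Y) := by ring
        rw [e]
        calc _ ≤ ‖deriv (F j) (R + d) - deriv (G j) (R + d) - q * (F j (R + d) - G j (R + d))‖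
              + ‖deriv (F j) (R + d) - c1 * X1‖ + ‖deriv (G j) (R + d) - c2 * Y1‖
              + ‖q * (F j (R + d) - c1 * X)‖ + ‖q * (G j (R + d) - c2 * Y)‖ := by
              refine (norm_sub_le _ _).trans ?_
              gcongr
              refine (norm_add_le _ _).trans ?_
              gcongr
              refine (norm_add_le _ _).trans ?_
              gcongr
              exact norm_sub_le _ _
          _ ≤ C * Real.sqrt d + ε + ε + ‖q‖ * ε + ‖q‖ * ε := by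
              rw [norm_mul, norm_mul]
              gcongr
          _ = _ := by ring
    have hA : 0 < 2 + 2 * ‖(l : ℂ) / (R : ℂ)‖ := by positivity
    constructor
    · refine le_of_forall_pos_le_add fun ε hε => ?_
      have := (key (ε / (2 + 2 * ‖(l : ℂ) / (R : ℂ)‖)) (by positivity)).1
      rwa [mul_div_cancel₀ _ hA.ne'] at this
    · refine le_of_forall_pos_le_add fun ε hε => ?_
      have := (key (ε / (2 + 2 * ‖(l : ℂ) / (R : ℂ)‖)) (by positivity)).2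
      rwa [mul_div_cancel₀ _ hA.ne'] at this
  -- limit `d → 0`
  have hcR : ∀ {m : ℂ}, -(1 / 4) < m.re → ContinuousAt (JCx.Phi l m) R ∧
      ContinuousAt (JCx.Phi1 l m) R := by
    intro m hm
    constructor
    · exact (phiFacts.der l m hm R hR0).continuousAt
    · have h1 : ContinuousAt (fun p : ℂ × ℝ => JCx.Phi1 l p.1 p.2) (m, R) :=
        (phiFacts.cont1 l (m, R) ⟨hm, hR0⟩).continuousAt
          ((isOpen_HPl.prod isOpen_Ioi).mem_nhds ⟨hm, hR0⟩)
      exact ContinuousAt.comp (g := fun p : ℂ × ℝ => JCx.Phi1 l p.1 p.2)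
        (f := fun r : ℝ => (m, r)) (x := R) h1 (by fun_prop)
  have hsh : Tendsto (fun d : ℝ => R + d) (𝓝[>] 0) (𝓝 R) := by
    have : Tendsto (fun d : ℝ => R + d) (𝓝 0) (𝓝 (R + 0)) := (continuous_const.add continuous_id).tendsto 0
    rw [add_zero] at this
    exact this.mono_left nhdsWithin_le_nhds
  have tt : ∀ {f : ℝ → ℂ}, ContinuousAt f R → Tendsto (fun d : ℝ => f (R + d)) (𝓝[>] 0) (𝓝 (f R)) :=
    fun h => h.tendsto.comp hsh
  have tc : ∀ {f : ℝ → ℂ}, ContinuousAt f R →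
      Tendsto (fun d : ℝ => conj (f (R + d))) (𝓝[>] 0) (𝓝 (conj (f R))) := fun h =>
    (Complex.continuous_conj.tendsto _).comp (tt h)
  have t1 := tt (hcR hmre).1
  have t2 := tt (hcR hmre).2
  have t3 := tc (hcR hmre').1
  have t4 := tc (hcR hmre').2
  have hsq : Tendsto (fun d : ℝ => C * Real.sqrt d) (𝓝[>] 0) (𝓝 0) := by
    have : Tendsto (fun d : ℝ => C * Real.sqrt d) (𝓝 0) (𝓝 (C * Real.sqrt 0)) :=
      (continuous_const.mul Real.continuous_sqrt).tendsto 0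
    rw [Real.sqrt_zero, mul_zero] at this
    exact this.mono_left nhdsWithin_le_nhds
  have hevd : ∀ᶠ d : ℝ in 𝓝[>] 0, 0 < d ∧ d ≤ d0 ∧ R + d ≤ 8 := by
    have h1 : Ioc (0 : ℝ) (min d0 (8 - R)) ∈ 𝓝[>] (0 : ℝ) := Ioc_mem_nhdsGT (lt_min hd0 (by linarith))
    filter_upwards [h1] with d hd
    exact ⟨hd.1, hd.2.trans (min_le_left _ _), by linarith [hd.2.trans (min_le_right d0 (8 - R))]⟩
  have z1 : c1 * JCx.Phi l m R + c2 * conj (JCx.Phi l m' R) = 0 := by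
    have h1 : Tendsto (fun d : ℝ => c1 * JCx.Phi l m (R + d) + c2 * conj (JCx.Phi l m' (R + d)))
        (𝓝[>] 0) (𝓝 0) := by
      refine squeeze_zero_norm' ?_ hsq
      filter_upwards [hevd] with d hd using (hrel d hd.1 hd.2.1 hd.2.2).1
    exact tendsto_nhds_unique ((t1.const_mul c1).add (t3.const_mul c2)) h1
  have z2 : (c1 * JCx.Phi1 l m R - c2 * conj (JCx.Phi1 l m' R)) - (l : ℂ) / (R : ℂ) *
      (c1 * JCx.Phi l m R - c2 * conj (JCx.Phi l m' R)) = 0 := by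
    have h1 : Tendsto (fun d : ℝ => (c1 * JCx.Phi1 l m (R + d) - c2 * conj (JCx.Phi1 l m' (R + d)))
        - (l : ℂ) / (R : ℂ) * (c1 * JCx.Phi l m (R + d) - c2 * conj (JCx.Phi l m' (R + d))))
        (𝓝[>] 0) (𝓝 0) := by
      refine squeeze_zero_norm' ?_ hsq
      filter_upwards [hevd] with d hd using (hrel d hd.1 hd.2.1 hd.2.2).2
    exact tendsto_nhds_unique (((t2.const_mul c1).sub (t4.const_mul c2)).sub
      (((t1.const_mul c1).sub (t3.const_mul c2)).const_mul ((l : ℂ) / (R : ℂ)))) h1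
  have z2' : c1 * PsiL JCx.Phi JCx.Phi1 R l m - c2 * conj (PsiL JCx.Phi JCx.Phi1 R l m') = 0 := by
    unfold PsiL
    rw [← z2]
    simp only [map_sub, map_mul, map_div₀, map_natCast, Complex.conj_ofReal]
    ring
  obtain ⟨rfl, rfl⟩ := C4Fin.alg1 hD z1 z2'
  -- contradiction
  obtain ⟨d, hd, hd6, hnt⟩ := hNT La l (1 / 2) (by norm_num)
  obtain ⟨j, hj1, hj2, hj3⟩ := (hbad.and ((hnt.filter_mono hφ).and (hlim d hd d hd))).exists
  have := hj2 (H j) (lam j) 0 (fun _ => 0) (F j) (G j) hj1.re hj1.bd (by simp) hj1.pair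
    (Or.inl ⟨rfl, rfl⟩) hj1.nb.le (fun r hr => by
      obtain ⟨a1, a2, a3, a4⟩ := hj3 r hr
      simp only [zero_mul, sub_zero] at a1 a2 a3 a4
      exact ⟨a1, a2, a3, a4⟩)
  rw [hj1.nb] at this
  norm_num at this

end

end Crest.Agent.R086.C4NS
end

-- ▼ part R086/C4Lim
section

/-!
Row 86, Part C, C4 assembly (helper512): limits along an ultrafilter.
-/

set_option autoImplicit false

open MeasureTheory Complex Set Filter Topology

namespace Crest.Agent.R086.C4Lim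

local notation "conj" => starRingEnd ℂ

/-- bounded complex sequences converge along an ultrafilter -/
lemma ulim {𝓤 : Ultrafilter ℕ} {u : ℕ → ℂ} {C : ℝ} (h : ∀ᶠ j in (𝓤 : Filter ℕ), ‖u j‖ ≤ C) :
    ∃ v : ℂ, ‖v‖ ≤ C ∧ Tendsto u 𝓤 (𝓝 v) := by
  obtain ⟨v, hv, hle⟩ := (isCompact_closedBall (0 : ℂ) C).ultrafilter_le_nhds (𝓤.map u) (by
    rw [Ultrafilter.coe_map, le_principal_iff, mem_map]
    filter_upwards [h] with j hj
    simpa using hj)
  exact ⟨v, by simpa using hv, by simpa [Tendsto] using hle⟩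

/-- bounded real sequences in an interval converge along an ultrafilter -/
lemma rlim {𝓤 : Ultrafilter ℕ} {u : ℕ → ℝ} {a b : ℝ} (h : ∀ j, u j ∈ Icc a b) :
    ∃ v : ℝ, v ∈ Icc a b ∧ Tendsto u 𝓤 (𝓝 v) := by
  obtain ⟨v, hv, hle⟩ := (isCompact_Icc (a := a) (b := b)).ultrafilter_le_nhds (𝓤.map u) (by
    rw [Ultrafilter.coe_map, le_principal_iff, mem_map]
    exact Eventually.of_forall h)
  exact ⟨v, hv, by simpa [Tendsto] using hle⟩

/-- continuous convergence -/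
def Joint (𝓤 : Filter ℕ) (T : ℕ → ℝ → ℂ) (T0 : ℝ → ℂ) : Prop :=
  ∀ (r : ℕ → ℝ) (r0 : ℝ), 0 < r0 → Tendsto r 𝓤 (𝓝 r0) →
    Tendsto (fun j => T j (r j)) 𝓤 (𝓝 (T0 r0))

lemma Joint.mul {𝓤 : Filter ℕ} {T : ℕ → ℝ → ℂ} {T0 : ℝ → ℂ} (h : Joint 𝓤 T T0) {w : ℕ → ℂ} {w0 : ℂ}
    (hw : Tendsto w 𝓤 (𝓝 w0)) : Joint 𝓤 (fun j r => w j * T j r) (fun r => w0 * T0 r) :=
  fun r r0 h0 hr => hw.mul (h r r0 h0 hr)

lemma Joint.zero (𝓤 : Filter ℕ) : Joint 𝓤 (fun _ _ => 0) (fun _ => 0) :=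
  fun _ _ _ _ => tendsto_const_nhds

/-- joint continuity gives continuous convergence -/
lemma joint_of_cont {𝓤 : Filter ℕ} {f : ℂ → ℝ → ℂ}
    (hc : ContinuousOn (fun p : ℂ × ℝ => f p.1 p.2) ({m : ℂ | -(1 / 4) < m.re} ×ˢ Ioi 0))
    {m : ℕ → ℂ} {m0 : ℂ} (hm0 : -(1 / 4) < m0.re) (hm : Tendsto m 𝓤 (𝓝 m0)) :
    Joint 𝓤 (fun j r => f (m j) r) (f m0) := by
  intro r r0 h0 hr
  have hO : IsOpen ({m : ℂ | -(1 / 4) < m.re} ×ˢ Ioi (0 : ℝ)) :=
    (isOpen_lt continuous_const continuous_re).prod isOpen_Ioi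
  have h1 : ContinuousAt (fun p : ℂ × ℝ => f p.1 p.2) (m0, r0) :=
    (hc (m0, r0) ⟨hm0, h0⟩).continuousAt (hO.mem_nhds ⟨hm0, h0⟩)
  exact h1.tendsto.comp (hm.prodMk_nhds hr)

/-- uniform convergence on compacts and continuity give continuous convergence -/
lemma joint_of_unif {𝓤 : Filter ℕ} {T : ℕ → ℝ → ℂ} {T0 : ℝ → ℂ}
    (hu : ∀ a b : ℝ, 0 < a → TendstoUniformlyOn T T0 𝓤 (Icc a b))
    (hc : ContinuousOn T0 (Ioi 0)) : Joint 𝓤 T T0 := by
  intro r r0 h0 hr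
  have h1 := hu (r0 / 2) (2 * r0) (by positivity)
  have hmem : ∀ᶠ j in 𝓤, r j ∈ Icc (r0 / 2) (2 * r0) :=
    hr.eventually (Icc_mem_nhds (by linarith) (by linarith))
  have h2 : Tendsto (fun j => T0 (r j)) 𝓤 (𝓝 (T0 r0)) :=
    ((hc.continuousAt (isOpen_Ioi.mem_nhds h0)).tendsto).comp hr
  rw [Metric.tendsto_nhds] at h2 ⊢
  rw [Metric.tendstoUniformlyOn_iff] at h1
  intro ε hε
  filter_upwards [h2 (ε / 2) (half_pos hε), h1 (ε / 2) (half_pos hε), hmem] with j a1 a2 a3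
  have := a2 (r j) a3
  rw [dist_comm] at this
  calc dist (T j (r j)) (T0 r0) ≤ dist (T j (r j)) (T0 (r j)) + dist (T0 (r j)) (T0 r0) :=
        dist_triangle _ _ _
    _ < ε := by linarith

/-- dslope for `mu → m`, `mus → ms` -/
lemma joint_dslope {𝓤 : Filter ℕ} {f : ℂ → ℝ → ℂ}
    (hc : ContinuousOn (fun p : ℂ × ℝ => f p.1 p.2) ({m : ℂ | -(1 / 4) < m.re} ×ˢ Ioi 0))
    (hh : ∀ r : ℝ, 0 < r → DifferentiableOn ℂ (fun m => f m r) {m : ℂ | -(1 / 4) < m.re})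
    {m ms : ℕ → ℂ} {m0 ms0 : ℂ} (hm0 : -(1 / 4) < m0.re) (hms0 : -(1 / 4) < ms0.re)
    (hm : Tendsto m 𝓤 (𝓝 m0)) (hms : Tendsto ms 𝓤 (𝓝 ms0)) :
    Joint 𝓤 (fun j r => dslope (fun z => f z r) (ms j) (m j))
      (fun r => dslope (fun z => f z r) ms0 m0) ∧
    ContinuousOn (fun r => dslope (fun z => f z r) ms0 m0) (Ioi 0) := by
  have hO : IsOpen {m : ℂ | -(1 / 4) < m.re} := isOpen_lt continuous_const continuous_re
  have hcr : ∀ z : ℂ, -(1 / 4) < z.re → ContinuousOn (fun r => f z r) (Ioi 0) := by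
    intro z hz
    exact hc.comp (f := fun r : ℝ => (z, r)) (by fun_prop) (fun r hr => ⟨hz, hr⟩)
  by_cases he : ms0 = m0
  · subst he
    have hfun : (fun r => dslope (fun z => f z r) ms0 ms0) = fun r => deriv (fun z => f z r) ms0 := by
      funext r; exact dslope_same _ _
    have hcd : ContinuousOn (fun r => deriv (fun z => f z r) ms0) (Ioi 0) := by
      have := deriv_continuousOn_joint hO hc hh
      exact this.comp (f := fun r : ℝ => (ms0, r)) (by fun_prop) (fun r hr => ⟨hm0, hr⟩)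
    rw [hfun]
    refine ⟨?_, hcd⟩
    refine joint_of_unif (fun a b ha => ?_) hcd
    exact dslope_tendstoUniformlyOn hO hc hh hm0 hm hms ha
  · have hfun : (fun r => dslope (fun z => f z r) ms0 m0) =
        fun r => (m0 - ms0)⁻¹ * (f m0 r - f ms0 r) := by
      funext r
      rw [dslope_of_ne _ (Ne.symm he), slope_def_module, smul_eq_mul]
    rw [hfun]
    refine ⟨?_, ?_⟩
    · intro r r0 h0 hr
      have k1 := joint_of_cont hc hm0 hm r r0 h0 hr
      have k2 := joint_of_cont hc hms0 hms r r0 h0 hr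
      have k3 : Tendsto (fun j => (m j - ms j)⁻¹) 𝓤 (𝓝 (m0 - ms0)⁻¹) :=
        (hm.sub hms).inv₀ (sub_ne_zero.2 (Ne.symm he))
      refine (k3.mul (k1.sub k2)).congr' ?_
      have hne : ∀ᶠ j in 𝓤, m j - ms j ≠ 0 :=
        (hm.sub hms).eventually_ne (sub_ne_zero.2 (Ne.symm he))
      filter_upwards [hne] with j hj
      rw [dslope_of_ne _ (sub_ne_zero.1 hj), slope_def_module, smul_eq_mul]
    · exact continuousOn_const.mul ((hcr m0 hm0).sub (hcr ms0 hms0))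

/-- convergence of the coefficient -/
lemma coef_tendsto {𝓤 : Filter ℕ} {c p u T : ℕ → ℂ} {p0 u0 T0 : ℂ} (hp : Tendsto p 𝓤 (𝓝 p0))
    (hp0 : p0 ≠ 0) (hu : Tendsto u 𝓤 (𝓝 u0)) (hT : Tendsto T 𝓤 (𝓝 T0))
    (h : Tendsto (fun j => u j - (c j * p j + T j)) 𝓤 (𝓝 0)) :
    Tendsto c 𝓤 (𝓝 ((u0 - T0) / p0)) := by
  have h1 : Tendsto (fun j => (u j - T j - (u j - (c j * p j + T j))) / p j) 𝓤
      (𝓝 ((u0 - T0 - 0) / p0)) := ((hu.sub hT).sub h).div hp hp0
  rw [sub_zero] at h1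
  refine h1.congr' ?_
  filter_upwards [hp.eventually_ne hp0] with j hj
  field_simp
  ring

/-- the approximation hypothesis on `[R+d, 8]` -/
def Appr (𝓤 : Filter ℕ) (Ph Ph1 : ℕ → ℝ → ℂ) (f f1 T T1 : ℕ → ℝ → ℂ) (a : ℝ) (c : ℕ → ℂ) : Prop :=
  ∀ r : ℕ → ℝ, (∀ j, r j ∈ Icc a 8) →
    Tendsto (fun j => f j (r j) - (c j * Ph j (r j) + T j (r j))) 𝓤 (𝓝 0) ∧
    Tendsto (fun j => f1 j (r j) - (c j * Ph1 j (r j) + T1 j (r j))) 𝓤 (𝓝 0)

/-- uniform smallness gives `Appr` -/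
lemma appr_of_le {𝓤 : Filter ℕ} {Ph Ph1 f f1 T T1 : ℕ → ℝ → ℂ} {a : ℝ} {c : ℕ → ℂ} {err : ℕ → ℝ}
    (he : Tendsto err 𝓤 (𝓝 0))
    (h : ∀ᶠ j in 𝓤, ∀ r ∈ Icc a 8, ‖f j r - (c j * Ph j r + T j r)‖ ≤ err j ∧
      ‖f1 j r - (c j * Ph1 j r + T1 j r)‖ ≤ err j) : Appr 𝓤 Ph Ph1 f f1 T T1 a c := by
  intro r hr
  constructor
  · refine squeeze_zero_norm' ?_ he
    filter_upwards [h] with j hj using (hj (r j) (hr j)).1
  · refine squeeze_zero_norm' ?_ he
    filter_upwards [h] with j hj using (hj (r j) (hr j)).2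

/-- one component: the coefficient converges to a limit independent of `d`, and the function converges. -/
theorem comp_lim {𝓤 : Ultrafilter ℕ} {Ph Ph1 : ℕ → ℝ → ℂ} {Ph0 Ph10 : ℝ → ℂ}
    (jP : Joint 𝓤 Ph Ph0) (jP1 : Joint 𝓤 Ph1 Ph10) {f f1 T T1 : ℕ → ℝ → ℂ} {T0 T10 : ℝ → ℂ}
    (jT : Joint 𝓤 T T0) (jT1 : Joint 𝓤 T1 T10) {R d0 : ℝ} (hR : 0 < R) (hRd : R + d0 ≤ 5)
    {rp : ℝ} (hrp : rp ∈ Icc (5 : ℝ) 6) (hne : Ph0 rp ≠ 0) {C : ℝ}
    (hb : ∀ᶠ j in (𝓤 : Filter ℕ), ‖f j rp‖ ≤ C) :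
    ∃ c0 : ℂ, ∀ d, 0 < d → d ≤ d0 → ∀ c : ℕ → ℂ, Appr 𝓤 Ph Ph1 f f1 T T1 (R + d) c →
      Tendsto c 𝓤 (𝓝 c0) ∧
      ∀ (r : ℕ → ℝ) (r0 : ℝ), (∀ j, r j ∈ Icc (R + d) 8) → Tendsto r 𝓤 (𝓝 r0) →
        Tendsto (fun j => f j (r j)) 𝓤 (𝓝 (c0 * Ph0 r0 + T0 r0)) ∧
        Tendsto (fun j => f1 j (r j)) 𝓤 (𝓝 (c0 * Ph10 r0 + T10 r0)) := by
  obtain ⟨v, -, hv⟩ := ulim hb
  have hrp0 : 0 < rp := by linarith [hrp.1]
  have hcr : Tendsto (fun _ : ℕ => rp) (𝓤 : Filter ℕ) (𝓝 rp) := tendsto_const_nhds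
  refine ⟨(v - T0 rp) / Ph0 rp, fun d hd hdd c hA => ?_⟩
  have hc : Tendsto c 𝓤 (𝓝 ((v - T0 rp) / Ph0 rp)) := by
    have h1 := (hA (fun _ => rp) (fun _ => ⟨by linarith [hrp.1], by linarith [hrp.2]⟩)).1
    exact coef_tendsto (jP (fun _ => rp) rp hrp0 hcr) hne hv (jT (fun _ => rp) rp hrp0 hcr) h1
  refine ⟨hc, fun r r0 hr hr0 => ?_⟩
  have hr00 : 0 < r0 := by
    have : r0 ∈ Icc (R + d) 8 := isClosed_Icc.mem_of_tendsto hr0 (Eventually.of_forall hr)
    linarith [this.1]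
  obtain ⟨a1, a2⟩ := hA r hr
  constructor
  · have := a1.add ((hc.mul (jP r r0 hr00 hr0)).add (jT r r0 hr00 hr0))
    simpa using this
  · have := a2.add ((hc.mul (jP1 r r0 hr00 hr0)).add (jT1 r r0 hr00 hr0))
    simpa using this

/-- passage `d → 0` in the boundary relation -/
lemma bc_zero {X : ℝ → ℂ} {R C d0 : ℝ} (hd0 : 0 < d0) (hX : ContinuousAt X R)
    (h : ∀ d, 0 < d → d ≤ d0 → ‖X (R + d)‖ ≤ C * Real.sqrt d) : X R = 0 := by
  have h1 : Tendsto (fun d : ℝ => X (R + d)) (𝓝[>] 0) (𝓝 (X R)) := by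
    have : Tendsto (fun d : ℝ => R + d) (𝓝[>] 0) (𝓝 R) := by
      have h2 : Tendsto (fun d : ℝ => R + d) (𝓝 0) (𝓝 (R + 0)) :=
        (continuous_const.add continuous_id).tendsto 0
      rw [add_zero] at h2
      exact h2.mono_left nhdsWithin_le_nhds
    exact hX.tendsto.comp this
  have h2 : Tendsto (fun d : ℝ => C * Real.sqrt d) (𝓝[>] 0) (𝓝 0) := by
    have : Tendsto (fun d : ℝ => C * Real.sqrt d) (𝓝 0) (𝓝 (C * Real.sqrt 0)) := by
      have := Real.continuous_sqrt.continuousAt (x := (0 : ℝ))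
      exact (continuousAt_const.mul this).tendsto
    rw [Real.sqrt_zero, mul_zero] at this
    exact this.mono_left nhdsWithin_le_nhds
  have h3 : Tendsto (fun d : ℝ => X (R + d)) (𝓝[>] 0) (𝓝 0) := by
    refine squeeze_zero_norm' ?_ h2
    filter_upwards [Ioc_mem_nhdsGT hd0] with d hd using h d hd.1 hd.2
  exact tendsto_nhds_unique h1 h3

end Crest.Agent.R086.C4Lim
end

-- ▼ part R086/C4Nb
section

/-!
Row 86, Part C, C4 assembly (helper512): scaling of pairs, `NB`, vanishing of a pair with zero norm,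
the symmetry modes in the limit.
-/

set_option autoImplicit false

open MeasureTheory Complex Set Filter Topology
open scoped ContDiff

namespace Crest.Agent.R086.C4Nb

local notation "conj" => starRingEnd ℂ

/-! ### NB -/

lemma NB_nonneg (rho : ℝ) (F G : ℝ → ℂ) : 0 ≤ NB rho F G := Real.sqrt_nonneg _

lemma NB_smul (rho : ℝ) (F G : ℝ → ℂ) (c : ℂ) :
    NB rho (fun r => c * F r) (fun r => c * G r) = ‖c‖ * NB rho F G := by
  unfold NB
  have : (fun r : ℝ => r ^ 11 * (‖c * F r‖ ^ 2 + ‖c * G r‖ ^ 2)) =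
      fun r : ℝ => ‖c‖ ^ 2 * (r ^ 11 * (‖F r‖ ^ 2 + ‖G r‖ ^ 2)) := by
    funext r
    rw [norm_mul, norm_mul]; ring
  rw [this, intervalIntegral.integral_const_mul, Real.sqrt_mul (by positivity),
    Real.sqrt_sq (norm_nonneg _)]

lemma NB_mono {a b : ℝ} (ha : 0 ≤ a) (hab : a ≤ b) {F G : ℝ → ℂ} (hF : Continuous F)
    (hG : Continuous G) : NB a F G ≤ NB b F G := by
  unfold NB
  refine Real.sqrt_le_sqrt ?_
  have hc : Continuous fun r : ℝ => r ^ 11 * (‖F r‖ ^ 2 + ‖G r‖ ^ 2) := by fun_prop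
  have h1 := intervalIntegral.integral_add_adjacent_intervals (hc.intervalIntegrable (μ := volume) 0 a)
    (hc.intervalIntegrable a b)
  have h2 : 0 ≤ ∫ r in a..b, r ^ 11 * (‖F r‖ ^ 2 + ‖G r‖ ^ 2) := by
    refine intervalIntegral.integral_nonneg hab fun r hr => ?_
    have : 0 ≤ r := ha.trans hr.1
    positivity
  linarith

lemma NB_le {rho C : ℝ} (hrho : 0 ≤ rho) {F G : ℝ → ℂ} (hF : Continuous F) (hG : Continuous G)
    (hC : 0 ≤ C) (hFb : ∀ r ∈ Icc 0 rho, ‖F r‖ ≤ C) (hGb : ∀ r ∈ Icc 0 rho, ‖G r‖ ≤ C) :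
    NB rho F G ≤ Real.sqrt (rho * (rho ^ 11 * (2 * C ^ 2))) := by
  unfold NB
  refine Real.sqrt_le_sqrt ?_
  have hc : Continuous fun r : ℝ => r ^ 11 * (‖F r‖ ^ 2 + ‖G r‖ ^ 2) := by fun_prop
  have h1 : ∫ r in (0:ℝ)..rho, r ^ 11 * (‖F r‖ ^ 2 + ‖G r‖ ^ 2) ≤
      ∫ _r in (0:ℝ)..rho, rho ^ 11 * (2 * C ^ 2) := by
    refine intervalIntegral.integral_mono_on hrho (hc.intervalIntegrable _ _)
      (continuous_const.intervalIntegrable _ _) fun r hr => ?_
    have a1 : r ^ 11 ≤ rho ^ 11 := pow_le_pow_left₀ hr.1 hr.2 11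
    have a2 : ‖F r‖ ^ 2 + ‖G r‖ ^ 2 ≤ 2 * C ^ 2 := by
      have b1 := pow_le_pow_left₀ (norm_nonneg _) (hFb r hr) 2
      have b2 := pow_le_pow_left₀ (norm_nonneg _) (hGb r hr) 2
      linarith
    exact mul_le_mul a1 a2 (by positivity) (by positivity)
  refine h1.trans (le_of_eq ?_)
  rw [intervalIntegral.integral_const]
  simp

/-! ### scaling of pairs -/

lemma inX_smul {N : ℕ} {f : R12 → ℂ} (hf : InX N f) (c : ℂ) : InX N (fun y => c * f y) := by
  obtain ⟨a, ha⟩ := hf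
  refine ⟨fun ξ => c * a ξ, ?_, fun y => ?_⟩
  · refine (ha.1.const_mul c).congr (Eventually.of_forall fun ξ => ?_)
    simp only
    ring
  · simp only
    rw [ha.2 y, ← integral_const_mul]
    refine integral_congr_ae (Eventually.of_forall fun ξ => ?_)
    simp only
    ring

section
variable {n : ℕ} {P : Profile n}

lemma deriv_smul' (c : ℂ) (F : ℝ → ℂ) : deriv (fun r => c * F r) = fun r => c * deriv F r := by
  funext r; exact deriv_const_mul_field c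

lemma rgen1_smul (l : ℕ) (F G : ℝ → ℂ) (c : ℂ) (r : ℝ) :
    P.rgen1 l (fun r => c * F r) (fun r => c * G r) r = c * P.rgen1 l F G r := by
  unfold Profile.rgen1
  rw [CLift.rlap_const_mul, deriv_smul']
  ring

lemma rgen2_smul (l : ℕ) (F G : ℝ → ℂ) (c : ℂ) (r : ℝ) :
    P.rgen2 l (fun r => c * F r) (fun r => c * G r) r = c * P.rgen2 l F G r := by
  unfold Profile.rgen2
  rw [CLift.rlap_const_mul, deriv_smul']
  ring

lemma modeFn_smul' (H : R12 → ℝ) (F : ℝ → ℂ) (c : ℂ) :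
    modeFn H (fun r => c * F r) = fun y => c * modeFn H F y := by
  funext y
  unfold modeFn
  ring

theorem pair_smul {l : ℕ} {H : R12 → ℝ} {lam al : ℂ} {e F G : ℝ → ℂ}
    (h : P.Pair l H lam al e F G) (c : ℂ) :
    P.Pair l H lam (c * al) e (fun r => c * F r) (fun r => c * G r) := by
  refine ⟨h.sharm, h.nrm, contDiff_const.mul h.cF, contDiff_const.mul h.cG, ?_, ?_, ?_, ?_, ?_, ?_⟩
  · intro r; rw [h.pF r]; ring
  · intro r; rw [h.pG r]; ring
  · rw [modeFn_smul']; exact inX_smul h.xF c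
  · rw [modeFn_smul']; exact inX_smul h.xG c
  · intro r hr
    rw [rgen1_smul]
    linear_combination c * h.eqF r hr
  · intro r hr
    rw [rgen2_smul]
    linear_combination c * h.eqG r hr

end

/-! ### vanishing -/

lemma zero_of_XBd {N : ℕ} {f : R12 → ℂ} (h : XBd N f 0) : ∀ y, f y = 0 := by
  obtain ⟨a, ha, hb⟩ := h
  intro y
  rw [ha.2 y]
  have h1 : ‖∫ ξ : R12, exp (I * ((inner ℝ ξ y : ℝ) : ℂ)) * a ξ‖ ≤ 0 := by
    refine (norm_integral_le_integral_norm _).trans (le_trans ?_ hb)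
    have hint : Integrable (fun ξ : R12 => (1 + ‖ξ‖) ^ N * ‖a ξ‖) := by
      refine ha.1.norm.congr (Eventually.of_forall fun ξ => ?_)
      simp only
      rw [norm_mul, Complex.norm_real, Real.norm_of_nonneg (by positivity)]
    refine integral_mono_of_nonneg (Eventually.of_forall fun ξ => norm_nonneg _) hint
      (Eventually.of_forall fun ξ => ?_)
    simp only
    rw [norm_mul, mul_comm I, Complex.norm_exp_ofReal_mul_I, one_mul]
    have h1 : (1 : ℝ) ≤ (1 + ‖ξ‖) ^ N := one_le_pow₀ (by linarith [norm_nonneg ξ])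
    nlinarith [norm_nonneg (a ξ)]
  exact norm_le_zero_iff.1 h1

lemma exists_H_ne {H : R12 → ℝ} (hn : (∫ w : S11, (H w) ^ 2 ∂sig) = 1) : ∃ w : S11, H w ≠ 0 := by
  by_contra hcon
  push Not at hcon
  have : (fun w : S11 => (H w) ^ 2) = fun _ => 0 := by
    funext w; rw [hcon w]; ring
  rw [this] at hn
  simp at hn

lemma zero_of_modeFn {H : R12 → ℝ} (hn : (∫ w : S11, (H w) ^ 2 ∂sig) = 1) {F : ℝ → ℂ}
    (h : ∀ y, modeFn H F y = 0) : ∀ r, 0 < r → F r = 0 := by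
  intro r hr
  obtain ⟨w, hw⟩ := exists_H_ne hn
  have := h (r • (w : R12))
  rw [CLift.modeFn_smul H F hr] at this
  exact (mul_eq_zero.1 this).resolve_left (by exact_mod_cast hw)

/-- From REG: a pair with `NB 8 = 0` and `al = 0` vanishes. -/
theorem vanish {om0 R : ℝ} {U : ℝ → ℂ} {B : BData om0 R U} (hR : R < 8) (hreg : B.REG) :
    ∀ᶠ j in atTop, ∀ (l : ℕ) (H : R12 → ℝ) (lam al : ℂ) (e F G : ℝ → ℂ),
      0 ≤ lam.re → (B.P j).Pair l H lam al e F G →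
      ((al = 0 ∧ e = fun _ => 0) ∨ ∃ ls : ℝ, (B.P j).IsSym l ls e) →
      NB 8 F G = 0 → al = 0 → ∀ r, 0 < r → F r = 0 ∧ G r = 0 := by
  obtain ⟨K, hK⟩ := hreg 8 hR
  filter_upwards [hK] with j hj l H lam al e F G hre hp hsrc hN hal r hr
  obtain ⟨h1, h2⟩ := hj l H lam al e F G hre hp hsrc
  rw [hN, hal, norm_zero, add_zero, mul_zero] at h1 h2
  exact ⟨zero_of_modeFn hp.nrm (zero_of_XBd h1) r hr, zero_of_modeFn hp.nrm (zero_of_XBd h2) r hr⟩

end Crest.Agent.R086.C4Nb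
end

-- ▼ part R086/C4Sym
section

/-!
Row 86, Part C, C4 assembly (helper512): bounds of the symmetry modes, uniformly in `j`.
-/

set_option autoImplicit false

open MeasureTheory Complex Set Filter Topology
open scoped ContDiff

namespace Crest.Agent.R086.C4Sym

local notation "conj" => starRingEnd ℂ

section
variable {om0 R : ℝ} {U : ℝ → ℂ}

lemma U_le (LP : LimitProfile om0 R U) (r : ℝ) : ‖U r‖ ≤ 1 := by
  rcases le_or_gt r R with h | h
  · rw [LP.core r h]; simp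
  · exact (LP.lt_one r h).le

lemma U_R (LP : LimitProfile om0 R U) : U R = 1 := LP.core R le_rfl

lemma dU_R (LP : LimitProfile om0 R U) : deriv U R = 0 := by
  have h1 : HasDerivAt U (deriv U R) R := (LP.c1.differentiable (by norm_num) R).hasDerivAt
  have h2 : HasDerivWithinAt U (deriv U R) (Iic R) R := h1.hasDerivWithinAt
  have h3 : HasDerivWithinAt U 0 (Iic R) R := by
    refine (hasDerivWithinAt_const R (Iic R) (1 : ℂ)).congr (fun r hr => LP.core r hr) (U_R LP)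
  exact (uniqueDiffWithinAt_Iic R).eq_deriv _ h2 h3

lemma cdU (LP : LimitProfile om0 R U) : Continuous (deriv U) :=
  LP.c1.continuous_deriv (by norm_num)

lemma cU (LP : LimitProfile om0 R U) : Continuous U := LP.c1.continuous

variable {B : BData om0 R U}

lemma q_tendsto (B : BData om0 R U) {r : ℝ} (hr : r ∈ Icc (0 : ℝ) 8) :
    Tendsto (fun j => (B.P j).q r) atTop (𝓝 (U r)) := by
  rw [Metric.tendsto_nhds]
  intro ε hε
  filter_upwards [B.conv (ε / 2) (half_pos hε)] with j hj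
  rw [dist_eq_norm]
  linarith [(hj r hr).1]

lemma dq_tendsto (B : BData om0 R U) {r : ℝ} (hr : r ∈ Icc (0 : ℝ) 8) :
    Tendsto (fun j => deriv (B.P j).q r) atTop (𝓝 (deriv U r)) := by
  rw [Metric.tendsto_nhds]
  intro ε hε
  filter_upwards [B.conv (ε / 2) (half_pos hε)] with j hj
  rw [dist_eq_norm]
  linarith [(hj r hr).2]

lemma inv_n_tendsto (B : BData om0 R U) :
    Tendsto (fun j => (1 : ℂ) / (B.nn j : ℂ)) atTop (𝓝 0) := by
  have h1 : Tendsto (fun n : ℕ => (1 : ℂ) / (n : ℂ)) atTop (𝓝 0) := by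
    simpa using tendsto_inv_atTop_nhds_zero_nat (𝕜 := ℂ)
  exact h1.comp B.nn_tendsto

lemma rtime_tendsto (B : BData om0 R U) {r : ℝ} (hr : r ∈ Icc (0 : ℝ) 8) :
    Tendsto (fun j => (B.P j).rtime r) atTop
      (𝓝 (((0 : ℂ) - I * om0) * U r + (1 / 2) * ((r : ℂ) * deriv U r))) := by
  have h1 := inv_n_tendsto B
  have h2 : Tendsto (fun j => ((B.P j).om : ℂ)) atTop (𝓝 (om0 : ℂ)) :=
    (Complex.continuous_ofReal.tendsto om0).comp B.om_tendsto
  have h3 := q_tendsto B hr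
  have h4 := dq_tendsto B hr
  exact ((h1.sub (h2.const_mul I)).mul h3).add ((h4.const_mul (r : ℂ)).const_mul (1 / 2))

/-- upper bound of all symmetry modes on `[0, 8]` -/
theorem sym_upper (LP : LimitProfile om0 R U) (B : BData om0 R U) :
    ∃ K : ℝ, 0 ≤ K ∧ ∀ᶠ j in atTop, ∀ (l : ℕ) (ls : ℝ) (e : ℝ → ℂ), (B.P j).IsSym l ls e →
      ∀ r ∈ Icc (0 : ℝ) 8, ‖e r‖ ≤ K := by
  obtain ⟨M, hM⟩ := (isCompact_Icc (a := (0 : ℝ)) (b := 8)).exists_bound_of_continuousOn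
    (cdU LP).continuousOn
  have hM0 : 0 ≤ M := (norm_nonneg _).trans (hM 0 (by norm_num))
  have hom : ∀ᶠ j in atTop, |(B.P j).om| ≤ 1 := by
    have h1 := B.om_tendsto.eventually (Icc_mem_nhds (a := -1) (b := 1)
      (by linarith [LP.om_lo]) (by linarith [LP.om_hi]))
    filter_upwards [h1] with j hj using abs_le.2 ⟨hj.1, hj.2⟩
  refine ⟨2 + 4 + 4 * (M + 1) + (M + 1), by positivity, ?_⟩
  filter_upwards [B.conv 1 one_pos, hom] with j hj homj l ls e he r hr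
  have hq : ‖(B.P j).q r‖ ≤ 2 := by
    have h1 := (hj r hr).1
    have h2 := U_le LP r
    have h3 : ‖(B.P j).q r‖ ≤ ‖(B.P j).q r - U r‖ + ‖U r‖ := by
      have := norm_add_le ((B.P j).q r - U r) (U r)
      simpa using this
    linarith
  have hdq : ‖deriv (B.P j).q r‖ ≤ M + 1 := by
    have h1 := (hj r hr).2
    have h2 := hM r hr
    have h3 : ‖deriv (B.P j).q r‖ ≤ ‖deriv (B.P j).q r - deriv U r‖ + ‖deriv U r‖ := by
      have := norm_add_le (deriv (B.P j).q r - deriv U r) (deriv U r)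
      simpa using this
    linarith
  rcases he with ⟨_, _, rfl⟩ | ⟨_, _, rfl⟩ | ⟨_, _, rfl⟩
  · simp only [norm_mul, norm_I, one_mul]
    linarith
  · unfold Profile.rtime
    have hn : ‖(1 : ℂ) / (B.nn j : ℂ) - I * (B.P j).om‖ ≤ 2 := by
      refine (norm_sub_le _ _).trans ?_
      have h1 : ‖(1 : ℂ) / (B.nn j : ℂ)‖ ≤ 1 := by
        rw [norm_div, norm_one, Complex.norm_natCast]
        have : (1 : ℝ) ≤ (B.nn j : ℝ) := by
          have := (B.P j).two_le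
          exact_mod_cast (by omega : 1 ≤ B.nn j)
        rw [div_le_one (by linarith)]
        exact this
      have h2 : ‖I * ((B.P j).om : ℂ)‖ ≤ 1 := by
        rw [norm_mul, norm_I, one_mul, Complex.norm_real]
        exact homj
      linarith
    refine (norm_add_le _ _).trans ?_
    have a1 : ‖((1 : ℂ) / (B.nn j : ℂ) - I * (B.P j).om) * (B.P j).q r‖ ≤ 2 * 2 := by
      rw [norm_mul]
      exact mul_le_mul hn hq (norm_nonneg _) (by norm_num)
    have a2 : ‖(1 / 2 : ℂ) * ((r : ℂ) * deriv (B.P j).q r)‖ ≤ 4 * (M + 1) := by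
      rw [norm_mul, norm_mul, Complex.norm_real, Real.norm_of_nonneg hr.1]
      have : ‖(1 / 2 : ℂ)‖ = 1 / 2 := by simp
      rw [this]
      have := mul_le_mul hr.2 hdq (norm_nonneg _) (by norm_num : (0 : ℝ) ≤ 8)
      linarith
    linarith
  · linarith

lemma eventually_norm_ge {u : ℕ → ℂ} {v : ℂ} (h : Tendsto u atTop (𝓝 v)) {c : ℝ} (hc : c < ‖v‖) :
    ∀ᶠ j in atTop, c ≤ ‖u j‖ := by
  filter_upwards [h.norm.eventually (lt_mem_nhds hc)] with j hj using hj.le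

/-- lower bound of a symmetry mode at one point outside the core -/
theorem sym_lower (LP : LimitProfile om0 R U) (B : BData om0 R U) (l : ℕ) (ls : ℝ) :
    ∃ rs ∈ Ioo R 8, ∃ c : ℝ, 0 < c ∧ ∀ᶠ j in atTop, ∀ e : ℝ → ℂ, (B.P j).IsSym l ls e →
      c ≤ ‖e rs‖ := by
  have hR1 := LP.R_lo
  have hR2 := LP.R_hi
  by_cases h0 : l = 0 ∧ ls = 0
  · obtain ⟨rfl, rfl⟩ := h0
    refine ⟨5, ⟨by linarith, by norm_num⟩, 1 / 2, by norm_num, ?_⟩
    filter_upwards [B.q_lower] with j hj e he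
    rcases he with ⟨_, _, rfl⟩ | ⟨_, h, _⟩ | ⟨h, _, _⟩
    · simp only [norm_mul, norm_I, one_mul]
      exact hj 5 ⟨by norm_num, by norm_num⟩
    · norm_num at h
    · norm_num at h
  by_cases h1 : l = 0 ∧ ls = 1
  · obtain ⟨rfl, rfl⟩ := h1
    set E : ℝ → ℂ := fun r => ((0 : ℂ) - I * om0) * U r + (1 / 2) * ((r : ℂ) * deriv U r) with hE
    have hEc : Continuous E := by
      have := cU LP
      have := cdU LP
      simp only [hE]
      fun_prop
    have hER : E R = -(I * om0) := by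
      simp only [hE]
      rw [U_R LP, dU_R LP]; ring
    have hn : (1 / 4 : ℝ) < ‖E R‖ := by
      rw [hER, norm_neg, norm_mul, norm_I, one_mul, Complex.norm_real, Real.norm_eq_abs,
        abs_of_pos (by linarith [LP.om_lo])]
      linarith [LP.om_lo]
    have hev : ∀ᶠ r in 𝓝[>] R, (1 / 4 : ℝ) < ‖E r‖ :=
      ((hEc.norm.tendsto R).eventually (lt_mem_nhds hn)).filter_mono nhdsWithin_le_nhds
    have hev2 : ∀ᶠ r in 𝓝[>] R, r ∈ Ioo R 8 := Ioo_mem_nhdsGT (by linarith)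
    obtain ⟨rs, hrs1, hrs2⟩ := (hev.and hev2).exists
    refine ⟨rs, hrs2, 1 / 4, by norm_num, ?_⟩
    filter_upwards [eventually_norm_ge
      (rtime_tendsto B (r := rs) ⟨by linarith [hrs2.1], hrs2.2.le⟩) hrs1] with j hj e he
    rcases he with ⟨_, h, _⟩ | ⟨_, _, rfl⟩ | ⟨h, _, _⟩
    · norm_num at h
    · exact hj
    · norm_num at h
  by_cases h2 : l = 1 ∧ ls = 1 / 2
  · obtain ⟨rfl, rfl⟩ := h2
    have hex : ∃ rs ∈ Ioo R 8, deriv U rs ≠ 0 := by
      by_contra hcon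
      push Not at hcon
      have hd : Differentiable ℝ U := LP.c1.differentiable (by norm_num)
      have key : U 5 = U 6 := by
        have hc : ∀ x ∈ Icc (5 : ℝ) 6, U x = U 5 := by
          refine constant_of_derivWithin_zero (hd.differentiableOn) fun x hx => ?_
          have h1 : HasDerivAt U 0 x := by
            have := (hd x).hasDerivAt
            rwa [hcon x ⟨by linarith [hx.1], by linarith [hx.2]⟩] at this
          exact h1.hasDerivWithinAt.derivWithin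
            ((uniqueDiffOn_Icc (by norm_num)) x ⟨hx.1, hx.2.le⟩)
        exact (hc 6 ⟨by norm_num, le_rfl⟩).symm
      have := LP.anti (a := 5) (b := 6) (by rw [mem_Ici]; linarith) (by rw [mem_Ici]; linarith)
        (by norm_num)
      simp only at this
      rw [key] at this
      exact lt_irrefl _ this
    obtain ⟨rs, hrs, hne⟩ := hex
    refine ⟨rs, hrs, ‖deriv U rs‖ / 2, by positivity, ?_⟩
    have hpos : 0 < ‖deriv U rs‖ := norm_pos_iff.2 hne
    filter_upwards [eventually_norm_ge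
      (dq_tendsto B (r := rs) ⟨by linarith [hrs.1], hrs.2.le⟩)
      (by linarith : ‖deriv U rs‖ / 2 < ‖deriv U rs‖)] with j hj e he
    rcases he with ⟨h, _, _⟩ | ⟨h, _, _⟩ | ⟨_, _, rfl⟩
    · norm_num at h
    · norm_num at h
    · exact hj
  · refine ⟨5, ⟨by linarith, by norm_num⟩, 1, one_pos, ?_⟩
    filter_upwards with j e he
    rcases he with ⟨a, b, _⟩ | ⟨a, b, _⟩ | ⟨a, b, _⟩
    · exact absurd ⟨a, b⟩ h0
    · exact absurd ⟨a, b⟩ h1
    · exact absurd ⟨a, b⟩ h2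

end

end Crest.Agent.R086.C4Sym
end

-- ▼ part R086/C4Asm
section

/-!
Row 86, Part C, C4 assembly (helper512): the symmetric case (SY).
-/

set_option autoImplicit false

open MeasureTheory Complex Set Filter Topology
open scoped ContDiff

namespace Crest.Agent.R086.C4Asm

open C4Lim C4Nb C4Sym JCx

local notation "conj" => starRingEnd ℂ

lemma Phi_ne' {l : ℕ} {m : ℂ} (hm : -(1 / 4) < m.re) {r : ℝ} (hr : 0 < r) :
    Phi l m r ≠ 0 ∨ Phi1 l m r ≠ 0 := by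
  refine C4FinAux.Phi_ne ?_ hr
  show -1 - (l : ℝ) / 2 < m.re
  have : (0 : ℝ) ≤ (l : ℝ) / 2 := by positivity
  linarith

lemma exists_point (l : ℕ) {m : ℂ} (hm : -(1 / 4) < m.re) : ∃ rp ∈ Icc (5 : ℝ) 6, Phi l m rp ≠ 0 := by
  by_contra hcon
  push Not at hcon
  have h1 : Phi l m (11 / 2) = 0 := hcon _ (by norm_num)
  have h2 : HasDerivAt (Phi l m) (Phi1 l m (11 / 2)) (11 / 2) := phiFacts.der l m hm _ (by norm_num)
  have h3 : (fun _ : ℝ => (0 : ℂ)) =ᶠ[𝓝 (11 / 2)] Phi l m := by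
    filter_upwards [Icc_mem_nhds (a := (5 : ℝ)) (b := 6) (x := 11 / 2) (by norm_num) (by norm_num)]
      with r hr
    exact (hcon r hr).symm
  have h4 : HasDerivAt (fun _ : ℝ => (0 : ℂ)) (Phi1 l m (11 / 2)) (11 / 2) :=
    h2.congr_of_eventuallyEq h3
  have h5 : Phi1 l m (11 / 2) = 0 := h4.unique (hasDerivAt_const _ _)
  rcases Phi_ne' (l := l) hm (r := 11 / 2) (by norm_num) with h | h
  · exact h h1
  · exact h h5

section
variable {om0 R : ℝ} {U : ℝ → ℂ} {B : BData om0 R U} {𝓤 : Ultrafilter ℕ}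

lemma mu_tendsto (B : BData om0 R U) (hU : (𝓤 : Filter ℕ) ≤ atTop) {lam : ℕ → ℂ} {lam0 : ℂ}
    (h : Tendsto lam 𝓤 (𝓝 lam0)) :
    Tendsto (fun j => (B.P j).mu (lam j)) 𝓤 (𝓝 (lam0 - I * om0)) := by
  have h1 := (inv_n_tendsto B).mono_left hU
  have h2 : Tendsto (fun j => ((B.P j).om : ℂ)) 𝓤 (𝓝 (om0 : ℂ)) :=
    ((Complex.continuous_ofReal.tendsto om0).comp B.om_tendsto).mono_left hU
  have := (h.add h1).sub (h2.const_mul I)
  rw [add_zero] at this
  exact this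

lemma hp_mem {lam0 : ℂ} (h : 0 ≤ lam0.re) (om0 : ℝ) : -(1 / 4) < (lam0 - I * om0 : ℂ).re := by
  simp only [sub_re, mul_re, I_re, ofReal_re, zero_mul, I_im, ofReal_im, mul_zero, sub_zero]
  linarith

lemma exp_tendsto (B : BData om0 R U) (hU : (𝓤 : Filter ℕ) ≤ atTop) {c : ℝ} (hc : 0 < c) :
    Tendsto (fun j => Real.exp (-c * B.nn j)) 𝓤 (𝓝 0) := by
  have h1 : Tendsto (fun j => (B.nn j : ℝ)) atTop atTop :=
    tendsto_natCast_atTop_atTop.comp B.nn_tendsto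
  have h2 : Tendsto (fun j => -c * (B.nn j : ℝ)) atTop atBot := by
    have := h1.const_mul_atTop hc
    have := tendsto_neg_atTop_atBot.comp this
    refine this.congr fun j => ?_
    simp
  exact (Real.tendsto_exp_atBot.comp h2).mono_left hU

/-- one component with a source -/
lemma comp_src {l : ℕ} {m ms : ℕ → ℂ} {m0 ms0 : ℂ} (hm0 : -(1 / 4) < m0.re)
    (hms0 : -(1 / 4) < ms0.re) (hm : Tendsto m 𝓤 (𝓝 m0)) (hms : Tendsto ms 𝓤 (𝓝 ms0))
    {w : ℕ → ℂ} {w0 ga0 : ℂ} (hw : Tendsto w 𝓤 (𝓝 w0)) {f f1 : ℕ → ℝ → ℂ} {Cb d0 : ℝ} (hR : 0 < R)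
    (hRd : R + d0 ≤ 5) (hb : ∀ rp ∈ Icc (5 : ℝ) 6, ∀ᶠ j in (𝓤 : Filter ℕ), ‖f j rp‖ ≤ Cb) :
    ∃ c0 : ℂ, ∀ d, 0 < d → d ≤ d0 → ∀ (c ga : ℕ → ℂ) (err : ℕ → ℝ), Tendsto ga 𝓤 (𝓝 ga0) →
      Tendsto err 𝓤 (𝓝 0) →
      (∀ᶠ j in (𝓤 : Filter ℕ), ∀ r ∈ Icc (R + d) 8,
        ‖f j r - (c j * Phi l (m j) r + w j * ga j * dslope (fun z => Phi l z r) (ms j) (m j))‖
          ≤ err j ∧
        ‖f1 j r - (c j * Phi1 l (m j) r + w j * ga j * dslope (fun z => Phi1 l z r) (ms j) (m j))‖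
          ≤ err j) →
      ∀ (r : ℕ → ℝ) (r0 : ℝ), (∀ j, r j ∈ Icc (R + d) 8) → Tendsto r 𝓤 (𝓝 r0) →
        Tendsto (fun j => f j (r j)) 𝓤
          (𝓝 (c0 * Phi l m0 r0 + w0 * ga0 * dslope (fun z => Phi l z r0) ms0 m0)) ∧
        Tendsto (fun j => f1 j (r j)) 𝓤
          (𝓝 (c0 * Phi1 l m0 r0 + w0 * ga0 * dslope (fun z => Phi1 l z r0) ms0 m0)) := by
  have jP : Joint 𝓤 (fun j r => Phi l (m j) r) (Phi l m0) := joint_of_cont (phiFacts.cont l) hm0 hm
  have jP1 : Joint 𝓤 (fun j r => Phi1 l (m j) r) (Phi1 l m0) :=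
    joint_of_cont (phiFacts.cont1 l) hm0 hm
  obtain ⟨jZ, -⟩ := joint_dslope (𝓤 := 𝓤) (phiFacts.cont l) (phiFacts.hol l) hm0 hms0 hm hms
  obtain ⟨jZ1, -⟩ := joint_dslope (𝓤 := 𝓤) (phiFacts.cont1 l) (phiFacts.hol1 l) hm0 hms0 hm hms
  have hwg : Tendsto (fun j => w j * ga0) 𝓤 (𝓝 (w0 * ga0)) := hw.mul_const ga0
  obtain ⟨rp, hrp, hne⟩ := exists_point l hm0
  obtain ⟨c0, hc0⟩ := comp_lim (𝓤 := 𝓤) jP jP1 (jZ.mul hwg) (jZ1.mul hwg) (f := f) (f1 := f1) hR hRd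
    hrp hne (hb rp hrp)
  refine ⟨c0, fun d hd hdd c ga err hga herr h => ?_⟩
  refine (hc0 d hd hdd c ?_).2
  intro r hr
  obtain ⟨r0, hr0m, hr0⟩ := rlim (𝓤 := 𝓤) hr
  have hr00 : 0 < r0 := by linarith [hr0m.1]
  have hdiff : Tendsto (fun j => w j * (ga j - ga0)) 𝓤 (𝓝 0) := by
    have := hw.mul (hga.sub_const ga0)
    simpa using this
  constructor
  · have a1 : Tendsto (fun j => f j (r j) - (c j * Phi l (m j) (r j) + w j * ga j *
        dslope (fun z => Phi l z (r j)) (ms j) (m j))) 𝓤 (𝓝 0) := by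
      refine squeeze_zero_norm' ?_ herr
      filter_upwards [h] with j hj using (hj (r j) (hr j)).1
    have a2 := hdiff.mul (jZ r r0 hr00 hr0)
    rw [zero_mul] at a2
    have := a1.add a2
    rw [add_zero] at this
    refine this.congr fun j => ?_
    ring
  · have a1 : Tendsto (fun j => f1 j (r j) - (c j * Phi1 l (m j) (r j) + w j * ga j *
        dslope (fun z => Phi1 l z (r j)) (ms j) (m j))) 𝓤 (𝓝 0) := by
      refine squeeze_zero_norm' ?_ herr
      filter_upwards [h] with j hj using (hj (r j) (hr j)).2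
    have a2 := hdiff.mul (jZ1 r r0 hr00 hr0)
    rw [zero_mul] at a2
    have := a1.add a2
    rw [add_zero] at this
    refine this.congr fun j => ?_
    ring

/-- the boundary relations in the limit -/
lemma bc_rel {l : ℕ} {f f1 g g1 : ℕ → ℝ → ℂ} {X X1 Y Y1 : ℝ → ℂ} {C d0 : ℝ} (hd0 : 0 < d0)
    (cX : ContinuousAt X R) (cX1 : ContinuousAt X1 R) (cY : ContinuousAt Y R) (cY1 : ContinuousAt Y1 R)
    (hX : ∀ d, 0 < d → d ≤ d0 → Tendsto (fun j => f j (R + d)) 𝓤 (𝓝 (X (R + d))) ∧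
      Tendsto (fun j => f1 j (R + d)) 𝓤 (𝓝 (X1 (R + d))) ∧
      Tendsto (fun j => conj (g j (R + d))) 𝓤 (𝓝 (Y (R + d))) ∧
      Tendsto (fun j => conj (g1 j (R + d))) 𝓤 (𝓝 (Y1 (R + d))))
    (hb : ∀ d, 0 < d → d ≤ d0 → ∀ᶠ j in (𝓤 : Filter ℕ),
      ‖f j (R + d) + g j (R + d)‖ ≤ C * Real.sqrt d ∧
      ‖f1 j (R + d) - g1 j (R + d) - (l : ℂ) / (R : ℂ) * (f j (R + d) - g j (R + d))‖
        ≤ C * Real.sqrt d) :
    X R + conj (Y R) = 0 ∧ X1 R - conj (Y1 R) - (l : ℂ) / (R : ℂ) * (X R - conj (Y R)) = 0 := by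
  have cc : ∀ z : ℂ, ContinuousAt (fun w : ℂ => conj w) z := fun z =>
    Complex.continuous_conj.continuousAt
  have cYc : ContinuousAt (fun r => conj (Y r)) R := (cc _).comp (f := Y) (x := R) cY
  have cY1c : ContinuousAt (fun r => conj (Y1 r)) R := (cc _).comp (f := Y1) (x := R) cY1
  constructor
  · refine bc_zero (X := fun r => X r + conj (Y r)) hd0 (cX.add cYc) (C := C) fun d h1 h2 => ?_
    obtain ⟨a1, -, a3, -⟩ := hX d h1 h2
    have a3' : Tendsto (fun j => g j (R + d)) 𝓤 (𝓝 (conj (Y (R + d)))) := by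
      have := (Complex.continuous_conj.tendsto _).comp a3
      refine this.congr fun j => ?_
      simp
    refine le_of_tendsto (a1.add a3').norm ?_
    filter_upwards [hb d h1 h2] with j hj using hj.1
  · refine bc_zero (X := fun r => X1 r - conj (Y1 r) - (l : ℂ) / (R : ℂ) * (X r - conj (Y r))) hd0
      ((cX1.sub cY1c).sub (continuousAt_const.mul (cX.sub cYc))) (C := C) fun d h1 h2 => ?_
    obtain ⟨a1, a2, a3, a4⟩ := hX d h1 h2
    have a3' : Tendsto (fun j => g j (R + d)) 𝓤 (𝓝 (conj (Y (R + d)))) := by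
      have := (Complex.continuous_conj.tendsto _).comp a3
      refine this.congr fun j => ?_
      simp
    have a4' : Tendsto (fun j => g1 j (R + d)) 𝓤 (𝓝 (conj (Y1 (R + d)))) := by
      have := (Complex.continuous_conj.tendsto _).comp a4
      refine this.congr fun j => ?_
      simp
    refine le_of_tendsto ((a2.sub a4').sub ((a1.sub a3').const_mul _)).norm ?_
    filter_upwards [hb d h1 h2] with j hj using hj.2

end

end Crest.Agent.R086.C4Asm
end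

-- ▼ part R086/C4SY
section

/-!
Row 86, Part C, C4 (helper512): the symmetric case (SY), sequence version and final statement.
-/

set_option autoImplicit false

open MeasureTheory Complex Set Filter Topology
open scoped ContDiff

namespace Crest.Agent.R086.C4SY

open C4Lim C4Nb C4Sym C4Asm JCx

local notation "conj" => starRingEnd ℂ

section
variable {om0 R : ℝ} {U : ℝ → ℂ} {B : BData om0 R U} {𝓤 : Ultrafilter ℕ}

lemma deriv_conj' {e : ℝ → ℂ} (he : Differentiable ℝ e) (r : ℝ) :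
    deriv (fun r => conj (e r)) r = conj (deriv e r) := by
  have h1 : HasDerivAt e (deriv e r) r := (he r).hasDerivAt
  have h2 : HasDerivAt (fun r => conj (e r)) (conj (deriv e r)) r := h1.star
  exact h2.deriv

lemma contAt_Phi {l : ℕ} {m : ℂ} (hm : -(1 / 4) < m.re) {r : ℝ} (hr : 0 < r) :
    ContinuousAt (fun r => Phi l m r) r := (phiFacts.der l m hm r hr).continuousAt

lemma contAt_Phi1 {l : ℕ} {m : ℂ} (hm : -(1 / 4) < m.re) {r : ℝ} (hr : 0 < r) :
    ContinuousAt (fun r => Phi1 l m r) r := by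
  have h := phiFacts.cont1 l
  have hO : IsOpen ({m : ℂ | -(1 / 4) < m.re} ×ˢ Ioi (0 : ℝ)) :=
    (isOpen_lt continuous_const continuous_re).prod isOpen_Ioi
  have h1 : ContinuousAt (fun p : ℂ × ℝ => Phi1 l p.1 p.2) (m, r) :=
    (h (m, r) ⟨hm, hr⟩).continuousAt (hO.mem_nhds ⟨hm, hr⟩)
  exact ContinuousAt.comp (f := fun r : ℝ => (m, r)) (g := fun p : ℂ × ℝ => Phi1 l p.1 p.2) (x := r)
    h1 (by fun_prop)

/-- the limit of a symmetry mode outside the core -/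
theorem sym_lim (LP : LimitProfile om0 R U) (hs : SymStmt) (hBC : B.C4BC)
    (hU : (𝓤 : Filter ℕ) ≤ atTop) {l : ℕ} {ls : ℝ} (hls : 0 ≤ ls) (hls1 : ls ≤ 1)
    {H : ℕ → R12 → ℝ} {e : ℕ → ℝ → ℂ}
    (he : ∀ᶠ j in (𝓤 : Filter ℕ), (B.P j).IsSym l ls (e j) ∧ SHarm l (H j) ∧
      (∫ w : S11, (H j w) ^ 2 ∂sig) = 1)
    {d0 : ℝ} (hRd : R + d0 ≤ 5)
    (hE : ∀ d, 0 < d → d ≤ d0 → ∃ (ga : ℕ → ℂ) (err : ℕ → ℝ), Tendsto err 𝓤 (𝓝 0) ∧
      ∀ᶠ j in (𝓤 : Filter ℕ), ∀ r ∈ Icc (R + d) 8,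
        ‖e j r - ga j * Phi l ((B.P j).mu ls) r‖ ≤ err j ∧
        ‖deriv (e j) r - ga j * Phi1 l ((B.P j).mu ls) r‖ ≤ err j) (hd0 : 0 < d0) :
    ∃ ga0 : ℂ,
      (∀ d, 0 < d → d ≤ d0 → ∀ (ga : ℕ → ℂ) (err : ℕ → ℝ), Tendsto err 𝓤 (𝓝 0) →
        (∀ᶠ j in (𝓤 : Filter ℕ), ∀ r ∈ Icc (R + d) 8,
          ‖e j r - ga j * Phi l ((B.P j).mu ls) r‖ ≤ err j ∧
          ‖deriv (e j) r - ga j * Phi1 l ((B.P j).mu ls) r‖ ≤ err j) →
        Tendsto ga 𝓤 (𝓝 ga0)) ∧
      (∀ d, 0 < d → d ≤ d0 → ∀ (r : ℕ → ℝ) (r0 : ℝ), (∀ j, r j ∈ Icc (R + d) 8) →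
        Tendsto r 𝓤 (𝓝 r0) →
        Tendsto (fun j => e j (r j)) 𝓤 (𝓝 (ga0 * Phi l ((ls : ℂ) - I * om0) r0)) ∧
        Tendsto (fun j => deriv (e j) (r j)) 𝓤 (𝓝 (ga0 * Phi1 l ((ls : ℂ) - I * om0) r0))) ∧
      ga0 * Phi l ((ls : ℂ) - I * om0) R + conj (ga0 * Phi l ((ls : ℂ) - I * om0) R) = 0 ∧
      ga0 * PsiL Phi Phi1 R l ((ls : ℂ) - I * om0)
        - conj (ga0 * PsiL Phi Phi1 R l ((ls : ℂ) - I * om0)) = 0 := by
  have hR : 0 < R := by linarith [LP.R_lo]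
  have hm0 : -(1 / 4) < ((ls : ℂ) - I * om0 : ℂ).re := hp_mem (by simpa using hls) om0
  have hmu : Tendsto (fun j => (B.P j).mu (ls : ℂ)) 𝓤 (𝓝 ((ls : ℂ) - I * om0)) :=
    mu_tendsto B hU tendsto_const_nhds
  have jP : Joint 𝓤 (fun j r => Phi l ((B.P j).mu ls) r) (Phi l ((ls : ℂ) - I * om0)) :=
    joint_of_cont (phiFacts.cont l) hm0 hmu
  have jP1 : Joint 𝓤 (fun j r => Phi1 l ((B.P j).mu ls) r) (Phi1 l ((ls : ℂ) - I * om0)) :=
    joint_of_cont (phiFacts.cont1 l) hm0 hmu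
  obtain ⟨rp, hrp, hne⟩ := exists_point l hm0
  obtain ⟨K, hK0, hK⟩ := sym_upper LP B
  have hb : ∀ᶠ j in (𝓤 : Filter ℕ), ‖e j rp‖ ≤ K := by
    filter_upwards [hK.filter_mono hU, he] with j h1 h2
    exact h1 l ls (e j) h2.1 rp ⟨by linarith [hrp.1], by linarith [hrp.2]⟩
  obtain ⟨ga0, hga0⟩ := comp_lim (𝓤 := 𝓤) jP jP1 (Joint.zero _) (Joint.zero _) (f := e)
    (f1 := fun j r => deriv (e j) r) hR hRd hrp hne hb
  have happr : ∀ d, 0 < d → d ≤ d0 → ∀ (ga : ℕ → ℂ) (err : ℕ → ℝ), Tendsto err 𝓤 (𝓝 0) →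
      (∀ᶠ j in (𝓤 : Filter ℕ), ∀ r ∈ Icc (R + d) 8,
        ‖e j r - ga j * Phi l ((B.P j).mu ls) r‖ ≤ err j ∧
        ‖deriv (e j) r - ga j * Phi1 l ((B.P j).mu ls) r‖ ≤ err j) →
      Appr 𝓤 (fun j r => Phi l ((B.P j).mu ls) r) (fun j r => Phi1 l ((B.P j).mu ls) r) e
        (fun j r => deriv (e j) r) (fun _ _ => 0) (fun _ _ => 0) (R + d) ga := by
    intro d h1 h2 ga err h3 h4
    refine appr_of_le h3 ?_
    filter_upwards [h4] with j hj r hr
    obtain ⟨a1, a2⟩ := hj r hr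
    exact ⟨by simpa using a1, by simpa using a2⟩
  have hlim : ∀ d, 0 < d → d ≤ d0 → ∀ (r : ℕ → ℝ) (r0 : ℝ), (∀ j, r j ∈ Icc (R + d) 8) →
      Tendsto r 𝓤 (𝓝 r0) →
      Tendsto (fun j => e j (r j)) 𝓤 (𝓝 (ga0 * Phi l ((ls : ℂ) - I * om0) r0)) ∧
      Tendsto (fun j => deriv (e j) (r j)) 𝓤 (𝓝 (ga0 * Phi1 l ((ls : ℂ) - I * om0) r0)) := by
    intro d h1 h2 r r0 hr hr0
    obtain ⟨ga, err, h3, h4⟩ := hE d h1 h2
    have := (hga0 d h1 h2 ga (happr d h1 h2 ga err h3 h4)).2 r r0 hr hr0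
    simpa using this
  -- boundary relations through the scaled pair
  set K' : ℝ := 1 + Real.sqrt (8 * (8 ^ 11 * (2 * K ^ 2))) with hK'
  have hK'1 : 1 ≤ K' := by
    have := Real.sqrt_nonneg (8 * (8 ^ 11 * (2 * K ^ 2)))
    linarith
  have hK'0 : 0 < K' := by linarith
  set c : ℂ := ((K'⁻¹ : ℝ) : ℂ) with hc
  have hc0 : c ≠ 0 := by
    rw [hc]; exact_mod_cast inv_ne_zero hK'0.ne'
  have hcc : conj c = c := by rw [hc, Complex.conj_ofReal]
  have hcn : ‖c‖ = K'⁻¹ := by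
    rw [hc, Complex.norm_real, Real.norm_of_nonneg (inv_nonneg.2 hK'0.le)]
  obtain ⟨C, d1, hd1, hbc⟩ := hBC 1 l
  set d2 : ℝ := min d0 d1 with hd2
  have hd2p : 0 < d2 := lt_min hd0 hd1
  have hrel := bc_rel (𝓤 := 𝓤) (R := R) (l := l) (f := fun j r => c * e j r)
    (f1 := fun j r => c * deriv (e j) r) (g := fun j r => c * conj (e j r))
    (g1 := fun j r => c * conj (deriv (e j) r))
    (X := fun r => c * (ga0 * Phi l ((ls : ℂ) - I * om0) r))
    (X1 := fun r => c * (ga0 * Phi1 l ((ls : ℂ) - I * om0) r))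
    (Y := fun r => c * (ga0 * Phi l ((ls : ℂ) - I * om0) r))
    (Y1 := fun r => c * (ga0 * Phi1 l ((ls : ℂ) - I * om0) r)) (C := C) hd2p
    (continuousAt_const.mul (continuousAt_const.mul (contAt_Phi hm0 hR)))
    (continuousAt_const.mul (continuousAt_const.mul (contAt_Phi1 hm0 hR)))
    (continuousAt_const.mul (continuousAt_const.mul (contAt_Phi hm0 hR)))
    (continuousAt_const.mul (continuousAt_const.mul (contAt_Phi1 hm0 hR))) ?_ ?_
  · obtain ⟨r1, r2⟩ := hrel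
    refine ⟨ga0, fun d h1 h2 ga err h3 h4 => (hga0 d h1 h2 ga (happr d h1 h2 ga err h3 h4)).1,
      hlim, ?_, ?_⟩
    · simp only [map_mul, hcc] at r1 ⊢
      have : c * (ga0 * Phi l ((ls : ℂ) - I * om0) R
          + conj ga0 * conj (Phi l ((ls : ℂ) - I * om0) R)) = 0 := by linear_combination r1
      exact (mul_eq_zero.1 this).resolve_left hc0
    · unfold PsiL
      simp only [map_mul, map_sub, map_div₀, hcc, Complex.conj_ofReal, map_natCast] at r2 ⊢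
      have : c * (ga0 * (Phi1 l ((ls : ℂ) - I * om0) R
            - (l : ℂ) / (R : ℂ) * Phi l ((ls : ℂ) - I * om0) R)
          - conj ga0 * (conj (Phi1 l ((ls : ℂ) - I * om0) R)
            - (l : ℂ) / (R : ℂ) * conj (Phi l ((ls : ℂ) - I * om0) R))) = 0 := by
        linear_combination r2
      exact (mul_eq_zero.1 this).resolve_left hc0
  · intro d h1 h2
    have hdd : d ≤ d0 := h2.trans (min_le_left _ _)
    have hmem : ∀ _j : ℕ, R + d ∈ Icc (R + d) 8 := fun _ => ⟨le_rfl, by linarith⟩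
    obtain ⟨a1, a2⟩ := hlim d h1 hdd (fun _ => R + d) (R + d) hmem tendsto_const_nhds
    refine ⟨a1.const_mul c, a2.const_mul c, ?_, ?_⟩
    · refine (a1.const_mul c).congr fun j => ?_
      simp [hcc]
    · refine (a2.const_mul c).congr fun j => ?_
      simp [hcc]
  · intro d h1 h2
    filter_upwards [(hbc d h1 (h2.trans (min_le_right _ _))).filter_mono hU, he,
      hK.filter_mono hU] with j b1 b2 b3
    obtain ⟨hsym, hH, hn⟩ := b2
    have hpe := hs _ (B.P j) l ls (e j) (H j) hsym hH hn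
    have hps := pair_smul hpe c
    rw [mul_zero] at hps
    have ce : Continuous (e j) := hpe.cF.continuous
    have cec : Continuous fun r => conj (e j r) := hpe.cG.continuous
    have hNB : NB 8 (fun r => c * e j r) (fun r => c * conj (e j r)) ≤ 1 := by
      rw [NB_smul, hcn]
      have h3 : NB 8 (e j) (fun r => conj (e j r)) ≤ Real.sqrt (8 * (8 ^ 11 * (2 * K ^ 2))) := by
        refine NB_le (by norm_num) ce cec hK0 (b3 l ls (e j) hsym) fun r hr => ?_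
        rw [RCLike.norm_conj]
        exact b3 l ls (e j) hsym r hr
      have h4 : NB 8 (e j) (fun r => conj (e j r)) ≤ K' := by linarith
      calc K'⁻¹ * NB 8 (e j) (fun r => conj (e j r)) ≤ K'⁻¹ * K' :=
            mul_le_mul_of_nonneg_left h4 (inv_nonneg.2 hK'0.le)
        _ = 1 := inv_mul_cancel₀ hK'0.ne'
    obtain ⟨c1, c2, -⟩ := b1 (H j) (ls : ℂ) 0 (fun _ => 0) _ _ (by simpa using hls)
      (by rw [Complex.norm_real, Real.norm_of_nonneg hls]; exact hls1) (by simp) hps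
      (Or.inl ⟨rfl, rfl⟩) hNB
    refine ⟨c1, ?_⟩
    have hde : Differentiable ℝ (e j) := by
      have : ContDiff ℝ 1 (e j) := hpe.cF.of_le (by
        have : (1 : ℕ) ≤ N0 := by norm_num [N0]
        exact_mod_cast this)
      exact this.differentiable (by norm_num)
    rw [deriv_smul', deriv_smul'] at c2
    simp only at c2
    rw [deriv_conj' hde] at c2
    exact c2

/-- the data of EXT for a sequence of pairs -/
lemma ext_data (hE : B.EXTs' Phi Phi1) (hU : (𝓤 : Filter ℕ) ≤ atTop) (hR : 0 < R) {La : ℝ} {l : ℕ}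
    {ls : ℝ} {lam al : ℕ → ℂ} {H : ℕ → R12 → ℝ} {e F G : ℕ → ℝ → ℂ}
    (hp : ∀ᶠ j in (𝓤 : Filter ℕ), 0 ≤ (lam j).re ∧ ‖lam j‖ ≤ La ∧ ‖al j‖ ≤ 1 ∧
      (B.P j).IsSym l ls (e j) ∧ (B.P j).Pair l (H j) (lam j) (al j) (e j) (F j) (G j) ∧
      NB 8 (F j) (G j) ≤ 1) {d : ℝ} (hd : 0 < d) (hd8 : R + d ≤ 8) :
    ∃ (ga c1 c2 : ℕ → ℂ) (err : ℕ → ℝ), Tendsto err 𝓤 (𝓝 0) ∧
      ∀ᶠ j in (𝓤 : Filter ℕ), ∀ r ∈ Icc (R + d) 8,
        (‖e j r - ga j * Phi l ((B.P j).mu ls) r‖ ≤ err j ∧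
        ‖deriv (e j) r - ga j * Phi1 l ((B.P j).mu ls) r‖ ≤ err j) ∧
        (‖F j r - (c1 j * Phi l ((B.P j).mu (lam j)) r + al j * ga j *
          dslope (fun z => Phi l z r) ((B.P j).mu ls) ((B.P j).mu (lam j)))‖ ≤ err j ∧
        ‖deriv (F j) r - (c1 j * Phi1 l ((B.P j).mu (lam j)) r + al j * ga j *
          dslope (fun z => Phi1 l z r) ((B.P j).mu ls) ((B.P j).mu (lam j)))‖ ≤ err j) ∧
        (‖conj (G j r) - (c2 j * Phi l ((B.P j).mu (conj (lam j))) r + conj (al j) * ga j *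
          dslope (fun z => Phi l z r) ((B.P j).mu ls) ((B.P j).mu (conj (lam j))))‖ ≤ err j ∧
        ‖conj (deriv (G j) r) - (c2 j * Phi1 l ((B.P j).mu (conj (lam j))) r + conj (al j) * ga j *
          dslope (fun z => Phi1 l z r) ((B.P j).mu ls) ((B.P j).mu (conj (lam j))))‖ ≤ err j) := by
  obtain ⟨c, hc, hEv⟩ := hE (R + d) (by linarith) La
  have key : ∀ᶠ j in (𝓤 : Filter ℕ), ∃ t : ℂ × ℂ × ℂ, ∀ r ∈ Icc (R + d) 8,
        (‖e j r - t.1 * Phi l ((B.P j).mu ls) r‖ ≤ Real.exp (-c * B.nn j) * 2 ∧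
        ‖deriv (e j) r - t.1 * Phi1 l ((B.P j).mu ls) r‖ ≤ Real.exp (-c * B.nn j) * 2) ∧
        (‖F j r - (t.2.1 * Phi l ((B.P j).mu (lam j)) r + al j * t.1 *
          dslope (fun z => Phi l z r) ((B.P j).mu ls) ((B.P j).mu (lam j)))‖
            ≤ Real.exp (-c * B.nn j) * 2 ∧
        ‖deriv (F j) r - (t.2.1 * Phi1 l ((B.P j).mu (lam j)) r + al j * t.1 *
          dslope (fun z => Phi1 l z r) ((B.P j).mu ls) ((B.P j).mu (lam j)))‖
            ≤ Real.exp (-c * B.nn j) * 2) ∧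
        (‖conj (G j r) - (t.2.2 * Phi l ((B.P j).mu (conj (lam j))) r + conj (al j) * t.1 *
          dslope (fun z => Phi l z r) ((B.P j).mu ls) ((B.P j).mu (conj (lam j))))‖
            ≤ Real.exp (-c * B.nn j) * 2 ∧
        ‖conj (deriv (G j) r) - (t.2.2 * Phi1 l ((B.P j).mu (conj (lam j))) r + conj (al j) * t.1 *
          dslope (fun z => Phi1 l z r) ((B.P j).mu ls) ((B.P j).mu (conj (lam j))))‖
            ≤ Real.exp (-c * B.nn j) * 2) := by
    filter_upwards [hEv.filter_mono hU, hp] with j h1 h2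
    obtain ⟨h0re, hLa, hal, hsym, hpair, hNB⟩ := h2
    obtain ⟨ga, hga, hrest⟩ := h1 l ls (e j) hsym (H j) hpair.sharm hpair.nrm
    obtain ⟨c1, c2, hcc⟩ := hrest (lam j) (al j) (F j) (G j) h0re hLa hpair
    refine ⟨(ga, c1, conj c2), fun r hr => ?_⟩
    obtain ⟨e1, e2⟩ := hga r hr
    obtain ⟨f1, f2, g1, g2⟩ := hcc r hr
    have hexp := Real.exp_pos (-c * B.nn j)
    have hle : NB (R + d) (F j) (G j) + ‖al j‖ ≤ 2 := by
      have := NB_mono (a := R + d) (b := 8) (by linarith) hd8 hpair.cF.continuous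
        hpair.cG.continuous
      linarith
    have hle2 : Real.exp (-c * B.nn j) * (NB (R + d) (F j) (G j) + ‖al j‖) ≤
        Real.exp (-c * B.nn j) * 2 := mul_le_mul_of_nonneg_left hle hexp.le
    refine ⟨⟨by linarith, by linarith⟩, ⟨f1.trans hle2, f2.trans hle2⟩, ⟨?_, ?_⟩⟩
    · refine le_trans (le_of_eq ?_) (g1.trans hle2)
      rw [← RCLike.norm_conj (G j r - _)]
      congr 1
      simp only [map_sub, map_add, map_mul, Complex.conj_conj]
      ring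
    · refine le_trans (le_of_eq ?_) (g2.trans hle2)
      rw [← RCLike.norm_conj (deriv (G j) r - _)]
      congr 1
      simp only [map_sub, map_add, map_mul, Complex.conj_conj]
      ring
  obtain ⟨t, ht⟩ := key.choice
  refine ⟨fun j => (t j).1, fun j => (t j).2.1, fun j => (t j).2.2,
    fun j => Real.exp (-c * B.nn j) * 2, ?_, ht⟩
  have := (exp_tendsto B hU hc).mul_const 2
  simpa using this

/-- **sequence version of (SY)** -/
theorem seq_SY (LP : LimitProfile om0 R U) (hs : SymStmt) (hE : B.EXTs' Phi Phi1) (hBC : B.C4BC)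
    (hL : LimitSpec Phi Phi1 om0 R) (hU : (𝓤 : Filter ℕ) ≤ atTop) {La : ℝ} {l : ℕ} {ls : ℝ}
    (hls : (l = 0 ∧ ls = 0) ∨ (l = 0 ∧ ls = 1) ∨ (l = 1 ∧ ls = 1 / 2))
    {lam al : ℕ → ℂ} {H : ℕ → R12 → ℝ} {e F G : ℕ → ℝ → ℂ} {lam0 a : ℂ}
    (hlam : Tendsto lam 𝓤 (𝓝 lam0)) (hal : Tendsto al 𝓤 (𝓝 a))
    (hp : ∀ᶠ j in (𝓤 : Filter ℕ), 0 ≤ (lam j).re ∧ ‖lam j‖ ≤ La ∧ ‖al j‖ ≤ 1 ∧
      (B.P j).IsSym l ls (e j) ∧ (B.P j).Pair l (H j) (lam j) (al j) (e j) (F j) (G j) ∧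
      NB 8 (F j) (G j) ≤ 1)
    (hnear : ∀ᶠ j in (𝓤 : Filter ℕ), ‖(ls : ℂ) - lam j‖ ≤ 1 / 4)
    {rs : ℝ} (hrs : rs ∈ Ioo R 8) {c : ℝ} (hc : 0 < c)
    (hes : ∀ᶠ j in (𝓤 : Filter ℕ), c ≤ ‖e j rs‖) (hF : ∀ᶠ j in (𝓤 : Filter ℕ), F j rs = 0) :
    a = 0 ∧ ∀ d, 0 < d → ∀ r : ℕ → ℝ, (∀ j, r j ∈ Icc (R + d) 8) →
      Tendsto (fun j => F j (r j)) 𝓤 (𝓝 0) ∧ Tendsto (fun j => deriv (F j) (r j)) 𝓤 (𝓝 0) ∧
      Tendsto (fun j => G j (r j)) 𝓤 (𝓝 0) ∧ Tendsto (fun j => deriv (G j) (r j)) 𝓤 (𝓝 0) := by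
  have hR : 0 < R := by linarith [LP.R_lo]
  have hR2 := LP.R_hi
  have hls0 : 0 ≤ ls ∧ ls ≤ 1 := by
    rcases hls with ⟨_, h⟩ | ⟨_, h⟩ | ⟨_, h⟩ <;> rw [h] <;> norm_num
  have hDet : DetL Phi Phi1 om0 R l (ls : ℂ) = 0 ∧ deriv (DetL Phi Phi1 om0 R l) (ls : ℂ) ≠ 0 := by
    rcases hls with ⟨h1, h2⟩ | ⟨h1, h2⟩ | ⟨h1, h2⟩
    · rw [h1, h2]; simpa using hL.simple_zero
    · rw [h1, h2]; simpa using hL.simple_one
    · rw [h1, h2]; simpa using hL.simple_half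
  obtain ⟨C, db, hdb, hbc⟩ := hBC La l
  set d0 : ℝ := min db 1 with hd0
  have hd0p : 0 < d0 := lt_min hdb one_pos
  have hd01 : d0 ≤ 1 := min_le_right _ _
  have hRd : R + d0 ≤ 5 := by linarith
  have hbcj : ∀ d, 0 < d → d ≤ d0 → ∀ᶠ j in (𝓤 : Filter ℕ),
      ‖F j (R + d) + G j (R + d)‖ ≤ C * Real.sqrt d ∧
      ‖deriv (F j) (R + d) - deriv (G j) (R + d)
        - (l : ℂ) / (R : ℂ) * (F j (R + d) - G j (R + d))‖ ≤ C * Real.sqrt d ∧
      (∀ r ∈ Icc (R + d) 6, ‖F j r‖ ≤ C ∧ ‖G j r‖ ≤ C) := by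
    intro d h1 h2
    filter_upwards [(hbc d h1 (h2.trans (min_le_left _ _))).filter_mono hU, hp] with j b1 b2
    obtain ⟨h0re, hLa, hal', hsym, hpair, hNB⟩ := b2
    exact b1 (H j) (lam j) (al j) (e j) (F j) (G j) h0re hLa hal' hpair (Or.inr ⟨ls, hsym⟩) hNB
  have hED : ∀ d, 0 < d → d ≤ d0 → _ := fun d h1 h2 =>
    ext_data (𝓤 := 𝓤) hE hU hR hp h1 (by linarith : R + d ≤ 8)
  obtain ⟨ga0, hga, hel, hg1, hg2⟩ := sym_lim (𝓤 := 𝓤) LP hs hBC hU hls0.1 hls0.2 (H := H) (e := e)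
    (by filter_upwards [hp] with j hj using ⟨hj.2.2.2.1, hj.2.2.2.2.1.sharm, hj.2.2.2.2.1.nrm⟩)
    hRd (fun d h1 h2 => by
      obtain ⟨ga, c1, c2, err, h3, h4⟩ := hED d h1 h2
      refine ⟨ga, err, h3, ?_⟩
      filter_upwards [h4] with j hj r hr using (hj r hr).1) hd0p
  -- limits of the parameters
  have hlam0re : 0 ≤ lam0.re := by
    refine ge_of_tendsto ((continuous_re.tendsto _).comp hlam) ?_
    filter_upwards [hp] with j hj using hj.1
  have hnear0 : ‖(ls : ℂ) - lam0‖ ≤ 1 / 4 :=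
    le_of_tendsto (hlam.const_sub (ls : ℂ)).norm hnear
  have hlamc : Tendsto (fun j => conj (lam j)) 𝓤 (𝓝 (conj lam0)) :=
    (Complex.continuous_conj.tendsto _).comp hlam
  have halc : Tendsto (fun j => conj (al j)) 𝓤 (𝓝 (conj a)) :=
    (Complex.continuous_conj.tendsto _).comp hal
  have hms0 : -(1 / 4) < ((ls : ℂ) - I * om0 : ℂ).re := hp_mem (by simpa using hls0.1) om0
  have hm0 : -(1 / 4) < (lam0 - I * om0 : ℂ).re := hp_mem hlam0re om0
  have hmt0 : -(1 / 4) < (conj lam0 - I * om0 : ℂ).re := hp_mem (by simpa using hlam0re) om0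
  have tms : Tendsto (fun j => (B.P j).mu (ls : ℂ)) 𝓤 (𝓝 ((ls : ℂ) - I * om0)) :=
    mu_tendsto B hU tendsto_const_nhds
  have tm := mu_tendsto B hU hlam
  have tmt := mu_tendsto B hU hlamc
  -- the two components
  obtain ⟨c1, hc1⟩ := comp_src (𝓤 := 𝓤) (l := l) hm0 hms0 tm tms hal (ga0 := ga0) (f := F)
    (f1 := fun j r => deriv (F j) r) (Cb := C) hR hRd (fun rp hrp => by
      filter_upwards [hbcj d0 hd0p le_rfl] with j hj
      exact (hj.2.2 rp ⟨by linarith [hrp.1], hrp.2⟩).1)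
  obtain ⟨c2, hc2⟩ := comp_src (𝓤 := 𝓤) (l := l) hmt0 hms0 tmt tms halc (ga0 := ga0)
    (f := fun j r => conj (G j r)) (f1 := fun j r => conj (deriv (G j) r)) (Cb := C) hR hRd
    (fun rp hrp => by
      filter_upwards [hbcj d0 hd0p le_rfl] with j hj
      rw [RCLike.norm_conj]
      exact (hj.2.2 rp ⟨by linarith [hrp.1], hrp.2⟩).2)
  have limF : ∀ d, 0 < d → d ≤ d0 → ∀ (r : ℕ → ℝ) (r0 : ℝ), (∀ j, r j ∈ Icc (R + d) 8) →
      Tendsto r 𝓤 (𝓝 r0) →
        Tendsto (fun j => F j (r j)) 𝓤 (𝓝 (c1 * Phi l (lam0 - I * om0) r0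
          + a * ga0 * dslope (fun z => Phi l z r0) ((ls : ℂ) - I * om0) (lam0 - I * om0))) ∧
        Tendsto (fun j => deriv (F j) (r j)) 𝓤 (𝓝 (c1 * Phi1 l (lam0 - I * om0) r0
          + a * ga0 * dslope (fun z => Phi1 l z r0) ((ls : ℂ) - I * om0) (lam0 - I * om0))) := by
    intro d h1 h2 r r0 hr hr0
    obtain ⟨ga, k1, k2, err, h3, h4⟩ := hED d h1 h2
    have hgat : Tendsto ga 𝓤 (𝓝 ga0) := hga d h1 h2 ga err h3 (by
      filter_upwards [h4] with j hj r hr using (hj r hr).1)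
    exact hc1 d h1 h2 k1 ga err hgat h3 (by
      filter_upwards [h4] with j hj r hr using (hj r hr).2.1) r r0 hr hr0
  have limG : ∀ d, 0 < d → d ≤ d0 → ∀ (r : ℕ → ℝ) (r0 : ℝ), (∀ j, r j ∈ Icc (R + d) 8) →
      Tendsto r 𝓤 (𝓝 r0) →
        Tendsto (fun j => conj (G j (r j))) 𝓤 (𝓝 (c2 * Phi l (conj lam0 - I * om0) r0
          + conj a * ga0 * dslope (fun z => Phi l z r0) ((ls : ℂ) - I * om0)
            (conj lam0 - I * om0))) ∧
        Tendsto (fun j => conj (deriv (G j) (r j))) 𝓤 (𝓝 (c2 * Phi1 l (conj lam0 - I * om0) r0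
          + conj a * ga0 * dslope (fun z => Phi1 l z r0) ((ls : ℂ) - I * om0)
            (conj lam0 - I * om0))) := by
    intro d h1 h2 r r0 hr hr0
    obtain ⟨ga, k1, k2, err, h3, h4⟩ := hED d h1 h2
    have hgat : Tendsto ga 𝓤 (𝓝 ga0) := hga d h1 h2 ga err h3 (by
      filter_upwards [h4] with j hj r hr using (hj r hr).1)
    exact hc2 d h1 h2 k2 ga err hgat h3 (by
      filter_upwards [h4] with j hj r hr using (hj r hr).2.2) r r0 hr hr0
  -- boundary relations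
  have cds : ∀ m : ℂ, -(1 / 4) < m.re →
      ContinuousAt (fun r => dslope (fun z => Phi l z r) ((ls : ℂ) - I * om0) m) R ∧
      ContinuousAt (fun r => dslope (fun z => Phi1 l z r) ((ls : ℂ) - I * om0) m) R := by
    intro m hm
    have k1 := (joint_dslope (𝓤 := (𝓤 : Filter ℕ)) (phiFacts.cont l) (phiFacts.hol l) hm hms0
      (m := fun _ => m) tendsto_const_nhds tms).2
    have k2 := (joint_dslope (𝓤 := (𝓤 : Filter ℕ)) (phiFacts.cont1 l) (phiFacts.hol1 l) hm hms0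
      (m := fun _ => m) tendsto_const_nhds tms).2
    exact ⟨k1.continuousAt (isOpen_Ioi.mem_nhds hR), k2.continuousAt (isOpen_Ioi.mem_nhds hR)⟩
  obtain ⟨r1, r2⟩ := bc_rel (𝓤 := 𝓤) (R := R) (l := l) (f := F) (f1 := fun j r => deriv (F j) r)
    (g := G) (g1 := fun j r => deriv (G j) r)
    (X := fun r => c1 * Phi l (lam0 - I * om0) r
      + a * ga0 * dslope (fun z => Phi l z r) ((ls : ℂ) - I * om0) (lam0 - I * om0))
    (X1 := fun r => c1 * Phi1 l (lam0 - I * om0) r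
      + a * ga0 * dslope (fun z => Phi1 l z r) ((ls : ℂ) - I * om0) (lam0 - I * om0))
    (Y := fun r => c2 * Phi l (conj lam0 - I * om0) r
      + conj a * ga0 * dslope (fun z => Phi l z r) ((ls : ℂ) - I * om0) (conj lam0 - I * om0))
    (Y1 := fun r => c2 * Phi1 l (conj lam0 - I * om0) r
      + conj a * ga0 * dslope (fun z => Phi1 l z r) ((ls : ℂ) - I * om0) (conj lam0 - I * om0))
    (C := C) hd0p
    ((continuousAt_const.mul (contAt_Phi hm0 hR)).add (continuousAt_const.mul (cds _ hm0).1))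
    ((continuousAt_const.mul (contAt_Phi1 hm0 hR)).add (continuousAt_const.mul (cds _ hm0).2))
    ((continuousAt_const.mul (contAt_Phi hmt0 hR)).add (continuousAt_const.mul (cds _ hmt0).1))
    ((continuousAt_const.mul (contAt_Phi1 hmt0 hR)).add (continuousAt_const.mul (cds _ hmt0).2))
    (fun d h1 h2 => by
      have hmem : ∀ _j : ℕ, R + d ∈ Icc (R + d) 8 := fun _ => ⟨le_rfl, by linarith⟩
      obtain ⟨a1, a2⟩ := limF d h1 h2 (fun _ => R + d) (R + d) hmem tendsto_const_nhds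
      obtain ⟨a3, a4⟩ := limG d h1 h2 (fun _ => R + d) (R + d) hmem tendsto_const_nhds
      exact ⟨a1, a2, a3, a4⟩)
    (fun d h1 h2 => by
      filter_upwards [hbcj d h1 h2] with j hj using ⟨hj.1, hj.2.1⟩)
  -- values at `rs`
  set ds : ℝ := min d0 (rs - R) with hds
  have hdsp : 0 < ds := lt_min hd0p (by linarith [hrs.1])
  have hrsm : ∀ _j : ℕ, rs ∈ Icc (R + ds) 8 := fun _ =>
    ⟨by linarith [min_le_right d0 (rs - R)], hrs.2.le⟩
  have eE : ga0 * Phi l ((ls : ℂ) - I * om0) rs ≠ 0 := by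
    have h1 := (hel ds hdsp (min_le_left _ _) (fun _ => rs) rs hrsm tendsto_const_nhds).1
    have h2 : c ≤ ‖ga0 * Phi l ((ls : ℂ) - I * om0) rs‖ := ge_of_tendsto h1.norm hes
    exact norm_pos_iff.1 (lt_of_lt_of_le hc h2)
  have eF : c1 * Phi l (lam0 - I * om0) rs
      + a * ga0 * dslope (fun z => Phi l z rs) ((ls : ℂ) - I * om0) (lam0 - I * om0) = 0 := by
    have h1 := (limF ds hdsp (min_le_left _ _) (fun _ => rs) rs hrsm tendsto_const_nhds).1
    have h2 : Tendsto (fun j => F j rs) 𝓤 (𝓝 0) := by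
      refine (tendsto_const_nhds (x := (0 : ℂ))).congr' ?_
      filter_upwards [hF] with j hj using hj.symm
    exact tendsto_nhds_unique h1 h2
  have hga0 : ga0 ≠ 0 := left_ne_zero_of_mul eE
  -- the algebra
  have alg : a = 0 ∧ c1 = 0 ∧ c2 = 0 := by
    by_cases heq : lam0 = (ls : ℂ)
    · subst heq
      simp only [Complex.conj_ofReal, dslope_same, map_add, map_mul, Complex.conj_conj,
        map_sub] at r1 r2 eF
      have hderiv : deriv (fun m => PsiL Phi Phi1 R l m) ((ls : ℂ) - I * om0) =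
          deriv (fun m => Phi1 l m R) ((ls : ℂ) - I * om0)
            - (l : ℂ) / (R : ℂ) * deriv (fun m => Phi l m R) ((ls : ℂ) - I * om0) := by
        have hO : IsOpen {m : ℂ | -(1 / 4) < m.re} := isOpen_lt continuous_const continuous_re
        have d1 := ((phiFacts.hol1 l R hR).differentiableAt (hO.mem_nhds hms0)).hasDerivAt
        have d2 := ((phiFacts.hol l R hR).differentiableAt (hO.mem_nhds hms0)).hasDerivAt
        exact (d1.sub (d2.const_mul _)).deriv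
      obtain ⟨ha, t, ht1, ht2⟩ := C4Fin.alg2 (om0 := om0) phiFacts hR hls0.1 hDet.1 hDet.2
        (ga := ga0) (c1 := c1) (c2 := conj c2) (al := a) hga0 hg1 hg2
        (by
          simp only [map_mul]
          linear_combination r1)
        (by
          rw [hderiv]
          unfold PsiL
          simp only [map_mul, map_sub, map_div₀, Complex.conj_ofReal, map_natCast]
          linear_combination r2)
      rw [ha] at eF
      have ht : t = 0 := by
        rw [ht1] at eF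
        have : t * (ga0 * Phi l ((ls : ℂ) - I * om0) rs) = 0 := by linear_combination eF
        exact (mul_eq_zero.1 this).resolve_right eE
      refine ⟨ha, by rw [ht1, ht, zero_mul], ?_⟩
      have : conj c2 = 0 := by rw [ht2, ht, zero_mul]
      simpa using this
    · have hne1 : lam0 - I * om0 ≠ (ls : ℂ) - I * om0 := fun h => heq (by
        have := sub_left_inj.1 h; exact this)
      have hne2 : conj lam0 - I * om0 ≠ (ls : ℂ) - I * om0 := fun h => heq (by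
        have h2 := sub_left_inj.1 h
        have h3 := congrArg conj h2
        rwa [Complex.conj_conj, Complex.conj_ofReal] at h3)
      have hδ : lam0 - (ls : ℂ) ≠ 0 := sub_ne_zero.2 heq
      have hδc : conj lam0 - (ls : ℂ) ≠ 0 := by
        intro h; exact hne2 (by rw [sub_eq_zero.1 h])
      have hD : DetL Phi Phi1 om0 R l lam0 ≠ 0 := by
        refine hL.ne_zero l lam0 hlam0re ?_ ?_
        · rintro ⟨h1, h2⟩
          rcases hls with ⟨_, hz⟩ | ⟨_, hz⟩ | ⟨hz, _⟩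
          · rcases h2 with h2 | h2
            · exact heq (by rw [h2, hz]; simp)
            · rw [h2, hz] at hnear0; norm_num at hnear0
          · rcases h2 with h2 | h2
            · rw [h2, hz] at hnear0; norm_num at hnear0
            · exact heq (by rw [h2, hz]; simp)
          · omega
        · rintro ⟨h1, h2⟩
          rcases hls with ⟨hz, _⟩ | ⟨hz, _⟩ | ⟨_, hz⟩
          · omega
          · omega
          · exact heq (by rw [h2, hz]; push_cast; ring)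
      have ds1 : ∀ (g : ℂ → ℂ), dslope g ((ls : ℂ) - I * om0) (lam0 - I * om0) =
          (g (lam0 - I * om0) - g ((ls : ℂ) - I * om0)) / (lam0 - ls) := by
        intro g
        rw [dslope_of_ne _ hne1, slope_def_module, smul_eq_mul]
        have : lam0 - I * om0 - ((ls : ℂ) - I * om0) = lam0 - ls := by ring
        rw [this]
        field_simp
      have ds2 : ∀ (g : ℂ → ℂ), dslope g ((ls : ℂ) - I * om0) (conj lam0 - I * om0) =
          (g (conj lam0 - I * om0) - g ((ls : ℂ) - I * om0)) / (conj lam0 - ls) := by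
        intro g
        rw [dslope_of_ne _ hne2, slope_def_module, smul_eq_mul]
        have : conj lam0 - I * om0 - ((ls : ℂ) - I * om0) = conj lam0 - ls := by ring
        rw [this]
        field_simp
      simp only [ds1, ds2] at r1 r2 eF
      simp only [map_add, map_mul, map_sub, map_div₀, Complex.conj_conj, Complex.conj_ofReal] at r1 r2
      simp only [map_mul] at hg1
      unfold PsiL at hg2
      simp only [map_mul, map_sub, map_div₀, Complex.conj_ofReal, map_natCast] at hg2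
      obtain ⟨k1, k2⟩ := C4Fin.alg1 (c1 := c1 + a * ga0 / (lam0 - ls))
        (c2 := conj c2 + a * conj ga0 / (lam0 - ls)) hD
        (by
          linear_combination (exp := 1) r1 + a / (lam0 - ls) * hg1)
        (by
          unfold PsiL
          simp only [map_mul, map_sub, map_div₀, Complex.conj_ofReal, map_natCast]
          linear_combination (exp := 1) r2 + a / (lam0 - ls) * hg2)
      have ha : a = 0 := by
        have e1 : a * (ga0 * Phi l ((ls : ℂ) - I * om0) rs) = 0 := by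
          have e2 : (lam0 - ls) * (c1 * Phi l (lam0 - I * om0) rs + a * ga0 *
              ((Phi l (lam0 - I * om0) rs - Phi l ((ls : ℂ) - I * om0) rs) / (lam0 - ls))) = 0 := by
            rw [eF, mul_zero]
          have e3 : (lam0 - ls) * (c1 + a * ga0 / (lam0 - ls)) = 0 := by rw [k1, mul_zero]
          field_simp at e2 e3
          linear_combination (Phi l (lam0 - I * om0) rs) * e3 - e2
        exact (mul_eq_zero.1 e1).resolve_right eE
      rw [ha] at k1 k2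
      simp only [zero_mul, zero_div, add_zero] at k1 k2
      exact ⟨ha, k1, by simpa using k2⟩
  obtain ⟨ha, hz1, hz2⟩ := alg
  refine ⟨ha, fun d hd r hr => ?_⟩
  set d' : ℝ := min d d0 with hd'
  have hd'p : 0 < d' := lt_min hd hd0p
  have hr' : ∀ j, r j ∈ Icc (R + d') 8 := fun j =>
    ⟨by linarith [min_le_left d d0, (hr j).1], (hr j).2⟩
  obtain ⟨r0, -, hr0⟩ := rlim (𝓤 := 𝓤) hr'
  obtain ⟨a1, a2⟩ := limF d' hd'p (min_le_right _ _) r r0 hr' hr0
  obtain ⟨a3, a4⟩ := limG d' hd'p (min_le_right _ _) r r0 hr' hr0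
  rw [ha, hz1] at a1 a2
  rw [ha, hz2] at a3 a4
  simp only [zero_mul, add_zero, map_zero] at a1 a2 a3 a4
  refine ⟨a1, a2, ?_, ?_⟩
  · have := (Complex.continuous_conj.tendsto _).comp a3
    simp only [map_zero] at this
    refine this.congr fun j => ?_
    simp
  · have := (Complex.continuous_conj.tendsto _).comp a4
    simp only [map_zero] at this
    refine this.congr fun j => ?_
    simp

end

end Crest.Agent.R086.C4SY
end

-- ▼ part R086/C4SYF
section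

/-!
Row 86, Part C, C4 (helper512): final form of (SY).
-/

set_option autoImplicit false

open MeasureTheory Complex Set Filter Topology
open scoped ContDiff

namespace Crest.Agent.R086.C4SY

open C4Lim C4Nb C4Sym C4Asm JCx

local notation "conj" => starRingEnd ℂ

/-- uniform statements from sequential ones -/
lemma ev_of_seq {𝓤 : Filter ℕ} {K : Set ℝ} {r00 : ℝ} (h00 : r00 ∈ K) {p : ℕ → ℝ → Prop}
    (h : ∀ r : ℕ → ℝ, (∀ j, r j ∈ K) → ∀ᶠ j in 𝓤, p j (r j)) : ∀ᶠ j in 𝓤, ∀ r ∈ K, p j r := by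
  classical
  let r : ℕ → ℝ := fun j => if hj : ∃ r ∈ K, ¬ p j r then hj.choose else r00
  have hr : ∀ j, r j ∈ K := by
    intro j
    by_cases hj : ∃ r ∈ K, ¬ p j r
    · simp only [r, dif_pos hj]
      exact hj.choose_spec.1
    · simp only [r, dif_neg hj]
      exact h00
  filter_upwards [h r hr] with j hj
  by_contra hcon
  push Not at hcon
  have hcon' : ∃ r ∈ K, ¬ p j r := hcon
  simp only [r, dif_pos hcon'] at hj
  exact hcon'.choose_spec.2 hj

/-- an ultrafilter containing a frequent set -/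
lemma exists_ultra {S : ℕ → Prop} (h : ∃ᶠ j in atTop, S j) :
    ∃ 𝓤 : Ultrafilter ℕ, (𝓤 : Filter ℕ) ≤ atTop ∧ ∀ᶠ j in (𝓤 : Filter ℕ), S j := by
  have hne : (atTop ⊓ 𝓟 {j | S j} : Filter ℕ).NeBot := by
    rw [Filter.inf_principal_neBot_iff]
    intro U hU
    obtain ⟨j, hj1, hj2⟩ := (h.and_eventually hU).exists
    exact ⟨j, hj2, hj1⟩
  refine ⟨Ultrafilter.of (atTop ⊓ 𝓟 {j | S j}), (Ultrafilter.of_le _).trans inf_le_left, ?_⟩
  have := (Ultrafilter.of_le (atTop ⊓ 𝓟 {j | S j})).trans inf_le_right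
  exact le_principal_iff.1 this

section
variable {om0 R : ℝ} {U : ℝ → ℂ} {B : BData om0 R U}

/-- from vanishing limits to a contradiction with the normalisation -/
lemma small_of_lim (hNT : B.C4NT) {𝓤 : Ultrafilter ℕ} (hU : (𝓤 : Filter ℕ) ≤ atTop) {La : ℝ} {l : ℕ}
    {lam al : ℕ → ℂ} {H : ℕ → R12 → ℝ} {e F G : ℕ → ℝ → ℂ}
    (hp : ∀ᶠ j in (𝓤 : Filter ℕ), 0 ≤ (lam j).re ∧ ‖lam j‖ ≤ La ∧ ‖al j‖ ≤ 1 ∧
      (B.P j).Pair l (H j) (lam j) (al j) (e j) (F j) (G j) ∧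
      ((al j = 0 ∧ e j = fun _ => 0) ∨ ∃ ls : ℝ, (B.P j).IsSym l ls (e j)) ∧
      NB 8 (F j) (G j) ≤ 1)
    (hlim : ∀ d, 0 < d → ∀ r : ℕ → ℝ, (∀ j, r j ∈ Icc (R + d) 8) →
      Tendsto (fun j => F j (r j)) 𝓤 (𝓝 0) ∧ Tendsto (fun j => deriv (F j) (r j)) 𝓤 (𝓝 0) ∧
      Tendsto (fun j => G j (r j)) 𝓤 (𝓝 0) ∧ Tendsto (fun j => deriv (G j) (r j)) 𝓤 (𝓝 0)) :
    ∀ᶠ j in (𝓤 : Filter ℕ), NB 8 (F j) (G j) ≤ 1 / 2 := by
  obtain ⟨d, hd, hd6, hev⟩ := hNT La l (1 / 2) (by norm_num)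
  have hmem : R + d ∈ Icc (R + d) 8 := ⟨le_rfl, by linarith⟩
  have hsmall : ∀ᶠ j in (𝓤 : Filter ℕ), ∀ r ∈ Icc (R + d) 8,
      ‖F j r‖ ≤ d ∧ ‖deriv (F j) r‖ ≤ d ∧ ‖G j r‖ ≤ d ∧ ‖deriv (G j) r‖ ≤ d := by
    refine ev_of_seq hmem fun r hr => ?_
    obtain ⟨a1, a2, a3, a4⟩ := hlim d hd r hr
    have key : ∀ u : ℕ → ℂ, Tendsto u 𝓤 (𝓝 0) → ∀ᶠ j in (𝓤 : Filter ℕ), ‖u j‖ ≤ d := by
      intro u hu
      have := hu.norm
      rw [norm_zero] at this
      filter_upwards [this.eventually (gt_mem_nhds hd)] with j hj using le_of_lt hj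
    filter_upwards [key _ a1, key _ a2, key _ a3, key _ a4] with j b1 b2 b3 b4
    exact ⟨b1, b2, b3, b4⟩
  filter_upwards [hev.filter_mono hU, hsmall, hp] with j h1 h2 h3
  obtain ⟨c1, c2, c3, c4, c5, c6⟩ := h3
  exact h1 (H j) (lam j) (al j) (e j) (F j) (G j) c1 c2 c3 c4 c5 c6 h2

/-- (SY) for one symmetry value -/
theorem sy_fixed (LP : LimitProfile om0 R U) (hs : SymStmt) (hReg : B.REG) (hE : B.EXTs' Phi Phi1)
    (hBC : B.C4BC) (hNT : B.C4NT) (hL : LimitSpec Phi Phi1 om0 R) (La : ℝ) {l : ℕ} {ls : ℝ}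
    (hls : (l = 0 ∧ ls = 0) ∨ (l = 0 ∧ ls = 1) ∨ (l = 1 ∧ ls = 1 / 2)) :
    ∃ rs : ℝ, ∀ᶠ j in atTop, ∀ lam : ℂ, 0 ≤ lam.re → ‖lam‖ ≤ La → ∀ e : ℝ → ℂ,
      (B.P j).IsSym l ls e → ‖(ls : ℂ) - lam‖ ≤ 1 / 4 → e rs ≠ 0 ∧
      ∀ (H : R12 → ℝ) (al : ℂ) (F G : ℝ → ℂ), (B.P j).Pair l H lam al e F G → F rs = 0 →
        ∀ r : ℝ, 0 < r → F r = 0 ∧ G r = 0 := by
  obtain ⟨rs, hrs, c, hc, hlow⟩ := sym_lower LP B l ls
  refine ⟨rs, ?_⟩
  have hR8 : R < 8 := by linarith [LP.R_hi]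
  by_contra hcon
  have hfreq := (not_eventually.1 hcon).and_eventually (hlow.and (vanish hR8 hReg))
  set bad : ℕ → Prop := fun j => ∃ t : (ℂ × ℂ) × (R12 → ℝ) × (ℝ → ℂ) × (ℝ → ℂ) × (ℝ → ℂ),
    (0 ≤ t.1.1.re ∧ ‖t.1.1‖ ≤ La ∧ ‖t.1.2‖ ≤ 1 ∧ (B.P j).IsSym l ls t.2.2.1 ∧
      (B.P j).Pair l t.2.1 t.1.1 t.1.2 t.2.2.1 t.2.2.2.1 t.2.2.2.2 ∧
      NB 8 t.2.2.2.1 t.2.2.2.2 ≤ 1) ∧ ‖(ls : ℂ) - t.1.1‖ ≤ 1 / 4 ∧ c ≤ ‖t.2.2.1 rs‖ ∧
      t.2.2.2.1 rs = 0 ∧ (NB 8 t.2.2.2.1 t.2.2.2.2 = 1 ∨ ‖t.1.2‖ = 1) with hbad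
  have hb : ∃ᶠ j in atTop, bad j := by
    refine hfreq.mono fun j hj => ?_
    obtain ⟨h1, h2, h3⟩ := hj
    push Not at h1
    obtain ⟨lam, hre, hLa, e, hsym, hnear, himp⟩ := h1
    have hers : c ≤ ‖e rs‖ := h2 e hsym
    have hne : e rs ≠ 0 := norm_pos_iff.1 (lt_of_lt_of_le hc hers)
    obtain ⟨H, al, F, G, hpair, hF, r, hr, hnz⟩ := himp hne
    set κ : ℝ := max (NB 8 F G) ‖al‖ with hκ
    have hκ0 : 0 < κ := by
      rcases lt_or_eq_of_le ((NB_nonneg 8 F G).trans (le_max_left (NB 8 F G) ‖al‖)) with h | h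
      · exact h
      · exfalso
        have hN : NB 8 F G = 0 := le_antisymm (by rw [h]; exact le_max_left _ _) (NB_nonneg _ _ _)
        have ha : al = 0 := by
          have : ‖al‖ ≤ 0 := by rw [h]; exact le_max_right _ _
          exact norm_le_zero_iff.1 this
        have := h3 l H lam al e F G hre hpair (Or.inr ⟨ls, hsym⟩) hN ha r hr
        exact hnz this.1 this.2
    have hcn : ‖((κ⁻¹ : ℝ) : ℂ)‖ = κ⁻¹ := by
      rw [Complex.norm_real, Real.norm_of_nonneg (inv_nonneg.2 hκ0.le)]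
    have hi0 : 0 ≤ κ⁻¹ := inv_nonneg.2 hκ0.le
    have hN1 : κ⁻¹ * NB 8 F G ≤ 1 := by
      calc κ⁻¹ * NB 8 F G ≤ κ⁻¹ * κ := mul_le_mul_of_nonneg_left (le_max_left _ _) hi0
        _ = 1 := inv_mul_cancel₀ hκ0.ne'
    have ha1 : κ⁻¹ * ‖al‖ ≤ 1 := by
      calc κ⁻¹ * ‖al‖ ≤ κ⁻¹ * κ := mul_le_mul_of_nonneg_left (le_max_right _ _) hi0
        _ = 1 := inv_mul_cancel₀ hκ0.ne'
    refine ⟨((lam, ((κ⁻¹ : ℝ) : ℂ) * al), H, e, fun r => ((κ⁻¹ : ℝ) : ℂ) * F r,
      fun r => ((κ⁻¹ : ℝ) : ℂ) * G r), ⟨hre, hLa, ?_, hsym, pair_smul hpair _, ?_⟩, hnear, hers,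
      ?_, ?_⟩
    · simp only
      rw [norm_mul, hcn]; exact ha1
    · simp only
      rw [NB_smul, hcn]; exact hN1
    · simp only
      rw [hF, mul_zero]
    · simp only
      rw [NB_smul, norm_mul, hcn]
      rcases max_choice (NB 8 F G) ‖al‖ with h | h
      · left
        rw [← h]; exact inv_mul_cancel₀ hκ0.ne'
      · right
        rw [← h]; exact inv_mul_cancel₀ hκ0.ne'
  obtain ⟨𝓤, hU, hbU⟩ := exists_ultra hb
  obtain ⟨t, ht⟩ := hbU.choice
  obtain ⟨lam0, -, hlam⟩ := ulim (𝓤 := 𝓤) (u := fun j => (t j).1.1) (C := La)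
    (by filter_upwards [ht] with j hj using hj.1.2.1)
  obtain ⟨a, -, hal⟩ := ulim (𝓤 := 𝓤) (u := fun j => (t j).1.2) (C := 1)
    (by filter_upwards [ht] with j hj using hj.1.2.2.1)
  obtain ⟨ha, hlim⟩ := seq_SY (𝓤 := 𝓤) LP hs hE hBC hL hU (La := La) hls (H := fun j => (t j).2.1)
    (e := fun j => (t j).2.2.1) (F := fun j => (t j).2.2.2.1) (G := fun j => (t j).2.2.2.2) hlam hal
    (by filter_upwards [ht] with j hj using hj.1)
    (by filter_upwards [ht] with j hj using hj.2.1) hrs hc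
    (by filter_upwards [ht] with j hj using hj.2.2.1)
    (by filter_upwards [ht] with j hj using hj.2.2.2.1)
  have hsm := small_of_lim (𝓤 := 𝓤) hNT hU (La := La) (l := l) (lam := fun j => (t j).1.1)
    (al := fun j => (t j).1.2) (H := fun j => (t j).2.1)
    (e := fun j => (t j).2.2.1) (F := fun j => (t j).2.2.2.1) (G := fun j => (t j).2.2.2.2)
    (by
      filter_upwards [ht] with j hj
      obtain ⟨⟨b1, b2, b3, b4, b5, b6⟩, -⟩ := hj
      exact ⟨b1, b2, b3, b5, Or.inr ⟨ls, b4⟩, b6⟩) hlim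
  have hal0 : ∀ᶠ j in (𝓤 : Filter ℕ), ‖(t j).1.2‖ < 1 := by
    have := hal.norm
    rw [ha, norm_zero] at this
    exact this.eventually (gt_mem_nhds one_pos)
  obtain ⟨j, h1, h2, h3⟩ := (hsm.and (hal0.and ht)).exists
  rcases h3.2.2.2.2 with h | h
  · rw [h] at h1; norm_num at h1
  · rw [h] at h2; exact lt_irrefl _ h2

/-- **(SY)** -/
theorem sy (LP : LimitProfile om0 R U) (hs : SymStmt) (hReg : B.REG) (hE : B.EXTs' Phi Phi1)
    (hBC : B.C4BC) (hNT : B.C4NT) (hL : LimitSpec Phi Phi1 om0 R) (La : ℝ) (l : ℕ) :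
    ∀ᶠ j in atTop, ∀ lam : ℂ, 0 ≤ lam.re → ‖lam‖ ≤ La → C4Red.SY (B.P j) l lam := by
  have key : ∀ ls : ℝ, ∃ rs : ℝ, ∀ᶠ j in atTop, ∀ lam : ℂ, 0 ≤ lam.re → ‖lam‖ ≤ La →
      ∀ e : ℝ → ℂ, (B.P j).IsSym l ls e → ‖(ls : ℂ) - lam‖ ≤ 1 / 4 → e rs ≠ 0 ∧
      ∀ (H : R12 → ℝ) (al : ℂ) (F G : ℝ → ℂ), (B.P j).Pair l H lam al e F G → F rs = 0 →
        ∀ r : ℝ, 0 < r → F r = 0 ∧ G r = 0 := by
    intro ls
    by_cases hls : (l = 0 ∧ ls = 0) ∨ (l = 0 ∧ ls = 1) ∨ (l = 1 ∧ ls = 1 / 2)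
    · exact sy_fixed LP hs hReg hE hBC hNT hL La hls
    · refine ⟨0, Eventually.of_forall fun j lam _ _ e he => ?_⟩
      exfalso
      rcases he with ⟨h1, h2, _⟩ | ⟨h1, h2, _⟩ | ⟨h1, h2, _⟩
      · exact hls (Or.inl ⟨h1, h2⟩)
      · exact hls (Or.inr (Or.inl ⟨h1, h2⟩))
      · exact hls (Or.inr (Or.inr ⟨h1, h2⟩))
  obtain ⟨r0, h0⟩ := key 0
  obtain ⟨r1, h1⟩ := key 1
  obtain ⟨r2, h2⟩ := key (1 / 2)
  filter_upwards [h0, h1, h2] with j k0 k1 k2 lam hre hLa ls e he hn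
  have hls : ls = 0 ∨ ls = 1 ∨ ls = 1 / 2 := by
    rcases he with ⟨_, h, _⟩ | ⟨_, h, _⟩ | ⟨_, h, _⟩
    · exact Or.inl h
    · exact Or.inr (Or.inl h)
    · exact Or.inr (Or.inr h)
  rcases hls with h | h | h
  · subst h; exact ⟨r0, k0 lam hre hLa e he hn⟩
  · subst h; exact ⟨r1, k1 lam hre hLa e he hn⟩
  · subst h; exact ⟨r2, k2 lam hre hLa e he hn⟩

end

end Crest.Agent.R086.C4SY
end

-- ▼ part R086/C4FactsMain
section

/-!
Row 86, Part C, node C4Fac (helper2): `LimitProfile + BData → C4Facts`.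
-/

set_option autoImplicit false

open MeasureTheory Complex Set Filter Topology
open scoped ContDiff

namespace Crest.Agent.R086

namespace C4FactsMain

variable {om0 R : ℝ} {U : ℝ → ℂ}

theorem norm_U_le (L : LimitProfile om0 R U) (r : ℝ) : ‖U r‖ ≤ 1 := by
  rcases le_or_gt r R with h | h
  · rw [L.core r h]; simp
  · exact (L.lt_one r h).le

theorem continuous_deriv_U (L : LimitProfile om0 R U) : Continuous (deriv U) :=
  L.c1.continuous_deriv (by norm_num)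

theorem deriv_U_lt (L : LimitProfile om0 R U) {r : ℝ} (hr : r < R) : deriv U r = 0 := by
  have h : U =ᶠ[𝓝 r] fun _ => (1:ℂ) := by
    filter_upwards [Iio_mem_nhds hr] with t ht
    exact L.core t (le_of_lt ht)
  rw [h.deriv_eq]
  simp

theorem deriv_U_le (L : LimitProfile om0 R U) {r : ℝ} (hr : r ≤ R) : deriv U r = 0 := by
  rcases hr.eq_or_lt with h | h
  · subst h
    have h1 : Tendsto (deriv U) (𝓝[<] r) (𝓝 (deriv U r)) :=
      ((continuous_deriv_U L).tendsto r).mono_left nhdsWithin_le_nhds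
    have h2 : Tendsto (deriv U) (𝓝[<] r) (𝓝 0) := by
      refine tendsto_const_nhds.congr' ?_
      filter_upwards [self_mem_nhdsWithin] with t ht
      exact (deriv_U_lt L ht).symm
    exact tendsto_nhds_unique h1 h2
  · exact deriv_U_lt L h

theorem R_pos (L : LimitProfile om0 R U) : 3 < R := by linarith [L.R_lo]

theorem R_lt8 (L : LimitProfile om0 R U) : R < 8 := by linarith [L.R_hi]

/-- `|q'/q| ≤ C` -/
theorem quot_bdd (B : BData om0 R U) : ∃ C : ℝ, 0 ≤ C ∧ ∀ᶠ j in atTop, ∀ r : ℝ, 0 ≤ r →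
    ‖deriv (B.P j).q r / (B.P j).q r‖ ≤ C := by
  obtain ⟨C, hC⟩ := B.q_der
  refine ⟨|C|, abs_nonneg _, ?_⟩
  filter_upwards [hC] with j hj r hr
  have h1 := (hj r hr).1
  have h2 : (B.P j).q r ≠ 0 := B.q_ne j r
  have h3 : 0 < ‖(B.P j).q r‖ := norm_pos_iff.2 h2
  rw [norm_div, div_le_iff₀ h3]
  refine h1.trans ?_
  have h4 : r / (1 + r ^ 2) ≤ 1 := by
    rw [div_le_one (by positivity)]
    nlinarith [sq_nonneg (r - 1)]
  have h5 : 0 ≤ r / (1 + r ^ 2) := by positivity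
  have h6 : C * (r / (1 + r ^ 2)) ≤ |C| := by
    calc C * (r / (1 + r ^ 2)) ≤ |C| * (r / (1 + r ^ 2)) :=
          mul_le_mul_of_nonneg_right (le_abs_self C) h5
      _ ≤ |C| * 1 := mul_le_mul_of_nonneg_left h4 (abs_nonneg _)
      _ = |C| := mul_one _
  exact mul_le_mul_of_nonneg_right h6 h3.le

/-- `|q'/q| ≤ e` on `[0,R]` -/
theorem quot_small (L : LimitProfile om0 R U) (B : BData om0 R U) (e : ℝ) (he : 0 < e) :
    ∀ᶠ j in atTop, ∀ r ∈ Icc (0:ℝ) R, ‖deriv (B.P j).q r / (B.P j).q r‖ ≤ e := by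
  filter_upwards [B.conv (e / 2) (by positivity), B.q_lower] with j h1 h2 r hr
  have hr8 : r ∈ Icc (0:ℝ) 8 := ⟨hr.1, hr.2.trans (R_lt8 L).le⟩
  have h3 := (h1 r hr8).2
  rw [deriv_U_le L hr.2, sub_zero] at h3
  have h4 := h2 r hr8
  have h5 : 0 < ‖(B.P j).q r‖ := by linarith
  rw [norm_div, div_le_iff₀ h5]
  nlinarith

theorem om_bdd (L : LimitProfile om0 R U) (B : BData om0 R U) :
    ∀ᶠ j in atTop, |(B.P j).om| ≤ 1 := by
  have h1 : ∀ᶠ j in atTop, (B.P j).om ∈ Ioo (0:ℝ) 1 := by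
    apply B.om_tendsto.eventually
    exact Ioo_mem_nhds (by linarith [L.om_lo]) (by linarith [L.om_hi])
  filter_upwards [h1] with j hj
  rw [abs_of_pos hj.1]
  exact hj.2.le

theorem inv_small (B : BData om0 R U) (e : ℝ) (he : 0 < e) :
    ∀ᶠ j in atTop, (1:ℝ) / (B.nn j) ≤ e := by
  have h1 : Tendsto (fun j => (1:ℝ) / (B.nn j)) atTop (𝓝 0) :=
    tendsto_one_div_atTop_nhds_zero_nat.comp B.nn_tendsto
  exact (h1.eventually (Iio_mem_nhds he)).mono fun j hj => le_of_lt hj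

/-- quotient of the time mode -/
theorem rtime_div {n : ℕ} (P : Profile n) {r : ℝ} (h : P.q r ≠ 0) :
    P.rtime r / P.q r = ((1 : ℂ) / n - I * P.om) + (1 / 2) * (r : ℂ) * (deriv P.q r / P.q r) := by
  rw [Profile.rtime]
  field_simp

theorem src_bound {n : ℕ} (P : Profile n) {r C : ℝ} (hq : P.q r ≠ 0) (hr : r ∈ Icc (0:ℝ) 8)
    (h1 : ‖deriv P.q r / P.q r‖ ≤ C) (hom : |P.om| ≤ 1) (hC : 0 ≤ C) {l : ℕ} {ls : ℝ} {e : ℝ → ℂ}
    (he : P.IsSym l ls e) : ‖e r / P.q r‖ ≤ 2 + 4 * C := by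
  have hn2 : (2:ℝ) ≤ n := by exact_mod_cast P.two_le
  rcases he with ⟨_, _, rfl⟩ | ⟨_, _, rfl⟩ | ⟨_, _, rfl⟩
  · rw [mul_div_assoc, div_self hq, mul_one, norm_I]
    linarith
  · rw [rtime_div P hq]
    refine (norm_add_le _ _).trans ?_
    have h2 : ‖(1 : ℂ) / n - I * P.om‖ ≤ 2 := by
      refine (norm_sub_le _ _).trans ?_
      rw [norm_mul, norm_I, one_mul, Complex.norm_real, Real.norm_eq_abs, norm_div, norm_one,
        Complex.norm_natCast]
      have : (1:ℝ) / n ≤ 1 := by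
        rw [div_le_one (by linarith)]; linarith
      linarith
    have h3 : ‖(1 / 2 : ℂ) * (r : ℂ) * (deriv P.q r / P.q r)‖ ≤ 4 * C := by
      rw [norm_mul, norm_mul, Complex.norm_real, Real.norm_eq_abs, abs_of_nonneg hr.1]
      have : ‖(1 / 2 : ℂ)‖ = 1 / 2 := by norm_num
      rw [this]
      have h4 : (1:ℝ) / 2 * r ≤ 4 := by linarith [hr.2]
      exact mul_le_mul h4 h1 (norm_nonneg _) (by norm_num)
    linarith
  · linarith

theorem src0_bound {n : ℕ} (P : Profile n) {r C : ℝ} (hq : P.q r ≠ 0) (hr : r ∈ Icc (0:ℝ) 8)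
    (h1 : ‖deriv P.q r / P.q r‖ ≤ C) (hC : 0 ≤ C) {l : ℕ} {ls : ℝ} {e : ℝ → ℂ}
    (he : P.IsSym l ls e) : |(e r / P.q r).re| ≤ 1 / n + 4 * C := by
  have hn0 : (0:ℝ) ≤ 1 / n := by positivity
  rcases he with ⟨_, _, rfl⟩ | ⟨_, _, rfl⟩ | ⟨_, _, rfl⟩
  · rw [mul_div_assoc, div_self hq, mul_one, I_re, abs_zero]
    positivity
  · rw [rtime_div P hq]
    have h2 : ((1 : ℂ) / n - I * P.om).re = 1 / n := by
      rw [sub_re, mul_re, I_re, I_im, ofReal_im]
      have : ((1:ℂ) / n).re = 1 / n := by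
        rw [show ((1:ℂ) / n) = (((1:ℝ) / n : ℝ) : ℂ) by push_cast; rfl, ofReal_re]
      rw [this]
      ring
    rw [add_re, h2]
    refine (abs_add_le _ _).trans ?_
    rw [abs_of_nonneg hn0]
    have h3 : ‖(1 / 2 : ℂ) * (r : ℂ) * (deriv P.q r / P.q r)‖ ≤ 4 * C := by
      rw [norm_mul, norm_mul, Complex.norm_real, Real.norm_eq_abs, abs_of_nonneg hr.1]
      have : ‖(1 / 2 : ℂ)‖ = 1 / 2 := by norm_num
      rw [this]
      have h4 : (1:ℝ) / 2 * r ≤ 4 := by linarith [hr.2]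
      exact mul_le_mul h4 h1 (norm_nonneg _) (by norm_num)
    have h4 := (Complex.abs_re_le_norm _).trans h3
    linarith
  · have h4 := (Complex.abs_re_le_norm _).trans h1
    linarith

/-- `U - 1`, `U'` are `O(d)` at `R + d` -/
theorem U1_bound (L : LimitProfile om0 R U) :
    ∃ C : ℝ, ∀ d ∈ Icc (0 : ℝ) 1, ‖U (R + d) - 1‖ ≤ C * d ∧ ‖deriv U (R + d)‖ ≤ C * d := by
  have hR := R_pos L
  obtain ⟨M, hM⟩ := (isCompact_Icc (a := R) (b := R + 1)).exists_bound_of_continuousOn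
    (continuous_deriv_U L).continuousOn
  have hM0 : 0 ≤ M := (norm_nonneg _).trans (hM R ⟨le_rfl, by linarith⟩)
  set K : ℝ := 20 * M + 1 with hK
  have hode : ∀ r ∈ Ioc R (R+1), ‖-(11 / (r : ℂ) + I * r / 2) * deriv U r - om0 * U r‖ ≤ K := by
    intro r hr
    have hr0 : 0 < r := by linarith [hr.1]
    have hr' : r ∈ Icc R (R+1) := ⟨hr.1.le, hr.2⟩
    refine (norm_sub_le _ _).trans ?_
    rw [norm_mul, norm_neg, norm_mul]
    have h1 : ‖(11 / (r : ℂ) + I * r / 2)‖ ≤ 20 := by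
      refine (norm_add_le _ _).trans ?_
      rw [norm_div, norm_div, norm_mul, norm_I, Complex.norm_real, Real.norm_eq_abs,
        abs_of_pos hr0]
      have e1 : ‖(11:ℂ)‖ = 11 := by norm_num
      have e2 : ‖(2:ℂ)‖ = 2 := by norm_num
      rw [e1, e2]
      have e3 : (11:ℝ) / r ≤ 11 := by
        rw [div_le_iff₀ hr0]; nlinarith [hr.1]
      have e4 : r ≤ 5 := by linarith [hr.2, L.R_hi]
      linarith
    have h2 := hM r hr'
    have h3 : ‖(om0 : ℂ)‖ ≤ 1 := by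
      rw [Complex.norm_real, Real.norm_eq_abs, abs_of_pos (by linarith [L.om_lo])]
      linarith [L.om_hi]
    have h4 := norm_U_le L r
    have h5 : ‖(11 / (r : ℂ) + I * r / 2)‖ * ‖deriv U r‖ ≤ 20 * M :=
      mul_le_mul h1 h2 (norm_nonneg _) (by norm_num)
    have h6 : ‖(om0 : ℂ)‖ * ‖U r‖ ≤ 1 := by
      calc ‖(om0 : ℂ)‖ * ‖U r‖ ≤ 1 * 1 := mul_le_mul h3 h4 (norm_nonneg _) (by norm_num)
        _ = 1 := one_mul 1
    linarith
  -- derivative bound
  have hd1 : ∀ s ∈ Icc R (R+1), ‖deriv U s‖ ≤ K * (s - R) := by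
    intro s hs
    rcases hs.1.eq_or_lt with h0 | h0
    · rw [← h0, deriv_U_le L le_rfl, norm_zero, sub_self, mul_zero]
    · have h1 : ∀ s1 ∈ Ioo R s, ‖deriv U s - deriv U s1‖ ≤ K * (s - s1) := by
        intro s1 hs1
        have h2 := (convex_Icc s1 s).norm_image_sub_le_of_norm_hasDerivWithin_le
          (f := deriv U) (f' := fun r => -(11 / (r : ℂ) + I * r / 2) * deriv U r - om0 * U r)
          (C := K) (fun r hr => (L.ode r (hs1.1.trans_le hr.1)).hasDerivWithinAt)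
          (fun r hr => hode r ⟨hs1.1.trans_le hr.1, hr.2.trans hs.2⟩)
          (left_mem_Icc.2 hs1.2.le) (right_mem_Icc.2 hs1.2.le)
        rwa [Real.norm_eq_abs, abs_of_pos (by linarith [hs1.2])] at h2
      have t1 : Tendsto (fun s1 => ‖deriv U s - deriv U s1‖) (𝓝[>] R) (𝓝 ‖deriv U s - deriv U R‖) :=
        ((continuous_const.sub (continuous_deriv_U L)).norm.tendsto R).mono_left
          nhdsWithin_le_nhds
      have t2 : Tendsto (fun s1 => K * (s - s1)) (𝓝[>] R) (𝓝 (K * (s - R))) :=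
        ((by fun_prop : Continuous fun s1 : ℝ => K * (s - s1)).tendsto R).mono_left
          nhdsWithin_le_nhds
      have h3 := le_of_tendsto_of_tendsto t1 t2 (by
        filter_upwards [Ioo_mem_nhdsGT h0] with s1 hs1
        exact h1 s1 hs1)
      rwa [deriv_U_le L le_rfl, sub_zero] at h3
  have hK0 : 0 ≤ K := by positivity
  refine ⟨K, fun d hd => ?_⟩
  have hmem : R + d ∈ Icc R (R+1) := ⟨by linarith [hd.1], by linarith [hd.2]⟩
  refine ⟨?_, ?_⟩
  · have h2 := (convex_Icc R (R+d)).norm_image_sub_le_of_norm_hasDerivWithin_le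
      (f := U) (f' := deriv U) (C := K * d)
      (fun r _ => ((L.c1.differentiable (by norm_num)) r).hasDerivAt.hasDerivWithinAt)
      (fun r hr => (hd1 r ⟨hr.1, hr.2.trans hmem.2⟩).trans (by
        apply mul_le_mul_of_nonneg_left _ hK0
        linarith [hr.2]))
      (left_mem_Icc.2 (by linarith [hd.1])) (right_mem_Icc.2 (by linarith [hd.1]))
    rw [L.core R le_rfl] at h2
    refine h2.trans ?_
    rw [show R + d - R = d by ring, Real.norm_eq_abs, abs_of_nonneg hd.1]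
    have h3 : d * d ≤ d * 1 := mul_le_mul_of_nonneg_left hd.2 hd.1
    nlinarith
  · have := hd1 (R+d) hmem
    rwa [show R + d - R = d by ring] at this

theorem nP_bound (L : LimitProfile om0 R U) (B : BData om0 R U) (d : ℝ) (hd : 0 < d) :
    ∀ᶠ j in atTop, ∀ r ∈ Icc (R + d) 8, (B.nn j : ℝ) * ‖(B.P j).q r‖ ^ (B.nn j) ≤ 1 := by
  obtain ⟨c, hc, h1⟩ := B.pow_tail (R + d) (by linarith)
  have hlim : Tendsto (fun x : ℝ => x * Real.exp (-c * x)) atTop (𝓝 0) := by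
    have := Real.tendsto_pow_mul_exp_neg_atTop_nhds_zero 1
    have h2 := this.comp (tendsto_id.const_mul_atTop hc)
    have h3 := h2.const_mul (1 / c)
    rw [mul_zero] at h3
    refine h3.congr fun x => ?_
    simp only [Function.comp_apply, id, pow_one]
    rw [show -(c * x) = -c * x by ring]
    field_simp
  have h2 : ∀ᶠ j in atTop, (B.nn j : ℝ) * Real.exp (-c * B.nn j) ≤ 1 := by
    have h3 := (hlim.comp (tendsto_natCast_atTop_atTop.comp B.nn_tendsto)).eventually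
      (Iio_mem_nhds one_pos)
    exact h3.mono fun j hj => le_of_lt hj
  filter_upwards [h1, h2] with j h3 h4 r hr
  have h5 := h3 r hr.1
  have hr1 : 1 ≤ r := by linarith [hr.1, R_pos L]
  have h6 : Real.exp (-c * B.nn j) / r ^ 2 ≤ Real.exp (-c * B.nn j) :=
    div_le_self (Real.exp_pos _).le (by nlinarith)
  calc (B.nn j : ℝ) * ‖(B.P j).q r‖ ^ (B.nn j) ≤ (B.nn j : ℝ) * Real.exp (-c * B.nn j) :=
        mul_le_mul_of_nonneg_left (h5.trans h6) (Nat.cast_nonneg _)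
    _ ≤ 1 := h4

/-- **C4Fac** -/
theorem c4Facts (L : LimitProfile om0 R U) (B : BData om0 R U) : C4Facts B where
  qu := by
    filter_upwards [B.conv 1 one_pos] with j hj r hr
    have h1 := (hj r hr).1
    have h2 := norm_U_le L r
    calc ‖(B.P j).q r‖ = ‖((B.P j).q r - U r) + U r‖ := by congr 1; ring
      _ ≤ ‖(B.P j).q r - U r‖ + ‖U r‖ := norm_add_le _ _
      _ ≤ 2 := by linarith
  bb := by
    obtain ⟨C, hC0, hC⟩ := quot_bdd B
    refine ⟨2 * C + 4, ?_⟩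
    filter_upwards [hC] with j hj r hr
    have h1 := (Complex.abs_im_le_norm _).trans (hj r hr.1)
    rw [CCore.b]
    refine (abs_add_le _ _).trans ?_
    have e1 : |2 * (deriv (B.P j).q r / (B.P j).q r).im| =
        2 * |(deriv (B.P j).q r / (B.P j).q r).im| := by
      rw [abs_mul, abs_of_pos (by norm_num : (0:ℝ) < 2)]
    have e2 : |r / 2| = r / 2 := abs_of_nonneg (by linarith [hr.1])
    rw [e1, e2]
    linarith [hr.2]
  rho0 := by
    intro e he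
    filter_upwards [quot_small L B e he] with j hj r hr
    exact (Complex.abs_re_le_norm _).trans (hj r hr)
  src := by
    obtain ⟨C, hC0, hC⟩ := quot_bdd B
    refine ⟨2 + 4 * C, ?_⟩
    filter_upwards [hC, om_bdd L B] with j hj ho l ls e he r hr
    exact src_bound (B.P j) (B.q_ne j r) hr (hj r hr.1) ho hC0 he
  src0 := by
    intro t ht
    filter_upwards [quot_small L B (t / 8) (by positivity), inv_small B (t / 2) (by positivity)]
      with j hj h1 l ls e he r hr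
    have h2 := src0_bound (B.P j) (B.q_ne j r) ⟨hr.1, hr.2.trans (R_lt8 L).le⟩ (hj r hr)
      (by positivity) he
    linarith
  U1 := U1_bound L
  nP := nP_bound L B

end C4FactsMain

end Crest.Agent.R086
end

-- ▼ part R086/PartC
section

/-!
Row 86, PART C: THE FINAL THEOREM (captain helper777).
-/

set_option autoImplicit false

open MeasureTheory Complex Set Filter Topology
open scoped ContDiff

namespace Crest.Agent.R086

/-- regime R3 -/
theorem r3Stmt : R3Stmt :=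
  R3.r3_of CEx.caseII (CEx.III.caseIII_of CIII.close) R3.solStmt R3Bdry.bdryStmt R3.dtnEv R3.dtnPr
    fun _ _ _ hL B => ExtA.ext0U hL B

theorem c4bcU {om0 R : ℝ} {U : ℝ → ℂ} (hL : LimitProfile om0 R U) (B : BData om0 R U) : B.C4BC :=
  B.c4bc hL C4.instStmt (C4FactsMain.c4Facts hL B)

theorem c4ntU {om0 R : ℝ} {U : ℝ → ℂ} (hL : LimitProfile om0 R U) (B : BData om0 R U) : B.C4NT :=
  c4nt hL B (C4FactsMain.c4Facts hL B)

/-- **PART C** -/
theorem partC : PartC :=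
  partC_of CHF.r1Stmt r3Stmt
    (fun D _ hL B La l => C4NS.ns B (by have := hL.R_lo; linarith) (by have := hL.R_hi; linarith)
      (BData.reg hL B) (c4bcU hL B) (c4ntU hL B) (ExtA.ext0U hL B) (limitSpec_of_AData D) La l)
    (fun D _ hL B La l => C4SY.sy hL CSym.symStmt (BData.reg hL B) (ExtA.extsU hL B) (c4bcU hL B)
      (c4ntU hL B) (limitSpec_of_AData D) La l)

end Crest.Agent.R086
end

-- ▼ part R086/TopC

/-!
Row 86: assembly of `ProfileThm` from Part B (`BData`) and Part C (`CGood`) (helper512).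
-/

set_option autoImplicit false

open MeasureTheory Complex Set Filter Topology

namespace Crest.Agent.R086

/-- `ProfileThm` from the output of Part B and Part C. -/
theorem profileThm_of_BData {om0 R : ℝ} {U : ℝ → ℂ} (B : BData om0 R U) (h : B.CGood) :
    ProfileThm := by
  intro n₀
  have h1 : ∀ᶠ j in atTop, n₀ ≤ B.nn j := B.nn_tendsto.eventually_ge_atTop n₀
  obtain ⟨j, hj1, hj2⟩ := (h1.and h).exists
  exact ⟨B.nn j, hj1, B.P j, specGood_of_modeGood (B.P j) (by norm_num) hj2⟩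

/-- S0114 from Parts B, C, D. -/
theorem S0114_of {om0 R : ℝ} {U : ℝ → ℂ} (B : BData om0 R U) (hC : B.CGood) (hD : NonlinearThm)
    (p₀ : ℕ) :
    ∃ p : ℕ, p₀ ≤ p ∧ Odd p ∧ 3 ≤ p ∧ BlowupConcl p := by
  obtain ⟨n, hn, P, hP⟩ := profileThm_of_BData B hC p₀
  exact ⟨n + 1, by omega, P.neven.add_one, by have := P.two_le; omega, hD n P hP⟩

end Crest.Agent.R086
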