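import Crest.Agent.R086.TorB
import Crest.Prelude.Def_PeriodicNLS
import Crest.Agent.R086.TorDefs

-- ▼ part R086/TorC
section

/-!
Row 86, part D, torus side (helper327), file C.
Parseval, decay of Fourier coefficients of smooth periodic functions, Sobolev ⟹ Wiener.
-/

set_option autoImplicit false

noncomputable section

open scoped BigOperators ComplexConjugate ContDiff ENNReal Pointwise
open Filter MeasureTheory Complex

namespace Crest.Agent.R086.Tor

/-- normalised measure on `ℝ / ℤ`. -/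
local instance : MeasureSpace UnitAddCircle := ⟨AddCircle.haarAddCircle⟩
local instance : Measure.IsAddHaarMeasure (volume : Measure UnitAddCircle) :=
  inferInstanceAs (Measure.IsAddHaarMeasure AddCircle.haarAddCircle)
local instance : IsProbabilityMeasure (volume : Measure UnitAddCircle) :=
  inferInstanceAs (IsProbabilityMeasure AddCircle.haarAddCircle)

variable {d : ℕ}

/-! ### Parseval -/

lemma hasSum_sq_cf {v : EuclideanSpace ℝ (Fin d) → ℂ} (hv : Per v) (hc : Continuous v) :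
    HasSum (fun k => ‖cf v k‖ ^ 2) (∫ x in ubox (d := d), ‖v (sc x)‖ ^ 2) := by
  have h := UnitAddTorus.hasSum_sq_mFourierCoeff
    (ContinuousMap.toLp (E := ℂ) 2 (volume : Measure (UnitAddTorus (Fin d))) ℂ (tfc v hv hc))
  have e1 : ∀ k, UnitAddTorus.mFourierCoeff
      (ContinuousMap.toLp (E := ℂ) 2 (volume : Measure (UnitAddTorus (Fin d))) ℂ (tfc v hv hc)) k
      = cf v k := fun k => UnitAddTorus.mFourierCoeff_toLp (tfc v hv hc) k
  simp only [e1] at h
  convert h using 1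
  have e2 : ∫ t, ‖(ContinuousMap.toLp (E := ℂ) 2 (volume : Measure (UnitAddTorus (Fin d))) ℂ
      (tfc v hv hc)) t‖ ^ 2 = ∫ t : UnitAddTorus (Fin d), ‖tf v t‖ ^ 2 := by
    refine integral_congr_ae ?_
    filter_upwards [ContinuousMap.coeFn_toLp (p := 2) (𝕜 := ℂ)
      (volume : Measure (UnitAddTorus (Fin d))) (tfc v hv hc)] with t ht
    rw [ht]; rfl
  rw [e2, UnitAddTorus.integral_preimage _ (fun _ => (0 : ℝ))]
  refine integral_congr_ae (Eventually.of_forall fun x => ?_)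
  have h1 : (fun i => ((x i : ℝ) : UnitAddCircle)) = prj x := rfl
  simp only [h1]
  rw [tf_prj hv]

/-! ### iterated directional derivatives -/

/-- `D^M v (x) [e,…,e]`. -/
def itd (v : EuclideanSpace ℝ (Fin d) → ℂ) (e : EuclideanSpace ℝ (Fin d)) (M : ℕ)
    (x : EuclideanSpace ℝ (Fin d)) : ℂ := iteratedFDeriv ℝ M v x fun _ => e

lemma itd_zero (v : EuclideanSpace ℝ (Fin d) → ℂ) (e : EuclideanSpace ℝ (Fin d)) :
    itd v e 0 = v := by
  funext x; simp [itd]

lemma itd_eq (v : EuclideanSpace ℝ (Fin d) → ℂ) (e : EuclideanSpace ℝ (Fin d)) (M : ℕ) :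
    itd v e M = (ContinuousMultilinearMap.apply ℝ (fun _ : Fin M => EuclideanSpace ℝ (Fin d)) ℂ
      (fun _ => e)) ∘ (iteratedFDeriv ℝ M v) := by
  funext x; rfl

lemma contDiff_itd {v : EuclideanSpace ℝ (Fin d) → ℂ} (hv : ContDiff ℝ ∞ v)
    (e : EuclideanSpace ℝ (Fin d)) (M : ℕ) : ContDiff ℝ ∞ (itd v e M) := by
  rw [itd_eq]
  exact (ContinuousLinearMap.contDiff _).comp (hv.iteratedFDeriv_right (by exact_mod_cast le_top))

lemma itd_succ {v : EuclideanSpace ℝ (Fin d) → ℂ} (hv : ContDiff ℝ ∞ v)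
    (e : EuclideanSpace ℝ (Fin d)) (M : ℕ) :
    itd v e (M + 1) = fun x => fderiv ℝ (itd v e M) x e := by
  funext x
  unfold itd
  rw [iteratedFDeriv_succ_apply_left]
  have h1 : DifferentiableAt ℝ (iteratedFDeriv ℝ M v) x :=
    (hv.differentiable_iteratedFDeriv (by exact_mod_cast ENat.natCast_lt_top M)) x
  have h2 : HasFDerivAt (fun x => iteratedFDeriv ℝ M v x fun _ => e)
      ((ContinuousMultilinearMap.apply ℝ (fun _ : Fin M => EuclideanSpace ℝ (Fin d)) ℂ
      (fun _ => e)).comp (fderiv ℝ (iteratedFDeriv ℝ M v) x)) x :=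
    (ContinuousMultilinearMap.apply ℝ (fun _ : Fin M => EuclideanSpace ℝ (Fin d)) ℂ
      (fun _ => e)).hasFDerivAt.comp x h1.hasFDerivAt
  rw [h2.fderiv]
  rfl

lemma per_itd {v : EuclideanSpace ℝ (Fin d) → ℂ} (hv : Per v)
    (e : EuclideanSpace ℝ (Fin d)) (M : ℕ) : Per (itd v e M) := by
  intro x i
  unfold itd
  have h : v = fun x => v (x + EuclideanSpace.single i (2 * Real.pi)) := by
    funext x; exact (hv x i).symm
  conv_rhs => rw [h]
  rw [iteratedFDeriv_comp_add_right]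

lemma cf_itd {v : EuclideanSpace ℝ (Fin d) → ℂ} (hp : Per v) (hv : ContDiff ℝ ∞ v)
    (e : EuclideanSpace ℝ (Fin d)) (M : ℕ) (k : Fin d → ℤ) :
    cf (itd v e M) k = (I * ((inner ℝ (kv k) e : ℝ) : ℂ)) ^ M * cf v k := by
  induction M with
  | zero => rw [itd_zero]; simp
  | succ M ih =>
    rw [itd_succ hv, cf_fderiv (per_itd hp e M)
      ((contDiff_itd hv e M).of_le (by exact_mod_cast le_top)), ih]
    ring

lemma norm_itd_le (v : EuclideanSpace ℝ (Fin d) → ℂ) {e : EuclideanSpace ℝ (Fin d)}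
    (he : ‖e‖ = 1) (M : ℕ) (x : EuclideanSpace ℝ (Fin d)) :
    ‖itd v e M x‖ ≤ ‖iteratedFDeriv ℝ M v x‖ := by
  have := (iteratedFDeriv ℝ M v x).le_opNorm (fun _ => e)
  simpa [itd, he] using this

/-! ### the period cell -/

/-- one period cell. -/
def cell (d : ℕ) : Set (EuclideanSpace ℝ (Fin d)) := {x | ∀ i, x i ∈ Set.Ico 0 (2 * Real.pi)}

lemma integral_ubox_eq {G : Type*} [NormedAddCommGroup G] [NormedSpace ℝ G]
    (g : EuclideanSpace ℝ (Fin d) → G) :
    ∫ x in ubox (d := d), g (sc x) = ((2 * Real.pi) ^ d)⁻¹ • ∫ x in cell d, g x := by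
  have h2pi : (0 : ℝ) < 2 * Real.pi := by positivity
  -- cell integral in coordinates
  have h1 : ∫ x in cell d, g x =
      ∫ x in (Set.univ.pi fun _ : Fin d => Set.Ico (0 : ℝ) (2 * Real.pi)), g (WithLp.toLp 2 x) := by
    rw [← (PiLp.volume_preserving_toLp (Fin d)).setIntegral_preimage_emb
      (MeasurableEquiv.toLp 2 (Fin d → ℝ)).measurableEmbedding g (cell d)]
    congr 2
    ext x
    simp [cell]
  have h2 : ∫ x in (Set.univ.pi fun _ : Fin d => Set.Ico (0 : ℝ) (2 * Real.pi)),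
      g (WithLp.toLp 2 x) =
      ∫ x in (Set.univ.pi fun _ : Fin d => Set.Ioc (0 : ℝ) (2 * Real.pi)),
      g (WithLp.toLp 2 x) := by
    refine setIntegral_congr_set ?_
    exact (Measure.univ_pi_Ico_ae_eq_Icc (μ := fun _ : Fin d => (volume : Measure ℝ))
      (f := fun _ => 0) (g := fun _ => 2 * Real.pi)).trans
      (Measure.univ_pi_Ioc_ae_eq_Icc (μ := fun _ : Fin d => (volume : Measure ℝ))
      (f := fun _ => 0) (g := fun _ => 2 * Real.pi)).symm
  have h3 : (Set.univ.pi fun _ : Fin d => Set.Ioc (0 : ℝ) (2 * Real.pi)) =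
      (2 * Real.pi) • ubox (d := d) := by
    ext x
    rw [Set.mem_smul_set_iff_inv_smul_mem₀ h2pi.ne', Set.mem_univ_pi]
    show (∀ i, x i ∈ Set.Ioc (0 : ℝ) (2 * Real.pi)) ↔
      ∀ i, (2 * Real.pi)⁻¹ * x i ∈ Set.Ioc (0 : ℝ) (0 + 1)
    refine forall_congr' fun i => ?_
    rw [zero_add]
    simp only [Set.mem_Ioc]
    rw [inv_mul_le_iff₀ h2pi, mul_one]
    constructor
    · rintro ⟨ha, hb⟩; exact ⟨by positivity, hb⟩
    · rintro ⟨ha, hb⟩
      refine ⟨?_, hb⟩
      have := mul_pos h2pi ha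
      rwa [mul_inv_cancel_left₀ h2pi.ne'] at this
  rw [h1, h2, h3]
  have h4 := Measure.setIntegral_comp_smul_of_pos (volume : Measure (Fin d → ℝ))
    (fun x => g (WithLp.toLp 2 x)) (ubox (d := d)) h2pi
  rw [Module.finrank_fintype_fun_eq_card, Fintype.card_fin] at h4
  rw [← h4]
  rfl

/-! ### weights -/

lemma wt_le_sum (k : Fin d → ℤ) : wt k ≤ 1 + ∑ i, |(k i : ℝ)| := by
  unfold wt
  have h : ‖kv k‖ ^ 2 ≤ (∑ i, |(k i : ℝ)|) ^ 2 := by
    rw [EuclideanSpace.real_norm_sq_eq]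
    have := Finset.sum_sq_le_sq_sum_of_nonneg (s := (Finset.univ : Finset (Fin d)))
      (f := fun i => |(k i : ℝ)|) (fun i _ => abs_nonneg _)
    simpa using this
  have h2 := abs_le_of_sq_le_sq' h (Finset.sum_nonneg fun i _ => abs_nonneg _)
  linarith [h2.2]

lemma wt_pow_le (k : Fin d → ℤ) (M : ℕ) :
    wt k ^ (2 * M) ≤ (d + 1 : ℝ) ^ (2 * M) * (1 + ∑ i, |(k i : ℝ)| ^ (2 * M)) := by
  rcases Nat.eq_zero_or_pos M with hM | hM
  · subst hM
    simp
  · obtain ⟨n, hn⟩ : ∃ n, 2 * M = n + 1 := ⟨2 * M - 1, by omega⟩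
    rw [hn]
    have h1 := pow_sum_div_card_le_sum_pow (s := (Finset.univ : Finset (Fin (d + 1))))
      (f := Fin.cons (1 : ℝ) fun i => |(k i : ℝ)|)
      (fun i _ => by
        refine Fin.cases ?_ (fun j => ?_) i
        · simp
        · simp) n
    simp only [Fin.sum_univ_succ, Fin.cons_zero, Fin.cons_succ, Finset.card_univ,
      Fintype.card_fin, one_pow] at h1
    rw [div_le_iff₀ (by positivity)] at h1
    have h2 : wt k ^ (n + 1) ≤ (1 + ∑ i, |(k i : ℝ)|) ^ (n + 1) :=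
      pow_le_pow_left₀ (wt_pos k).le (wt_le_sum k) _
    have h3 : (((d + 1 : ℕ) : ℝ)) ^ n ≤ (d + 1 : ℝ) ^ (n + 1) := by
      push_cast
      exact pow_le_pow_right₀ (by linarith [(Nat.cast_nonneg d : (0 : ℝ) ≤ d)]) (Nat.le_succ n)
    have h4 : (0 : ℝ) ≤ 1 + ∑ i, |(k i : ℝ)| ^ (n + 1) := by positivity
    calc wt k ^ (n + 1) ≤ (1 + ∑ i, |(k i : ℝ)|) ^ (n + 1) := h2
      _ ≤ (1 + ∑ i, |(k i : ℝ)| ^ (n + 1)) * (((d + 1 : ℕ) : ℝ)) ^ n := h1
      _ ≤ (1 + ∑ i, |(k i : ℝ)| ^ (n + 1)) * (d + 1 : ℝ) ^ (n + 1) := by gcongr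
      _ = _ := by ring

/-- the homogeneous Sobolev pieces on the cell. -/
def sob (v : EuclideanSpace ℝ (Fin d) → ℂ) (j : ℕ) : ℝ :=
  ∫ x in cell d, ‖iteratedFDeriv ℝ j v x‖ ^ 2

lemma sob_nonneg (v : EuclideanSpace ℝ (Fin d) → ℂ) (j : ℕ) : 0 ≤ sob v j :=
  integral_nonneg fun _ => by positivity

lemma integrable_ubox {g : EuclideanSpace ℝ (Fin d) → ℝ} (hp : Per g) (hc : Continuous g) :
    Integrable (fun x => g (sc x)) ((volume : Measure (Fin d → ℝ)).restrict ubox) := by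
  obtain ⟨M, _, hM⟩ := hp.bdd hc
  exact Integrable.of_bound (hc.comp continuous_sc).aestronglyMeasurable M
    (Eventually.of_forall fun x => hM _)

/-- one direction. -/
lemma hasSum_dir {v : EuclideanSpace ℝ (Fin d) → ℂ} (hp : Per v) (hv : ContDiff ℝ ∞ v)
    (M : ℕ) (i : Fin d) :
    Summable (fun k : Fin d → ℤ => |(k i : ℝ)| ^ (2 * M) * ‖cf v k‖ ^ 2) ∧
    ∑' k : Fin d → ℤ, |(k i : ℝ)| ^ (2 * M) * ‖cf v k‖ ^ 2 ≤ ((2 * Real.pi) ^ d)⁻¹ * sob v M := by
  set e : EuclideanSpace ℝ (Fin d) := EuclideanSpace.single i 1 with he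
  have hen : ‖e‖ = 1 := by simp [he]
  have h1 := hasSum_sq_cf (per_itd hp e M) (contDiff_itd hv e M).continuous
  have h2 : ∀ k : Fin d → ℤ, ‖cf (itd v e M) k‖ ^ 2 = |(k i : ℝ)| ^ (2 * M) * ‖cf v k‖ ^ 2 := by
    intro k
    rw [cf_itd hp hv, norm_mul, norm_pow, norm_mul, Complex.norm_I, one_mul, Complex.norm_real,
      Real.norm_eq_abs, inner_kv]
    have : ∑ j, (k j : ℝ) * e j = k i := by
      rw [Finset.sum_eq_single i]
      · simp [he]
      · intro j _ hj; simp [he, hj]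
      · simp
    rw [this]; ring
  simp only [h2] at h1
  refine ⟨h1.summable, ?_⟩
  rw [h1.tsum_eq]
  have hper : Per (fun x => ‖iteratedFDeriv ℝ M v x‖ ^ 2) := by
    intro x j
    have h : v = fun x => v (x + EuclideanSpace.single j (2 * Real.pi)) := by
      funext x; exact (hp x j).symm
    show ‖iteratedFDeriv ℝ M v (x + EuclideanSpace.single j (2 * Real.pi))‖ ^ 2 =
      ‖iteratedFDeriv ℝ M v x‖ ^ 2
    conv_rhs => rw [h]
    rw [iteratedFDeriv_comp_add_right]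
  have hper2 : Per (fun x => ‖itd v e M x‖ ^ 2) := by
    intro x j
    simp only
    rw [per_itd hp e M x j]
  have hcont : Continuous (fun x => ‖iteratedFDeriv ℝ M v x‖ ^ 2) :=
    ((hv.continuous_iteratedFDeriv (by exact_mod_cast le_top)).norm).pow 2
  have hcont2 : Continuous (fun x => ‖itd v e M x‖ ^ 2) :=
    ((contDiff_itd hv e M).continuous.norm).pow 2
  calc ∫ x in ubox (d := d), ‖itd v e M (sc x)‖ ^ 2
      ≤ ∫ x in ubox (d := d), ‖iteratedFDeriv ℝ M v (sc x)‖ ^ 2 := by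
        refine integral_mono (integrable_ubox hper2 hcont2) (integrable_ubox hper hcont) fun x => ?_
        exact pow_le_pow_left₀ (norm_nonneg _) (norm_itd_le v hen M _) 2
    _ = ((2 * Real.pi) ^ d)⁻¹ * sob v M :=
        integral_ubox_eq (fun x => ‖iteratedFDeriv ℝ M v x‖ ^ 2)

lemma hasSum_zero {v : EuclideanSpace ℝ (Fin d) → ℂ} (hp : Per v) (hv : ContDiff ℝ ∞ v) :
    Summable (fun k : Fin d → ℤ => ‖cf v k‖ ^ 2) ∧
    ∑' k : Fin d → ℤ, ‖cf v k‖ ^ 2 = ((2 * Real.pi) ^ d)⁻¹ * sob v 0 := by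
  have h1 := hasSum_sq_cf hp hv.continuous
  refine ⟨h1.summable, ?_⟩
  rw [h1.tsum_eq]
  have := integral_ubox_eq (d := d) (fun x => ‖v x‖ ^ 2)
  rw [this]
  simp [sob]

/-- weighted `ℓ²` bound by the Sobolev pieces. -/
lemma weighted_l2 {v : EuclideanSpace ℝ (Fin d) → ℂ} (hp : Per v) (hv : ContDiff ℝ ∞ v) (M : ℕ) :
    Summable (fun k : Fin d → ℤ => wt k ^ (2 * M) * ‖cf v k‖ ^ 2) ∧
    ∑' k : Fin d → ℤ, wt k ^ (2 * M) * ‖cf v k‖ ^ 2 ≤
      (d + 1 : ℝ) ^ (2 * M) * (((2 * Real.pi) ^ d)⁻¹ * (sob v 0 + d * sob v M)) := by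
  obtain ⟨s0, e0⟩ := hasSum_zero hp hv
  have hs : Summable fun k : Fin d → ℤ =>
      (d + 1 : ℝ) ^ (2 * M) * (‖cf v k‖ ^ 2 + ∑ i, |(k i : ℝ)| ^ (2 * M) * ‖cf v k‖ ^ 2) :=
    (s0.add (summable_sum fun i _ => (hasSum_dir hp hv M i).1)).mul_left _
  have hle : ∀ k : Fin d → ℤ, wt k ^ (2 * M) * ‖cf v k‖ ^ 2 ≤
      (d + 1 : ℝ) ^ (2 * M) * (‖cf v k‖ ^ 2 + ∑ i, |(k i : ℝ)| ^ (2 * M) * ‖cf v k‖ ^ 2) := by
    intro k
    have h1 := wt_pow_le k M
    calc wt k ^ (2 * M) * ‖cf v k‖ ^ 2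
        ≤ ((d + 1 : ℝ) ^ (2 * M) * (1 + ∑ i, |(k i : ℝ)| ^ (2 * M))) * ‖cf v k‖ ^ 2 := by gcongr
      _ = _ := by
        rw [mul_assoc, add_mul, one_mul, Finset.sum_mul]
  have hsum : Summable fun k : Fin d → ℤ => wt k ^ (2 * M) * ‖cf v k‖ ^ 2 :=
    Summable.of_nonneg_of_le (fun k => by have := wt_pos k; positivity) hle hs
  refine ⟨hsum, (hsum.tsum_le_tsum hle hs).trans ?_⟩
  rw [tsum_mul_left, s0.tsum_add (summable_sum fun i _ => (hasSum_dir hp hv M i).1),
    Summable.tsum_finsetSum (fun i _ => (hasSum_dir hp hv M i).1), e0]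
  have h2 : ∑ i : Fin d, ∑' k : Fin d → ℤ, |(k i : ℝ)| ^ (2 * M) * ‖cf v k‖ ^ 2 ≤
      d * (((2 * Real.pi) ^ d)⁻¹ * sob v M) := by
    calc _ ≤ ∑ _i : Fin d, (((2 * Real.pi) ^ d)⁻¹ * sob v M) :=
          Finset.sum_le_sum fun i _ => (hasSum_dir hp hv M i).2
      _ = _ := by simp
  have h3 : (0 : ℝ) ≤ (d + 1 : ℝ) ^ (2 * M) := by positivity
  calc (d + 1 : ℝ) ^ (2 * M) * (((2 * Real.pi) ^ d)⁻¹ * sob v 0 +
        ∑ i : Fin d, ∑' k : Fin d → ℤ, |(k i : ℝ)| ^ (2 * M) * ‖cf v k‖ ^ 2)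
      ≤ (d + 1 : ℝ) ^ (2 * M) * (((2 * Real.pi) ^ d)⁻¹ * sob v 0 +
        d * (((2 * Real.pi) ^ d)⁻¹ * sob v M)) := by gcongr
    _ = _ := by ring

/-- **Sobolev ⟹ Wiener** with the two pieces `0` and `N + d`. -/
theorem wiener_le {N : ℕ} : ∃ C : ℝ, 0 < C ∧ ∀ v : EuclideanSpace ℝ (Fin d) → ℂ,
    Per v → ContDiff ℝ ∞ v →
      Summable (fun k : Fin d → ℤ => wt k ^ N * ‖cf v k‖) ∧
      ∑' k : Fin d → ℤ, wt k ^ N * ‖cf v k‖ ≤ C * Real.sqrt (sob v 0 + sob v (N + d)) := by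
  set A : ℝ := ∑' k : Fin d → ℤ, (wt k ^ (2 * d))⁻¹ with hA
  have hAs := summable_wt_inv (d := d) le_rfl
  have hA0 : 0 ≤ A := tsum_nonneg fun k => by have := wt_pos k; positivity
  set B : ℝ := (d + 1 : ℝ) ^ (2 * (N + d)) * (((2 * Real.pi) ^ d)⁻¹ * (d + 1)) with hB
  have hB0 : 0 < B := by positivity
  refine ⟨Real.sqrt (A * B) + 1, by positivity, fun v hp hv => ?_⟩
  obtain ⟨hs2, hb2⟩ := weighted_l2 hp hv (N + d)
  have hS0 := sob_nonneg v 0
  have hSM := sob_nonneg v (N + d)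
  set S := sob v 0 + sob v (N + d) with hS
  have hSS : 0 ≤ S := by positivity
  have hb3 : ∑' k : Fin d → ℤ, wt k ^ (2 * (N + d)) * ‖cf v k‖ ^ 2 ≤ B * S := by
    refine hb2.trans ?_
    rw [hB, mul_assoc, mul_assoc]
    refine mul_le_mul_of_nonneg_left ?_ (by positivity)
    refine mul_le_mul_of_nonneg_left ?_ (by positivity)
    rw [hS]
    nlinarith [mul_nonneg (Nat.cast_nonneg d : (0 : ℝ) ≤ d) hS0]
  have hfin : ∀ u : Finset (Fin d → ℤ), ∑ k ∈ u, wt k ^ N * ‖cf v k‖ ≤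
      (Real.sqrt (A * B) + 1) * Real.sqrt S := by
    intro u
    have h1 := Finset.sum_mul_sq_le_sq_mul_sq u (fun k => (wt k ^ d)⁻¹)
      (fun k => wt k ^ (N + d) * ‖cf v k‖)
    have h2 : ∀ k, (wt k ^ d)⁻¹ * (wt k ^ (N + d) * ‖cf v k‖) = wt k ^ N * ‖cf v k‖ := by
      intro k
      have := wt_pos k
      rw [pow_add]; field_simp
    simp only [h2] at h1
    have h3 : ∑ k ∈ u, ((wt k ^ d)⁻¹) ^ 2 ≤ A := by
      have : ∀ k : Fin d → ℤ, ((wt k ^ d)⁻¹) ^ 2 = (wt k ^ (2 * d))⁻¹ := by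
        intro k; rw [inv_pow, ← pow_mul, mul_comm d 2]
      simp only [this]
      exact hAs.sum_le_tsum u (fun k _ => by have := wt_pos k; positivity)
    have h4 : ∑ k ∈ u, (wt k ^ (N + d) * ‖cf v k‖) ^ 2 ≤ B * S := by
      have : ∀ k : Fin d → ℤ, (wt k ^ (N + d) * ‖cf v k‖) ^ 2 =
          wt k ^ (2 * (N + d)) * ‖cf v k‖ ^ 2 := by
        intro k; rw [mul_pow, ← pow_mul, mul_comm (N + d) 2]
      simp only [this]
      exact (hs2.sum_le_tsum u (fun k _ => by have := wt_pos k; positivity)).trans hb3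
    have h5 : (∑ k ∈ u, wt k ^ N * ‖cf v k‖) ^ 2 ≤ (A * B) * S := by
      refine h1.trans ?_
      calc _ ≤ A * (B * S) := by
            refine mul_le_mul h3 h4 (Finset.sum_nonneg fun k _ => by positivity) hA0
        _ = _ := by ring
    have h6 : ∑ k ∈ u, wt k ^ N * ‖cf v k‖ ≤ Real.sqrt ((A * B) * S) := Real.le_sqrt_of_sq_le h5
    rw [Real.sqrt_mul (by positivity)] at h6
    refine h6.trans ?_
    have := Real.sqrt_nonneg S
    nlinarith
  have hsum := summable_of_sum_le (f := fun k : Fin d → ℤ => wt k ^ N * ‖cf v k‖)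
    (fun k => by have := wt_pos k; positivity) hfin
  exact ⟨hsum, hsum.tsum_le_of_sum_le hfin⟩

/-! ### the distance of the statement -/


lemma cell_eq : cell 12 = Crest.AnalysisR.PDE.NLS.periodCell := rfl

lemma Per.sub {v w : EuclideanSpace ℝ (Fin d) → ℂ} (hv : Per v) (hw : Per w) :
    Per (fun x => v x - w x) := by
  intro x i
  simp only [hv x i, hw x i]

lemma integrable_tf {v : EuclideanSpace ℝ (Fin d) → ℂ} (hv : Per v) (hc : Continuous v)
    (k : Fin d → ℤ) : Integrable (fun x => ek (-k) (sc x) * v (sc x))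
      ((volume : Measure (Fin d → ℝ)).restrict ubox) := by
  obtain ⟨M, _, hM⟩ := hv.bdd hc
  refine Integrable.of_bound (((continuous_ek _).comp continuous_sc).mul
    (hc.comp continuous_sc)).aestronglyMeasurable M (Eventually.of_forall fun x => ?_)
  rw [norm_mul, norm_ek, one_mul]
  exact hM _

lemma cf_sub {v w : EuclideanSpace ℝ (Fin d) → ℂ} (hv : Per v) (hcv : Continuous v)
    (hw : Per w) (hcw : Continuous w) (k : Fin d → ℤ) :
    cf (fun x => v x - w x) k = cf v k - cf w k := by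
  rw [cf_eq_integral (hv.sub hw), cf_eq_integral hv, cf_eq_integral hw,
    ← integral_sub (integrable_tf hv hcv k) (integrable_tf hw hcw k)]
  refine integral_congr_ae (Eventually.of_forall fun x => ?_)
  simp only
  ring

lemma cf_add {v w : EuclideanSpace ℝ (Fin d) → ℂ} (hv : Per v) (hcv : Continuous v)
    (hw : Per w) (hcw : Continuous w) (k : Fin d → ℤ) :
    cf (fun x => v x + w x) k = cf v k + cf w k := by
  have hp : Per (fun x => v x + w x) := by
    intro x i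
    simp only [hv x i, hw x i]
  rw [cf_eq_integral hp, cf_eq_integral hv, cf_eq_integral hw,
    ← integral_add (integrable_tf hv hcv k) (integrable_tf hw hcw k)]
  refine integral_congr_ae (Eventually.of_forall fun x => ?_)
  simp only
  ring




/-- a smooth periodic function has rapidly decaying coefficients. -/
theorem summable_cf {v : EuclideanSpace ℝ (Fin d) → ℂ} (hp : Per v) (hv : ContDiff ℝ ∞ v)
    (N : ℕ) : Summable (fun k : Fin d → ℤ => wt k ^ N * ‖cf v k‖) := by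
  obtain ⟨C, _, h⟩ := wiener_le (d := d) (N := N)
  exact (h v hp hv).1

/-- Fourier series of a smooth periodic function. -/
theorem eq_synth_cf {v : EuclideanSpace ℝ (Fin d) → ℂ} (hp : Per v) (hv : ContDiff ℝ ∞ v) :
    synth (cf v) = v :=
  synth_cf hp hv.continuous (Summable.of_norm (weight_zero (summable_cf hp hv 0)))

/-- **Sobolev ⟹ Wiener** in the form of the statement. -/
theorem wiener_le_sobolev (N k : ℕ) (hk : N + 12 ≤ k) : ∃ C : ℝ, 0 < C ∧
    ∀ v w : EuclideanSpace ℝ (Fin 12) → ℂ,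
      Crest.AnalysisR.PDE.NLS.IsSmoothPeriodic v → Crest.AnalysisR.PDE.NLS.IsSmoothPeriodic w →
      Summable (fun m : Fin 12 → ℤ => wt m ^ N * ‖cf v m - cf w m‖) ∧
      ∑' m : Fin 12 → ℤ, wt m ^ N * ‖cf v m - cf w m‖ ≤
        C * Real.sqrt (Crest.AnalysisR.PDE.NLS.sobolevDistSq k v w) := by
  obtain ⟨C, hC, h⟩ := wiener_le (d := 12) (N := N)
  refine ⟨C * Real.sqrt 2, by positivity, fun v w hv hw => ?_⟩
  have hp : Per (fun x => v x - w x) := Per.sub hv.2 hw.2
  have hs : ContDiff ℝ ∞ (fun x => v x - w x) := hv.1.sub hw.1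
  obtain ⟨h1, h2⟩ := h _ hp hs
  have e : ∀ m, cf (fun x => v x - w x) m = cf v m - cf w m :=
    cf_sub hv.2 hv.1.continuous hw.2 hw.1.continuous
  simp only [e] at h1 h2
  refine ⟨h1, h2.trans ?_⟩
  have h3 : sob (fun x => v x - w x) 0 + sob (fun x => v x - w x) (N + 12) ≤
      2 * Crest.AnalysisR.PDE.NLS.sobolevDistSq k v w := by
    have hj : ∀ j ∈ Finset.range (k + 1), sob (fun x => v x - w x) j ≤
        Crest.AnalysisR.PDE.NLS.sobolevDistSq k v w := by
      intro j hj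
      exact Finset.single_le_sum (f := fun j => sob (fun x => v x - w x) j)
        (fun j _ => sob_nonneg _ j) hj
    have a := hj 0 (by simp)
    have b := hj (N + 12) (by simp; omega)
    linarith
  rw [mul_assoc, ← Real.sqrt_mul (by norm_num)]
  exact mul_le_mul_of_nonneg_left (Real.sqrt_le_sqrt h3) hC.le

end Crest.Agent.R086.Tor
end
end

-- ▼ part R086/TF

/-!
Row 86, part D-torus, nodes TF1–TF4 (helper327).
-/

set_option autoImplicit false

noncomputable section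

open scoped BigOperators ComplexConjugate ContDiff ENNReal
open Filter MeasureTheory Complex
open Crest.AnalysisR.PDE.NLS (IsSmoothPeriodic periodCell sobolevDistSq IsClassicalSolution)

namespace Crest.Agent.R086

lemma zv_eq (k : Z12) : zv k = Tor.kv k := rfl


lemma one_add_nk (k : Z12) : 1 + nk k = Tor.wt k := rfl


lemma exp_neg_zv (k : Z12) (x : R12) :
    exp (-(I * ((inner ℝ (zv k) x : ℝ) : ℂ))) = Tor.ek (-k) x := by
  unfold Tor.ek
  rw [Tor.kv_neg, inner_neg_left, zv_eq]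
  congr 1; push_cast; ring

lemma per_of {v : R12 → ℂ} (hv : IsSmoothPeriodic v) : Tor.Per v := hv.2

/-- the coefficient of `TorDefs` is the one of `Tor`. -/
lemma cf_eq_tor {v : R12 → ℂ} (hv : Tor.Per v) (k : Z12) : cf v k = Tor.cf v k := by
  rw [Tor.cf_eq_integral hv]
  rw [Tor.integral_ubox_eq (d := 12) (fun x => Tor.ek (-k) x * v x)]
  unfold cf
  rw [Complex.real_smul]
  congr 1
  · push_cast; rfl
  · show ∫ x in periodCell, _ = ∫ x in periodCell, _
    refine integral_congr_ae (Eventually.of_forall fun x => ?_)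
    simp only
    rw [exp_neg_zv]; ring

theorem tf1 : TF1 := by
  intro v hv
  have e : cf v = Tor.cf v := funext (cf_eq_tor hv.2)
  refine ⟨fun N => ?_, fun x => ?_⟩
  · rw [e]
    exact Tor.summable_cf hv.2 hv.1 N
  · rw [e]
    have := congrFun (Tor.eq_synth_cf hv.2 hv.1) x
    exact this.symm

theorem tf2 : TF2 := by
  intro c hc
  have h0 : Summable fun k => ‖c k‖ := by simpa using hc 0
  refine ⟨Tor.synth c, ⟨Tor.contDiff_synth_infty hc, Tor.synth_per c⟩, fun k => ?_, fun x => rfl⟩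
  rw [cf_eq_tor (Tor.synth_per c), Tor.cf_synth h0]

lemma wn_one (N : ℕ) (v : R12 → ℂ) : wn N 1 v = ∑' k, Tor.wt k ^ N * ‖cf v k‖ := by
  unfold wn
  refine tsum_congr fun k => ?_
  rw [one_mul, one_add_nk]

theorem tf3 : TF3 := by
  intro N
  obtain ⟨C, hC, h⟩ := Tor.wiener_le_sobolev N (N + 14) (by omega)
  refine ⟨C, hC.le, fun v w hv hw => ?_⟩
  have hp : Tor.Per (fun x => v x - w x) := Tor.Per.sub hv.2 hw.2
  rw [wn_one]
  have e : ∀ k, cf (fun x => v x - w x) k = Tor.cf v k - Tor.cf w k := fun k => by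
    rw [cf_eq_tor hp, Tor.cf_sub hv.2 hv.1.continuous hw.2 hw.1.continuous]
  simp only [e]
  exact (h v w hv hw).2

theorem tf4 : TF4 := by
  intro N
  obtain ⟨C, hC, h⟩ := Tor.wiener_le (d := 12) (N := N)
  have hvr : (volume (periodCell : Set R12)).toReal = (2 * Real.pi) ^ 12 := by
    have h1 := Tor.integral_ubox_eq (d := 12) (fun _ => (1 : ℝ))
    simp only [integral_const, MeasurableSet.univ, measureReal_restrict_apply, Set.univ_inter,
      smul_eq_mul, mul_one] at h1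
    have h2 : (volume : Measure (Fin 12 → ℝ)).real Tor.ubox = 1 := by
      rw [Measure.real, Tor.volume_ubox]; simp
    rw [h2, Tor.cell_eq] at h1
    have hpos : (0 : ℝ) < (2 * Real.pi) ^ 12 := by positivity
    have h3 : (2 * Real.pi) ^ 12 = (volume : Measure R12).real periodCell := by
      field_simp at h1
      linarith
    exact h3.symm
  have hvol : volume (periodCell : Set R12) ≠ ⊤ := by
    intro htop
    rw [htop] at hvr
    have hpos : (0 : ℝ) < (2 * Real.pi) ^ 12 := by positivity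
    rw [ENNReal.toReal_top] at hvr
    exact hpos.ne hvr
  refine ⟨C * Real.sqrt (2 * (volume (periodCell : Set R12)).toReal), by positivity,
    fun v hv B hB => ?_⟩
  have hB0 : 0 ≤ B := (norm_nonneg _).trans (hB 0 (by omega) 0)
  have h1 : ∀ j ≤ N + 14, Tor.sob v j ≤ B ^ 2 * (volume (periodCell : Set R12)).toReal := by
    intro j hj
    have h2 := norm_setIntegral_le_of_norm_le_const (μ := volume) (s := (periodCell : Set R12))
      (f := fun x => ‖iteratedFDeriv ℝ j v x‖ ^ 2) (C := B ^ 2) (lt_top_iff_ne_top.2 hvol)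
      (fun x _ => by
        rw [Real.norm_eq_abs, abs_of_nonneg (by positivity)]
        exact pow_le_pow_left₀ (norm_nonneg _) (hB j hj x) 2)
    exact (le_abs_self _).trans h2
  rw [wn_one]
  have e : cf v = Tor.cf v := funext (cf_eq_tor hv.2)
  rw [e]
  refine ((h v hv.2 hv.1).2).trans ?_
  rw [mul_assoc]
  refine mul_le_mul_of_nonneg_left ?_ hC.le
  have h2 : Tor.sob v 0 + Tor.sob v (N + 12) ≤
      (2 * (volume (periodCell : Set R12)).toReal) * B ^ 2 := by
    have a := h1 0 (by omega)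
    have b := h1 (N + 12) (by omega)
    linarith
  refine (Real.sqrt_le_sqrt h2).trans ?_
  rw [Real.sqrt_mul (by positivity), Real.sqrt_sq hB0]


end Crest.Agent.R086
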