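import Crest.Agent.R086.TorDefs
import Crest.Agent.R086.TI1

/-!
Row 86, node FINAL (helper333), part 2: norm facts, the modulated step.
-/

set_option autoImplicit false

open MeasureTheory Complex Set Filter Topology
open scoped ContDiff
open Crest.AnalysisR.PDE.NLS (IsSmoothPeriodic sobolevDistSq IsClassicalSolution)

namespace Crest.Agent.R086.TI

open Profile

/-! ### smooth periodic functions -/


theorem isp_sub {v w : R12 → ℂ} (hv : IsSmoothPeriodic v) (hw : IsSmoothPeriodic w) :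
    IsSmoothPeriodic (fun x => v x - w x) :=
  ⟨hv.1.sub hw.1, fun x i => by simp only [hv.2 x i, hw.2 x i]⟩

theorem isp_smul {v : R12 → ℂ} (c : ℂ) (hv : IsSmoothPeriodic v) :
    IsSmoothPeriodic (fun x => c * v x) :=
  ⟨contDiff_const.mul hv.1, fun x i => by simp only [hv.2 x i]⟩

theorem isp_sum {ι : Type*} (s : Finset ι) {v : ι → R12 → ℂ}
    (hv : ∀ m ∈ s, IsSmoothPeriodic (v m)) : IsSmoothPeriodic (fun x => ∑ m ∈ s, v m x) :=
  ⟨ContDiff.sum (fun m hm => (hv m hm).1), fun x i =>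
    Finset.sum_congr rfl (fun m hm => (hv m hm).2 x i)⟩

theorem isp_prof {n : ℕ} {P : Profile n} (h : TP1 P) (a : Par) {t : ℝ} (ht : 0 < a.T - t) :
    IsSmoothPeriodic (P.prof a t) := by
  have := isSmoothPeriodic_mv (P.amp a t) (-a.x) (h.1 _ ht).1
  simpa only [mv, ← sub_eq_add_neg] using! this

theorem isp_pmode {n : ℕ} {P : Profile n} (h : TP1 P) (a : Par) (m : MIx) {t : ℝ}
    (ht : 0 < a.T - t) : IsSmoothPeriodic (P.pmode a m t) := by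
  have := isSmoothPeriodic_mv (P.amp a t) (-a.x) ((h.1 _ ht).2 m)
  simpa only [mv, ← sub_eq_add_neg] using! this

/-! ### norm facts -/

theorem wn_nonneg (N : ℕ) {h : ℝ} (hh : 0 ≤ h) (v : R12 → ℂ) : 0 ≤ wn N h v :=
  tsum_nonneg (fun k => by have : 0 ≤ nk k := norm_nonneg _; positivity)

theorem hi_nonneg (s : ℕ) {h : ℝ} (hh : 0 ≤ h) (v : R12 → ℂ) : 0 ≤ hi s h v :=
  tsum_nonneg (fun k => by have : 0 ≤ nk k := norm_nonneg _; positivity)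

variable {n N s : ℕ} {μ τ : ℝ}

theorem nrm_nonneg (hμ : 0 ≤ μ) (hτ : 0 ≤ τ) (v : R12 → ℂ) : 0 ≤ nrm n N s μ τ v := by
  have h1 := wn_nonneg N (Real.sqrt_nonneg τ) v
  have h2 := hi_nonneg s (Real.sqrt_nonneg τ) v
  unfold nrm nn
  positivity

theorem nrm_add (hTN : TN) (hμ : 0 ≤ μ) (hτ : 0 ≤ τ) {v w : R12 → ℂ} (hv : IsSmoothPeriodic v)
    (hw : IsSmoothPeriodic w) :
    nrm n N s μ τ (fun x => v x + w x) ≤ nrm n N s μ τ v + nrm n N s μ τ w := by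
  have h1 := hTN.wn_add v w hv hw N (Real.sqrt τ) (Real.sqrt_nonneg τ)
  have h2 := hTN.hi_add v w hv hw s (Real.sqrt τ) (Real.sqrt_nonneg τ)
  unfold nrm nn
  rw [← mul_add]
  refine mul_le_mul_of_nonneg_left ?_ (by positivity)
  nlinarith [mul_le_mul_of_nonneg_left h2 hμ]

theorem nrm_neg (hTN : TN) (v : R12 → ℂ) :
    nrm n N s μ τ (fun x => -v x) = nrm n N s μ τ v := by
  have h1 := hTN.wn_smul v (-1) N (Real.sqrt τ)
  have h2 := hTN.hi_smul v (-1) s (Real.sqrt τ)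
  simp only [neg_mul, one_mul, norm_neg, norm_one] at h1 h2
  unfold nrm nn
  rw [h1, h2]

theorem nrm_sub_le (hTN : TN) (hμ : 0 ≤ μ) (hτ : 0 ≤ τ) {v w : R12 → ℂ}
    (hv : IsSmoothPeriodic v) (hw : IsSmoothPeriodic w) :
    nrm n N s μ τ (fun x => v x - w x) ≤ nrm n N s μ τ v + nrm n N s μ τ w := by
  have h3 : IsSmoothPeriodic (fun x => -w x) := by
    have := isp_smul (-1) hw
    simpa using! this
  have h4 := nrm_add (n := n) (N := N) (s := s) hTN hμ hτ hv h3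
  rw [nrm_neg hTN] at h4
  simpa only [← sub_eq_add_neg] using! h4

theorem nrm_tri (hTN : TN) (hμ : 0 ≤ μ) (hτ : 0 ≤ τ) {u v w : R12 → ℂ}
    (hu : IsSmoothPeriodic u) (hv : IsSmoothPeriodic v) (hw : IsSmoothPeriodic w) :
    nrm n N s μ τ (fun x => u x - w x) ≤
      nrm n N s μ τ (fun x => u x - v x) + nrm n N s μ τ (fun x => v x - w x) := by
  have h := nrm_add (n := n) (N := N) (s := s) hTN hμ hτ (isp_sub hu hv) (isp_sub hv hw)
  have e : (fun x => u x - w x) = fun x => (u x - v x) + (v x - w x) := by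
    funext x; ring
  rw [e]
  exact h

theorem sup_le_nrm (hTN : TN) (hμ : 0 ≤ μ) (hτ : 0 ≤ τ) {v : R12 → ℂ} (hv : IsSmoothPeriodic v)
    (x : R12) : τ ^ (1 / (n : ℝ)) * ‖v x‖ ≤ nrm n N s μ τ v := by
  have h1 := hTN.sup_le v hv x
  have h2 := hTN.l1_le v hv N (Real.sqrt τ) (Real.sqrt_nonneg τ)
  have h3 := hi_nonneg s (Real.sqrt_nonneg τ) v
  unfold nrm nn
  refine mul_le_mul_of_nonneg_left ?_ (by positivity)
  nlinarith [mul_nonneg hμ h3]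

/-! ### the modulated step -/

/-- Output of `OneStep` + `Modul`. -/
structure MStep {n : ℕ} (P : Profile n) (N s : ℕ) (μ S C c r τ₁ : ℝ) : Prop where
  hμ : 0 < μ
  hμ1 : μ ≤ 1
  hS : 1 ≤ S
  hC : 1 ≤ C
  hc : 0 < c
  hr : 0 < r
  hτ : 0 < τ₁
  hτ1 : τ₁ ≤ 1
  step : ∀ (a : Par) (t₀ : ℝ), 0 < a.T - t₀ → a.T - t₀ ≤ τ₁ → ∀ u₀ : R12 → ℂ,
    IsSmoothPeriodic u₀ → ∀ δ : ℝ, δ ≤ r → nrm n N s μ (a.T - t₀) (fun x => u₀ x - P.prof a t₀ x) ≤ δ →
    ∃ (t₁ : ℝ) (u : ℝ → R12 → ℂ), t₁ = a.T - Real.exp (-S) * (a.T - t₀) ∧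
      IsSol n (Set.Icc t₀ t₁) u ∧ u t₀ = u₀ ∧
      (∀ t ∈ Set.Icc t₀ t₁, nrm n N s μ (a.T - t) (fun x => u t x - P.prof a t x)
        ≤ C * (δ + (a.T - t₀) ^ c)) ∧
      ∃ a' : Par, |a'.T - a.T| ≤ C * (δ + (a.T - t₀) ^ c) * (a.T - t₁) ∧
        ‖a'.x - a.x‖ ≤ C * (δ + (a.T - t₀) ^ c) * Real.sqrt (a.T - t₁) ∧
        nrm n N s μ (a'.T - t₁) (fun x => u t₁ x - P.prof a' t₁ x) ≤ δ / 2 + C * (a.T - t₀) ^ c

theorem norm_shift_le {b : MIx → ℝ} {β : ℝ} (hb : ∀ m, |b m| ≤ β) :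
    ‖(WithLp.toLp 2 (fun j : Fin 12 => b (some (some j))) : R12)‖ ≤ 4 * β := by
  have hβ : 0 ≤ β := (abs_nonneg _).trans (hb none)
  rw [EuclideanSpace.norm_eq]
  have h1 : ∑ i : Fin 12, ‖(WithLp.toLp 2 (fun j : Fin 12 => b (some (some j))) : R12) i‖ ^ 2
      ≤ (4 * β) ^ 2 := by
    have h2 : ∀ i : Fin 12, ‖(WithLp.toLp 2 (fun j : Fin 12 => b (some (some j))) : R12) i‖ ^ 2
        ≤ β ^ 2 := by
      intro i
      have : ‖(WithLp.toLp 2 (fun j : Fin 12 => b (some (some j))) : R12) i‖ ≤ β := by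
        simpa using hb (some (some i))
      exact pow_le_pow_left₀ (norm_nonneg _) this 2
    calc _ ≤ ∑ _i : Fin 12, β ^ 2 := Finset.sum_le_sum (fun i _ => h2 i)
      _ = 12 * β ^ 2 := by simp
      _ ≤ (4 * β) ^ 2 := by nlinarith [sq_nonneg β]
  calc _ ≤ Real.sqrt ((4 * β) ^ 2) := Real.sqrt_le_sqrt h1
    _ = 4 * β := Real.sqrt_sq (by positivity)

theorem step_arith {C1 C2 K δ β x x1 x2 A B : ℝ} (hC1 : 1 ≤ C1) (hC2 : 1 ≤ C2) (hδ : 0 ≤ δ)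
    (hδK : δ ≤ 1 / (4 * K)) (hx : 0 ≤ x) (hx1 : x ≤ 1) (hx10 : 0 ≤ x1) (hx1x : x1 ≤ x)
    (hβ : 0 ≤ β) (hβ' : β ≤ C1 * (δ + x)) (hx2 : x2 ≤ x)
    (hK : K = 2 * C1 + 2 * C1 ^ 2 * C2 + C2)
    (hA : A ≤ 2 * ((1 / 8) * δ + C1 * (δ ^ 2 + x1))) (hB : B ≤ C2 * (β ^ 2 + x2)) :
    A + B ≤ δ / 2 + 4 * (K + C1) * x := by
  have hKpos : 0 < K := by rw [hK]; positivity
  have h5 : β ^ 2 ≤ 2 * C1 ^ 2 * (δ ^ 2 + x) := by
    have h6 : β ^ 2 ≤ (C1 * (δ + x)) ^ 2 := pow_le_pow_left₀ hβ hβ' 2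
    have h7 : x ^ 2 ≤ x := by nlinarith
    calc β ^ 2 ≤ C1 ^ 2 * (δ + x) ^ 2 := by rw [← mul_pow]; exact h6
      _ ≤ C1 ^ 2 * (2 * (δ ^ 2 + x)) := by
          refine mul_le_mul_of_nonneg_left ?_ (sq_nonneg _)
          nlinarith [sq_nonneg (δ - x)]
      _ = _ := by ring
  have h8 : K * δ ^ 2 ≤ δ / 4 := by
    rw [le_div_iff₀ (by positivity)] at hδK
    nlinarith
  have h9 : C2 * (β ^ 2 + x2) ≤ C2 * (2 * C1 ^ 2 * (δ ^ 2 + x) + x) :=
    mul_le_mul_of_nonneg_left (by linarith) (by linarith)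
  have h11 : C1 * x1 ≤ C1 * x := mul_le_mul_of_nonneg_left hx1x (by linarith)
  have h12 : 0 ≤ C2 * δ ^ 2 := by positivity
  have h13 : 0 ≤ C1 * x := by positivity
  have h14 : 0 ≤ K * x := by positivity
  have h15 : K * x = 2 * (C1 * x) + 2 * C1 ^ 2 * C2 * x + C2 * x := by
    rw [hK]; ring
  have h16 : K * δ ^ 2 = 2 * (C1 * δ ^ 2) + 2 * C1 ^ 2 * C2 * δ ^ 2 + C2 * δ ^ 2 := by
    rw [hK]; ring
  have h17 : C2 * (2 * C1 ^ 2 * (δ ^ 2 + x) + x)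
      = 2 * C1 ^ 2 * C2 * δ ^ 2 + 2 * C1 ^ 2 * C2 * x + C2 * x := by ring
  have h18 : 2 * ((1 / 8) * δ + C1 * (δ ^ 2 + x1)) = δ / 4 + 2 * (C1 * δ ^ 2) + 2 * (C1 * x1) := by
    ring
  have h19 : 4 * (K + C1) * x = 4 * (K * x) + 4 * (C1 * x) := by ring
  rw [h19]
  linarith

set_option maxHeartbeats 400000 in
theorem exists_mstep {n : ℕ} (P : Profile n) (N s : ℕ) (hTN : TN) (hTP : TP1 P)
    (hO : OneStep P N s) (hM : Modul P N s) : ∃ μ S C c r τ₁ : ℝ, MStep P N s μ S C c r τ₁ := by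
  obtain ⟨μ, S, C1, c1, r1, τ1, hμ, hμ1, hS, hC1, hc1, hr1, hτ1, hτ11, hstep⟩ := hO
  obtain ⟨C2, c2, b0, hC2, hc2, hb0, hb01, hmod⟩ := hM
  -- constants
  set c : ℝ := min c1 c2 with hcdef
  have hc : 0 < c := lt_min hc1 hc2
  set K : ℝ := 2 * C1 + 2 * C1 ^ 2 * C2 + C2 with hK
  have hKpos : 1 ≤ K := by nlinarith [mul_nonneg (sq_nonneg C1) (by linarith : (0:ℝ) ≤ C2)]
  set β0 : ℝ := min b0 (1 / C2) with hβ0
  have hβ0pos : 0 < β0 := lt_min hb0 (by positivity)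
  -- smallness of δ and τ
  obtain ⟨ρ, hρ, hρ1, hρτ⟩ : ∃ ρ : ℝ, 0 < ρ ∧ ρ ≤ τ1 ∧ C1 * ρ ^ c ≤ β0 / 2 := by
    have hlim : Tendsto (fun x : ℝ => C1 * x ^ c) (𝓝[>] 0) (𝓝 (C1 * 0 ^ c)) := by
      refine (Tendsto.const_mul _ ?_)
      exact ((Real.continuous_rpow_const hc.le).tendsto 0).mono_left nhdsWithin_le_nhds
    rw [Real.zero_rpow hc.ne', mul_zero] at hlim
    have h1 := hlim.eventually (gt_mem_nhds (by positivity : (0:ℝ) < β0 / 2))
    have h2 : ∀ᶠ x in 𝓝[>] (0:ℝ), x ≤ τ1 := by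
      filter_upwards [Ioo_mem_nhdsGT hτ1] with x hx using hx.2.le
    have h3 : ∀ᶠ x in 𝓝[>] (0:ℝ), 0 < x := self_mem_nhdsWithin
    obtain ⟨ρ, h4, h5, h6⟩ := (h1.and (h2.and h3)).exists
    exact ⟨ρ, h6, h5, h4.le⟩
  set r : ℝ := min r1 (min (β0 / (2 * C1)) (1 / (4 * K))) with hr
  have hrpos : 0 < r := by
    refine lt_min hr1 (lt_min (by positivity) (by positivity))
  refine ⟨μ, S, 4 * (K + C1), c, r, ρ, ⟨hμ, hμ1, hS, by nlinarith, hc, hrpos, hρ, hρ1.trans hτ11, ?_⟩⟩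
  intro a t₀ ha0 ha1 u₀ hu₀ δ hδr hδ
  have hδ0 : 0 ≤ δ := (nrm_nonneg hμ.le ha0.le _).trans hδ
  set τ := a.T - t₀ with hτdef
  have hτ1' : τ ≤ 1 := (ha1.trans hρ1).trans hτ11
  obtain ⟨t₁, u, ht₁, hu, hu0, hbd, b, hb, hfin⟩ := hstep a t₀ ha0 (ha1.trans hρ1) u₀ hu₀ δ
    (hδr.trans (min_le_left _ _)) hδ
  have hexp1 : Real.exp (-S) ≤ 1 := Real.exp_le_one_iff.2 (by linarith)
  have hT1 : a.T - t₁ = Real.exp (-S) * τ := by rw [ht₁]; ring
  have hT1pos : 0 < a.T - t₁ := by rw [hT1]; positivity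
  have hT1le : a.T - t₁ ≤ τ := by rw [hT1]; nlinarith
  -- powers
  have hc1c : τ ^ c1 ≤ τ ^ c := Real.rpow_le_rpow_of_exponent_ge ha0 hτ1' (min_le_left _ _)
  have hc2c : (a.T - t₁) ^ c2 ≤ τ ^ c :=
    (Real.rpow_le_rpow hT1pos.le hT1le hc2.le).trans
      (Real.rpow_le_rpow_of_exponent_ge ha0 hτ1' (min_le_right _ _))
  have hτc0 : 0 ≤ τ ^ c := Real.rpow_nonneg ha0.le _
  have hτc1 : τ ^ c ≤ 1 := Real.rpow_le_one ha0.le hτ1' hc.le
  have hτc10 : 0 ≤ τ ^ c1 := Real.rpow_nonneg ha0.le _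
  have hτcρ : τ ^ c ≤ ρ ^ c := Real.rpow_le_rpow ha0.le ha1 hc.le
  set β : ℝ := C1 * (δ + τ ^ c1) with hβ
  have hβnn : 0 ≤ β := by positivity
  have hβ' : β ≤ C1 * (δ + τ ^ c) := by
    apply mul_le_mul_of_nonneg_left _ (by linarith)
    linarith
  have hβle : β ≤ β0 := by
    have h1 : C1 * δ ≤ β0 / 2 := by
      have : δ ≤ β0 / (2 * C1) := hδr.trans ((min_le_right _ _).trans (min_le_left _ _))
      rw [le_div_iff₀ (by positivity)] at this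
      linarith
    have h2 : C1 * τ ^ c ≤ β0 / 2 := (mul_le_mul_of_nonneg_left hτcρ (by linarith)).trans hρτ
    nlinarith
  have hβb0 : β ≤ b0 := hβle.trans (min_le_left _ _)
  have hC2β : C2 * β ≤ 1 := by
    have : β ≤ 1 / C2 := hβle.trans (min_le_right _ _)
    rw [le_div_iff₀ (by linarith)] at this
    linarith
  obtain ⟨hm1, hm2⟩ := hmod μ hμ hμ1 a t₁ hT1pos (hT1le.trans hτ1') b β hβb0 hb
  refine ⟨t₁, u, ht₁, hu, hu0, fun t ht => (hbd t ht).trans ?_, shift a b t₁, ?_, ?_, ?_⟩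
  · have : C1 * (δ + τ ^ c1) ≤ C1 * (δ + τ ^ c) := hβ'
    refine this.trans (mul_le_mul_of_nonneg_right (by linarith) (by positivity))
  · have h1 : (shift a b t₁).T - a.T = -(b (some none) * (a.T - t₁)) := by
      simp [shift]
    rw [h1, abs_neg, abs_mul, abs_of_pos hT1pos]
    refine mul_le_mul_of_nonneg_right ?_ hT1pos.le
    refine (hb _).trans (hβ'.trans (mul_le_mul_of_nonneg_right (by linarith) (by positivity)))
  · have h1 : (shift a b t₁).x - a.x = -(Real.sqrt (a.T - t₁) •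
        (WithLp.toLp 2 (fun j => b (some (some j))) : R12)) := by
      simp [shift]
    rw [h1, norm_neg, norm_smul, Real.norm_eq_abs, abs_of_nonneg (Real.sqrt_nonneg _), mul_comm]
    refine mul_le_mul_of_nonneg_right ?_ (Real.sqrt_nonneg _)
    refine (norm_shift_le hb).trans ?_
    have : C1 * (δ + τ ^ c1) ≤ C1 * (δ + τ ^ c) := hβ'
    nlinarith [mul_nonneg (by linarith : (0:ℝ) ≤ K) (by positivity : 0 ≤ δ + τ ^ c)]
  · -- main estimate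
    have hT' : 0 < (shift a b t₁).T - t₁ := by
      have h1 : (shift a b t₁).T - t₁ = (a.T - t₁) * (1 - b (some none)) := by
        simp only [shift]; ring
      rw [h1]
      have h2 := (abs_le.1 ((hb (some none)).trans (hβb0.trans hb01))).2
      exact mul_pos hT1pos (by linarith)
    have hut : IsSmoothPeriodic (u t₁) := hu.smooth t₁ ⟨by linarith, le_rfl⟩
    have hp1 := isp_prof hTP a hT1pos
    have hp2 := isp_prof hTP (shift a b t₁) hT'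
    have hps : IsSmoothPeriodic (fun x => ∑ m, (b m : ℂ) * P.pmode a m t₁ x) :=
      isp_sum _ (fun m _ => isp_smul _ (isp_pmode hTP a m hT1pos))
    have hw1 : IsSmoothPeriodic (fun x => u t₁ x - P.prof a t₁ x
        - ∑ m, (b m : ℂ) * P.pmode a m t₁ x) := isp_sub (isp_sub hut hp1) hps
    have hw2 : IsSmoothPeriodic (fun x => P.prof (shift a b t₁) t₁ x - P.prof a t₁ x
        - ∑ m, (b m : ℂ) * P.pmode a m t₁ x) := isp_sub (isp_sub hp2 hp1) hps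
    have e : (fun x => u t₁ x - P.prof (shift a b t₁) t₁ x) = fun x =>
        (u t₁ x - P.prof a t₁ x - ∑ m, (b m : ℂ) * P.pmode a m t₁ x)
        - (P.prof (shift a b t₁) t₁ x - P.prof a t₁ x - ∑ m, (b m : ℂ) * P.pmode a m t₁ x) := by
      funext x; ring
    rw [e]
    refine (nrm_sub_le hTN hμ.le hT'.le hw1 hw2).trans ?_
    have h3 := (hm2 _ hw1)
    have hnn : 0 ≤ nrm n N s μ (a.T - t₁) (fun x => u t₁ x - P.prof a t₁ x
        - ∑ m, (b m : ℂ) * P.pmode a m t₁ x) := nrm_nonneg hμ.le hT1pos.le _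
    have h4 : nrm n N s μ ((shift a b t₁).T - t₁) (fun x => u t₁ x - P.prof a t₁ x
        - ∑ m, (b m : ℂ) * P.pmode a m t₁ x) ≤ 2 * ((1 / 8) * δ + C1 * (δ ^ 2 + τ ^ c1)) := by
      refine h3.trans ?_
      calc _ ≤ 2 * nrm n N s μ (a.T - t₁) (fun x => u t₁ x - P.prof a t₁ x
            - ∑ m, (b m : ℂ) * P.pmode a m t₁ x) :=
            mul_le_mul_of_nonneg_right (by linarith) hnn
        _ ≤ _ := mul_le_mul_of_nonneg_left hfin (by norm_num)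
    refine step_arith hC1 hC2 hδ0 (hδr.trans ((min_le_right _ _).trans (min_le_right _ _)))
      hτc0 hτc1 hτc10 hc1c hβnn hβ' hc2c hK h4 hm1

end Crest.Agent.R086.TI
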