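import Crest.Agent.R086.TI2

-- ▼ part R086/TI3
section

/-!
Row 86, node FINAL (helper333), part 3: the iteration (sequences of parameters, times, pieces).
-/

set_option autoImplicit false

open MeasureTheory Complex Set Filter Topology
open scoped ContDiff
open Crest.AnalysisR.PDE.NLS (IsSmoothPeriodic sobolevDistSq IsClassicalSolution)

namespace Crest.Agent.R086.TI

open Profile

theorem exists_seq {α : Type*} {Pr : ℕ → α → Prop} {R : ℕ → α → α → Prop} (a0 : α)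
    (h0 : Pr 0 a0) (hs : ∀ j a, Pr j a → ∃ b, Pr (j + 1) b ∧ R j a b) :
    ∃ s : ℕ → α, s 0 = a0 ∧ ∀ j, Pr j (s j) ∧ R j (s j) (s (j + 1)) := by
  classical
  choose! f hf1 hf2 using hs
  let s : ℕ → α := fun n => Nat.rec a0 (fun j a => f j a) n
  have hP : ∀ j, Pr j (s j) := by
    intro j
    induction j with
    | zero => exact h0
    | succ j ih => exact hf1 j _ ih
  exact ⟨s, rfl, fun j => ⟨hP j, hf2 j _ (hP j)⟩⟩

/-- the state: parameters, time, datum -/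
structure Stt where
  a : Par
  t : ℝ
  v : R12 → ℂ

/-- The sequences produced by the iteration. `τ j = (a j).T - t j`, `e j = B q^j` error size. -/
structure Seqs {n : ℕ} (P : Profile n) (N s : ℕ) (μ S : ℝ) (u₀ : R12 → ℂ) (τ₀ B q : ℝ)
    (a : ℕ → Par) (t : ℕ → ℝ) (u : ℕ → ℝ → R12 → ℂ) : Prop where
  hS : 1 ≤ S
  hB : 0 ≤ B
  hB2 : B ≤ 1 / 2
  hq0 : 0 < q
  hq1 : q < 1
  t0 : t 0 = 0
  a0 : (a 0).T = τ₀
  u0 : u 0 0 = u₀
  pos : ∀ j, 0 < (a j).T - t j
  t_succ : ∀ j, t (j + 1) = (a j).T - Real.exp (-S) * ((a j).T - t j)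
  sol : ∀ j, IsSol n (Icc (t j) (t (j + 1))) (u j)
  match_ : ∀ j, u j (t (j + 1)) = u (j + 1) (t (j + 1))
  bd : ∀ j, ∀ r ∈ Icc (t j) (t (j + 1)),
    nrm n N s μ ((a j).T - r) (fun x => u j r x - P.prof (a j) r x) ≤ B * q ^ j
  dT : ∀ j, |(a (j + 1)).T - (a j).T| ≤ B * q ^ j * ((a j).T - t (j + 1))
  dx : ∀ j, ‖(a (j + 1)).x - (a j).x‖ ≤ B * q ^ j * Real.sqrt ((a j).T - t (j + 1))

set_option maxHeartbeats 1600000 in
/-- the admissible smallness: `d₀` and `τ₀` -/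
theorem exists_seqs {n : ℕ} {P : Profile n} {N s : ℕ} {μ S C c r τ₁ : ℝ} (hTP : TP1 P)
    (M : MStep P N s μ S C c r τ₁) :
    ∃ d₀ τ₀ : ℝ, 0 < d₀ ∧ 0 < τ₀ ∧ τ₀ ≤ 1 ∧ ∀ u₀ : R12 → ℂ, IsSmoothPeriodic u₀ →
      nrm n N s μ τ₀ (fun x => u₀ x - P.prof ⟨τ₀, 0, 0⟩ 0 x) ≤ d₀ →
      ∃ (B q : ℝ) (a : ℕ → Par) (t : ℕ → ℝ) (u : ℕ → ℝ → R12 → ℂ),
        Seqs P N s μ S u₀ τ₀ B q a t u := by
  have hCpos : 0 < C := by linarith [M.hC]
  set d₀ : ℝ := min r (1 / (4 * C)) with hd0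
  have hd0pos : 0 < d₀ := lt_min M.hr (by positivity)
  have hCd : C * d₀ ≤ 1 / 4 := by
    have : d₀ ≤ 1 / (4 * C) := min_le_right _ _
    rw [le_div_iff₀ (by positivity)] at this
    linarith
  obtain ⟨τ₀, hτ, hτ1, hCτ⟩ : ∃ ρ : ℝ, 0 < ρ ∧ ρ ≤ τ₁ ∧ C * ρ ^ c ≤ min (d₀ / 4) (1 / 4) := by
    have hlim : Tendsto (fun x : ℝ => C * x ^ c) (𝓝[>] 0) (𝓝 (C * 0 ^ c)) := by
      refine (Tendsto.const_mul _ ?_)
      exact ((Real.continuous_rpow_const M.hc.le).tendsto 0).mono_left nhdsWithin_le_nhds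
    rw [Real.zero_rpow M.hc.ne', mul_zero] at hlim
    have h1 := hlim.eventually (gt_mem_nhds (lt_min (by positivity) (by norm_num) :
      (0:ℝ) < min (d₀ / 4) (1 / 4)))
    have h2 : ∀ᶠ x in 𝓝[>] (0:ℝ), x ≤ τ₁ := by
      filter_upwards [Ioo_mem_nhdsGT M.hτ] with x hx using hx.2.le
    have h3 : ∀ᶠ x in 𝓝[>] (0:ℝ), 0 < x := self_mem_nhdsWithin
    obtain ⟨ρ, h4, h5, h6⟩ := (h1.and (h2.and h3)).exists
    exact ⟨ρ, h6, h5, h4.le⟩
  refine ⟨d₀, τ₀, hd0pos, hτ, hτ1.trans M.hτ1, fun u₀ hu₀ hd => ?_⟩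
  set q : ℝ := max (3 / 4) (Real.exp (-(c * S / 2))) with hq
  have hq34 : 3 / 4 ≤ q := le_max_left _ _
  have hq0 : 0 < q := by linarith
  have hq1 : q < 1 := by
    have hSpos : (0:ℝ) < S := by linarith [M.hS]
    refine max_lt (by norm_num) (Real.exp_lt_one_iff.2 ?_)
    have := mul_pos M.hc hSpos
    linarith
  have hqe : Real.exp (-(c * S / 2)) ≤ q := le_max_right _ _
  set E : ℝ := Real.exp (-(S / 2)) with hE
  have hEpos : 0 < E := Real.exp_pos _
  have hE1 : E ≤ 1 := Real.exp_le_one_iff.2 (by linarith [M.hS])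
  have hτc0 : 0 ≤ τ₀ ^ c := Real.rpow_nonneg hτ.le _
  -- key: ρ ≤ τ₀ E^j implies ρ^c ≤ τ₀^c q^j
  have hpow : ∀ (j : ℕ) (ρ : ℝ), 0 ≤ ρ → ρ ≤ τ₀ * E ^ j → ρ ^ c ≤ τ₀ ^ c * q ^ j := by
    intro j ρ hρ0 hρ
    calc ρ ^ c ≤ (τ₀ * E ^ j) ^ c := Real.rpow_le_rpow hρ0 hρ M.hc.le
      _ = τ₀ ^ c * (E ^ c) ^ j := by
          rw [Real.mul_rpow hτ.le (by positivity), ← Real.rpow_natCast E j,
            ← Real.rpow_natCast (E ^ c) j, ← Real.rpow_mul hEpos.le, ← Real.rpow_mul hEpos.le,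
            mul_comm (j : ℝ) c]
      _ ≤ τ₀ ^ c * q ^ j := by
          refine mul_le_mul_of_nonneg_left (pow_le_pow_left₀ (by positivity) ?_ j) hτc0
          rw [hE, ← Real.exp_mul]
          refine le_trans (le_of_eq ?_) hqe
          congr 1; ring
  set B : ℝ := C * (d₀ + τ₀ ^ c) with hB
  have hB0 : 0 ≤ B := by positivity
  have hB2 : B ≤ 1 / 2 := by
    have h1 : C * τ₀ ^ c ≤ 1 / 4 := hCτ.trans (min_le_right _ _)
    rw [hB, mul_add]; linarith
  have hexpS : Real.exp (-S) * (1 + B) ≤ E := by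
    have h1 : Real.exp (-S) = E * E := by
      rw [hE, ← Real.exp_add]; congr 1; ring
    have h2 : E * (1 + B) ≤ 1 := by
      have h3 : 1 + B ≤ Real.exp (S / 2) := by
        have := Real.add_one_le_exp (S / 2)
        linarith [M.hS]
      calc E * (1 + B) ≤ E * Real.exp (S / 2) := mul_le_mul_of_nonneg_left h3 hEpos.le
        _ = 1 := by rw [hE, ← Real.exp_add]; simp
    rw [h1, mul_assoc]
    nlinarith
  -- invariant and relation
  let Pr : ℕ → Stt → Prop := fun j σ => 0 < σ.a.T - σ.t ∧ σ.a.T - σ.t ≤ τ₀ * E ^ j ∧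
    IsSmoothPeriodic σ.v ∧ nrm n N s μ (σ.a.T - σ.t) (fun x => σ.v x - P.prof σ.a σ.t x) ≤ d₀ * q ^ j
  let R : ℕ → Stt → Stt → Prop := fun j σ σ' =>
    σ'.t = σ.a.T - Real.exp (-S) * (σ.a.T - σ.t) ∧
    |σ'.a.T - σ.a.T| ≤ B * q ^ j * (σ.a.T - σ'.t) ∧
    ‖σ'.a.x - σ.a.x‖ ≤ B * q ^ j * Real.sqrt (σ.a.T - σ'.t) ∧
    ∃ u : ℝ → R12 → ℂ, IsSol n (Icc σ.t σ'.t) u ∧ u σ.t = σ.v ∧ u σ'.t = σ'.v ∧
      ∀ r ∈ Icc σ.t σ'.t, nrm n N s μ (σ.a.T - r) (fun x => u r x - P.prof σ.a r x) ≤ B * q ^ j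
  have hstep : ∀ j σ, Pr j σ → ∃ σ', Pr (j + 1) σ' ∧ R j σ σ' := by
    rintro j ⟨a, t, v⟩ ⟨hpos, hle, hsm, hn⟩
    simp only at hpos hle hsm hn
    have hqj0 : 0 < q ^ j := pow_pos hq0 j
    have hqj1 : q ^ j ≤ 1 := pow_le_one₀ hq0.le hq1.le
    have hEj1 : E ^ j ≤ 1 := pow_le_one₀ hEpos.le hE1
    have hdj : d₀ * q ^ j ≤ r := by
      have : d₀ ≤ r := min_le_left _ _
      nlinarith
    have hτj : a.T - t ≤ τ₁ := by nlinarith
    obtain ⟨t₁, u, ht₁, hu, hu0, hbd, a', hT', hx', hfin⟩ := M.step a t hpos hτj v hsm _ hdj hn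
    have hp := hpow j _ hpos.le hle
    have hcB : C * (d₀ * q ^ j + (a.T - t) ^ c) ≤ B * q ^ j := by
      rw [hB, mul_assoc]
      refine mul_le_mul_of_nonneg_left ?_ hCpos.le
      rw [add_mul]; linarith
    have hT1 : a.T - t₁ = Real.exp (-S) * (a.T - t) := by rw [ht₁]; ring
    have hexp0 : 0 < Real.exp (-S) := Real.exp_pos _
    have hT1pos : 0 < a.T - t₁ := by rw [hT1]; positivity
    have hexp1 : Real.exp (-S) ≤ 1 := Real.exp_le_one_iff.2 (by linarith [M.hS])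
    have htt : t ≤ t₁ := by
      have : a.T - t₁ ≤ a.T - t := by rw [hT1]; nlinarith
      linarith
    have hT2 : |a'.T - a.T| ≤ B * q ^ j * (a.T - t₁) :=
      hT'.trans (mul_le_mul_of_nonneg_right hcB hT1pos.le)
    have hBq : B * q ^ j ≤ B := by nlinarith
    have hT3 : |a'.T - a.T| ≤ B * (a.T - t₁) :=
      hT2.trans (mul_le_mul_of_nonneg_right hBq hT1pos.le)
    obtain ⟨h5, h6⟩ := abs_le.1 hT3
    refine ⟨⟨a', t₁, u t₁⟩, ⟨?_, ?_, hu.smooth t₁ ⟨htt, le_rfl⟩, ?_⟩, ht₁, hT2,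
      hx'.trans (mul_le_mul_of_nonneg_right hcB (Real.sqrt_nonneg _)), u, hu, hu0, rfl,
      fun r hr => (hbd r hr).trans hcB⟩
    · show 0 < a'.T - t₁
      nlinarith
    · show a'.T - t₁ ≤ τ₀ * E ^ (j + 1)
      have h7 : a'.T - t₁ ≤ (1 + B) * (a.T - t₁) := by linarith
      rw [hT1] at h7
      calc a'.T - t₁ ≤ (1 + B) * (Real.exp (-S) * (a.T - t)) := h7
        _ = (Real.exp (-S) * (1 + B)) * (a.T - t) := by ring
        _ ≤ E * (a.T - t) := mul_le_mul_of_nonneg_right hexpS hpos.le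
        _ ≤ E * (τ₀ * E ^ j) := mul_le_mul_of_nonneg_left hle hEpos.le
        _ = τ₀ * E ^ (j + 1) := by ring
    · show nrm n N s μ (a'.T - t₁) (fun x => u t₁ x - P.prof a' t₁ x) ≤ d₀ * q ^ (j + 1)
      refine hfin.trans ?_
      have h8 : C * τ₀ ^ c ≤ d₀ / 4 := hCτ.trans (min_le_left _ _)
      have h9 : C * (a.T - t) ^ c ≤ d₀ / 4 * q ^ j := by
        calc C * (a.T - t) ^ c ≤ C * (τ₀ ^ c * q ^ j) := mul_le_mul_of_nonneg_left hp hCpos.le
          _ = (C * τ₀ ^ c) * q ^ j := by ring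
          _ ≤ _ := mul_le_mul_of_nonneg_right h8 hqj0.le
      calc d₀ * q ^ j / 2 + C * (a.T - t) ^ c ≤ d₀ * q ^ j / 2 + d₀ / 4 * q ^ j := by linarith
        _ = (3 / 4) * (d₀ * q ^ j) := by ring
        _ ≤ q * (d₀ * q ^ j) := mul_le_mul_of_nonneg_right hq34 (by positivity)
        _ = d₀ * q ^ (j + 1) := by ring
  have hinit : Pr 0 ⟨⟨τ₀, 0, 0⟩, 0, u₀⟩ := by
    refine ⟨?_, ?_, hu₀, ?_⟩
    · simpa using hτ
    · simp
    · simpa using hd
  obtain ⟨σ, hσ0, hσ⟩ := exists_seq (R := R) _ hinit hstep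
  choose u hu1 hu2 hu3 hu4 using fun j => (hσ j).2.2.2.2
  refine ⟨B, q, fun j => (σ j).a, fun j => (σ j).t, u, ⟨M.hS, hB0, hB2, hq0, hq1, ?_, ?_, ?_,
    fun j => (hσ j).1.1, fun j => (hσ j).2.1, hu1, fun j => ?_, hu4, fun j => (hσ j).2.2.1,
    fun j => (hσ j).2.2.2.1⟩⟩
  · simp [hσ0]
  · simp [hσ0]
  · have := hu2 0
    rw [hσ0] at this
    exact this
  · show u j (σ (j + 1)).t = u (j + 1) (σ (j + 1)).t
    rw [hu3 j, hu2 (j + 1)]

end Crest.Agent.R086.TI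
end

-- ▼ part R086/TI4
section

/-!
Row 86, node FINAL (helper333), part 4: limits of the sequences.
-/

set_option autoImplicit false

open MeasureTheory Complex Set Filter Topology
open scoped ContDiff
open Crest.AnalysisR.PDE.NLS (IsSmoothPeriodic sobolevDistSq IsClassicalSolution)

namespace Crest.Agent.R086.TI

open Profile

namespace Seqs

variable {n : ℕ} {P : Profile n} {N s : ℕ} {μ S : ℝ} {u₀ : R12 → ℂ} {τ₀ B q : ℝ}
    {a : ℕ → Par} {t : ℕ → ℝ} {u : ℕ → ℝ → R12 → ℂ}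

/-- distance to the (current) blow-up time after the step -/
theorem dist_succ (H : Seqs P N s μ S u₀ τ₀ B q a t u) (j : ℕ) :
    (a j).T - t (j + 1) = Real.exp (-S) * ((a j).T - t j) := by
  rw [H.t_succ j]; ring

theorem lt_succ (H : Seqs P N s μ S u₀ τ₀ B q a t u) (j : ℕ) : t j < t (j + 1) := by
  have h1 := H.dist_succ j
  have h2 := H.pos j
  have h3 : Real.exp (-S) < 1 := Real.exp_lt_one_iff.2 (by linarith [H.hS])
  nlinarith

theorem strictMono (H : Seqs P N s μ S u₀ τ₀ B q a t u) : StrictMono t :=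
  strictMono_nat_of_lt_succ H.lt_succ

theorem Bq_le (H : Seqs P N s μ S u₀ τ₀ B q a t u) (j : ℕ) : B * q ^ j ≤ 1 / 2 := by
  have h1 : q ^ j ≤ 1 := pow_le_one₀ H.hq0.le H.hq1.le
  have h2 := H.hB
  have h3 := H.hB2
  nlinarith

/-- contraction of the distance: factor `E = exp (-(S/2))`. -/
theorem tau_succ_le (H : Seqs P N s μ S u₀ τ₀ B q a t u) (j : ℕ) :
    (a (j + 1)).T - t (j + 1) ≤ Real.exp (-(S / 2)) * ((a j).T - t j) := by
  have h1 := H.dist_succ j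
  have h2 := H.pos j
  have h3 := (abs_le.1 (H.dT j)).2
  have h4 := H.Bq_le j
  have h5 : 0 < (a j).T - t (j + 1) := by rw [h1]; positivity
  have hE : Real.exp (-S) = Real.exp (-(S / 2)) * Real.exp (-(S / 2)) := by
    rw [← Real.exp_add]; congr 1; ring
  have h6 : Real.exp (-(S / 2)) * (1 + 1 / 2) ≤ 1 := by
    have h7 : (1:ℝ) + 1 / 2 ≤ Real.exp (S / 2) := by
      have := Real.add_one_le_exp (S / 2)
      linarith [H.hS]
    calc Real.exp (-(S / 2)) * (1 + 1 / 2) ≤ Real.exp (-(S / 2)) * Real.exp (S / 2) :=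
          mul_le_mul_of_nonneg_left h7 (Real.exp_pos _).le
      _ = 1 := by rw [← Real.exp_add]; simp
  have h8 : (a (j + 1)).T - t (j + 1) ≤ (1 + 1 / 2) * ((a j).T - t (j + 1)) := by
    nlinarith
  calc (a (j + 1)).T - t (j + 1) ≤ (1 + 1 / 2) * ((a j).T - t (j + 1)) := h8
    _ = (Real.exp (-(S / 2)) * (1 + 1 / 2)) * (Real.exp (-(S / 2)) * ((a j).T - t j)) := by
        rw [h1, hE]; ring
    _ ≤ 1 * (Real.exp (-(S / 2)) * ((a j).T - t j)) :=
        mul_le_mul_of_nonneg_right h6 (by positivity)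
    _ = _ := one_mul _

theorem tau_add_le (H : Seqs P N s μ S u₀ τ₀ B q a t u) (j i : ℕ) :
    (a (j + i)).T - t (j + i) ≤ Real.exp (-(S / 2)) ^ i * ((a j).T - t j) := by
  induction i with
  | zero => simp
  | succ i ih =>
    have h1 := H.tau_succ_le (j + i)
    calc (a (j + (i + 1))).T - t (j + (i + 1)) ≤
          Real.exp (-(S / 2)) * ((a (j + i)).T - t (j + i)) := h1
      _ ≤ Real.exp (-(S / 2)) * (Real.exp (-(S / 2)) ^ i * ((a j).T - t j)) :=
          mul_le_mul_of_nonneg_left ih (Real.exp_pos _).le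
      _ = _ := by ring

theorem E_lt (H : Seqs P N s μ S u₀ τ₀ B q a t u) : Real.exp (-(S / 2)) < 1 :=
  Real.exp_lt_one_iff.2 (by linarith [H.hS])

theorem E4_lt (H : Seqs P N s μ S u₀ τ₀ B q a t u) : Real.exp (-(S / 4)) < 1 :=
  Real.exp_lt_one_iff.2 (by linarith [H.hS])

theorem tau_tendsto (H : Seqs P N s μ S u₀ τ₀ B q a t u) :
    Tendsto (fun j => (a j).T - t j) atTop (𝓝 0) := by
  have h1 : Tendsto (fun j : ℕ => Real.exp (-(S / 2)) ^ j * ((a 0).T - t 0)) atTop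
      (𝓝 (0 * ((a 0).T - t 0))) :=
    (tendsto_pow_atTop_nhds_zero_of_lt_one (Real.exp_pos _).le H.E_lt).mul_const _
  rw [zero_mul] at h1
  refine squeeze_zero (fun j => (H.pos j).le) (fun j => ?_) h1
  have := H.tau_add_le 0 j
  simpa using this

theorem q_pow_add_le (H : Seqs P N s μ S u₀ τ₀ B q a t u) (j i : ℕ) : q ^ (j + i) ≤ q ^ j := by
  rw [pow_add]
  have h1 : q ^ i ≤ 1 := pow_le_one₀ H.hq0.le H.hq1.le
  have h2 : 0 < q ^ j := pow_pos H.hq0 j
  nlinarith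

/-- geometric estimate for the increments of `T` from index `j` on -/
theorem dist_T (H : Seqs P N s μ S u₀ τ₀ B q a t u) (j i : ℕ) :
    dist (a (j + i)).T (a (j + (i + 1))).T ≤
      (B * q ^ j * ((a j).T - t j)) * Real.exp (-(S / 2)) ^ i := by
  rw [dist_comm, Real.dist_eq]
  have h1 := H.dT (j + i)
  have h2 := H.dist_succ (j + i)
  have h3 := H.tau_add_le j i
  have h4 := H.q_pow_add_le j i
  have h5 : Real.exp (-S) ≤ 1 := Real.exp_le_one_iff.2 (by linarith [H.hS])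
  have h6 := H.pos (j + i)
  have h7 : (a (j + i)).T - t (j + i + 1) ≤ Real.exp (-(S / 2)) ^ i * ((a j).T - t j) := by
    rw [h2]; nlinarith
  have h8 : 0 ≤ (a (j + i)).T - t (j + i + 1) := by rw [h2]; positivity
  have hq : 0 < q ^ (j + i) := pow_pos H.hq0 _
  have hB := H.hB
  calc |(a (j + (i + 1))).T - (a (j + i)).T| ≤ B * q ^ (j + i) * ((a (j + i)).T - t (j + i + 1)) := h1
    _ ≤ B * q ^ j * ((a (j + i)).T - t (j + i + 1)) :=
        mul_le_mul_of_nonneg_right (mul_le_mul_of_nonneg_left h4 hB) h8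
    _ ≤ B * q ^ j * (Real.exp (-(S / 2)) ^ i * ((a j).T - t j)) := by
        refine mul_le_mul_of_nonneg_left h7 ?_
        have := pow_pos H.hq0 j
        positivity
    _ = _ := by ring

theorem dist_x (H : Seqs P N s μ S u₀ τ₀ B q a t u) (j i : ℕ) :
    dist (a (j + i)).x (a (j + (i + 1))).x ≤
      (B * q ^ j * Real.sqrt ((a j).T - t j)) * Real.exp (-(S / 4)) ^ i := by
  rw [dist_comm, dist_eq_norm]
  have h1 := H.dx (j + i)
  have h2 := H.dist_succ (j + i)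
  have h3 := H.tau_add_le j i
  have h4 := H.q_pow_add_le j i
  have h5 : Real.exp (-S) ≤ 1 := Real.exp_le_one_iff.2 (by linarith [H.hS])
  have h6 := H.pos (j + i)
  have h7 : (a (j + i)).T - t (j + i + 1) ≤ Real.exp (-(S / 2)) ^ i * ((a j).T - t j) := by
    rw [h2]; nlinarith
  have h8 : Real.sqrt ((a (j + i)).T - t (j + i + 1)) ≤
      Real.exp (-(S / 4)) ^ i * Real.sqrt ((a j).T - t j) := by
    calc Real.sqrt ((a (j + i)).T - t (j + i + 1)) ≤
          Real.sqrt (Real.exp (-(S / 2)) ^ i * ((a j).T - t j)) := Real.sqrt_le_sqrt h7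
      _ = Real.exp (-(S / 4)) ^ i * Real.sqrt ((a j).T - t j) := by
          rw [Real.sqrt_mul (by positivity)]
          congr 1
          have : Real.exp (-(S / 2)) ^ i = (Real.exp (-(S / 4)) ^ i) ^ 2 := by
            have e1 : Real.exp (-(S / 2)) = Real.exp (-(S / 4)) ^ 2 := by
              rw [← Real.exp_nat_mul]; congr 1; push_cast; ring
            rw [e1, ← pow_mul, ← pow_mul, mul_comm 2 i]
          rw [this, Real.sqrt_sq (by positivity)]
  have hq : 0 < q ^ (j + i) := pow_pos H.hq0 _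
  have hB := H.hB
  calc ‖(a (j + (i + 1))).x - (a (j + i)).x‖ ≤
        B * q ^ (j + i) * Real.sqrt ((a (j + i)).T - t (j + i + 1)) := h1
    _ ≤ B * q ^ j * Real.sqrt ((a (j + i)).T - t (j + i + 1)) :=
        mul_le_mul_of_nonneg_right (mul_le_mul_of_nonneg_left h4 hB) (Real.sqrt_nonneg _)
    _ ≤ B * q ^ j * (Real.exp (-(S / 4)) ^ i * Real.sqrt ((a j).T - t j)) := by
        refine mul_le_mul_of_nonneg_left h8 ?_
        have := pow_pos H.hq0 j
        positivity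
    _ = _ := by ring

/-- the limits of the parameters, with rates -/
theorem limits (H : Seqs P N s μ S u₀ τ₀ B q a t u) :
    ∃ (T : ℝ) (X : R12) (K : ℝ), 0 ≤ K ∧ Tendsto t atTop (𝓝 T) ∧
      (∀ j, |(a j).T - T| ≤ K * q ^ j * ((a j).T - t j)) ∧
      (∀ j, ‖(a j).x - X‖ ≤ K * q ^ j * Real.sqrt ((a j).T - t j)) := by
  have hcT : CauchySeq (fun j => (a j).T) := by
    refine cauchySeq_of_le_geometric (Real.exp (-(S / 2))) (B * q ^ 0 * ((a 0).T - t 0)) H.E_lt ?_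
    intro i
    have := H.dist_T 0 i
    simpa using this
  have hcx : CauchySeq (fun j => (a j).x) := by
    refine cauchySeq_of_le_geometric (Real.exp (-(S / 4))) (B * q ^ 0 * Real.sqrt ((a 0).T - t 0))
      H.E4_lt ?_
    intro i
    have := H.dist_x 0 i
    simpa using this
  obtain ⟨T, hT⟩ := cauchySeq_tendsto_of_complete hcT
  obtain ⟨X, hX⟩ := cauchySeq_tendsto_of_complete hcx
  have h1 : 0 < 1 - Real.exp (-(S / 2)) := by linarith [H.E_lt]
  have h2 : 0 < 1 - Real.exp (-(S / 4)) := by linarith [H.E4_lt]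
  refine ⟨T, X, B / (1 - Real.exp (-(S / 2))) + B / (1 - Real.exp (-(S / 4))), ?_, ?_, ?_, ?_⟩
  · have := H.hB
    positivity
  · have h3 := hT.sub H.tau_tendsto
    simpa using h3
  · intro j
    have hTj : Tendsto (fun i => (a (j + i)).T) atTop (𝓝 T) := by
      have := (tendsto_add_atTop_iff_nat (f := fun i => (a i).T) j).2 hT
      simpa [add_comm] using this
    have h4 := dist_le_of_le_geometric_of_tendsto₀ (Real.exp (-(S / 2)))
      (B * q ^ j * ((a j).T - t j)) H.E_lt (fun i => H.dist_T j i) hTj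
    rw [Real.dist_eq] at h4
    simp only [add_zero] at h4
    refine h4.trans ?_
    have hq := pow_pos H.hq0 j
    have hp := H.pos j
    have hB := H.hB
    have h5 : 0 ≤ B / (1 - Real.exp (-(S / 4))) := by positivity
    have h6 : B * q ^ j * ((a j).T - t j) / (1 - Real.exp (-(S / 2)))
        = B / (1 - Real.exp (-(S / 2))) * (q ^ j * ((a j).T - t j)) := by ring
    rw [h6]
    have h7 : 0 ≤ q ^ j * ((a j).T - t j) := by positivity
    nlinarith [mul_nonneg h5 h7]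
  · intro j
    have hXj : Tendsto (fun i => (a (j + i)).x) atTop (𝓝 X) := by
      have := (tendsto_add_atTop_iff_nat (f := fun i => (a i).x) j).2 hX
      simpa [add_comm] using this
    have h4 := dist_le_of_le_geometric_of_tendsto₀ (Real.exp (-(S / 4)))
      (B * q ^ j * Real.sqrt ((a j).T - t j)) H.E4_lt (fun i => H.dist_x j i) hXj
    rw [dist_eq_norm] at h4
    simp only [add_zero] at h4
    refine h4.trans ?_
    have hq := pow_pos H.hq0 j
    have hp := Real.sqrt_nonneg ((a j).T - t j)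
    have hB := H.hB
    have h5 : 0 ≤ B / (1 - Real.exp (-(S / 2))) := by positivity
    have h6 : B * q ^ j * Real.sqrt ((a j).T - t j) / (1 - Real.exp (-(S / 4)))
        = B / (1 - Real.exp (-(S / 4))) * (q ^ j * Real.sqrt ((a j).T - t j)) := by ring
    rw [h6]
    have h7 : 0 ≤ q ^ j * Real.sqrt ((a j).T - t j) := by positivity
    nlinarith [mul_nonneg h5 h7]

end Seqs

end Crest.Agent.R086.TI
end

-- ▼ part R086/TI5

/-!
Row 86, node FINAL (helper333), part 5: the blow-up rate at the limit point.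
-/

set_option autoImplicit false

open MeasureTheory Complex Set Filter Topology
open scoped ContDiff
open Crest.AnalysisR.PDE.NLS (IsSmoothPeriodic sobolevDistSq IsClassicalSolution)

namespace Crest.Agent.R086.TI

open Profile

/-- index of the interval containing a time -/
theorem exists_index {t : ℕ → ℝ} {T : ℝ} (ht : StrictMono t) (hT : Tendsto t atTop (𝓝 T))
    {r : ℝ} (h0 : t 0 ≤ r) (hr : r < T) : ∃ j, r ∈ Ico (t j) (t (j + 1)) := by
  classical
  have hex : ∃ j, r < t j := ((hT.eventually (lt_mem_nhds hr)).exists)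
  obtain ⟨m, hm⟩ : ∃ m, Nat.find hex = m + 1 := by
    refine ⟨Nat.find hex - 1, ?_⟩
    have : Nat.find hex ≠ 0 := by
      intro h
      have := Nat.find_spec hex
      rw [h] at this
      linarith
    omega
  refine ⟨m, ?_, ?_⟩
  · have := Nat.find_min hex (m := m) (by omega)
    exact not_lt.1 this
  · have := Nat.find_spec hex
    rwa [hm] at this

/-- index function, tending to infinity -/
theorem exists_index_fun {t : ℕ → ℝ} {T : ℝ} (ht : StrictMono t) (hT : Tendsto t atTop (𝓝 T)) :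
    ∃ J : ℝ → ℕ, (∀ᶠ r in 𝓝[<] T, r ∈ Ico (t (J r)) (t (J r + 1))) ∧
      Tendsto J (𝓝[<] T) atTop := by
  classical
  have h1 : ∀ j, t j < T := fun j =>
    (ht (Nat.lt_succ_self j)).trans_le (ht.monotone.ge_of_tendsto hT (j + 1))
  have h2 : ∀ᶠ r in 𝓝[<] T, r ∈ Ioo (t 0) T := Ioo_mem_nhdsLT (h1 0)
  have h3 : ∀ r, ∃ j, (r ∈ Ioo (t 0) T → r ∈ Ico (t j) (t (j + 1))) := by
    intro r
    by_cases hr : r ∈ Ioo (t 0) T
    · obtain ⟨j, hj⟩ := exists_index ht hT hr.1.le hr.2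
      exact ⟨j, fun _ => hj⟩
    · exact ⟨0, fun h => absurd h hr⟩
  choose J hJ using h3
  refine ⟨J, h2.mono (fun r hr => hJ r hr), tendsto_atTop.2 (fun m => ?_)⟩
  have h4 : ∀ᶠ r in 𝓝[<] T, r ∈ Ioo (t m) T := Ioo_mem_nhdsLT (h1 m)
  filter_upwards [h2, h4] with r hr1 hr2
  have h5 := (hJ r hr1).2
  have h6 : t m < t (J r + 1) := hr2.1.trans h5
  have := ht.lt_iff_lt.1 h6
  omega

namespace Seqs

variable {n : ℕ} {P : Profile n} {N s : ℕ} {μ S : ℝ} {u₀ : R12 → ℂ} {τ₀ B q : ℝ}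
    {a : ℕ → Par} {t : ℕ → ℝ} {u : ℕ → ℝ → R12 → ℂ}

theorem tau_le (H : Seqs P N s μ S u₀ τ₀ B q a t u) (j : ℕ) : (a j).T - t j ≤ τ₀ := by
  have h1 := H.tau_add_le 0 j
  rw [zero_add, H.a0, H.t0, sub_zero] at h1
  have h2 : Real.exp (-(S / 2)) ^ j ≤ 1 := pow_le_one₀ (Real.exp_pos _).le H.E_lt.le
  have h3 : 0 < τ₀ := by
    have := H.pos 0
    rwa [H.a0, H.t0, sub_zero] at this
  nlinarith

theorem tendsto_value (H : Seqs P N s μ S u₀ τ₀ B q a t u) (hTN : TN) (hTP : TP1 P) (hμ : 0 ≤ μ)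
    (hτ01 : τ₀ ≤ 1)
    (hnear : ∀ η : ℝ, 0 < η → ∃ ρ : ℝ, 0 < ρ ∧ ∀ (a : Par) (t : ℝ) (x : R12), 0 < a.T - t →
      a.T - t ≤ 1 → ‖x - a.x‖ ≤ ρ * Real.sqrt (a.T - t) →
      |(a.T - t) ^ (1 / (n : ℝ)) * ‖P.prof a t x‖ - ‖P.Q 0‖| ≤ η)
    {T : ℝ} {X : R12} {K : ℝ} (hK : 0 ≤ K) (hT : Tendsto t atTop (𝓝 T))
    (hTj : ∀ j, |(a j).T - T| ≤ K * q ^ j * ((a j).T - t j))
    (hXj : ∀ j, ‖(a j).x - X‖ ≤ K * q ^ j * Real.sqrt ((a j).T - t j))
    {v : ℝ → R12 → ℂ} (hvu : ∀ j, ∀ r ∈ Icc (t j) (t (j + 1)), v r = u j r) :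
    Tendsto (fun r => (T - r) ^ (1 / (n : ℝ)) * ‖v r X‖) (𝓝[<] T) (𝓝 ‖P.Q 0‖) := by
  obtain ⟨J, hJ, hJt⟩ := exists_index_fun H.strictMono hT
  have hqt : Tendsto (fun j : ℕ => q ^ j) atTop (𝓝 0) :=
    tendsto_pow_atTop_nhds_zero_of_lt_one H.hq0.le H.hq1
  have hqJ : Tendsto (fun r => q ^ (J r)) (𝓝[<] T) (𝓝 0) := hqt.comp hJt
  -- basic facts on an interval
  have hbase : ∀ j, ∀ r ∈ Icc (t j) (t (j + 1)), 0 < (a j).T - r ∧ (a j).T - r ≤ 1 ∧
      (a j).T - t j ≤ Real.exp S * ((a j).T - r) := by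
    intro j r hr
    have h1 := H.dist_succ j
    have h2 := H.pos j
    have h3 : (a j).T - t (j + 1) ≤ (a j).T - r := by linarith [hr.2]
    have h4 : 0 < (a j).T - t (j + 1) := by rw [h1]; positivity
    refine ⟨lt_of_lt_of_le h4 h3, by linarith [hr.1, H.tau_le j], ?_⟩
    have h5 : (a j).T - t j = Real.exp S * ((a j).T - t (j + 1)) := by
      rw [h1, ← mul_assoc, ← Real.exp_add]; simp
    rw [h5]
    exact mul_le_mul_of_nonneg_left h3 (Real.exp_pos _).le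
  have heS : 0 < Real.exp S := Real.exp_pos _
  -- the ratio
  have hw : Tendsto (fun r => (T - r) / ((a (J r)).T - r)) (𝓝[<] T) (𝓝 1) := by
    have hb : Tendsto (fun r => K * Real.exp S * q ^ (J r)) (𝓝[<] T) (𝓝 0) := by
      have := hqJ.const_mul (K * Real.exp S)
      rwa [mul_zero] at this
    rw [tendsto_iff_norm_sub_tendsto_zero]
    refine squeeze_zero' (Eventually.of_forall (fun _ => norm_nonneg _)) ?_ hb
    filter_upwards [hJ] with r hr
    obtain ⟨h1, h2, h3⟩ := hbase (J r) r ⟨hr.1, hr.2.le⟩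
    have h4 := hTj (J r)
    have h5 : (T - r) / ((a (J r)).T - r) - 1 = (T - (a (J r)).T) / ((a (J r)).T - r) := by
      field_simp
      ring
    rw [h5, Real.norm_eq_abs, abs_div, abs_of_pos h1, div_le_iff₀ h1, abs_sub_comm]
    have hq := pow_pos H.hq0 (J r)
    calc |(a (J r)).T - T| ≤ K * q ^ (J r) * ((a (J r)).T - t (J r)) := h4
      _ ≤ K * q ^ (J r) * (Real.exp S * ((a (J r)).T - r)) :=
          mul_le_mul_of_nonneg_left h3 (by positivity)
      _ = _ := by ring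
  have hw2 : Tendsto (fun r => ((T - r) / ((a (J r)).T - r)) ^ (1 / (n : ℝ))) (𝓝[<] T) (𝓝 1) := by
    have h1 := hw.rpow_const (p := 1 / (n : ℝ)) (Or.inl one_ne_zero)
    rwa [Real.one_rpow] at h1
  -- the value
  have hy : Tendsto (fun r => ((a (J r)).T - r) ^ (1 / (n : ℝ)) * ‖v r X‖) (𝓝[<] T)
      (𝓝 ‖P.Q 0‖) := by
    rw [Metric.tendsto_nhds]
    intro η hη
    obtain ⟨ρ, hρ, hnr⟩ := hnear (η / 3) (by positivity)
    have e1 : ∀ᶠ r in 𝓝[<] T, B * q ^ (J r) < η / 3 := by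
      have := hqJ.const_mul B
      rw [mul_zero] at this
      exact this.eventually (gt_mem_nhds (by positivity))
    have e2 : ∀ᶠ r in 𝓝[<] T, K * Real.sqrt (Real.exp S) * q ^ (J r) < ρ := by
      have := hqJ.const_mul (K * Real.sqrt (Real.exp S))
      rw [mul_zero] at this
      exact this.eventually (gt_mem_nhds hρ)
    filter_upwards [hJ, e1, e2] with r hr h1 h2
    have hrI : r ∈ Icc (t (J r)) (t (J r + 1)) := ⟨hr.1, hr.2.le⟩
    obtain ⟨h3, h4, h5⟩ := hbase (J r) r hrI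
    have hq := pow_pos H.hq0 (J r)
    have h6 : ‖X - (a (J r)).x‖ ≤ ρ * Real.sqrt ((a (J r)).T - r) := by
      rw [norm_sub_rev]
      refine (hXj (J r)).trans ?_
      have h7 : Real.sqrt ((a (J r)).T - t (J r)) ≤
          Real.sqrt (Real.exp S) * Real.sqrt ((a (J r)).T - r) := by
        rw [← Real.sqrt_mul heS.le]
        exact Real.sqrt_le_sqrt h5
      calc K * q ^ (J r) * Real.sqrt ((a (J r)).T - t (J r)) ≤
            K * q ^ (J r) * (Real.sqrt (Real.exp S) * Real.sqrt ((a (J r)).T - r)) :=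
            mul_le_mul_of_nonneg_left h7 (by positivity)
        _ = (K * Real.sqrt (Real.exp S) * q ^ (J r)) * Real.sqrt ((a (J r)).T - r) := by ring
        _ ≤ ρ * Real.sqrt ((a (J r)).T - r) :=
            mul_le_mul_of_nonneg_right h2.le (Real.sqrt_nonneg _)
    have h8 := hnr (a (J r)) r X h3 h4 h6
    have h9 := H.bd (J r) r hrI
    have hsm : IsSmoothPeriodic (u (J r) r) := (H.sol (J r)).smooth r hrI
    have h10 := sup_le_nrm (n := n) (N := N) (s := s) hTN hμ h3.le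
      (isp_sub hsm (isp_prof hTP (a (J r)) h3)) X
    have h11 : ((a (J r)).T - r) ^ (1 / (n : ℝ)) * ‖u (J r) r X - P.prof (a (J r)) r X‖
        ≤ B * q ^ (J r) := h10.trans h9
    rw [hvu (J r) r hrI, Real.dist_eq]
    have h12 : 0 ≤ ((a (J r)).T - r) ^ (1 / (n : ℝ)) := Real.rpow_nonneg h3.le _
    have h13 : |((a (J r)).T - r) ^ (1 / (n : ℝ)) * ‖u (J r) r X‖
        - ((a (J r)).T - r) ^ (1 / (n : ℝ)) * ‖P.prof (a (J r)) r X‖| ≤ B * q ^ (J r) := by
      rw [← mul_sub, abs_mul, abs_of_nonneg h12]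
      exact (mul_le_mul_of_nonneg_left (abs_norm_sub_norm_le _ _) h12).trans h11
    calc |((a (J r)).T - r) ^ (1 / (n : ℝ)) * ‖u (J r) r X‖ - ‖P.Q 0‖| ≤
          |((a (J r)).T - r) ^ (1 / (n : ℝ)) * ‖u (J r) r X‖
            - ((a (J r)).T - r) ^ (1 / (n : ℝ)) * ‖P.prof (a (J r)) r X‖| +
          |((a (J r)).T - r) ^ (1 / (n : ℝ)) * ‖P.prof (a (J r)) r X‖ - ‖P.Q 0‖| := by
          have := abs_add_le (((a (J r)).T - r) ^ (1 / (n : ℝ)) * ‖u (J r) r X‖
            - ((a (J r)).T - r) ^ (1 / (n : ℝ)) * ‖P.prof (a (J r)) r X‖)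
            (((a (J r)).T - r) ^ (1 / (n : ℝ)) * ‖P.prof (a (J r)) r X‖ - ‖P.Q 0‖)
          simpa using this
      _ < η := by linarith
  have hmul := hw2.mul hy
  rw [one_mul] at hmul
  refine hmul.congr' ?_
  have hlt : ∀ᶠ r in 𝓝[<] T, r < T := self_mem_nhdsWithin
  filter_upwards [hJ, hlt] with r hr hrT
  obtain ⟨h1, h2, h3⟩ := hbase (J r) r ⟨hr.1, hr.2.le⟩
  rw [Real.div_rpow (by linarith) h1.le, ← mul_assoc, div_mul_cancel₀]
  exact (Real.rpow_pos_of_pos h1 _).ne'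

end Seqs

end Crest.Agent.R086.TI
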