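import Crest.Agent.R086.TorDefs
import Crest.Agent.R086.TI1
import Crest.Agent.R086.TI2
import Crest.Agent.R086.TI5
import Crest.Agent.R086.PZ
import Crest.Agent.R086.TN
import Crest.Agent.R086.TF
import Crest.Agent.R086.SymCalc
import Crest.Agent.R086.TKDefs
import Crest.Agent.R086.NSRem2
import Crest.Agent.R086.TorBasic
import Crest.Agent.R086.TP3
import Crest.Agent.R086.TPOne

-- ▼ part R086/TIAux
section

/-!
Row 86, node FINAL (helper343, second of helper333): three auxiliary facts.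
-/

set_option autoImplicit false

open MeasureTheory Complex Set Filter Topology
open scoped ContDiff
open Crest.AnalysisR.PDE.NLS (IsSmoothPeriodic sobolevDistSq IsClassicalSolution)

namespace Crest.Agent.R086.TI

open Crest.Agent.R086 Crest.Agent.R086.Profile

theorem nk_nonneg (k : Z12) : 0 ≤ nk k := norm_nonneg _

theorem isSmoothPeriodic_sub {v w : R12 → ℂ} (hv : IsSmoothPeriodic v) (hw : IsSmoothPeriodic w) :
    IsSmoothPeriodic (fun x => v x - w x) :=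
  ⟨hv.1.sub hw.1, fun x i => by
    have h1 := hv.2 x i
    have h2 := hw.2 x i
    simp only [h1, h2]⟩

/-- low weights are dominated by `wn s 1` -/
theorem wn_le_wn_one {N s : ℕ} (hNs : N ≤ s) {h : ℝ} (h0 : 0 ≤ h) (h1 : h ≤ 1) {f : R12 → ℂ}
    (hf : Summable fun k => (1 + nk k) ^ s * ‖cf f k‖) : wn N h f ≤ wn s 1 f := by
  have hle : ∀ k : Z12, (1 + h * nk k) ^ N * ‖cf f k‖ ≤ (1 + 1 * nk k) ^ s * ‖cf f k‖ := by
    intro k
    have hk := nk_nonneg k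
    refine mul_le_mul_of_nonneg_right ?_ (norm_nonneg _)
    have e1 : (1 + h * nk k) ^ N ≤ (1 + 1 * nk k) ^ N := by
      refine pow_le_pow_left₀ (by positivity) ?_ N
      nlinarith
    exact e1.trans (pow_le_pow_right₀ (by nlinarith) hNs)
  have hs : Summable fun k : Z12 => (1 + 1 * nk k) ^ s * ‖cf f k‖ := by
    simpa using hf
  unfold wn
  exact Summable.tsum_le_tsum hle (Summable.of_nonneg_of_le (fun k => by
    have hk := nk_nonneg k
    positivity) hle hs) hs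

theorem hi_le_wn_one {s : ℕ} {h : ℝ} (h0 : 0 ≤ h) (h1 : h ≤ 1) {f : R12 → ℂ}
    (hf : Summable fun k => (1 + nk k) ^ s * ‖cf f k‖) : hi s h f ≤ wn s 1 f := by
  have hle : ∀ k : Z12, (h * nk k) ^ s * ‖cf f k‖ ≤ (1 + 1 * nk k) ^ s * ‖cf f k‖ := by
    intro k
    have hk := nk_nonneg k
    refine mul_le_mul_of_nonneg_right ?_ (norm_nonneg _)
    refine pow_le_pow_left₀ (by positivity) ?_ s
    nlinarith
  have hs : Summable fun k : Z12 => (1 + 1 * nk k) ^ s * ‖cf f k‖ := by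
    simpa using hf
  unfold hi wn
  exact Summable.tsum_le_tsum hle (Summable.of_nonneg_of_le (fun k => by
    have hk := nk_nonneg k
    positivity) hle hs) hs

/-- (a) Sobolev distance controls the scale norm. -/
theorem nrm_le_sob (hTF1 : TF1) (hTF3 : TF3) {n N s : ℕ} (hNs : N ≤ s) {μ τ : ℝ} (hμ : 0 ≤ μ)
    (hτ : 0 < τ) (hτ1 : τ ≤ 1) : ∃ C : ℝ, 0 ≤ C ∧ ∀ v w : R12 → ℂ, IsSmoothPeriodic v →
    IsSmoothPeriodic w → nrm n N s μ τ (fun x => v x - w x)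
      ≤ C * Real.sqrt (sobolevDistSq (s + 14) v w) := by
  obtain ⟨C, hC, hCs⟩ := hTF3 s
  have hh0 : 0 ≤ Real.sqrt τ := Real.sqrt_nonneg _
  have hh1 : Real.sqrt τ ≤ 1 := Real.sqrt_le_one.2 hτ1
  refine ⟨τ ^ (1 / (n : ℝ)) * ((1 + μ) * C), by positivity, fun v w hv hw => ?_⟩
  have hf := (hTF1 _ (isSmoothPeriodic_sub hv hw)).1 s
  have e1 := wn_le_wn_one hNs hh0 hh1 hf
  have e2 := hi_le_wn_one hh0 hh1 hf
  have e3 := hCs v w hv hw
  unfold nrm nn
  have hp : 0 ≤ τ ^ (1 / (n : ℝ)) := by positivity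
  calc τ ^ (1 / (n : ℝ)) * (wn N (Real.sqrt τ) (fun x => v x - w x)
        + μ * hi s (Real.sqrt τ) (fun x => v x - w x))
      ≤ τ ^ (1 / (n : ℝ)) * (C * Real.sqrt (sobolevDistSq (s + 14) v w)
        + μ * (C * Real.sqrt (sobolevDistSq (s + 14) v w))) := by
        refine mul_le_mul_of_nonneg_left (add_le_add (e1.trans e3) ?_) hp
        exact mul_le_mul_of_nonneg_left (e2.trans e3) hμ
    _ = τ ^ (1 / (n : ℝ)) * ((1 + μ) * C) * Real.sqrt (sobolevDistSq (s + 14) v w) := by ring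

theorem one_le_norm_zv {k : Z12} (hk : k ≠ 0) : 1 ≤ ‖zv k‖ := by
  obtain ⟨i, hi⟩ : ∃ i, k i ≠ 0 := by
    by_contra hcon
    push Not at hcon
    exact hk (funext hcon)
  have h1 : ‖zv k i‖ ≤ ‖zv k‖ := PiLp.norm_apply_le (zv k) i
  have h2 : ‖zv k i‖ = |((k i : ℤ) : ℝ)| := by simp [zv]
  have h3 : (1 : ℝ) ≤ |((k i : ℤ) : ℝ)| := by
    rw [← Int.cast_abs]
    exact_mod_cast Int.one_le_abs hi
  linarith

theorem perz_near {f : R12 → ℂ} (hf : ∀ x : R12, 2 ≤ ‖x‖ → f x = 0) {x : R12} (hx : ‖x‖ ≤ 1) :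
    perz f x = f x := by
  unfold perz
  rw [tsum_eq_single (0 : Z12)]
  · have : zv (0 : Z12) = 0 := by ext i; simp [zv]
    rw [this, smul_zero, sub_zero]
  · intro k hk
    apply hf
    have h1 := one_le_norm_zv hk
    have h2 : ‖(2 * Real.pi) • zv k‖ = 2 * Real.pi * ‖zv k‖ := by
      rw [norm_smul, Real.norm_of_nonneg (by positivity)]
    have h3 : ‖(2 * Real.pi) • zv k‖ - ‖x‖ ≤ ‖x - (2 * Real.pi) • zv k‖ := by
      rw [norm_sub_rev]
      exact norm_sub_norm_le _ _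
    have h4 := Real.pi_gt_three
    have h5 : 2 * Real.pi * 1 ≤ 2 * Real.pi * ‖zv k‖ :=
      mul_le_mul_of_nonneg_left h1 (by positivity)
    linarith

/-- (b) value of the periodised profile near the centre. -/
theorem qt_near {n : ℕ} (P : Profile n) {τ : ℝ} (hτ : 0 < τ) {x : R12} (hx : ‖x‖ ≤ 1) :
    P.qt τ x = P.Q ((Real.sqrt τ)⁻¹ • x) := by
  unfold Profile.qt
  rw [perz_near _ hx]
  · have : chi0 x = 1 := chi0.one_of_mem_closedBall (by simpa [chi0] using hx)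
    rw [this]
    simp
  · intro y hy
    have : chi0 y = 0 := chi0.zero_of_le_dist (by simpa [chi0] using hy)
    rw [this]
    simp


/-- (c) modulus of the amplitude. -/
theorem norm_amp {n : ℕ} (P : Profile n) (a : Par) {t : ℝ} (h : 0 < a.T - t) :
    ‖P.amp a t‖ = (a.T - t) ^ (-(1 / (n : ℝ))) := by
  unfold Profile.amp
  rw [norm_mul]
  have h1 : ‖exp (I * (a.th : ℂ))‖ = 1 := by
    rw [mul_comm]
    exact Complex.norm_exp_ofReal_mul_I _
  rw [h1, one_mul, Complex.norm_cpow_eq_rpow_re_of_pos h]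
  congr 1
  simp

end Crest.Agent.R086.TI
end

-- ▼ part R086/TIAux2
section

/-!
Row 86, node FINAL (helper343, second of helper333): value at the centre, limits of the parameters.
-/

set_option autoImplicit false

open MeasureTheory Complex Set Filter Topology
open scoped ContDiff
open Crest.AnalysisR.PDE.NLS (IsSmoothPeriodic sobolevDistSq IsClassicalSolution)

namespace Crest.Agent.R086.TI

open Crest.Agent.R086 Crest.Agent.R086.Profile

/-- (d) the periodised profile near its centre -/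
theorem prof_near {n : ℕ} (P : Profile n) {η : ℝ} (hη : 0 < η) : ∃ ρ : ℝ, 0 < ρ ∧ ρ ≤ 1 ∧
    ∀ (a : Par) (t : ℝ) (x : R12), 0 < a.T - t → a.T - t ≤ 1 →
      ‖x - a.x‖ ≤ ρ * Real.sqrt (a.T - t) →
      |(a.T - t) ^ (1 / (n : ℝ)) * ‖P.prof a t x‖ - ‖P.Q 0‖| ≤ η := by
  have hc : ContinuousAt (fun y => ‖P.Q y‖) 0 := P.smooth.continuous.norm.continuousAt
  obtain ⟨ρ, hρ, hρ2⟩ := Metric.continuousAt_iff.1 hc η hη
  refine ⟨min (ρ / 2) 1, lt_min (by positivity) one_pos, min_le_right _ _,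
    fun a t x ht ht1 hx => ?_⟩
  set τ := a.T - t with hτ
  have hs0 : 0 < Real.sqrt τ := Real.sqrt_pos.2 ht
  have hs1 : Real.sqrt τ ≤ 1 := Real.sqrt_le_one.2 ht1
  have hx1 : ‖x - a.x‖ ≤ 1 := by
    refine hx.trans ?_
    calc min (ρ / 2) 1 * Real.sqrt τ ≤ 1 * 1 :=
          mul_le_mul (min_le_right _ _) hs1 hs0.le zero_le_one
      _ = 1 := one_mul 1
  have hp : (τ) ^ (1 / (n : ℝ)) * ‖P.prof a t x‖ = ‖P.Q ((Real.sqrt τ)⁻¹ • (x - a.x))‖ := by
    unfold Profile.prof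
    rw [norm_mul, norm_amp P a ht, qt_near P ht hx1, ← mul_assoc, ← hτ, ← Real.rpow_add ht]
    simp
  rw [hp]
  have hz : ‖(Real.sqrt τ)⁻¹ • (x - a.x)‖ ≤ min (ρ / 2) 1 := by
    rw [norm_smul, norm_inv, Real.norm_of_nonneg hs0.le, inv_mul_le_iff₀ hs0]
    rw [mul_comm]
    exact hx
  have hz2 : dist ((Real.sqrt τ)⁻¹ • (x - a.x)) 0 < ρ := by
    rw [dist_zero_right]
    have := hz.trans (min_le_left _ _)
    linarith
  have := hρ2 hz2
  rw [Real.dist_eq] at this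
  exact this.le








end Crest.Agent.R086.TI
end

-- ▼ part R086/TIAux3
section

/-!
Row 86, node FINAL (helper343, second of helper333): the open set of initial data.
-/

set_option autoImplicit false

open MeasureTheory Complex Set Filter Topology
open scoped ContDiff
open Crest.AnalysisR.PDE.NLS (IsSmoothPeriodic sobolevDistSq IsClassicalSolution)

namespace Crest.Agent.R086.TI

open Crest.Agent.R086 Crest.Agent.R086.Profile

theorem cf_zero (k : Z12) : cf (fun _ => (0 : ℂ)) k = 0 := by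
  simp [cf]

theorem nrm_zero (n N s : ℕ) (μ τ : ℝ) : nrm n N s μ τ (fun _ => (0 : ℂ)) = 0 := by
  simp [nrm, nn, wn, hi, cf_zero]

theorem nrm_self (n N s : ℕ) (μ τ : ℝ) (v : R12 → ℂ) :
    nrm n N s μ τ (fun x => v x - v x) = 0 := by
  have : (fun x => v x - v x) = fun _ => (0 : ℂ) := by
    funext x; exact sub_self _
  rw [this, nrm_zero]

/-- the set of initial data of FINAL is nonempty, consists of smooth periodic functions, and is
open in `H^(s+14)` among smooth periodic functions. -/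
theorem open_set {n N s : ℕ} (P : Profile n) (hTF1 : TF1) (hTF3 : TF3) (hTN : TN) (hTP : TP1 P)
    (hNs : N ≤ s) {μ τ : ℝ} (hμ : 0 < μ) (hτ : 0 < τ) (hτ1 : τ ≤ 1) {d0 : ℝ} (hd0 : 0 < d0)
    (a : Par) (t : ℝ) (hat : a.T - t = τ) :
    ({v : R12 → ℂ | IsSmoothPeriodic v ∧ nrm n N s μ τ (fun x => v x - P.prof a t x) < d0} :
      Set (R12 → ℂ)).Nonempty ∧
    (∀ v ∈ {v : R12 → ℂ | IsSmoothPeriodic v ∧ nrm n N s μ τ (fun x => v x - P.prof a t x) < d0},
      IsSmoothPeriodic v) ∧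
    ∀ u₀ ∈ {v : R12 → ℂ | IsSmoothPeriodic v ∧ nrm n N s μ τ (fun x => v x - P.prof a t x) < d0},
      ∃ δ : ℝ, 0 < δ ∧ ∀ v : R12 → ℂ, IsSmoothPeriodic v →
        sobolevDistSq (s + 14) v u₀ < δ →
        v ∈ {v : R12 → ℂ | IsSmoothPeriodic v ∧
          nrm n N s μ τ (fun x => v x - P.prof a t x) < d0} := by
  have hat' : 0 < a.T - t := by rw [hat]; exact hτ
  have hp : IsSmoothPeriodic (P.prof a t) := isp_prof hTP a hat'
  refine ⟨⟨P.prof a t, hp, ?_⟩, fun v hv => hv.1, ?_⟩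
  · rw [nrm_self]; exact hd0
  · rintro u₀ ⟨hu₀, hu₀d⟩
    obtain ⟨C, hC, hsob⟩ := nrm_le_sob (n := n) hTF1 hTF3 hNs hμ.le hτ hτ1
    set ε := d0 - nrm n N s μ τ (fun x => u₀ x - P.prof a t x) with hε
    have hεpos : 0 < ε := by rw [hε]; linarith
    refine ⟨(ε / (C + 1)) ^ 2, by positivity, fun v hv hvd => ⟨hv, ?_⟩⟩
    have h1 : Real.sqrt (sobolevDistSq (s + 14) v u₀) < ε / (C + 1) :=
      (Real.sqrt_lt' (by positivity)).2 hvd
    have h2 := hsob v u₀ hv hu₀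
    have h3 : C * Real.sqrt (sobolevDistSq (s + 14) v u₀) < ε := by
      have h4 : C * Real.sqrt (sobolevDistSq (s + 14) v u₀) ≤ C * (ε / (C + 1)) :=
        mul_le_mul_of_nonneg_left h1.le hC
      have h5 : C * (ε / (C + 1)) < ε := by
        rw [mul_div_assoc', div_lt_iff₀ (by positivity)]
        nlinarith
      linarith
    have h6 := nrm_tri (n := n) (N := N) (s := s) hTN hμ.le hτ.le hv hu₀ hp
    linarith

end Crest.Agent.R086.TI
end

-- ▼ part R086/Final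
section

/-!
Row 86, PART D-TORUS, node FINAL (helper333): `OneStep` and `Modul` imply the blow-up conclusion.
-/

set_option autoImplicit false

open MeasureTheory Complex Set Filter Topology
open scoped ContDiff
open Crest.AnalysisR.PDE.NLS (IsSmoothPeriodic sobolevDistSq IsClassicalSolution)

namespace Crest.Agent.R086.TI

open Profile

theorem final {n : ℕ} (P : Profile n) (N s : ℕ) (hNs : N + 1 ≤ s) (hTN : TN) (hTF1 : TF1)
    (hTF3 : TF3) (hTC4 : TC4) (hTC5 : TC5) (hTP : TP1 P) (hO : OneStep P N s)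
    (hM : Modul P N s) : BlowupConcl (n + 1) := by
  obtain ⟨μ, S, C, c, r, τ₁, M⟩ := exists_mstep P N s hTN hTP hO hM
  obtain ⟨d₀, τ₀, hd0, hτ0, hτ01, hseq⟩ := exists_seqs hTP M
  obtain ⟨hne, hsm, hop⟩ := open_set (N := N) (s := s) P hTF1 hTF3 hTN hTP (by omega) M.hμ hτ0 hτ01
    hd0 ⟨τ₀, 0, 0⟩ 0 (by simp)
  refine ⟨s + 14, by omega, _, hne, hsm, hop, ?_⟩
  rintro u₀ ⟨hu₀, hd⟩
  obtain ⟨B, q, a, t, u, H⟩ := hseq u₀ hu₀ hd.le
  obtain ⟨T, X, K, hK, hT, hTj, hXj⟩ := H.limits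
  have hTpos : 0 < T := by
    have h1 : t 1 ≤ T := H.strictMono.monotone.ge_of_tendsto hT 1
    have h2 := H.lt_succ 0
    rw [H.t0] at h2
    linarith
  obtain ⟨v, hv, hvu⟩ := hTC4 n P.neven P.two_le t T u H.t0 H.strictMono hT H.sol H.match_
  refine ⟨T, hTpos, v, hTC5 n P.neven P.two_le T v hTpos hv, ?_, X, ‖P.Q 0‖,
    norm_pos_iff.2 P.Q_zero, ?_⟩
  · have h1 := hvu 0 (t 0) ⟨le_rfl, (H.lt_succ 0).le⟩
    rw [H.t0] at h1
    rw [h1, H.u0]
  · have hnr : ∀ η : ℝ, 0 < η → ∃ ρ : ℝ, 0 < ρ ∧ ∀ (a : Par) (t : ℝ) (x : R12), 0 < a.T - t →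
        a.T - t ≤ 1 → ‖x - a.x‖ ≤ ρ * Real.sqrt (a.T - t) →
        |(a.T - t) ^ (1 / (n : ℝ)) * ‖P.prof a t x‖ - ‖P.Q 0‖| ≤ η := fun η hη => by
      obtain ⟨ρ, h1, _, h3⟩ := prof_near P hη
      exact ⟨ρ, h1, h3⟩
    have h1 := H.tendsto_value hTN hTP M.hμ.le hτ01 hnr hK hT hTj hXj hvu
    have e : ((n + 1 : ℕ) : ℝ) - 1 = (n : ℝ) := by push_cast; ring
    rw [e]
    exact h1

end Crest.Agent.R086.TI
end

-- ▼ part R086/Modul1
section

/-!
Row 86 (S0114), Part D-torus, node Modul (helper544), part 1: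
the coefficient integrals `G ψ f σ k`, their `σ`-derivative and integration by parts.
-/

set_option autoImplicit false

open MeasureTheory Complex Set Filter
open scoped ContDiff Topology

namespace Crest.Agent.R086.MOD

noncomputable section

/-- smooth cut-offs supported in the ball of radius 2 -/
def Good (ψ : R12 → ℂ) : Prop := ContDiff ℝ ∞ ψ ∧ ∀ x : R12, 2 ≤ ‖x‖ → ψ x = 0

/-- `e^{-ik·x}` -/
def ek (k : Z12) (x : R12) : ℂ := exp (-(I * ((inner ℝ (zv k) x : ℝ) : ℂ)))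

/-- coefficient integral `(2π)^{-12} ∫ ψ(x) f(x/σ) e^{-ik·x} dx` -/
def G (ψ f : R12 → ℂ) (σ : ℝ) (k : Z12) : ℂ :=
  ((((2 * Real.pi) ^ 12 : ℝ)) : ℂ)⁻¹ * ∫ x : R12, ψ x * f (σ⁻¹ • x) * ek k x


theorem contDiff_ek (k : Z12) : ContDiff ℝ ∞ (ek k) := by
  unfold ek
  apply ContDiff.cexp
  apply ContDiff.neg
  apply contDiff_const.mul
  exact Complex.ofRealCLM.contDiff.comp (contDiff_const.inner ℝ contDiff_id)

theorem Good.hasCompactSupport {ψ : R12 → ℂ} (h : Good ψ) : HasCompactSupport ψ := by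
  apply HasCompactSupport.intro (isCompact_closedBall (0 : R12) 2)
  intro x hx
  apply h.2
  simp only [Metric.mem_closedBall, dist_zero_right, not_le] at hx
  exact hx.le

theorem integrable_G {ψ f : R12 → ℂ} (h : Good ψ) (hf : Continuous f) (σ : ℝ) (k : Z12) :
    Integrable (fun x : R12 => ψ x * f (σ⁻¹ • x) * ek k x) := by
  apply Continuous.integrable_of_hasCompactSupport
  · exact (h.1.continuous.mul (hf.comp (continuous_const_smul _))).mul (contDiff_ek k).continuous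
  · exact (h.hasCompactSupport.mul_right (f' := fun x => f (σ⁻¹ • x))).mul_right

theorem continuous_eul {f : R12 → ℂ} (hf : ContDiff ℝ 1 f) : Continuous (eul f) := by
  unfold eul
  exact (hf.continuous_fderiv (by norm_num)).clm_apply continuous_id

/-- `d/dσ G ψ f σ = -σ⁻¹ G ψ (eul f) σ` -/
theorem hasDerivAt_G {ψ f : R12 → ℂ} (h : Good ψ) (hf : ContDiff ℝ 1 f) {σ : ℝ} (hσ : 0 < σ)
    (k : Z12) : HasDerivAt (fun s => G ψ f s k) (-(σ : ℂ)⁻¹ * G ψ (eul f) σ k) σ := by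
  have heul := continuous_eul hf
  have hcomp : IsCompact (Icc (σ / 2) (2 * σ) ×ˢ Metric.closedBall (0 : R12) 2) :=
    isCompact_Icc.prod (isCompact_closedBall _ _)
  have hinv : ContinuousOn (fun q : ℝ × R12 => q.1⁻¹)
      (Icc (σ / 2) (2 * σ) ×ˢ Metric.closedBall (0 : R12) 2) := by
    apply ContinuousOn.inv₀ continuous_fst.continuousOn
    rintro ⟨s, x⟩ ⟨hs, -⟩
    have : 0 < s := lt_of_lt_of_le (by positivity) hs.1
    exact this.ne'
  have hcont : ContinuousOn (fun q : ℝ × R12 =>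
      ψ q.2 * (-((q.1⁻¹ : ℝ) : ℂ) * eul f (q.1⁻¹ • q.2)) * ek k q.2)
      (Icc (σ / 2) (2 * σ) ×ˢ Metric.closedBall (0 : R12) 2) := by
    apply ContinuousOn.mul
    · apply ContinuousOn.mul (h.1.continuous.comp continuous_snd).continuousOn
      apply ContinuousOn.mul
      · exact (Complex.continuous_ofReal.comp_continuousOn hinv).neg
      · exact heul.comp_continuousOn (hinv.smul continuous_snd.continuousOn)
    · exact ((contDiff_ek k).continuous.comp continuous_snd).continuousOn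
  obtain ⟨B, hB⟩ := hcomp.exists_bound_of_continuousOn hcont
  have hs : Ioo (σ / 2) (2 * σ) ∈ 𝓝 σ := Ioo_mem_nhds (by linarith) (by linarith)
  have hmain := hasDerivAt_integral_of_dominated_loc_of_deriv_le (μ := (volume : Measure R12))
    (F := fun (s : ℝ) (x : R12) => ψ x * f (s⁻¹ • x) * ek k x)
    (F' := fun (s : ℝ) (x : R12) => ψ x * (-((s⁻¹ : ℝ) : ℂ) * eul f (s⁻¹ • x)) * ek k x)
    (x₀ := σ) (s := Ioo (σ / 2) (2 * σ))
    (bound := (Metric.closedBall (0 : R12) 2).indicator (fun _ => B)) hs ?_ ?_ ?_ ?_ ?_ ?_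
  · have h2 := hmain.2.const_mul ((((2 * Real.pi) ^ 12 : ℝ)) : ℂ)⁻¹
    have e : -(σ : ℂ)⁻¹ * G ψ (eul f) σ k = ((((2 * Real.pi) ^ 12 : ℝ)) : ℂ)⁻¹ *
        ∫ x : R12, ψ x * (-((σ⁻¹ : ℝ) : ℂ) * eul f (σ⁻¹ • x)) * ek k x := by
      unfold G
      rw [mul_left_comm, ← integral_const_mul]
      congr 1
      apply integral_congr_ae
      filter_upwards with x
      push_cast
      ring
    rw [e]
    exact h2
  · filter_upwards with s
    exact (integrable_G h hf.continuous s k).aestronglyMeasurable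
  · exact integrable_G h hf.continuous σ k
  · apply Continuous.aestronglyMeasurable
    exact (h.1.continuous.mul (continuous_const.mul (heul.comp (continuous_const_smul _)))).mul
      (contDiff_ek k).continuous
  · filter_upwards with x
    intro s hs
    by_cases hx : x ∈ Metric.closedBall (0 : R12) 2
    · rw [Set.indicator_of_mem hx]
      exact hB (s, x) ⟨Ioo_subset_Icc_self hs, hx⟩
    · rw [Set.indicator_of_notMem hx]
      have : ψ x = 0 := by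
        apply h.2
        simp only [Metric.mem_closedBall, dist_zero_right, not_le] at hx
        exact hx.le
      rw [this]; simp
  · rw [integrable_indicator_iff Metric.isClosed_closedBall.measurableSet]
    exact integrableOn_const (by exact (measure_closedBall_lt_top).ne)
  · filter_upwards with x
    intro s hs
    have hs0 : 0 < s := lt_of_lt_of_le (by positivity) hs.1.le
    have h1 : HasDerivAt (fun s : ℝ => s⁻¹ • x) ((-(s ^ 2)⁻¹) • x) s :=
      (hasDerivAt_inv hs0.ne').smul_const x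
    have h2 : HasFDerivAt f (fderiv ℝ f (s⁻¹ • x)) (s⁻¹ • x) :=
      (hf.differentiable (by norm_num)).differentiableAt.hasFDerivAt
    have h3 := h2.comp_hasDerivAt s h1
    have h4 : fderiv ℝ f (s⁻¹ • x) ((-(s ^ 2)⁻¹) • x) = -((s⁻¹ : ℝ) : ℂ) * eul f (s⁻¹ • x) := by
      unfold eul
      have : (-(s ^ 2)⁻¹) • x = (-s⁻¹) • (s⁻¹ • x) := by
        rw [smul_smul]; congr 1; field_simp
      rw [this, map_smul, Complex.real_smul]
      push_cast
      ring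
    rw [h4] at h3
    exact (h3.const_mul (ψ x)).mul_const (ek k x)

theorem Good.dderiv {ψ : R12 → ℂ} (h : Good ψ) (v : R12) : Good (fun x => fderiv ℝ ψ x v) := by
  refine ⟨?_, ?_⟩
  · exact (h.1.fderiv_right (m := ∞) (by simp)).clm_apply contDiff_const
  · intro x hx
    -- the derivative vanishes on the closed set where `ψ = 0`... by continuity from outside
    have hcl : ∀ y : R12, 2 < ‖y‖ → fderiv ℝ ψ y = 0 := by
      intro y hy
      have hev : ψ =ᶠ[𝓝 y] fun _ => 0 := by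
        filter_upwards [(isOpen_lt continuous_const continuous_norm).mem_nhds hy] with z hz
        exact h.2 z (le_of_lt hz)
      rw [hev.fderiv_eq]; simp
    have hcont : Continuous (fderiv ℝ ψ) := h.1.continuous_fderiv (by simp)
    have hx0 : x ≠ 0 := by
      intro h0; rw [h0] at hx; simp at hx; linarith
    have hlim : Tendsto (fun t : ℝ => fderiv ℝ ψ (t • x)) (𝓝[>] 1) (𝓝 (fderiv ℝ ψ x)) := by
      have h1 : Continuous (fun t : ℝ => fderiv ℝ ψ (t • x)) :=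
        hcont.comp (continuous_id.smul continuous_const)
      have h2 := h1.tendsto 1
      rw [one_smul] at h2
      exact h2.mono_left nhdsWithin_le_nhds
    have hzero : fderiv ℝ ψ x = 0 := by
      apply tendsto_nhds_unique hlim
      apply tendsto_const_nhds.congr'
      filter_upwards [self_mem_nhdsWithin] with t ht
      symm
      apply hcl
      rw [norm_smul, Real.norm_of_nonneg (le_of_lt (lt_trans one_pos ht))]
      have ht' : (1 : ℝ) < t := ht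
      have : 0 < ‖x‖ := norm_pos_iff.2 hx0
      nlinarith
    simp only [hzero]
    rfl

theorem hasFDerivAt_ek (k : Z12) (x : R12) :
    fderiv ℝ (ek k) x = (-(I * ek k x)) • (Complex.ofRealCLM.comp (innerSL ℝ (zv k))) := by
  have h1 : HasFDerivAt (fun x : R12 => -(I * ((inner ℝ (zv k) x : ℝ) : ℂ)))
      (-(I • (Complex.ofRealCLM.comp (innerSL ℝ (zv k) : R12 →L[ℝ] ℝ)))) x := by
    apply HasFDerivAt.neg
    have := (Complex.ofRealCLM.comp (innerSL ℝ (zv k) : R12 →L[ℝ] ℝ)).hasFDerivAt (x := x)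
    exact this.const_mul I
  have h2 := h1.cexp
  have h3 : fderiv ℝ (ek k) x = _ := h2.fderiv
  rw [h3]
  ext v
  simp [ek]
  ring

/-- integration by parts: `i k_v G ψ f = G (∂_v ψ) f + σ⁻¹ G ψ (∂_v f)` -/
theorem ibp {ψ f : R12 → ℂ} (h : Good ψ) (hf : ContDiff ℝ 1 f) {σ : ℝ} (hσ : 0 < σ)
    (k : Z12) (v : R12) :
    I * ((inner ℝ (zv k) v : ℝ) : ℂ) * G ψ f σ k =
      G (fun x => fderiv ℝ ψ x v) f σ k + (σ : ℂ)⁻¹ * G ψ (fun y => fderiv ℝ f y v) σ k := by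
  have hψ1 : ContDiff ℝ 1 ψ := h.1.of_le (by exact_mod_cast le_top)
  have hfs : ContDiff ℝ 1 (fun x : R12 => f (σ⁻¹ • x)) := hf.comp (contDiff_const_smul _)
  have hprod : ContDiff ℝ 1 (fun x : R12 => ψ x * f (σ⁻¹ • x)) := hψ1.mul hfs
  have hek : ContDiff ℝ 1 (ek k) := (contDiff_ek k).of_le (by exact_mod_cast le_top)
  have hcs : HasCompactSupport (fun x : R12 => ψ x * f (σ⁻¹ • x)) :=
    h.hasCompactSupport.mul_right (f' := fun x => f (σ⁻¹ • x))
  have hdf : ∀ x : R12, fderiv ℝ (fun x : R12 => f (σ⁻¹ • x)) x v =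
      (σ : ℂ)⁻¹ * fderiv ℝ f (σ⁻¹ • x) v := by
    intro x
    have h2 : HasFDerivAt f (fderiv ℝ f (σ⁻¹ • x)) (σ⁻¹ • x) :=
      (hf.differentiable (by norm_num)).differentiableAt.hasFDerivAt
    have h3 : HasFDerivAt (fun x : R12 => σ⁻¹ • x) (σ⁻¹ • ContinuousLinearMap.id ℝ R12) x :=
      (hasFDerivAt_id x).const_smul σ⁻¹
    have h4 := h2.comp x h3
    have h5 : fderiv ℝ (fun x : R12 => f (σ⁻¹ • x)) x = _ := h4.fderiv
    rw [h5]
    simp
  have hdp : ∀ x : R12, fderiv ℝ (fun x : R12 => ψ x * f (σ⁻¹ • x)) x v =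
      fderiv ℝ ψ x v * f (σ⁻¹ • x) + (σ : ℂ)⁻¹ * (ψ x * fderiv ℝ f (σ⁻¹ • x) v) := by
    intro x
    rw [fderiv_fun_mul (hψ1.differentiable (by norm_num)).differentiableAt
      (hfs.differentiable (by norm_num)).differentiableAt]
    simp only [add_apply, smul_apply, smul_eq_mul, hdf x]
    ring
  have key := integral_mul_fderiv_eq_neg_fderiv_mul_of_integrable (μ := (volume : Measure R12))
    (f := fun x : R12 => ψ x * f (σ⁻¹ • x)) (g := ek k) (v := v) ?_ ?_ ?_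
    (fun x _ => (hprod.differentiable (by norm_num)).differentiableAt)
    (fun x _ => (hek.differentiable (by norm_num)).differentiableAt)
  · have e1 : ∫ x, (ψ x * f (σ⁻¹ • x)) * fderiv ℝ (ek k) x v =
        -(I * ((inner ℝ (zv k) v : ℝ) : ℂ)) * ∫ x, ψ x * f (σ⁻¹ • x) * ek k x := by
      rw [← integral_const_mul]
      apply integral_congr_ae
      filter_upwards with x
      rw [hasFDerivAt_ek]
      simp
      ring
    have e2 : ∫ x, fderiv ℝ (fun x : R12 => ψ x * f (σ⁻¹ • x)) x v * ek k x =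
        (∫ x, fderiv ℝ ψ x v * f (σ⁻¹ • x) * ek k x) +
          (σ : ℂ)⁻¹ * ∫ x, ψ x * fderiv ℝ f (σ⁻¹ • x) v * ek k x := by
      rw [← integral_const_mul, ← integral_add]
      · apply integral_congr_ae
        filter_upwards with x
        rw [hdp x]
        ring
      · exact integrable_G (h.dderiv v) hf.continuous σ k
      · apply Integrable.const_mul
        exact integrable_G (f := fun y => fderiv ℝ f y v) h
          ((hf.continuous_fderiv (by norm_num)).clm_apply continuous_const) σ k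
    rw [e1, e2] at key
    unfold G
    have : I * ((inner ℝ (zv k) v : ℝ) : ℂ) * ∫ x, ψ x * f (σ⁻¹ • x) * ek k x =
        (∫ x, fderiv ℝ ψ x v * f (σ⁻¹ • x) * ek k x) +
          (σ : ℂ)⁻¹ * ∫ x, ψ x * fderiv ℝ f (σ⁻¹ • x) v * ek k x := by
      linear_combination -key
    linear_combination ((((2 * Real.pi) ^ 12 : ℝ)) : ℂ)⁻¹ * this
  · apply Continuous.integrable_of_hasCompactSupport
    · exact ((hprod.continuous_fderiv (by norm_num)).clm_apply continuous_const).mul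
        (contDiff_ek k).continuous
    · exact (hcs.fderiv_apply (𝕜 := ℝ) v).mul_right
  · apply Continuous.integrable_of_hasCompactSupport
    · exact hprod.continuous.mul ((hek.continuous_fderiv (by norm_num)).clm_apply continuous_const)
    · exact hcs.mul_right
  · apply Continuous.integrable_of_hasCompactSupport
    · exact hprod.continuous.mul (contDiff_ek k).continuous
    · exact hcs.mul_right

end

end Crest.Agent.R086.MOD
end

-- ▼ part R086/Modul2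
section

/-!
Row 86 (S0114), Part D-torus, node Modul (helper544), part 2:
second order Taylor expansion of the coefficient curve.
-/

set_option autoImplicit false

open MeasureTheory Complex Set Filter
open scoped ContDiff Topology

namespace Crest.Agent.R086.MOD

noncomputable section

/-- weighted second order Taylor estimate -/
theorem taylor2 {ι : Type*} (F : Finset ι) (w : ι → ℝ) (hw : ∀ k, 0 ≤ w k)
    (c c1 c2 : ι → ℝ → ℂ) (M : ℝ)
    (h0 : ∀ k ∈ F, ∀ θ ∈ Icc (0 : ℝ) 1, HasDerivAt (c k) (c1 k θ) θ)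
    (h1 : ∀ k ∈ F, ∀ θ ∈ Icc (0 : ℝ) 1, HasDerivAt (c1 k) (c2 k θ) θ)
    (hM : ∀ θ ∈ Icc (0 : ℝ) 1, ∑ k ∈ F, w k * ‖c2 k θ‖ ≤ M) :
    ∑ k ∈ F, w k * ‖c k 1 - c k 0 - c1 k 0‖ ≤ M := by
  set d : ι → ℂ := fun k => c k 1 - c k 0 - c1 k 0 with hd
  have hu : ∀ k, ∃ u : ℂ, ‖u‖ ≤ 1 ∧ u * d k = (‖d k‖ : ℂ) := by
    intro k
    by_cases hk : d k = 0
    · exact ⟨0, by simp, by simp [hk]⟩
    · have hn : (‖d k‖ : ℂ) ≠ 0 := by exact_mod_cast norm_ne_zero_iff.2 hk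
      refine ⟨starRingEnd ℂ (d k) / ‖d k‖, ?_, ?_⟩
      · rw [norm_div, RCLike.norm_conj, Complex.norm_real, norm_norm,
          div_self (norm_ne_zero_iff.2 hk)]
      · rw [div_mul_eq_mul_div, mul_comm, Complex.mul_conj, Complex.normSq_eq_norm_sq]
        push_cast
        field_simp
  choose u hu1 hu2 using hu
  set φ : ℝ → ℂ := fun θ => ∑ k ∈ F, (w k : ℂ) * u k * c k θ with hφ
  set φ1 : ℝ → ℂ := fun θ => ∑ k ∈ F, (w k : ℂ) * u k * c1 k θ with hφ1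
  have hM0 : 0 ≤ M := by
    refine le_trans ?_ (hM 0 ⟨le_rfl, zero_le_one⟩)
    exact Finset.sum_nonneg (fun k _ => mul_nonneg (hw k) (norm_nonneg _))
  have dφ : ∀ θ ∈ Icc (0 : ℝ) 1, HasDerivAt φ (φ1 θ) θ := by
    intro θ hθ
    exact HasDerivAt.fun_sum (fun k hk => (h0 k hk θ hθ).const_mul _)
  have dφ1 : ∀ θ ∈ Icc (0 : ℝ) 1,
      HasDerivAt φ1 (∑ k ∈ F, (w k : ℂ) * u k * c2 k θ) θ := by
    intro θ hθ
    exact HasDerivAt.fun_sum (fun k hk => (h1 k hk θ hθ).const_mul _)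
  have hb : ∀ θ ∈ Icc (0 : ℝ) 1, ‖∑ k ∈ F, (w k : ℂ) * u k * c2 k θ‖ ≤ M := by
    intro θ hθ
    refine (norm_sum_le _ _).trans (le_trans ?_ (hM θ hθ))
    apply Finset.sum_le_sum
    intro k _
    rw [norm_mul, norm_mul, Complex.norm_real, Real.norm_of_nonneg (hw k)]
    have := hu1 k
    have h2 := norm_nonneg (c2 k θ)
    have h3 := hw k
    nlinarith [mul_nonneg h3 h2]
  have s1 : ∀ θ ∈ Icc (0 : ℝ) 1, ‖φ1 θ - φ1 0‖ ≤ M := by
    intro θ hθ
    have := (convex_Icc (0 : ℝ) 1).norm_image_sub_le_of_norm_hasDerivWithin_le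
      (f := φ1) (f' := fun θ => ∑ k ∈ F, (w k : ℂ) * u k * c2 k θ) (C := M)
      (fun x hx => (dφ1 x hx).hasDerivWithinAt) hb ⟨le_rfl, zero_le_one⟩ hθ
    refine this.trans ?_
    rw [sub_zero, Real.norm_of_nonneg hθ.1]
    nlinarith [hθ.2]
  have s2 : ‖(φ 1 - (1 : ℝ) • φ1 0) - (φ 0 - (0 : ℝ) • φ1 0)‖ ≤ M * ‖(1 : ℝ) - 0‖ := by
    apply (convex_Icc (0 : ℝ) 1).norm_image_sub_le_of_norm_hasDerivWithin_le
      (f := fun θ : ℝ => φ θ - θ • φ1 0) (f' := fun θ => φ1 θ - (1 : ℝ) • φ1 0) (C := M)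
    · intro x hx
      apply HasDerivAt.hasDerivWithinAt
      exact (dφ x hx).fun_sub ((hasDerivAt_id x).smul_const (φ1 0))
    · intro x hx
      rw [one_smul]
      exact s1 x hx
    · exact ⟨le_rfl, zero_le_one⟩
    · exact ⟨zero_le_one, le_rfl⟩
  have s3 : (φ 1 - (1 : ℝ) • φ1 0) - (φ 0 - (0 : ℝ) • φ1 0) =
      ((∑ k ∈ F, w k * ‖d k‖ : ℝ) : ℂ) := by
    rw [one_smul, zero_smul, sub_zero]
    simp only [hφ, hφ1]
    push_cast
    rw [← Finset.sum_sub_distrib, ← Finset.sum_sub_distrib]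
    apply Finset.sum_congr rfl
    intro k _
    rw [← hu2 k, hd]
    ring
  rw [s3, Complex.norm_real, sub_zero, norm_one, mul_one] at s2
  exact (le_abs_self _).trans s2

/-! ### the coefficient curve -/

/-- `1 - θ bT` -/
def lam (bT θ : ℝ) : ℝ := 1 - θ * bT

theorem lam_bounds {bT θ : ℝ} (hb : |bT| ≤ 1 / 4) (hθ : θ ∈ Icc (0 : ℝ) 1) :
    3 / 4 ≤ lam bT θ ∧ lam bT θ ≤ 5 / 4 := by
  have h := abs_le.1 hb
  unfold lam
  constructor <;> nlinarith [hθ.1, hθ.2]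

theorem hasDerivAt_lam (bT θ : ℝ) : HasDerivAt (lam bT) (-bT) θ := by
  unfold lam
  have := ((hasDerivAt_id θ).mul_const bT).const_sub 1
  simpa using this

/-- exponential factor -/
def EE (z : ℂ) (bT A θ : ℝ) : ℂ := exp (I * (θ : ℂ) * (A : ℂ) + z * ((Real.log (lam bT θ) : ℝ) : ℂ))

/-- logarithmic derivative of `EE` -/
def pp (z : ℂ) (bT A θ : ℝ) : ℂ := I * (A : ℂ) - z * (((bT * (lam bT θ)⁻¹ : ℝ)) : ℂ)

theorem hasDerivAt_EE (z : ℂ) {bT : ℝ} (A : ℝ) {θ : ℝ} (hl : 0 < lam bT θ) :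
    HasDerivAt (EE z bT A) (pp z bT A θ * EE z bT A θ) θ := by
  have h1 : HasDerivAt (fun θ : ℝ => I * (θ : ℂ) * (A : ℂ)) (I * (A : ℂ)) θ := by
    have := ((Complex.ofRealCLM.hasDerivAt (x := θ)).const_mul I).mul_const (A : ℂ)
    simpa using this
  have h2 : HasDerivAt (fun θ : ℝ => ((Real.log (lam bT θ) : ℝ) : ℂ))
      (((-bT / lam bT θ : ℝ)) : ℂ) θ :=
    ((hasDerivAt_lam bT θ).log hl.ne').ofReal_comp
  have h3 := (h1.add (h2.const_mul z)).cexp
  have h4 : (exp ((fun θ : ℝ => I * (θ : ℂ) * (A : ℂ)) θ +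
      (fun y : ℝ => z * ((Real.log (lam bT y) : ℝ) : ℂ)) θ)) = EE z bT A θ := rfl
  refine h3.congr_deriv ?_
  change EE z bT A θ * (I * (A : ℂ) + z * (((-bT / lam bT θ : ℝ)) : ℂ)) = _
  unfold pp
  push_cast
  ring

theorem hasDerivAt_inv_lam {bT θ : ℝ} (hl : 0 < lam bT θ) :
    HasDerivAt (fun θ => (lam bT θ)⁻¹) (bT * ((lam bT θ)⁻¹) ^ 2) θ := by
  have := (hasDerivAt_lam bT θ).inv hl.ne'
  refine this.congr_deriv ?_
  field_simp

theorem hasDerivAt_pp (z : ℂ) {bT : ℝ} (A : ℝ) {θ : ℝ} (hl : 0 < lam bT θ) :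
    HasDerivAt (pp z bT A) (-(z * ((bT ^ 2 * ((lam bT θ)⁻¹) ^ 2 : ℝ) : ℂ))) θ := by
  have h1 := ((hasDerivAt_inv_lam hl).const_mul bT).ofReal_comp
  have h2 := (h1.const_mul z).const_sub (I * (A : ℂ))
  refine h2.congr_deriv ?_
  push_cast
  ring

/-- the scale `σ(θ) = √(τ (1 - θ bT))` -/
def sg (τ bT θ : ℝ) : ℝ := Real.sqrt (τ * lam bT θ)

theorem sg_pos {τ bT θ : ℝ} (hτ : 0 < τ) (hl : 0 < lam bT θ) : 0 < sg τ bT θ :=
  Real.sqrt_pos.2 (mul_pos hτ hl)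

theorem hasDerivAt_sg {τ bT θ : ℝ} (hτ : 0 < τ) (hl : 0 < lam bT θ) :
    HasDerivAt (sg τ bT) (-(τ * bT) / (2 * sg τ bT θ)) θ := by
  have h1 := (hasDerivAt_lam bT θ).const_mul τ
  have h2 := h1.sqrt (mul_pos hτ hl).ne'
  refine h2.congr_deriv ?_
  unfold sg
  ring

theorem hasDerivAt_Gsg {ψ f : R12 → ℂ} (h : Good ψ) (hf : ContDiff ℝ 1 f) {τ bT θ : ℝ}
    (hτ : 0 < τ) (hl : 0 < lam bT θ) (k : Z12) :
    HasDerivAt (fun θ => G ψ f (sg τ bT θ) k)
      (((bT * (lam bT θ)⁻¹ / 2 : ℝ) : ℂ) * G ψ (eul f) (sg τ bT θ) k) θ := by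
  have hσ := sg_pos hτ hl
  have h1 := hasDerivAt_G h hf hσ k
  have h2 := h1.scomp θ (hasDerivAt_sg hτ hl)
  refine h2.congr_deriv ?_
  rw [Complex.real_smul, ← mul_assoc]
  congr 1
  have hsq : sg τ bT θ ^ 2 = τ * lam bT θ := Real.sq_sqrt (mul_pos hτ hl).le
  have hσc : (sg τ bT θ : ℂ) ≠ 0 := by exact_mod_cast hσ.ne'
  have hreal : -(τ * bT) / (2 * sg τ bT θ) * (-(sg τ bT θ)⁻¹) = bT * (lam bT θ)⁻¹ / 2 := by
    have h3 : -(τ * bT) / (2 * sg τ bT θ) * (-(sg τ bT θ)⁻¹) = (τ * bT) / (2 * sg τ bT θ ^ 2) := by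
      field_simp
    rw [h3, hsq]
    field_simp
  rw [← hreal]
  push_cast
  ring

/-- first derivative of the curve -/
def C1 (z : ℂ) (bT A : ℝ) (g0 g1 : ℝ → ℂ) (θ : ℝ) : ℂ :=
  EE z bT A θ * (pp z bT A θ * g0 θ + ((bT * (lam bT θ)⁻¹ / 2 : ℝ) : ℂ) * g1 θ)

/-- second derivative of the curve -/
def C2 (z : ℂ) (bT A : ℝ) (g0 g1 g2 : ℝ → ℂ) (θ : ℝ) : ℂ :=
  EE z bT A θ * ((pp z bT A θ) ^ 2 * g0 θ
    + 2 * (pp z bT A θ * (((bT * (lam bT θ)⁻¹ / 2 : ℝ) : ℂ) * g1 θ))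
    - z * ((bT ^ 2 * ((lam bT θ)⁻¹) ^ 2 : ℝ) : ℂ) * g0 θ
    + ((bT ^ 2 * ((lam bT θ)⁻¹) ^ 2 / 2 : ℝ) : ℂ) * g1 θ
    + ((bT * (lam bT θ)⁻¹ / 2 : ℝ) : ℂ) ^ 2 * g2 θ)

theorem hasDerivAt_C0 (z : ℂ) {bT : ℝ} (A : ℝ) {θ : ℝ} (hl : 0 < lam bT θ) {g0 g1 : ℝ → ℂ}
    (hg0 : HasDerivAt g0 (((bT * (lam bT θ)⁻¹ / 2 : ℝ) : ℂ) * g1 θ) θ) :
    HasDerivAt (fun θ => EE z bT A θ * g0 θ) (C1 z bT A g0 g1 θ) θ := by
  refine ((hasDerivAt_EE z A hl).fun_mul hg0).congr_deriv ?_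
  unfold C1
  ring

theorem hasDerivAt_C1 (z : ℂ) {bT : ℝ} (A : ℝ) {θ : ℝ} (hl : 0 < lam bT θ) {g0 g1 g2 : ℝ → ℂ}
    (hg0 : HasDerivAt g0 (((bT * (lam bT θ)⁻¹ / 2 : ℝ) : ℂ) * g1 θ) θ)
    (hg1 : HasDerivAt g1 (((bT * (lam bT θ)⁻¹ / 2 : ℝ) : ℂ) * g2 θ) θ) :
    HasDerivAt (C1 z bT A g0 g1) (C2 z bT A g0 g1 g2 θ) θ := by
  have h1 : HasDerivAt (fun θ => ((bT * (lam bT θ)⁻¹ / 2 : ℝ) : ℂ))
      ((bT * (bT * ((lam bT θ)⁻¹) ^ 2) / 2 : ℝ) : ℂ) θ :=
    (((hasDerivAt_inv_lam hl).const_mul bT).div_const 2).ofReal_comp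
  have h2 := (hasDerivAt_EE z A hl).fun_mul
    (((hasDerivAt_pp z A hl).fun_mul hg0).fun_add (h1.fun_mul hg1))
  refine h2.congr_deriv ?_
  unfold C2
  push_cast
  ring

theorem norm_EE_le {z : ℂ} {bT A θ : ℝ} (hz0 : z.re ≤ 0) (hz : -1 ≤ z.re) (hb : |bT| ≤ 1 / 4)
    (hθ : θ ∈ Icc (0 : ℝ) 1) : ‖EE z bT A θ‖ ≤ 2 := by
  obtain ⟨h1, h2⟩ := lam_bounds hb hθ
  unfold EE
  rw [Complex.norm_exp]
  have h3 : (I * (θ : ℂ) * (A : ℂ) + z * ((Real.log (lam bT θ) : ℝ) : ℂ)).re =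
      z.re * Real.log (lam bT θ) := by
    simp
  rw [h3]
  have hl : 0 < lam bT θ := by linarith
  have h4 : 1 - (lam bT θ)⁻¹ ≤ Real.log (lam bT θ) := Real.one_sub_inv_le_log_of_pos hl
  have h5 : (lam bT θ)⁻¹ ≤ 4 / 3 := by
    rw [inv_le_comm₀ hl (by norm_num)]; norm_num; linarith
  have h6 : z.re * Real.log (lam bT θ) ≤ 1 / 3 := by nlinarith
  have h7 : Real.exp (1 / 3) ≤ 2 := by
    have : (1 / 3 : ℝ) ≤ Real.log 2 := by
      have := Real.log_two_gt_d9; linarith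
    calc Real.exp (1 / 3) ≤ Real.exp (Real.log 2) := Real.exp_le_exp.2 this
      _ = 2 := Real.exp_log (by norm_num)
  exact (Real.exp_le_exp.2 h6).trans h7

theorem sq_expand (a Z : ℝ) : (a + 2 * Z + 1) ^ 2 = (a + 2 * Z) ^ 2 + 2 * (a + 2 * Z) + 1 := by ring

theorem norm_C2_le {z : ℂ} {bT A θ β a Z : ℝ} (hz0 : z.re ≤ 0) (hz : -1 ≤ z.re) (hZ : ‖z‖ ≤ Z)
    (hb : |bT| ≤ β) (hβ : β ≤ 1 / 4) (hA : |A| ≤ β * a) (ha : 1 ≤ a) (hZ1 : 1 ≤ Z)
    (hθ : θ ∈ Icc (0 : ℝ) 1) (g0 g1 g2 : ℝ → ℂ) :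
    ‖C2 z bT A g0 g1 g2 θ‖ ≤
      2 * β ^ 2 * (a + 2 * Z + 1) ^ 2 * (‖g0 θ‖ + ‖g1 θ‖ + ‖g2 θ‖) := by
  have hb4 : |bT| ≤ 1 / 4 := hb.trans hβ
  have hβ0 : 0 ≤ β := (abs_nonneg _).trans hb
  obtain ⟨hl1, hl2⟩ := lam_bounds hb4 hθ
  have hl : 0 < lam bT θ := by linarith
  have hE := norm_EE_le (A := A) hz0 hz hb4 hθ
  have hu0 : 0 < (lam bT θ)⁻¹ := inv_pos.2 hl
  have hu : (lam bT θ)⁻¹ ≤ 4 / 3 := by
    rw [inv_le_comm₀ hl (by norm_num)]; norm_num; linarith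
  set u := (lam bT θ)⁻¹ with hudef
  have hbu : |bT * u| ≤ β * (4 / 3) := by
    rw [abs_mul, abs_of_pos hu0]
    exact mul_le_mul hb hu hu0.le hβ0
  have hp : ‖pp z bT A θ‖ ≤ β * (a + 2 * Z) := by
    unfold pp
    refine (norm_sub_le _ _).trans ?_
    rw [norm_mul, norm_mul, Complex.norm_I, Complex.norm_real, Complex.norm_real, one_mul,
      Real.norm_eq_abs, Real.norm_eq_abs, ← hudef]
    have h1 : ‖z‖ * |bT * u| ≤ Z * (β * (4 / 3)) :=
      mul_le_mul hZ hbu (abs_nonneg _) (by linarith)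
    nlinarith [mul_nonneg hβ0 (by linarith : (0 : ℝ) ≤ Z)]
  have hc1 : ‖((bT * u / 2 : ℝ) : ℂ)‖ ≤ β := by
    rw [Complex.norm_real, Real.norm_eq_abs, abs_div, abs_two]
    linarith
  have hbb : bT ^ 2 * u ^ 2 ≤ 2 * β ^ 2 := by
    have h1 : bT ^ 2 * u ^ 2 = |bT * u| ^ 2 := by rw [sq_abs]; ring
    rw [h1]
    nlinarith [abs_nonneg (bT * u)]
  have hbb0 : 0 ≤ bT ^ 2 * u ^ 2 := by positivity
  have hc2 : ‖((bT ^ 2 * u ^ 2 : ℝ) : ℂ)‖ ≤ 2 * β ^ 2 := by
    rw [Complex.norm_real, Real.norm_of_nonneg hbb0]; exact hbb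
  have hc3 : ‖((bT ^ 2 * u ^ 2 / 2 : ℝ) : ℂ)‖ ≤ β ^ 2 := by
    rw [Complex.norm_real, Real.norm_of_nonneg (by positivity)]; linarith
  have hg0 := norm_nonneg (g0 θ)
  have hg1 := norm_nonneg (g1 θ)
  have hg2 := norm_nonneg (g2 θ)
  have t1 : ‖(pp z bT A θ) ^ 2 * g0 θ‖ ≤ (β * (a + 2 * Z)) ^ 2 * ‖g0 θ‖ := by
    rw [norm_mul, norm_pow]
    gcongr
  have t2 : ‖2 * (pp z bT A θ * (((bT * u / 2 : ℝ) : ℂ) * g1 θ))‖ ≤
      2 * (β * (a + 2 * Z) * (β * ‖g1 θ‖)) := by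
    rw [norm_mul, norm_mul, norm_mul, Complex.norm_ofNat]
    gcongr
  have t3 : ‖z * ((bT ^ 2 * u ^ 2 : ℝ) : ℂ) * g0 θ‖ ≤ Z * (2 * β ^ 2) * ‖g0 θ‖ := by
    rw [norm_mul, norm_mul]
    gcongr
  have t4 : ‖((bT ^ 2 * u ^ 2 / 2 : ℝ) : ℂ) * g1 θ‖ ≤ β ^ 2 * ‖g1 θ‖ := by
    rw [norm_mul]
    gcongr
  have t5 : ‖((bT * u / 2 : ℝ) : ℂ) ^ 2 * g2 θ‖ ≤ β ^ 2 * ‖g2 θ‖ := by
    rw [norm_mul, norm_pow]
    gcongr
  unfold C2
  rw [norm_mul]
  have hsum : ‖(pp z bT A θ) ^ 2 * g0 θ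
    + 2 * (pp z bT A θ * (((bT * u / 2 : ℝ) : ℂ) * g1 θ))
    - z * ((bT ^ 2 * u ^ 2 : ℝ) : ℂ) * g0 θ
    + ((bT ^ 2 * u ^ 2 / 2 : ℝ) : ℂ) * g1 θ
    + ((bT * u / 2 : ℝ) : ℂ) ^ 2 * g2 θ‖ ≤
      β ^ 2 * (a + 2 * Z + 1) ^ 2 * (‖g0 θ‖ + ‖g1 θ‖ + ‖g2 θ‖) := by
    have n1 := norm_add_le ((pp z bT A θ) ^ 2 * g0 θ
      + 2 * (pp z bT A θ * (((bT * u / 2 : ℝ) : ℂ) * g1 θ))
      - z * ((bT ^ 2 * u ^ 2 : ℝ) : ℂ) * g0 θ
      + ((bT ^ 2 * u ^ 2 / 2 : ℝ) : ℂ) * g1 θ) (((bT * u / 2 : ℝ) : ℂ) ^ 2 * g2 θ)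
    have n2 := norm_add_le ((pp z bT A θ) ^ 2 * g0 θ
      + 2 * (pp z bT A θ * (((bT * u / 2 : ℝ) : ℂ) * g1 θ))
      - z * ((bT ^ 2 * u ^ 2 : ℝ) : ℂ) * g0 θ) (((bT ^ 2 * u ^ 2 / 2 : ℝ) : ℂ) * g1 θ)
    have n3 := norm_sub_le ((pp z bT A θ) ^ 2 * g0 θ
      + 2 * (pp z bT A θ * (((bT * u / 2 : ℝ) : ℂ) * g1 θ)))
      (z * ((bT ^ 2 * u ^ 2 : ℝ) : ℂ) * g0 θ)
    have n4 := norm_add_le ((pp z bT A θ) ^ 2 * g0 θ)
      (2 * (pp z bT A θ * (((bT * u / 2 : ℝ) : ℂ) * g1 θ)))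
    have hβ2 : 0 ≤ β ^ 2 := by positivity
    have hq : 0 ≤ a + 2 * Z := by linarith
    have hq1 : (a + 2 * Z) ^ 2 + 2 * Z ≤ (a + 2 * Z + 1) ^ 2 := by linarith [hq, sq_expand a Z]
    have hq2 : 2 * (a + 2 * Z) + 1 ≤ (a + 2 * Z + 1) ^ 2 := by
      linarith [sq_expand a Z, sq_nonneg (a + 2 * Z)]
    have hq3 : 1 ≤ (a + 2 * Z + 1) ^ 2 := by linarith [sq_expand a Z, sq_nonneg (a + 2 * Z)]
    have k0 : (β * (a + 2 * Z)) ^ 2 * ‖g0 θ‖ + Z * (2 * β ^ 2) * ‖g0 θ‖ ≤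
        β ^ 2 * (a + 2 * Z + 1) ^ 2 * ‖g0 θ‖ := by
      have := mul_le_mul_of_nonneg_right (mul_le_mul_of_nonneg_left hq1 hβ2) hg0
      refine le_trans (le_of_eq ?_) this
      ring
    have k1 : 2 * (β * (a + 2 * Z) * (β * ‖g1 θ‖)) + β ^ 2 * ‖g1 θ‖ ≤
        β ^ 2 * (a + 2 * Z + 1) ^ 2 * ‖g1 θ‖ := by
      have := mul_le_mul_of_nonneg_right (mul_le_mul_of_nonneg_left hq2 hβ2) hg1
      refine le_trans (le_of_eq ?_) this
      ring
    have k2 : β ^ 2 * ‖g2 θ‖ ≤ β ^ 2 * (a + 2 * Z + 1) ^ 2 * ‖g2 θ‖ := by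
      have := mul_le_mul_of_nonneg_right (mul_le_mul_of_nonneg_left hq3 hβ2) hg2
      refine le_trans (le_of_eq ?_) this
      ring
    linarith
  have hR : 0 ≤ β ^ 2 * (a + 2 * Z + 1) ^ 2 * (‖g0 θ‖ + ‖g1 θ‖ + ‖g2 θ‖) := by positivity
  calc _ ≤ 2 * (β ^ 2 * (a + 2 * Z + 1) ^ 2 * (‖g0 θ‖ + ‖g1 θ‖ + ‖g2 θ‖)) :=
        mul_le_mul hE hsum (norm_nonneg _) (by norm_num)
    _ = _ := by ring

end

end Crest.Agent.R086.MOD
end

-- ▼ part R086/Modul3
section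

/-!
Row 86 (S0114), Part D-torus, node Modul (helper544), part 3: coefficients of the orbit.
-/

set_option autoImplicit false

open MeasureTheory Complex Set Filter
open scoped ContDiff Topology
open Crest.AnalysisR.PDE.NLS (IsSmoothPeriodic)

namespace Crest.Agent.R086.MOD

noncomputable section

/-! ### bounds for the coefficient integrals -/

theorem cf_perz_G {ψ f : R12 → ℂ} (h : Good ψ) (hf : Continuous f) (σ : ℝ) (k : Z12) :
    cf (perz fun x => ψ x * f (σ⁻¹ • x)) k = G ψ f σ k :=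
  PZ.cf_scaled hf h.1.continuous (fun z hz => h.2 z (by linarith)) σ k

theorem bd {ψ f : R12 → ℂ} (h : Good ψ) (N : ℕ) (hf : InX N f) :
    ∃ C : ℝ, 0 ≤ C ∧ ∀ σ h' : ℝ, 0 < σ → 0 ≤ h' → h' ≤ 4 * σ → h' ≤ 4 → ∀ F : Finset Z12,
      ∑ k ∈ F, (1 + h' * nk k) ^ N * ‖G ψ f σ k‖ ≤ C := by
  obtain ⟨a, ha⟩ := hf
  obtain ⟨C, hC, hw⟩ := PZ.wn_rep N 4 (by norm_num)
  have hB : ∃ B : ℝ, 0 ≤ B ∧ ∀ m ≤ N + 13, ∀ y, ‖iteratedFDeriv ℝ m ψ y‖ ≤ B := by
    have h1 := fun m => SymX.deriv_bdd h.1 (fun y hy => h.2 y (by linarith)) m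
    choose D hD0 hD using h1
    refine ⟨∑ m ∈ Finset.range (N + 14), D m, Finset.sum_nonneg fun m _ => hD0 m, fun m hm y => ?_⟩
    refine (hD m y).trans ?_
    exact Finset.single_le_sum (fun i _ => hD0 i) (Finset.mem_range.2 (by omega))
  obtain ⟨B, hB0, hB⟩ := hB
  have hcont : Continuous f := ha.continuous
  refine ⟨C * B * PZ.xn N a, ?_, fun σ h' hσ h0 h1 h2 F => ?_⟩
  · have : 0 ≤ PZ.xn N a := integral_nonneg fun ξ => by positivity
    positivity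
  · obtain ⟨hs, hle⟩ := hw ψ B h.1 (fun z hz => h.2 z (by linarith)) hB σ h' hσ h0 h1 h2 a f ha
    simp only [cf_perz_G h hcont] at hs
    refine (hs.sum_le_tsum F fun k _ => ?_).trans ?_
    · have : 0 ≤ nk k := norm_nonneg _
      positivity
    · refine le_trans (le_of_eq ?_) hle
      unfold wn
      simp only [cf_perz_G h hcont]

/-! ### linearity of `G` -/

theorem G_lin (ψ : R12 → ℂ) (h : Good ψ) (f g : R12 → ℂ) (hf : Continuous f) (hg : Continuous g)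
    (c d : ℂ) (σ : ℝ) (k : Z12) :
    G ψ (fun y => c * f y + d * g y) σ k = c * G ψ f σ k + d * G ψ g σ k := by
  unfold G
  have : ∫ x : R12, ψ x * (c * f (σ⁻¹ • x) + d * g (σ⁻¹ • x)) * ek k x =
      c * (∫ x : R12, ψ x * f (σ⁻¹ • x) * ek k x) + d * ∫ x : R12, ψ x * g (σ⁻¹ • x) * ek k x := by
    rw [← integral_const_mul, ← integral_const_mul, ← integral_add
      ((integrable_G h hf σ k).const_mul c) ((integrable_G h hg σ k).const_mul d)]
    apply integral_congr_ae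
    filter_upwards with x
    ring
  rw [this]
  ring

theorem G_smul (ψ f : R12 → ℂ) (c : ℂ) (σ : ℝ) (k : Z12) :
    G ψ (fun y => c * f y) σ k = c * G ψ f σ k := by
  unfold G
  have : ∫ x : R12, ψ x * (c * f (σ⁻¹ • x)) * ek k x =
      c * (∫ x : R12, ψ x * f (σ⁻¹ • x) * ek k x) := by
    rw [← integral_const_mul]
    apply integral_congr_ae
    filter_upwards with x
    ring
  rw [this]
  ring

/-- the translation vector -/
def bx (b : MIx → ℝ) : R12 := WithLp.toLp 2 (fun j => b (some (some j)))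

theorem bx_sum (b : MIx → ℝ) : bx b = ∑ j : Fin 12, (b (some (some j))) • ei j := by
  have := Sym.sum_coord (bx b)
  exact this

theorem norm_bx {b : MIx → ℝ} {β : ℝ} (hb : ∀ m, |b m| ≤ β) : ‖bx b‖ ≤ 4 * β := by
  have hβ : 0 ≤ β := (abs_nonneg _).trans (hb none)
  rw [EuclideanSpace.norm_eq]
  apply Real.sqrt_le_iff.2
  refine ⟨by positivity, ?_⟩
  calc ∑ i, ‖(bx b) i‖ ^ 2 ≤ ∑ _i : Fin 12, β ^ 2 := by
        apply Finset.sum_le_sum
        intro i _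
        have : ‖(bx b) i‖ ≤ β := hb (some (some i))
        gcongr
    _ = 12 * β ^ 2 := by simp
    _ ≤ (4 * β) ^ 2 := by nlinarith [sq_nonneg β]

theorem G_deriv_right (ψ : R12 → ℂ) (h : Good ψ) (f : R12 → ℂ) (hf : ContDiff ℝ 1 f)
    (b : MIx → ℝ) (σ : ℝ) (k : Z12) :
    G ψ (fun y => fderiv ℝ f y (bx b)) σ k =
      ∑ j : Fin 12, (b (some (some j)) : ℂ) * G ψ (fun y => fderiv ℝ f y (ei j)) σ k := by
  have hc : ∀ v : R12, Continuous (fun y => fderiv ℝ f y v) := fun v =>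
    (hf.continuous_fderiv (by norm_num)).clm_apply continuous_const
  unfold G
  simp only [mul_left_comm _ ((((2 * Real.pi) ^ 12 : ℝ)) : ℂ)⁻¹]
  rw [← Finset.mul_sum]
  congr 1
  simp only [← integral_const_mul]
  rw [← integral_finsetSum]
  · apply integral_congr_ae
    filter_upwards with x
    rw [bx_sum, map_sum]
    simp only [map_smul, Complex.real_smul, Finset.mul_sum, Finset.sum_mul]
    apply Finset.sum_congr rfl
    intro j _
    ring
  · intro j _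
    exact (integrable_G h (hc (ei j)) σ k).const_mul _

theorem G_deriv_left (ψ : R12 → ℂ) (h : Good ψ) (f : R12 → ℂ) (hf : Continuous f)
    (b : MIx → ℝ) (σ : ℝ) (k : Z12) :
    G (fun x => fderiv ℝ ψ x (bx b)) f σ k =
      ∑ j : Fin 12, (b (some (some j)) : ℂ) * G (fun x => fderiv ℝ ψ x (ei j)) f σ k := by
  unfold G
  simp only [mul_left_comm _ ((((2 * Real.pi) ^ 12 : ℝ)) : ℂ)⁻¹]
  rw [← Finset.mul_sum]
  congr 1
  simp only [← integral_const_mul]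
  rw [← integral_finsetSum]
  · apply integral_congr_ae
    filter_upwards with x
    rw [bx_sum, map_sum]
    simp only [map_smul, Complex.real_smul, Finset.sum_mul]
    apply Finset.sum_congr rfl
    intro j _
    ring
  · intro j _
    exact (integrable_G (h.dderiv (ei j)) hf σ k).const_mul _

/-! ### the orbit -/

/-- complex valued cut-off -/
def ch (x : R12) : ℂ := ((chi0 x : ℝ) : ℂ)

theorem good_ch : Good ch := by
  refine ⟨Complex.ofRealCLM.contDiff.comp chi0.contDiff, fun x hx => ?_⟩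
  unfold ch
  rw [chi0.zero_of_le_dist]
  · simp
  · simpa [chi0] using hx

variable {n : ℕ} (P : Profile n)

/-- exponent -/
def zz : ℂ := -(1 / (n : ℂ)) + I * (P.om : ℂ)

theorem zz_re : (zz P).re = -(1 / (n : ℝ)) := by
  unfold zz
  have : (1 / (n : ℂ)) = ((1 / (n : ℝ) : ℝ) : ℂ) := by push_cast; rfl
  rw [this]
  simp

include P in
theorem one_div_n : 0 < 1 / (n : ℝ) ∧ 1 / (n : ℝ) ≤ 1 := by
  have h1 := P.n_pos
  have h2 := P.two_le
  have h3 : (2 : ℝ) ≤ n := by exact_mod_cast h2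
  refine ⟨by positivity, ?_⟩
  rw [div_le_one h1]; linarith

theorem zz_re_bounds : (zz P).re ≤ 0 ∧ -1 ≤ (zz P).re := by
  obtain ⟨h1, h2⟩ := one_div_n P
  rw [zz_re]
  constructor <;> linarith

/-- the phase of the coefficient -/
def AA (b : MIx → ℝ) (τ : ℝ) (k : Z12) : ℝ := b none + Real.sqrt τ * inner ℝ (zv k) (bx b)

/-- normalised difference -/
def D0 (b : MIx → ℝ) (τ : ℝ) (X : R12) : ℂ :=
  EE (zz P) (b (some none)) (b none) 1 * P.qt (τ * lam (b (some none)) 1) (X + Real.sqrt τ • bx b)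
    - P.qt τ X - ∑ m, (b m : ℂ) * P.mt m τ X

theorem smul_sp {v : R12 → ℂ} (hv : IsSmoothPeriodic v) (c : ℂ) :
    IsSmoothPeriodic (fun x => c * v x) :=
  ⟨contDiff_const.mul hv.1, fun x i => by simp only [hv.2 x i]⟩

theorem cf_zero_fun (k : Z12) : cf (fun _ => (0 : ℂ)) k = 0 := by
  unfold cf; simp

theorem sum_sp {ι : Type*} (s : Finset ι) (v : ι → R12 → ℂ) (hv : ∀ m, IsSmoothPeriodic (v m)) :
    IsSmoothPeriodic (fun x => ∑ m ∈ s, v m x) ∧
      ∀ k, cf (fun x => ∑ m ∈ s, v m x) k = ∑ m ∈ s, cf (v m) k := by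
  classical
  induction s using Finset.induction_on with
  | empty =>
    refine ⟨⟨by simpa using contDiff_const, fun x i => by simp⟩, fun k => ?_⟩
    simp only [Finset.sum_empty]
    exact cf_zero_fun k
  | insert a s ha ih =>
    simp only [Finset.sum_insert ha]
    have h := TNl.cf_add tf1 tf2 (hv a) ih.1
    refine ⟨h.1, fun k => ?_⟩
    rw [h.2]
    simp only
    rw [ih.2 k]

theorem sub_sp {v w : R12 → ℂ} (hv : IsSmoothPeriodic v) (hw : IsSmoothPeriodic w) :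
    IsSmoothPeriodic (fun x => v x - w x) ∧ ∀ k, cf (fun x => v x - w x) k = cf v k - cf w k := by
  have h := TNl.cf_add tf1 tf2 hv (smul_sp hw (-1))
  have e : (fun x => v x - w x) = fun x => v x + (-1) * w x := by ext x; ring
  rw [e]
  refine ⟨h.1, fun k => ?_⟩
  rw [h.2]
  simp only
  rw [TNl.cf_smul]
  ring

theorem sp_qt {τ : ℝ} : IsSmoothPeriodic (P.qt τ) := by
  unfold Profile.qt
  apply PZ.smoothPeriodic
  · exact (good_ch.1).mul (P.smooth.comp (contDiff_const_smul _))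
  · intro z hz
    have := good_ch.2 z (by linarith)
    unfold ch at this
    rw [this, zero_mul]

theorem contDiff_mode1 (m : MIx) : ContDiff ℝ ∞ (P.mode1 m) := (P.symMode1 m).1

theorem sp_mt (m : MIx) {τ : ℝ} : IsSmoothPeriodic (P.mt m τ) := by
  unfold Profile.mt
  apply PZ.smoothPeriodic
  · exact (good_ch.1).mul ((contDiff_mode1 P m).comp (contDiff_const_smul _))
  · intro z hz
    have := good_ch.2 z (by linarith)
    unfold ch at this
    rw [this, zero_mul]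

theorem cf_qt (τ : ℝ) (k : Z12) : cf (P.qt τ) k = G ch P.Q (Real.sqrt τ) k :=
  cf_perz_G good_ch P.smooth.continuous _ k

theorem cf_mt (m : MIx) (τ : ℝ) (k : Z12) : cf (P.mt m τ) k = G ch (P.mode1 m) (Real.sqrt τ) k :=
  cf_perz_G good_ch (contDiff_mode1 P m).continuous _ k

theorem EE_shift (z : ℂ) (bT A A' : ℝ) :
    EE z bT A 1 * exp (I * (A' : ℂ)) = EE z bT (A + A') 1 := by
  unfold EE
  rw [← Complex.exp_add]
  congr 1
  push_cast
  ring

theorem D0_facts (b : MIx → ℝ) (τ : ℝ) : IsSmoothPeriodic (D0 P b τ) ∧ ∀ k,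
    cf (D0 P b τ) k = EE (zz P) (b (some none)) (AA b τ k) 1 *
        G ch P.Q (sg τ (b (some none)) 1) k
      - G ch P.Q (Real.sqrt τ) k - ∑ m, (b m : ℂ) * G ch (P.mode1 m) (Real.sqrt τ) k := by
  have h1 := TNl.cf_trans tf1 tf2 (sp_qt P (τ := τ * lam (b (some none)) 1)) (Real.sqrt τ • bx b)
  have h2 := smul_sp h1.1 (EE (zz P) (b (some none)) (b none) 1)
  have h3 := sub_sp h2 (sp_qt P (τ := τ))
  have h4 := sum_sp Finset.univ (fun m x => (b m : ℂ) * P.mt m τ x)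
    (fun m => smul_sp (sp_mt P m (τ := τ)) (b m))
  have h5 := sub_sp h3.1 h4.1
  refine ⟨h5.1, fun k => ?_⟩
  have e := h5.2 k
  unfold D0
  rw [e, h3.2 k, h4.2 k, TNl.cf_smul, h1.2]
  simp only [TNl.cf_smul, cf_qt, cf_mt]
  congr 2
  have e1 : TNl.ec k (Real.sqrt τ • bx b) = exp (I * ((Real.sqrt τ * inner ℝ (zv k) (bx b) : ℝ) : ℂ)) := by
    unfold TNl.ec
    rw [real_inner_smul_right]
  rw [e1]
  have e2 : EE (zz P) (b (some none)) (AA b τ k) 1 =
      EE (zz P) (b (some none)) (b none) 1 *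
        exp (I * ((Real.sqrt τ * inner ℝ (zv k) (bx b) : ℝ) : ℂ)) := by
    rw [EE_shift]; rfl
  rw [e2]
  have e3 : sg τ (b (some none)) 1 = Real.sqrt (τ * lam (b (some none)) 1) := rfl
  rw [e3]
  ring

end

end Crest.Agent.R086.MOD
end

-- ▼ part R086/Modul4
section

/-!
Row 86 (S0114), Part D-torus, node Modul (helper544), part 4: the core estimate.
-/

set_option autoImplicit false

open MeasureTheory Complex Set Filter
open scoped ContDiff Topology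
open Crest.AnalysisR.PDE.NLS (IsSmoothPeriodic)

namespace Crest.Agent.R086.MOD

noncomputable section

variable {n : ℕ} (P : Profile n)

theorem lam_zero (bT : ℝ) : lam bT 0 = 1 := by unfold lam; ring

theorem sg_zero (τ bT : ℝ) : sg τ bT 0 = Real.sqrt τ := by
  unfold sg; rw [lam_zero, mul_one]

theorem EE_zero (z : ℂ) (bT A : ℝ) : EE z bT A 0 = 1 := by
  unfold EE; rw [lam_zero]; simp

/-- the curve of coefficients -/
def cc (b : MIx → ℝ) (τ : ℝ) (k : Z12) (θ : ℝ) : ℂ :=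
  EE (zz P) (b (some none)) (AA b τ k) θ * G ch P.Q (sg τ (b (some none)) θ) k

def cc1 (b : MIx → ℝ) (τ : ℝ) (k : Z12) (θ : ℝ) : ℂ :=
  C1 (zz P) (b (some none)) (AA b τ k) (fun θ => G ch P.Q (sg τ (b (some none)) θ) k)
    (fun θ => G ch (eul P.Q) (sg τ (b (some none)) θ) k) θ

def cc2 (b : MIx → ℝ) (τ : ℝ) (k : Z12) (θ : ℝ) : ℂ :=
  C2 (zz P) (b (some none)) (AA b τ k) (fun θ => G ch P.Q (sg τ (b (some none)) θ) k)
    (fun θ => G ch (eul P.Q) (sg τ (b (some none)) θ) k)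
    (fun θ => G ch (eul (eul P.Q)) (sg τ (b (some none)) θ) k) θ

theorem smooth_eulQ : ContDiff ℝ ∞ (eul P.Q) := P.symQ.eul.1

/-- exact coefficient identity -/
theorem cf_D0 (b : MIx → ℝ) {τ : ℝ} (hτ : 0 < τ) (k : Z12) :
    cf (D0 P b τ) k = (cc P b τ k 1 - cc P b τ k 0 - cc1 P b τ k 0) +
      (Real.sqrt τ : ℂ) * ∑ j : Fin 12, (b (some (some j)) : ℂ) *
        G (fun x => fderiv ℝ ch x (ei j)) P.Q (Real.sqrt τ) k := by
  have hs : 0 < Real.sqrt τ := Real.sqrt_pos.2 hτ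
  have hsc : (Real.sqrt τ : ℂ) ≠ 0 := by exact_mod_cast hs.ne'
  have hQ1 : ContDiff ℝ 1 P.Q := P.smooth.of_le (by exact_mod_cast le_top)
  rw [(D0_facts P b τ).2 k]
  -- the modes
  have hm0 : G ch (P.mode1 none) (Real.sqrt τ) k = I * G ch P.Q (Real.sqrt τ) k :=
    G_smul ch P.Q I _ k
  have hm1 : G ch (P.mode1 (some none)) (Real.sqrt τ) k =
      ((1 : ℂ) / n - I * P.om) * G ch P.Q (Real.sqrt τ) k + (1 / 2) * G ch (eul P.Q) (Real.sqrt τ) k :=
    G_lin ch good_ch P.Q (eul P.Q) P.smooth.continuous (smooth_eulQ P).continuous _ _ _ k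
  have hm2 : ∀ j, G ch (P.mode1 (some (some j))) (Real.sqrt τ) k =
      G ch (fun y => fderiv ℝ P.Q y (ei j)) (Real.sqrt τ) k := fun j => rfl
  have hsum : ∑ m, (b m : ℂ) * G ch (P.mode1 m) (Real.sqrt τ) k =
      (b none : ℂ) * (I * G ch P.Q (Real.sqrt τ) k) +
      ((b (some none) : ℂ) * (((1 : ℂ) / n - I * P.om) * G ch P.Q (Real.sqrt τ) k +
        (1 / 2) * G ch (eul P.Q) (Real.sqrt τ) k) +
        G ch (fun y => fderiv ℝ P.Q y (bx b)) (Real.sqrt τ) k) := by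
    rw [Fintype.sum_option, Fintype.sum_option, hm0, hm1, G_deriv_right ch good_ch P.Q hQ1 b]
    simp only [hm2]
  have hibp := ibp good_ch hQ1 hs k (bx b)
  rw [G_deriv_left ch good_ch P.Q P.smooth.continuous b] at hibp
  have hc1 : cc1 P b τ k 0 = (I * (AA b τ k : ℂ) - zz P * (b (some none) : ℂ)) *
      G ch P.Q (Real.sqrt τ) k + (b (some none) / 2 : ℂ) * G ch (eul P.Q) (Real.sqrt τ) k := by
    unfold cc1 C1 pp
    simp only [EE_zero, lam_zero, sg_zero]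
    push_cast
    ring
  have hc0 : cc P b τ k 0 = G ch P.Q (Real.sqrt τ) k := by
    unfold cc
    rw [EE_zero, sg_zero, one_mul]
  rw [hsum, hc1, hc0]
  unfold cc AA zz
  push_cast
  have h2 : (Real.sqrt τ : ℂ) * ∑ j : Fin 12, (b (some (some j)) : ℂ) *
        G (fun x => fderiv ℝ ch x (ei j)) P.Q (Real.sqrt τ) k =
      (Real.sqrt τ : ℂ) * (I * ((inner ℝ (zv k) (bx b) : ℝ) : ℂ) * G ch P.Q (Real.sqrt τ) k) -
        G ch (fun y => fderiv ℝ P.Q y (bx b)) (Real.sqrt τ) k := by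
    rw [hibp, mul_add, ← mul_assoc (Real.sqrt τ : ℂ) ((Real.sqrt τ : ℂ)⁻¹), mul_inv_cancel₀ hsc,
      one_mul]
    ring
  rw [h2]
  ring

theorem abs_AA {b : MIx → ℝ} {β τ : ℝ} (hb : ∀ m, |b m| ≤ β) (k : Z12) :
    |AA b τ k| ≤ β * (1 + 4 * (Real.sqrt τ * nk k)) := by
  have hβ : 0 ≤ β := (abs_nonneg _).trans (hb none)
  unfold AA
  have h1 : |inner ℝ (zv k) (bx b)| ≤ nk k * (4 * β) := by
    refine (abs_real_inner_le_norm _ _).trans ?_
    have := norm_bx hb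
    have h0 : 0 ≤ ‖zv k‖ := norm_nonneg _
    exact mul_le_mul_of_nonneg_left this h0
  calc |b none + Real.sqrt τ * inner ℝ (zv k) (bx b)|
      ≤ |b none| + |Real.sqrt τ * inner ℝ (zv k) (bx b)| := abs_add_le _ _
    _ ≤ β + Real.sqrt τ * (nk k * (4 * β)) := by
        rw [abs_mul, abs_of_nonneg (Real.sqrt_nonneg τ)]
        have := mul_le_mul_of_nonneg_left h1 (Real.sqrt_nonneg τ)
        linarith [hb none]
    _ = _ := by ring

/-- **core estimate** -/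
theorem core (M0 : ℕ) : ∃ K : ℝ, 0 ≤ K ∧ ∀ τ : ℝ, 0 < τ → τ ≤ 1 → ∀ (b : MIx → ℝ) (β : ℝ),
    β ≤ 1 / 4 → (∀ m, |b m| ≤ β) → ∀ F : Finset Z12,
      ∑ k ∈ F, (1 + (2 * Real.sqrt τ) * nk k) ^ M0 * ‖cf (D0 P b τ) k‖ ≤
        K * (β ^ 2 + Real.sqrt τ * β) := by
  have hQ1 : ContDiff ℝ 1 P.Q := P.smooth.of_le (by exact_mod_cast le_top)
  have hE1 : ContDiff ℝ 1 (eul P.Q) := (smooth_eulQ P).of_le (by exact_mod_cast le_top)
  have hδ := P.delta_pos
  obtain ⟨B0, hB0, hb0⟩ := bd good_ch (M0 + 2) (Sym.inX P.symQ hδ (M0 + 2))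
  obtain ⟨B1, hB1, hb1⟩ := bd good_ch (M0 + 2) (Sym.inX P.symQ.eul hδ (M0 + 2))
  obtain ⟨B2, hB2, hb2⟩ := bd good_ch (M0 + 2) (Sym.inX P.symQ.eul.eul hδ (M0 + 2))
  have hj := fun j : Fin 12 => bd (good_ch.dderiv (ei j)) M0 (Sym.inX P.symQ hδ M0)
  choose Bj hBj hbj using hj
  set Z : ℝ := 1 + ‖zz P‖ with hZ
  have hZ1 : 1 ≤ Z := by rw [hZ]; linarith [norm_nonneg (zz P)]
  obtain ⟨hz0, hz1⟩ := zz_re_bounds P
  set K1 : ℝ := 2 * (2 + 2 * Z) ^ 2 * (B0 + B1 + B2) with hK1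
  set K2 : ℝ := ∑ j, Bj j with hK2
  have hK10 : 0 ≤ K1 := by positivity
  have hK20 : 0 ≤ K2 := Finset.sum_nonneg fun j _ => hBj j
  refine ⟨K1 + K2, by positivity, fun τ hτ hτ1 b β hβ hb F => ?_⟩
  have hβ0 : 0 ≤ β := (abs_nonneg _).trans (hb none)
  have hs : 0 < Real.sqrt τ := Real.sqrt_pos.2 hτ
  have hs1 : Real.sqrt τ ≤ 1 := Real.sqrt_le_one.2 hτ1
  have hbT : |b (some none)| ≤ 1 / 4 := (hb _).trans hβ
  have hl : ∀ θ ∈ Icc (0 : ℝ) 1, 0 < lam (b (some none)) θ := fun θ hθ => by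
    have := (lam_bounds hbT hθ).1; linarith
  have hnk : ∀ k : Z12, 0 ≤ nk k := fun k => norm_nonneg _
  have hw : ∀ k : Z12, 0 ≤ (1 + (2 * Real.sqrt τ) * nk k) ^ M0 := fun k => by
    have := hnk k; positivity
  -- Taylor part
  have hT : ∑ k ∈ F, (1 + (2 * Real.sqrt τ) * nk k) ^ M0 *
      ‖cc P b τ k 1 - cc P b τ k 0 - cc1 P b τ k 0‖ ≤ K1 * β ^ 2 := by
    apply taylor2 F (fun k => (1 + (2 * Real.sqrt τ) * nk k) ^ M0) hw (cc P b τ) (cc1 P b τ)
      (cc2 P b τ)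
    · intro k _ θ hθ
      exact hasDerivAt_C0 (zz P) (AA b τ k) (hl θ hθ) (hasDerivAt_Gsg good_ch hQ1 hτ (hl θ hθ) k)
    · intro k _ θ hθ
      exact hasDerivAt_C1 (zz P) (AA b τ k) (hl θ hθ) (hasDerivAt_Gsg good_ch hQ1 hτ (hl θ hθ) k)
        (hasDerivAt_Gsg good_ch hE1 hτ (hl θ hθ) k)
    · intro θ hθ
      obtain ⟨hl1, hl2⟩ := lam_bounds hbT hθ
      have hσ : 0 < sg τ (b (some none)) θ := sg_pos hτ (hl θ hθ)
      have hσ2 : 2 * Real.sqrt τ ≤ 4 * sg τ (b (some none)) θ := by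
        have h1 : Real.sqrt τ ≤ 2 * sg τ (b (some none)) θ := by
          rw [show 2 * sg τ (b (some none)) θ = Real.sqrt (4 * (τ * lam (b (some none)) θ)) by
            unfold sg
            rw [Real.sqrt_mul (by norm_num : (0:ℝ) ≤ 4)]
            congr 1
            rw [show (4 : ℝ) = 2 ^ 2 by norm_num, Real.sqrt_sq (by norm_num)]]
          apply Real.sqrt_le_sqrt
          nlinarith
        linarith
      have h24 : 2 * Real.sqrt τ ≤ 4 := by linarith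
      have e0 := hb0 (sg τ (b (some none)) θ) (2 * Real.sqrt τ) hσ (by positivity) hσ2 h24 F
      have e1 := hb1 (sg τ (b (some none)) θ) (2 * Real.sqrt τ) hσ (by positivity) hσ2 h24 F
      have e2 := hb2 (sg τ (b (some none)) θ) (2 * Real.sqrt τ) hσ (by positivity) hσ2 h24 F
      have hterm : ∀ k ∈ F, (1 + (2 * Real.sqrt τ) * nk k) ^ M0 * ‖cc2 P b τ k θ‖ ≤
          2 * β ^ 2 * (2 + 2 * Z) ^ 2 *
            ((1 + (2 * Real.sqrt τ) * nk k) ^ (M0 + 2) * ‖G ch P.Q (sg τ (b (some none)) θ) k‖ +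
             (1 + (2 * Real.sqrt τ) * nk k) ^ (M0 + 2) * ‖G ch (eul P.Q) (sg τ (b (some none)) θ) k‖ +
             (1 + (2 * Real.sqrt τ) * nk k) ^ (M0 + 2) *
              ‖G ch (eul (eul P.Q)) (sg τ (b (some none)) θ) k‖) := by
        intro k _
        have hnk0 := hnk k
        have ht : 0 ≤ Real.sqrt τ * nk k := by positivity
        have h3 := norm_C2_le (z := zz P) (bT := b (some none)) (A := AA b τ k) (θ := θ) (β := β)
          (a := 1 + 4 * (Real.sqrt τ * nk k)) (Z := Z) hz0 hz1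
          (by rw [hZ]; linarith) (hb _) hβ (abs_AA hb k) (by linarith) hZ1 hθ
          (fun θ => G ch P.Q (sg τ (b (some none)) θ) k)
          (fun θ => G ch (eul P.Q) (sg τ (b (some none)) θ) k)
          (fun θ => G ch (eul (eul P.Q)) (sg τ (b (some none)) θ) k)
        have h4 : (1 + 4 * (Real.sqrt τ * nk k) + 2 * Z + 1) ^ 2 ≤
            (2 + 2 * Z) ^ 2 * (1 + (2 * Real.sqrt τ) * nk k) ^ 2 := by
          rw [← mul_pow]
          apply pow_le_pow_left₀ (by positivity)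
          nlinarith
        have hg : 0 ≤ ‖G ch P.Q (sg τ (b (some none)) θ) k‖ +
            ‖G ch (eul P.Q) (sg τ (b (some none)) θ) k‖ +
            ‖G ch (eul (eul P.Q)) (sg τ (b (some none)) θ) k‖ := by positivity
        calc (1 + (2 * Real.sqrt τ) * nk k) ^ M0 * ‖cc2 P b τ k θ‖
            ≤ (1 + (2 * Real.sqrt τ) * nk k) ^ M0 *
              (2 * β ^ 2 * (1 + 4 * (Real.sqrt τ * nk k) + 2 * Z + 1) ^ 2 *
                (‖G ch P.Q (sg τ (b (some none)) θ) k‖ +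
            ‖G ch (eul P.Q) (sg τ (b (some none)) θ) k‖ +
            ‖G ch (eul (eul P.Q)) (sg τ (b (some none)) θ) k‖)) :=
              mul_le_mul_of_nonneg_left h3 (hw k)
          _ ≤ (1 + (2 * Real.sqrt τ) * nk k) ^ M0 *
              (2 * β ^ 2 * ((2 + 2 * Z) ^ 2 * (1 + (2 * Real.sqrt τ) * nk k) ^ 2) *
                (‖G ch P.Q (sg τ (b (some none)) θ) k‖ +
            ‖G ch (eul P.Q) (sg τ (b (some none)) θ) k‖ +
            ‖G ch (eul (eul P.Q)) (sg τ (b (some none)) θ) k‖)) := by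
              apply mul_le_mul_of_nonneg_left _ (hw k)
              apply mul_le_mul_of_nonneg_right _ hg
              exact mul_le_mul_of_nonneg_left h4 (by positivity)
          _ = _ := by rw [pow_add]; ring
      refine (Finset.sum_le_sum hterm).trans ?_
      rw [← Finset.mul_sum, Finset.sum_add_distrib, Finset.sum_add_distrib]
      have hc : 0 ≤ 2 * β ^ 2 * (2 + 2 * Z) ^ 2 := by positivity
      refine (mul_le_mul_of_nonneg_left (add_le_add (add_le_add e0 e1) e2) hc).trans (le_of_eq ?_)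
      rw [hK1]; ring
  -- cut-off part
  have hC : ∑ k ∈ F, (1 + (2 * Real.sqrt τ) * nk k) ^ M0 *
      ‖(Real.sqrt τ : ℂ) * ∑ j : Fin 12, (b (some (some j)) : ℂ) *
        G (fun x => fderiv ℝ ch x (ei j)) P.Q (Real.sqrt τ) k‖ ≤ K2 * (Real.sqrt τ * β) := by
    have h1 : ∀ k ∈ F, (1 + (2 * Real.sqrt τ) * nk k) ^ M0 *
        ‖(Real.sqrt τ : ℂ) * ∑ j : Fin 12, (b (some (some j)) : ℂ) *
          G (fun x => fderiv ℝ ch x (ei j)) P.Q (Real.sqrt τ) k‖ ≤
        (Real.sqrt τ * β) * ∑ j : Fin 12, (1 + (2 * Real.sqrt τ) * nk k) ^ M0 *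
          ‖G (fun x => fderiv ℝ ch x (ei j)) P.Q (Real.sqrt τ) k‖ := by
      intro k _
      rw [norm_mul, Complex.norm_real, Real.norm_of_nonneg hs.le]
      have h2 : ‖∑ j : Fin 12, (b (some (some j)) : ℂ) *
          G (fun x => fderiv ℝ ch x (ei j)) P.Q (Real.sqrt τ) k‖ ≤
          β * ∑ j : Fin 12, ‖G (fun x => fderiv ℝ ch x (ei j)) P.Q (Real.sqrt τ) k‖ := by
        rw [Finset.mul_sum]
        refine (norm_sum_le _ _).trans (Finset.sum_le_sum fun j _ => ?_)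
        rw [norm_mul, Complex.norm_real, Real.norm_eq_abs]
        exact mul_le_mul_of_nonneg_right (hb _) (norm_nonneg _)
      calc _ ≤ (1 + (2 * Real.sqrt τ) * nk k) ^ M0 * (Real.sqrt τ * (β *
          ∑ j : Fin 12, ‖G (fun x => fderiv ℝ ch x (ei j)) P.Q (Real.sqrt τ) k‖)) := by
            apply mul_le_mul_of_nonneg_left _ (hw k)
            exact mul_le_mul_of_nonneg_left h2 hs.le
        _ = _ := by rw [← Finset.mul_sum]; ring
    refine (Finset.sum_le_sum h1).trans ?_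
    rw [← Finset.mul_sum, Finset.sum_comm]
    have h3 : ∑ j : Fin 12, ∑ k ∈ F, (1 + (2 * Real.sqrt τ) * nk k) ^ M0 *
          ‖G (fun x => fderiv ℝ ch x (ei j)) P.Q (Real.sqrt τ) k‖ ≤ K2 := by
      rw [hK2]
      apply Finset.sum_le_sum
      intro j _
      exact hbj j (Real.sqrt τ) (2 * Real.sqrt τ) hs (by positivity) (by linarith) (by linarith) F
    calc (Real.sqrt τ * β) * _ ≤ (Real.sqrt τ * β) * K2 :=
          mul_le_mul_of_nonneg_left h3 (by positivity)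
      _ = _ := by ring
  have hfin : ∑ k ∈ F, (1 + (2 * Real.sqrt τ) * nk k) ^ M0 * ‖cf (D0 P b τ) k‖ ≤
      K1 * β ^ 2 + K2 * (Real.sqrt τ * β) := by
    refine le_trans ?_ (add_le_add hT hC)
    rw [← Finset.sum_add_distrib]
    apply Finset.sum_le_sum
    intro k _
    rw [cf_D0 P b hτ k, ← mul_add]
    exact mul_le_mul_of_nonneg_left (norm_add_le _ _) (hw k)
  refine hfin.trans ?_
  have h5 : 0 ≤ β ^ 2 := by positivity
  have h6 : 0 ≤ Real.sqrt τ * β := by positivity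
  nlinarith [mul_nonneg hK10 h6, mul_nonneg hK20 h5]

end

end Crest.Agent.R086.MOD
end

-- ▼ part R086/Modul
section

/-!
Row 86 (S0114), Part D-torus, node Modul (helper544): final theorem `modul : Modul P N s`.
-/

set_option autoImplicit false

open MeasureTheory Complex Set Filter
open scoped ContDiff Topology
open Crest.AnalysisR.PDE.NLS (IsSmoothPeriodic)

namespace Crest.Agent.R086.MOD

noncomputable section

variable {n : ℕ} (P : Profile n)

theorem tn : TN := TNl.tn_of tf1 tf2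

theorem cpow_eq (τ l : ℝ) (hτ : 0 < τ) (hl : 0 < l) (z : ℂ) :
    ((τ * l : ℝ) : ℂ) ^ z = ((τ : ℝ) : ℂ) ^ z * exp (z * ((Real.log l : ℝ) : ℂ)) := by
  have h1 : ((τ * l : ℝ) : ℂ) ≠ 0 := by exact_mod_cast (mul_pos hτ hl).ne'
  have h2 : ((τ : ℝ) : ℂ) ≠ 0 := by exact_mod_cast hτ.ne'
  rw [Complex.cpow_def_of_ne_zero h1, Complex.cpow_def_of_ne_zero h2, ← Complex.exp_add,
    ← Complex.ofReal_log (mul_pos hτ hl).le, ← Complex.ofReal_log hτ.le,
    Real.log_mul hτ.ne' hl.ne']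
  congr 1
  push_cast
  ring

theorem norm_amp (a : Par) (t : ℝ) (h : 0 < a.T - t) :
    ‖P.amp a t‖ = (a.T - t) ^ (-(1 / (n : ℝ))) := by
  unfold Profile.amp
  rw [norm_mul, Complex.norm_cpow_eq_rpow_re_of_pos h]
  have h1 : ‖exp (I * (a.th : ℂ))‖ = 1 := by
    rw [mul_comm, Complex.norm_exp_ofReal_mul_I]
  rw [h1, one_mul]
  congr 1
  exact zz_re P

/-- the difference in the original variables -/
theorem diff_eq (a : Par) (t : ℝ) (b : MIx → ℝ) (h : 0 < a.T - t) (hb : |b (some none)| ≤ 1 / 4)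
    (x : R12) :
    P.prof (Profile.shift a b t) t x - P.prof a t x - ∑ m, (b m : ℂ) * P.pmode a m t x =
      P.amp a t * D0 P b (a.T - t) (x + (-a.x)) := by
  have hT : (Profile.shift a b t).T - t = (a.T - t) * lam (b (some none)) 1 := by
    simp only [Profile.shift, lam]; ring
  have hl : 0 < lam (b (some none)) 1 := by
    have := (lam_bounds hb (θ := 1) ⟨zero_le_one, le_rfl⟩).1; linarith
  have hamp : P.amp (Profile.shift a b t) t = P.amp a t * EE (zz P) (b (some none)) (b none) 1 := by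
    unfold Profile.amp
    rw [hT, cpow_eq _ _ h hl]
    unfold EE
    rw [Complex.exp_add]
    have h1 : exp (I * ((Profile.shift a b t).th : ℂ)) = exp (I * (a.th : ℂ)) * exp (I * (b none : ℂ)) := by
      rw [← Complex.exp_add]
      simp only [Profile.shift]
      congr 1
      push_cast
      ring
    rw [h1]
    have h2 : -(1 / (n : ℂ)) + I * (P.om : ℂ) = zz P := rfl
    rw [h2]
    push_cast
    ring
  have hx : x - (Profile.shift a b t).x = (x + (-a.x)) + Real.sqrt (a.T - t) • bx b := by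
    simp only [Profile.shift, bx]
    abel
  unfold Profile.prof Profile.pmode D0
  rw [hamp, hT, hx, sub_eq_add_neg x a.x, mul_sub, mul_sub, Finset.mul_sum]
  congr 1
  · ring
  · apply Finset.sum_congr rfl
    intro m _
    ring

theorem tsum_le_core {M0 : ℕ} {K : ℝ} {c : Z12 → ℂ} {h0 : ℝ}
    (hK : ∀ F : Finset Z12, ∑ k ∈ F, (1 + h0 * nk k) ^ M0 * ‖c k‖ ≤ K)
    (w : Z12 → ℝ) (hw0 : ∀ k, 0 ≤ w k) (hw : ∀ k, w k ≤ (1 + h0 * nk k) ^ M0) :
    ∑' k, w k * ‖c k‖ ≤ K := by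
  apply Real.tsum_le_of_sum_le
  · intro k; exact mul_nonneg (hw0 k) (norm_nonneg _)
  · intro F
    refine le_trans (Finset.sum_le_sum fun k _ => ?_) (hK F)
    exact mul_le_mul_of_nonneg_right (hw k) (norm_nonneg _)

theorem one_add_pow_le3 {β : ℝ} (h0 : 0 ≤ β) (h1 : β ≤ 1) (m : ℕ) :
    (1 + β) ^ m ≤ 1 + 3 ^ m * β := by
  induction m with
  | zero => simp; linarith
  | succ m ih =>
    rw [pow_succ, pow_succ]
    have h3 : (1 : ℝ) ≤ 3 ^ m := one_le_pow₀ (by norm_num)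
    have h4 : (1 + β) ^ m * (1 + β) ≤ (1 + 3 ^ m * β) * (1 + β) :=
      mul_le_mul_of_nonneg_right ih (by linarith)
    refine h4.trans ?_
    nlinarith [mul_nonneg (by linarith : (0 : ℝ) ≤ 3 ^ m) h0,
      mul_nonneg (mul_nonneg (by linarith : (0 : ℝ) ≤ 3 ^ m) h0) (by linarith : (0 : ℝ) ≤ 1 - β)]

/-- change of scale -/
theorem scale_w (N s : ℕ) (μ : ℝ) (hμ : 0 < μ) {τ τ' β : ℝ} (hτ : 0 < τ) (hτ' : 0 < τ')
    (hβ0 : 0 ≤ β) (hβ1 : β ≤ 1) (h : τ' ≤ τ * (1 + β)) (hn : 0 < 1 / (n : ℝ)) (hn1 : 1 / (n : ℝ) ≤ 1)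
    (w : R12 → ℂ) (hw : IsSmoothPeriodic w) :
    nrm n N s μ τ' w ≤ (1 + 3 ^ (1 + N + s) * β) * nrm n N s μ τ w := by
  have hnk : ∀ k : Z12, 0 ≤ nk k := fun k => norm_nonneg _
  have hrd := TNl.rd_cf tf1 hw
  have hs : 0 < Real.sqrt τ := Real.sqrt_pos.2 hτ
  have hsq : Real.sqrt τ' ≤ (1 + β) * Real.sqrt τ := by
    have h1 : τ' ≤ (1 + β) ^ 2 * τ := by nlinarith [mul_nonneg hβ0 hτ.le]
    calc Real.sqrt τ' ≤ Real.sqrt ((1 + β) ^ 2 * τ) := Real.sqrt_le_sqrt h1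
      _ = (1 + β) * Real.sqrt τ := by
        rw [Real.sqrt_mul (by positivity), Real.sqrt_sq (by linarith)]
  have h1β : 0 ≤ 1 + β := by linarith
  have hwn : wn N (Real.sqrt τ') w ≤ (1 + β) ^ N * wn N (Real.sqrt τ) w := by
    unfold wn
    rw [← tsum_mul_left]
    apply Summable.tsum_le_tsum
    · intro k
      rw [← mul_assoc, ← mul_pow]
      apply mul_le_mul_of_nonneg_right _ (norm_nonneg _)
      apply pow_le_pow_left₀
      · have := hnk k; positivity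
      · have := mul_le_mul_of_nonneg_right hsq (hnk k)
        nlinarith [hnk k]
    · exact hrd.summable_wt N (Real.sqrt_nonneg _)
    · exact (hrd.summable_wt N (Real.sqrt_nonneg _)).mul_left _
  have hhi : hi s (Real.sqrt τ') w ≤ (1 + β) ^ s * hi s (Real.sqrt τ) w := by
    unfold hi
    rw [← tsum_mul_left]
    apply Summable.tsum_le_tsum
    · intro k
      rw [← mul_assoc, ← mul_pow]
      apply mul_le_mul_of_nonneg_right _ (norm_nonneg _)
      apply pow_le_pow_left₀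
      · have := hnk k; positivity
      · have := mul_le_mul_of_nonneg_right hsq (hnk k)
        linarith
    · exact hrd.summable_hi s (Real.sqrt_nonneg _)
    · exact (hrd.summable_hi s (Real.sqrt_nonneg _)).mul_left _
  have hwn0 : 0 ≤ wn N (Real.sqrt τ) w := tsum_nonneg fun k => by
    have := hnk k; positivity
  have hhi0 : 0 ≤ hi s (Real.sqrt τ) w := tsum_nonneg fun k => by
    have := hnk k; positivity
  have hpow1 : (1 + β) ^ N ≤ (1 + β) ^ (N + s) := pow_le_pow_right₀ (by linarith) (by omega)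
  have hpow2 : (1 + β) ^ s ≤ (1 + β) ^ (N + s) := pow_le_pow_right₀ (by linarith) (by omega)
  have hnn : nn N s μ (Real.sqrt τ') w ≤ (1 + β) ^ (N + s) * nn N s μ (Real.sqrt τ) w := by
    unfold nn
    have e1 := hwn.trans (mul_le_mul_of_nonneg_right hpow1 hwn0)
    have e2 := mul_le_mul_of_nonneg_left (hhi.trans (mul_le_mul_of_nonneg_right hpow2 hhi0)) hμ.le
    calc _ ≤ (1 + β) ^ (N + s) * wn N (Real.sqrt τ) w +
          μ * ((1 + β) ^ (N + s) * hi s (Real.sqrt τ) w) := add_le_add e1 e2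
      _ = _ := by ring
  have hnn0 : 0 ≤ nn N s μ (Real.sqrt τ) w := by unfold nn; positivity
  have hr : τ' ^ (1 / (n : ℝ)) ≤ (1 + β) * τ ^ (1 / (n : ℝ)) := by
    calc τ' ^ (1 / (n : ℝ)) ≤ (τ * (1 + β)) ^ (1 / (n : ℝ)) :=
          Real.rpow_le_rpow hτ'.le h hn.le
      _ = τ ^ (1 / (n : ℝ)) * (1 + β) ^ (1 / (n : ℝ)) := Real.mul_rpow hτ.le h1β
      _ ≤ τ ^ (1 / (n : ℝ)) * (1 + β) := by
          apply mul_le_mul_of_nonneg_left _ (Real.rpow_nonneg hτ.le _)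
          calc (1 + β) ^ (1 / (n : ℝ)) ≤ (1 + β) ^ (1 : ℝ) :=
                Real.rpow_le_rpow_of_exponent_le (by linarith) hn1
            _ = 1 + β := Real.rpow_one _
      _ = _ := by ring
  unfold nrm
  have hr0 : 0 ≤ τ ^ (1 / (n : ℝ)) := Real.rpow_nonneg hτ.le _
  calc τ' ^ (1 / (n : ℝ)) * nn N s μ (Real.sqrt τ') w
      ≤ ((1 + β) * τ ^ (1 / (n : ℝ))) * ((1 + β) ^ (N + s) * nn N s μ (Real.sqrt τ) w) := by
        apply mul_le_mul hr hnn _ (by positivity)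
        unfold nn
        have a1 : 0 ≤ wn N (Real.sqrt τ') w := tsum_nonneg fun k => by
          have := hnk k; positivity
        have a2 : 0 ≤ hi s (Real.sqrt τ') w := tsum_nonneg fun k => by
          have := hnk k; positivity
        positivity
    _ = (1 + β) ^ (1 + N + s) * (τ ^ (1 / (n : ℝ)) * nn N s μ (Real.sqrt τ) w) := by
        rw [show 1 + N + s = (N + s) + 1 by ring, pow_succ]; ring
    _ ≤ _ := mul_le_mul_of_nonneg_right (one_add_pow_le3 hβ0 hβ1 _) (mul_nonneg hr0 hnn0)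

/-- **node Modul** -/
theorem _root_.Crest.Agent.R086.modul (N s : ℕ) : Modul P N s := by
  obtain ⟨hn0, hn1⟩ := one_div_n P
  obtain ⟨K, hK0, hK⟩ := core P (N + s)
  refine ⟨1 + 8 * K + 3 ^ (1 + N + s), 1, 1 / 4, ?_, one_pos, by norm_num, le_rfl, ?_⟩
  · have : (0 : ℝ) ≤ 3 ^ (1 + N + s) := by positivity
    linarith
  intro μ hμ hμ1 a t hτ hτ1 b β hβ hb
  have hβ0 : 0 ≤ β := (abs_nonneg _).trans (hb none)
  have hbT : |b (some none)| ≤ 1 / 4 := (hb _).trans hβ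
  set τ : ℝ := a.T - t with hτdef
  have hT : (Profile.shift a b t).T - t = τ * lam (b (some none)) 1 := by
    simp only [Profile.shift, lam]; ring
  obtain ⟨hl1, hl2⟩ := lam_bounds hbT (θ := 1) ⟨zero_le_one, le_rfl⟩
  have hl : 0 < lam (b (some none)) 1 := by linarith
  have hτ' : 0 < τ * lam (b (some none)) 1 := mul_pos hτ hl
  have h3 : (0 : ℝ) ≤ 3 ^ (1 + N + s) := by positivity
  refine ⟨?_, fun w hw => ?_⟩
  · rw [hT]
    have hs : 0 < Real.sqrt τ := Real.sqrt_pos.2 hτ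
    have hfun : (fun x => P.prof (Profile.shift a b t) t x - P.prof a t x -
        ∑ m, (b m : ℂ) * P.pmode a m t x) =
        fun x => P.amp a t * (fun y => D0 P b τ (y + (-a.x))) x := by
      funext x
      exact diff_eq P a t b hτ hbT x
    rw [hfun]
    have hnk : ∀ k : Z12, 0 ≤ nk k := fun k => norm_nonneg _
    have hsp := (D0_facts P b τ).1
    set h' := Real.sqrt (τ * lam (b (some none)) 1) with hh'
    have hh0 : 0 ≤ h' := Real.sqrt_nonneg _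
    have hh2 : h' ≤ 2 * Real.sqrt τ := by
      calc h' ≤ Real.sqrt (2 ^ 2 * τ) := Real.sqrt_le_sqrt (by nlinarith)
        _ = 2 * Real.sqrt τ := by rw [Real.sqrt_mul (by norm_num), Real.sqrt_sq (by norm_num)]
    have hcore := hK τ hτ hτ1 b β hβ hb
    have hw1 : wn N h' (D0 P b τ) ≤ K * (β ^ 2 + Real.sqrt τ * β) := by
      apply tsum_le_core hcore (fun k => (1 + h' * nk k) ^ N)
      · intro k; have := hnk k; positivity
      · intro k
        have h0 := hnk k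
        calc (1 + h' * nk k) ^ N ≤ (1 + 2 * Real.sqrt τ * nk k) ^ N :=
              pow_le_pow_left₀ (by positivity) (by nlinarith [mul_le_mul_of_nonneg_right hh2 h0]) _
          _ ≤ (1 + 2 * Real.sqrt τ * nk k) ^ (N + s) :=
              pow_le_pow_right₀ (by nlinarith [mul_nonneg hs.le h0]) (by omega)
    have hw2 : hi s h' (D0 P b τ) ≤ K * (β ^ 2 + Real.sqrt τ * β) := by
      apply tsum_le_core hcore (fun k => (h' * nk k) ^ s)
      · intro k; have := hnk k; positivity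
      · intro k
        have h0 := hnk k
        calc (h' * nk k) ^ s ≤ (1 + 2 * Real.sqrt τ * nk k) ^ s :=
              pow_le_pow_left₀ (by positivity) (by nlinarith [mul_le_mul_of_nonneg_right hh2 h0]) _
          _ ≤ (1 + 2 * Real.sqrt τ * nk k) ^ (N + s) :=
              pow_le_pow_right₀ (by nlinarith [mul_nonneg hs.le h0]) (by omega)
    have hsp' : IsSmoothPeriodic (fun y => D0 P b τ (y + (-a.x))) :=
      (TNl.cf_trans tf1 tf2 hsp (-a.x)).1
    unfold nrm nn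
    rw [← hh', tn.wn_smul, tn.hi_smul, tn.wn_trans _ hsp, tn.hi_trans _ hsp,
      norm_amp P a t hτ]
    have hX : 0 ≤ K * (β ^ 2 + Real.sqrt τ * β) := by positivity
    have hA0 : 0 ≤ τ ^ (-(1 / (n : ℝ))) := Real.rpow_nonneg hτ.le _
    have e1 : τ ^ (-(1 / (n : ℝ))) * wn N h' (D0 P b τ) +
        μ * (τ ^ (-(1 / (n : ℝ))) * hi s h' (D0 P b τ)) ≤
        τ ^ (-(1 / (n : ℝ))) * (2 * (K * (β ^ 2 + Real.sqrt τ * β))) := by
      have e2 := mul_le_mul_of_nonneg_left hw1 hA0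
      have e3 := mul_le_mul_of_nonneg_left hw2 hA0
      have hhi0 : 0 ≤ τ ^ (-(1 / (n : ℝ))) * hi s h' (D0 P b τ) := by
        apply mul_nonneg hA0
        exact tsum_nonneg fun k => by have := hnk k; positivity
      nlinarith
    have e4 : (τ * lam (b (some none)) 1) ^ (1 / (n : ℝ)) ≤ τ ^ (1 / (n : ℝ)) * 2 := by
      rw [Real.mul_rpow hτ.le hl.le]
      apply mul_le_mul_of_nonneg_left _ (Real.rpow_nonneg hτ.le _)
      calc (lam (b (some none)) 1) ^ (1 / (n : ℝ)) ≤ (2 : ℝ) ^ (1 / (n : ℝ)) :=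
            Real.rpow_le_rpow hl.le (by linarith) hn0.le
        _ ≤ (2 : ℝ) ^ (1 : ℝ) := Real.rpow_le_rpow_of_exponent_le (by norm_num) hn1
        _ = 2 := Real.rpow_one _
    have e5 : τ ^ (1 / (n : ℝ)) * τ ^ (-(1 / (n : ℝ))) = 1 := by
      rw [← Real.rpow_add hτ]; simp
    have e6 : Real.sqrt τ * β ≤ β ^ 2 + τ := by
      have : Real.sqrt τ ^ 2 = τ := Real.sq_sqrt hτ.le
      nlinarith [sq_nonneg (Real.sqrt τ - β), sq_nonneg (Real.sqrt τ)]
    have hpos : 0 ≤ τ ^ (-(1 / (n : ℝ))) * wn N h' (D0 P b τ) +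
        μ * (τ ^ (-(1 / (n : ℝ))) * hi s h' (D0 P b τ)) := by
      have a1 : 0 ≤ wn N h' (D0 P b τ) := tsum_nonneg fun k => by have := hnk k; positivity
      have a2 : 0 ≤ hi s h' (D0 P b τ) := tsum_nonneg fun k => by have := hnk k; positivity
      positivity
    calc _ ≤ (τ ^ (1 / (n : ℝ)) * 2) *
          (τ ^ (-(1 / (n : ℝ))) * (2 * (K * (β ^ 2 + Real.sqrt τ * β)))) :=
          mul_le_mul e4 e1 hpos (by positivity)
      _ = (τ ^ (1 / (n : ℝ)) * τ ^ (-(1 / (n : ℝ)))) * (4 * K * (β ^ 2 + Real.sqrt τ * β)) := by ring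
      _ = 4 * K * (β ^ 2 + Real.sqrt τ * β) := by rw [e5, one_mul]
      _ ≤ 4 * K * (2 * (β ^ 2 + τ)) := by
          apply mul_le_mul_of_nonneg_left _ (by positivity)
          linarith
      _ ≤ (1 + 8 * K + 3 ^ (1 + N + s)) * (β ^ 2 + τ ^ (1 : ℝ)) := by
          rw [Real.rpow_one]
          have : 0 ≤ β ^ 2 + τ := by positivity
          nlinarith [mul_nonneg h3 this]
  · rw [hT]
    have h1 : τ * lam (b (some none)) 1 ≤ τ * (1 + β) := by
      apply mul_le_mul_of_nonneg_left _ hτ.le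
      have := (abs_le.1 (hb (some none))).1
      unfold lam; linarith
    have h2 := scale_w (n := n) N s μ hμ hτ hτ' hβ0 (by linarith) h1 hn0 hn1 w hw
    refine h2.trans ?_
    apply mul_le_mul_of_nonneg_right
    · have : 3 ^ (1 + N + s) * β ≤ (1 + 8 * K + 3 ^ (1 + N + s)) * β := by
        apply mul_le_mul_of_nonneg_right _ hβ0
        linarith
      linarith
    · unfold nrm nn
      have a1 : 0 ≤ wn N (Real.sqrt τ) w := tsum_nonneg fun k => by
        have : 0 ≤ nk k := norm_nonneg _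
        positivity
      have a2 : 0 ≤ hi s (Real.sqrt τ) w := tsum_nonneg fun k => by
        have : 0 ≤ nk k := norm_nonneg _
        positivity
      positivity

end

end Crest.Agent.R086.MOD
end

-- ▼ part R086/NSFarA
section

/-! Row 86, FarStep (helper148): coefficient-level analysis. -/

set_option autoImplicit false

open Complex Filter
open scoped Topology

namespace Crest.Agent.R086.NSF

noncomputable section

/-- differentiation of a convolution with a fixed summable sequence -/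
theorem hasDeriv_cz {S : ℝ} {a : Z12 → ℂ} (ha : Summable fun k => ‖a k‖) {W D : ℝ → Z12 → ℂ}
    {B M : ℝ} (hW : ∀ r ∈ Set.Icc 0 S, ∀ j, ‖W r j‖ ≤ B)
    (hD : ∀ r ∈ Set.Icc 0 S, ∀ j, ‖D r j‖ ≤ M)
    (hder : ∀ r ∈ Set.Icc 0 S, ∀ j, HasDerivWithinAt (fun r => W r j) (D r j) (Set.Icc 0 S) r) :
    ∀ r ∈ Set.Icc 0 S, ∀ k,
      HasDerivWithinAt (fun r => TNl.cz a (W r) k) (TNl.cz a (D r) k) (Set.Icc 0 S) r := by
  intro r hr k
  rw [hasDerivWithinAt_iff_tendsto_slope]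
  have hM0 : 0 ≤ M := (norm_nonneg _).trans (hD r hr 0)
  have hB0 : 0 ≤ B := (norm_nonneg _).trans (hW r hr 0)
  have hsum : ∀ t ∈ Set.Icc 0 S, Summable fun j => a j * W t (k - j) := fun t ht => by
    refine Summable.of_norm_bounded (ha.mul_right B) fun j => ?_
    rw [norm_mul]
    exact mul_le_mul_of_nonneg_left (hW t ht _) (norm_nonneg _)
  have hev : ∀ᶠ t in 𝓝[Set.Icc 0 S \ {r}] r, t ∈ Set.Icc 0 S \ {r} := self_mem_nhdsWithin
  have hslope : ∀ t ∈ Set.Icc 0 S \ {r}, slope (fun r => TNl.cz a (W r) k) r t =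
      ∑' j, a j * slope (fun r => W r (k - j)) r t := by
    intro t ht
    rw [slope_def_module]
    unfold TNl.cz
    rw [← (hsum t ht.1).tsum_sub (hsum r hr), ← tsum_const_smul'']
    refine tsum_congr fun j => ?_
    rw [slope_def_module]
    simp only [real_smul]
    ring
  have hlim : Tendsto (fun t => ∑' j, a j * slope (fun r => W r (k - j)) r t)
      (𝓝[Set.Icc 0 S \ {r}] r) (𝓝 (∑' j, a j * D r (k - j))) := by
    refine tendsto_tsum_of_dominated_convergence (bound := fun j => ‖a j‖ * M) (ha.mul_right M)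
      (fun j => ?_) ?_
    · have := hasDerivWithinAt_iff_tendsto_slope.1 (hder r hr (k - j))
      exact this.const_mul (a j)
    · filter_upwards [hev] with t ht j
      rw [norm_mul]
      refine mul_le_mul_of_nonneg_left ?_ (norm_nonneg _)
      have h1 := (convex_Icc (0:ℝ) S).norm_image_sub_le_of_norm_hasDerivWithin_le
        (f := fun r => W r (k - j)) (f' := fun r => D r (k - j)) (C := M)
        (fun x hx => hder x hx (k - j)) (fun x hx => hD x hx (k - j)) hr ht.1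
      have h2 : 0 < ‖t - r‖ := norm_pos_iff.2 (sub_ne_zero.2 ht.2)
      rw [slope_def_module, norm_smul, norm_inv, inv_mul_le_iff₀ h2]
      linarith [mul_comm M ‖t - r‖]
  refine hlim.congr' ?_
  filter_upwards [hev] with t ht
  exact (hslope t ht).symm

/-- weighted bound for a general kernel -/
theorem ker_bound {K : Z12 → Z12 → ℂ} {F : Z12 → ℝ} (hF : ∀ m, 0 ≤ F m)
    {H : Z12 × Z12 → ℝ} (hH : Summable H)
    (hle : ∀ k l, F (k + l) * ‖K k l‖ ≤ H (k, l)) :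
    Summable (fun m => F m * ‖∑' k, K k (m - k)‖) ∧ ∑' m, F m * ‖∑' k, K k (m - k)‖ ≤ ∑' p, H p := by
  have h1 : Summable fun p : Z12 × Z12 => F (p.1 + p.2) * ‖K p.1 p.2‖ :=
    Summable.of_nonneg_of_le (fun p => mul_nonneg (hF _) (by positivity))
      (fun p => hle p.1 p.2) hH
  have h2 : Summable fun q : Z12 × Z12 => F q.1 * ‖K q.2 (q.1 - q.2)‖ := by
    have := (TNl.shEq.symm.summable_iff (f := fun p : Z12 × Z12 =>
      F (p.1 + p.2) * ‖K p.1 p.2‖)).2 h1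
    refine this.congr fun q => ?_
    simp [TNl.shEq]
  have h3 : ∀ m, Summable fun k => F m * ‖K k (m - k)‖ := fun m => h2.prod_factor m
  have h4 : ∀ m, F m * ‖∑' k, K k (m - k)‖ ≤ ∑' k, F m * ‖K k (m - k)‖ := by
    intro m
    have e : F m * ‖∑' k, K k (m - k)‖ = ‖∑' k, (F m : ℂ) * K k (m - k)‖ := by
      rw [tsum_mul_left, norm_mul, Complex.norm_real, Real.norm_of_nonneg (hF m)]
    rw [e]
    have h5 : ∀ k, ‖(F m : ℂ) * K k (m - k)‖ = F m * ‖K k (m - k)‖ := fun k => by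
      rw [norm_mul, Complex.norm_real, Real.norm_of_nonneg (hF m)]
    have h6 := norm_tsum_le_tsum_norm (f := fun k => (F m : ℂ) * K k (m - k)) (by
      simp only [h5]; exact h3 m)
    simpa only [h5] using h6
  have h7 : Summable fun m => ∑' k, F m * ‖K k (m - k)‖ := h2.prod
  have h8 : Summable (fun m => F m * ‖∑' k, K k (m - k)‖) :=
    Summable.of_nonneg_of_le (fun m => mul_nonneg (hF m) (norm_nonneg _)) h4 h7
  refine ⟨h8, ?_⟩
  calc ∑' m, F m * ‖∑' k, K k (m - k)‖ ≤ ∑' m, ∑' k, F m * ‖K k (m - k)‖ :=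
        h8.tsum_le_tsum h4 h7
    _ = ∑' q : Z12 × Z12, F q.1 * ‖K q.2 (q.1 - q.2)‖ := (h2.tsum_prod).symm
    _ = ∑' p : Z12 × Z12, F (p.1 + p.2) * ‖K p.1 p.2‖ := by
        rw [← TNl.shEq.tsum_eq (fun q : Z12 × Z12 => F q.1 * ‖K q.2 (q.1 - q.2)‖)]
        simp [TNl.shEq]
    _ ≤ ∑' p, H p := h1.tsum_le_tsum (fun p => hle p.1 p.2) hH

/-- the scale `√(τ₀ e^{-r})` is nonnegative, decreasing -/
theorem hs_nonneg (τ₀ r : ℝ) : 0 ≤ Profile.hs τ₀ r := Real.sqrt_nonneg _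

theorem hs_anti {τ₀ : ℝ} (h : 0 ≤ τ₀) {r r' : ℝ} (hr : r ≤ r') : Profile.hs τ₀ r' ≤ Profile.hs τ₀ r := by
  unfold Profile.hs
  exact Real.sqrt_le_sqrt (mul_le_mul_of_nonneg_left (Real.exp_le_exp.2 (by linarith)) h)

theorem hs_le_one {τ₀ : ℝ} (h : 0 ≤ τ₀) (h1 : τ₀ ≤ 1) {r : ℝ} (hr : 0 ≤ r) : Profile.hs τ₀ r ≤ 1 := by
  unfold Profile.hs
  rw [Real.sqrt_le_one]
  have := Real.exp_le_one_iff.2 (neg_nonpos.2 hr)
  have := Real.exp_pos (-r)
  nlinarith

theorem hs_zero (τ₀ : ℝ) : Profile.hs τ₀ 0 = Real.sqrt τ₀ := by simp [Profile.hs]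

theorem hs_sq {τ₀ : ℝ} (h : 0 ≤ τ₀) (r : ℝ) : Profile.hs τ₀ r ^ 2 = τ₀ * Real.exp (-r) := by
  unfold Profile.hs
  exact Real.sq_sqrt (by positivity)

theorem hs_le_sqrt {τ₀ : ℝ} (h : 0 ≤ τ₀) {r : ℝ} (hr : 0 ≤ r) : Profile.hs τ₀ r ≤ Real.sqrt τ₀ := by
  rw [← hs_zero]; exact hs_anti h hr

/-- the damped transport: bound at the end of the step -/
theorem transport {om νn τ₀ S : ℝ} (hν : 0 ≤ νn) (hτ : 0 ≤ τ₀) (hS : 0 ≤ S) (N : ℕ)
    {v F : ℝ → Z12 → ℂ}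
    (hode : ∀ r ∈ Set.Icc 0 S, ∀ k, HasDerivWithinAt (fun r => v r k)
      ((-(I * ((τ₀ * Real.exp (-r) * nk k ^ 2 : ℝ) : ℂ)) + (I * (om : ℂ) - (νn : ℂ))) * v r k + F r k)
      (Set.Icc 0 S) r)
    {Φ V0 : ℝ} (hF : ∀ r ∈ Set.Icc 0 S, ∀ K : Finset Z12,
      ∑ k ∈ K, (1 + Profile.hs τ₀ r * nk k) ^ N * ‖F r k‖ ≤ Φ)
    (h0 : ∀ K : Finset Z12, ∑ k ∈ K, (1 + Profile.hs τ₀ 0 * nk k) ^ N * ‖v 0 k‖ ≤ V0)
    (K : Finset Z12) :
    ∑ k ∈ K, (1 + Profile.hs τ₀ S * nk k) ^ N * ‖v S k‖ ≤ Real.exp (-(S * νn)) * V0 + Φ * S := by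
  classical
  set A : Z12 → ℝ → ℂ := fun k r => I * ((τ₀ * Real.exp (-r) * nk k ^ 2 : ℝ) : ℂ) +
    (I * (om : ℂ) - (νn : ℂ)) * (r : ℂ) with hA
  have hA' : ∀ k r, HasDerivAt (A k)
      (-(I * ((τ₀ * Real.exp (-r) * nk k ^ 2 : ℝ) : ℂ)) + (I * (om : ℂ) - (νn : ℂ))) r := by
    intro k r
    have h1 : HasDerivAt (fun r : ℝ => τ₀ * Real.exp (-r) * nk k ^ 2)
        (-(τ₀ * Real.exp (-r) * nk k ^ 2)) r := by
      have h2 : HasDerivAt (fun r : ℝ => Real.exp (-r)) (Real.exp (-r) * (-1)) r :=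
        (hasDerivAt_neg r).exp
      exact ((h2.const_mul τ₀).mul_const (nk k ^ 2)).congr_deriv (by ring)
    refine ((h1.ofReal_comp.const_mul I).add
      (((hasDerivAt_id r).ofReal_comp).const_mul (I * (om : ℂ) - (νn : ℂ)))).congr_deriv ?_
    push_cast
    ring
  have hre : ∀ k r, (A k r).re = -νn * r := by
    intro k r
    simp only [hA]
    rw [Complex.add_re, Complex.re_mul_ofReal, Complex.re_mul_ofReal, Complex.sub_re,
      Complex.re_mul_ofReal, Complex.I_re, Complex.ofReal_re]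
    ring
  set w : Z12 → ℝ := fun k => (1 + Profile.hs τ₀ S * nk k) ^ N with hw
  have hw0 : ∀ k, 0 ≤ w k := fun k => by
    have := mul_nonneg (hs_nonneg τ₀ S) (TNl.nk_nonneg k)
    simp only [hw]; positivity
  have hwr : ∀ r ∈ Set.Icc 0 S, ∀ k, w k ≤ (1 + Profile.hs τ₀ r * nk k) ^ N := fun r hr k => by
    have h1 := mul_nonneg (hs_nonneg τ₀ S) (TNl.nk_nonneg k)
    have h2 := mul_le_mul_of_nonneg_right (hs_anti hτ hr.2) (TNl.nk_nonneg k)
    exact pow_le_pow_left₀ (by positivity) (by linarith) N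
  -- phases
  set θ : Z12 → ℂ := fun k => if v S k = 0 then 0 else (‖v S k‖ : ℂ) * (v S k)⁻¹ with hθ
  have hθ1 : ∀ k, θ k * v S k = (‖v S k‖ : ℂ) := by
    intro k
    by_cases h : v S k = 0
    · simp [hθ, h]
    · simp only [hθ, if_neg h]; rw [mul_assoc, inv_mul_cancel₀ h, mul_one]
  have hθ2 : ∀ k, ‖θ k‖ ≤ 1 := by
    intro k
    by_cases h : v S k = 0
    · simp [hθ, h]
    · simp only [hθ, if_neg h]
      rw [norm_mul, norm_inv, Complex.norm_real, norm_norm,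
        mul_inv_cancel₀ (norm_ne_zero_iff.2 h)]
  set φ : ℝ → ℂ := fun r => ∑ k ∈ K, θ k * (w k : ℂ) * (exp (A k S - A k r) * v r k) with hφ
  have hφ' : ∀ r ∈ Set.Icc 0 S, HasDerivWithinAt φ
      (∑ k ∈ K, θ k * (w k : ℂ) * (exp (A k S - A k r) * F r k)) (Set.Icc 0 S) r := by
    intro r hr
    have h1 : ∀ k ∈ K, HasDerivWithinAt
        (fun r => θ k * (w k : ℂ) * (exp (A k S - A k r) * v r k))
        (θ k * (w k : ℂ) * (exp (A k S - A k r) * F r k)) (Set.Icc 0 S) r := by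
      intro k _
      have h2 : HasDerivWithinAt (fun r => exp (A k S - A k r))
          (exp (A k S - A k r) *
            (-(-(I * ((τ₀ * Real.exp (-r) * nk k ^ 2 : ℝ) : ℂ)) + (I * (om : ℂ) - (νn : ℂ)))))
          (Set.Icc 0 S) r := by
        have := ((hA' k r).const_sub (A k S)).cexp
        exact this.hasDerivWithinAt
      exact ((h2.mul (hode r hr k)).const_mul (θ k * (w k : ℂ))).congr_deriv (by ring)
    have h2 := HasDerivWithinAt.sum h1
    have e : φ = ∑ k ∈ K, fun r => θ k * (w k : ℂ) * (exp (A k S - A k r) * v r k) := by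
      funext r
      simp only [hφ, Finset.sum_apply]
    rw [e]
    exact h2
  have hexp : ∀ r ∈ Set.Icc 0 S, ∀ k, ‖exp (A k S - A k r)‖ ≤ 1 := by
    intro r hr k
    rw [Complex.norm_exp, Complex.sub_re, hre, hre]
    rw [Real.exp_le_one_iff]
    nlinarith [hr.2]
  have hbd : ∀ r ∈ Set.Icc 0 S, ‖∑ k ∈ K, θ k * (w k : ℂ) * (exp (A k S - A k r) * F r k)‖ ≤ Φ := by
    intro r hr
    refine (norm_sum_le _ _).trans ((Finset.sum_le_sum fun k _ => ?_).trans (hF r hr K))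
    rw [norm_mul, norm_mul, norm_mul, Complex.norm_real, Real.norm_of_nonneg (hw0 k)]
    have a1 := hθ2 k
    have a2 := hexp r hr k
    have a3 := hwr r hr k
    have a4 := hw0 k
    calc ‖θ k‖ * w k * (‖exp (A k S - A k r)‖ * ‖F r k‖)
        ≤ 1 * w k * (1 * ‖F r k‖) := by gcongr
      _ = w k * ‖F r k‖ := by ring
      _ ≤ _ := mul_le_mul_of_nonneg_right a3 (norm_nonneg _)
  have hmv := norm_image_sub_le_of_norm_deriv_le_segment' (f := φ) (a := 0) (b := S) hφ'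
    (fun r hr => hbd r ⟨hr.1, hr.2.le⟩) S ⟨hS, le_rfl⟩
  have hφS : φ S = ((∑ k ∈ K, w k * ‖v S k‖ : ℝ) : ℂ) := by
    simp only [hφ, sub_self, Complex.exp_zero, one_mul]
    push_cast
    refine Finset.sum_congr rfl fun k _ => ?_
    rw [← hθ1 k]; ring
  have hφ0 : ‖φ 0‖ ≤ Real.exp (-(S * νn)) * V0 := by
    have h1 : ‖φ 0‖ ≤ ∑ k ∈ K, Real.exp (-(S * νn)) * ((1 + Profile.hs τ₀ 0 * nk k) ^ N * ‖v 0 k‖) := by
      refine (norm_sum_le _ _).trans (Finset.sum_le_sum fun k _ => ?_)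
      rw [norm_mul, norm_mul, norm_mul, Complex.norm_real, Real.norm_of_nonneg (hw0 k)]
      have a1 := hθ2 k
      have a2 : ‖exp (A k S - A k 0)‖ = Real.exp (-(S * νn)) := by
        rw [Complex.norm_exp, Complex.sub_re, hre, hre]
        congr 1; ring
      have a3 := hwr 0 ⟨le_rfl, hS⟩ k
      have a4 := hw0 k
      rw [a2]
      calc ‖θ k‖ * w k * (Real.exp (-(S * νn)) * ‖v 0 k‖)
          ≤ 1 * (1 + Profile.hs τ₀ 0 * nk k) ^ N * (Real.exp (-(S * νn)) * ‖v 0 k‖) := by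
            gcongr
        _ = _ := by ring
    refine h1.trans ?_
    rw [← Finset.mul_sum]
    exact mul_le_mul_of_nonneg_left (h0 K) (Real.exp_pos _).le
  have hnn : 0 ≤ ∑ k ∈ K, w k * ‖v S k‖ :=
    Finset.sum_nonneg fun k _ => mul_nonneg (hw0 k) (norm_nonneg _)
  have h9 : ‖φ S‖ = ∑ k ∈ K, w k * ‖v S k‖ := by
    rw [hφS, Complex.norm_real, Real.norm_of_nonneg hnn]
  rw [← h9]
  have := norm_sub_norm_le (φ S) (φ 0)
  rw [sub_zero] at hmv
  linarith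

end

end Crest.Agent.R086.NSF
end

-- ▼ part R086/NSFar
section

/-! Row 86, node FarStep of NearStep (helper148). -/

set_option autoImplicit false

open MeasureTheory Complex Filter
open scoped ContDiff Topology
open Crest.AnalysisR.PDE.NLS (IsSmoothPeriodic periodCell)

namespace Crest.Agent.R086.NSF

open Profile TB

noncomputable section

/-- `1 - perz chi2` -/
def Yc : R12 → ℂ := fun x => 1 - perz (fun x => ((chi2 x : ℝ) : ℂ)) x

theorem sp_chi2 : IsSmoothPeriodic (perz (fun x => ((chi2 x : ℝ) : ℂ))) :=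
  PZ.smoothPeriodic (PZ.chi_smooth chi2) fun z hz =>
    PZ.chi_zero chi2 (r := 3) (by norm_num [chi2]) hz

theorem sp_Yc : IsSmoothPeriodic Yc := sp_sub (sp_const 1) sp_chi2

theorem cf_sub (h1 : TF1) (h2 : TF2) {v w : R12 → ℂ} (hv : IsSmoothPeriodic v)
    (hw : IsSmoothPeriodic w) (k : Z12) : cf (fun x => v x - w x) k = cf v k - cf w k := by
  have e : (fun x => v x - w x) = fun x => v x + (-1) * w x := by funext x; ring
  rw [e, (TNl.cf_add h1 h2 hv (sp_cmul hw (-1))).2]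
  simp only [TNl.cf_smul]
  ring

theorem wcf_le (h1 : TF1) {v : R12 → ℂ} (hv : IsSmoothPeriodic v) (N : ℕ) {h : ℝ} (hh : 0 ≤ h)
    (k : Z12) : (1 + h * nk k) ^ N * ‖cf v k‖ ≤ wn N h v :=
  (summable_wn h1 hv N hh).le_tsum k fun j _ =>
    mul_nonneg (w_nonneg N hh j) (norm_nonneg _)

theorem cf_le (h1 : TF1) {v : R12 → ℂ} (hv : IsSmoothPeriodic v) (k : Z12) :
    ‖cf v k‖ ≤ wn 0 1 v := by
  simpa using wcf_le h1 hv 0 zero_le_one k

theorem wn_pow_mul (hTN : TN) {v w : R12 → ℂ} (hv : IsSmoothPeriodic v) (hw : IsSmoothPeriodic w)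
    (N : ℕ) {h : ℝ} (hh : 0 ≤ h) (a : ℕ) :
    wn N h (fun x => v x ^ a * w x) ≤ wn N h v ^ a * wn N h w := by
  induction a with
  | zero => simp
  | succ a ih =>
    have e : (fun x => v x ^ (a + 1) * w x) = fun x => v x * (v x ^ a * w x) := by
      funext x; ring
    rw [e]
    refine (hTN.wn_mul v _ hv (sp_mul (sp_pow hv a) hw) N h hh).trans ?_
    calc wn N h v * wn N h (fun x => v x ^ a * w x)
        ≤ wn N h v * (wn N h v ^ a * wn N h w) :=
          mul_le_mul_of_nonneg_left ih (wn_nonneg N hh v)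
      _ = _ := by ring

theorem wn_nl_le (hTN : TN) {n : ℕ} (hn : Even n) {v : R12 → ℂ} (hv : IsSmoothPeriodic v)
    (N : ℕ) {h : ℝ} (hh : 0 ≤ h) : wn N h (fun x => nl n (v x)) ≤ wn N h v ^ (n + 1) := by
  obtain ⟨m, hm⟩ := hn
  have e : (fun x => nl n (v x)) = fun x => v x ^ m * ((starRingEnd ℂ (v x)) ^ m * v x) := by
    funext x
    rw [hm, ← two_mul, nl_eq]; ring
  rw [e]
  have h1 := wn_pow_mul hTN hv (sp_mul (sp_pow (sp_conj hv) m) hv) N hh m
  have h2 := wn_pow_mul hTN (sp_conj hv) hv N hh m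
  rw [hTN.wn_conj] at h2
  refine h1.trans ((mul_le_mul_of_nonneg_left h2 (pow_nonneg (wn_nonneg N hh v) m)).trans_eq ?_)
  rw [hm]; ring

/-- from the scaled norm to the unscaled norm -/
theorem wn_one_le (h1 : TF1) {v : R12 → ℂ} (hv : IsSmoothPeriodic v) (N : ℕ) {η h : ℝ} (hη : 0 < η)
    (hh : η ≤ h) (hh1 : h ≤ 1) : wn N 1 v ≤ (η⁻¹) ^ N * wn N h v := by
  have hh0 : 0 ≤ h := hη.le.trans hh
  unfold wn
  rw [← tsum_mul_left]
  refine (summable_wn h1 hv N zero_le_one).tsum_le_tsum (fun k => ?_)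
    ((summable_wn h1 hv N hh0).mul_left _)
  rw [← mul_assoc, ← mul_pow]
  refine mul_le_mul_of_nonneg_right (pow_le_pow_left₀ ?_ ?_ N) (norm_nonneg _)
  · have := nk_nonneg k; positivity
  · have h3 := nk_nonneg k
    have h4 : 1 ≤ η⁻¹ := (one_le_inv₀ hη).2 (hh.trans hh1)
    have h5 : nk k ≤ η⁻¹ * (h * nk k) := by
      rw [← mul_assoc]
      have : 1 ≤ η⁻¹ * h := by
        rw [inv_mul_eq_div, le_div_iff₀ hη]; linarith
      nlinarith
    nlinarith

/-- the multiplier -/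
def Lam (om νn τ₀ r : ℝ) (k : Z12) : ℂ :=
  -(I * ((τ₀ * Real.exp (-r) * nk k ^ 2 : ℝ) : ℂ)) + (I * (om : ℂ) - (νn : ℂ))

/-- the commutator kernel -/
def Ker (τ : ℝ) (a W : Z12 → ℂ) (j l : Z12) : ℂ :=
  a j * (-(I * ((τ * (nk l ^ 2 - nk (j + l) ^ 2) : ℝ) : ℂ))) * W l

theorem ker_norm {h : ℝ} (hh : 0 ≤ h) (hh1 : h ≤ 1) (a W : Z12 → ℂ) (N : ℕ) (j l : Z12) :
    (1 + h * nk (j + l)) ^ N * ‖Ker (h ^ 2) a W j l‖ ≤
      (2 * h) * (((1 + 1 * nk j) ^ (N + 2) * ‖a j‖) * ((1 + h * nk l) ^ (N + 1) * ‖W l‖)) := by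
  have hj := nk_nonneg j
  have hl := nk_nonneg l
  have hjl := nk_nonneg (j + l)
  have t1 : nk (j + l) ≤ nk j + nk l := TNl.nk_add_le j l
  have t2 : nk l ≤ nk j + nk (j + l) := by
    have := TNl.nk_add_le (-j) (j + l)
    rw [TNl.nk_neg] at this
    simpa using this
  have hk : ‖Ker (h ^ 2) a W j l‖ ≤ ‖a j‖ * (2 * h * ((1 + 1 * nk j) ^ 2 * (1 + h * nk l))) * ‖W l‖ := by
    unfold Ker
    rw [norm_mul, norm_mul, norm_neg, norm_mul, Complex.norm_I, one_mul, Complex.norm_real]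
    refine mul_le_mul_of_nonneg_right (mul_le_mul_of_nonneg_left ?_ (norm_nonneg _)) (norm_nonneg _)
    rw [Real.norm_eq_abs, abs_mul, abs_of_nonneg (by positivity : 0 ≤ h ^ 2)]
    have h3 : |nk l ^ 2 - nk (j + l) ^ 2| ≤ nk j * (2 * nk l + nk j) := by
      rw [abs_le]
      constructor <;> nlinarith
    have h4 : h * nk j * nk j ≤ nk j * nk j := by nlinarith [mul_nonneg hj hj]
    calc h ^ 2 * |nk l ^ 2 - nk (j + l) ^ 2| ≤ h ^ 2 * (nk j * (2 * nk l + nk j)) :=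
          mul_le_mul_of_nonneg_left h3 (by positivity)
      _ = h * (2 * nk j * (h * nk l) + h * nk j * nk j) := by ring
      _ ≤ h * (2 * ((1 + 1 * nk j) ^ 2 * (1 + h * nk l))) := by
          refine mul_le_mul_of_nonneg_left ?_ hh
          have h5 : 0 ≤ h * nk l := mul_nonneg hh hl
          nlinarith [mul_nonneg hj h5, mul_nonneg (mul_nonneg hj hj) h5, mul_nonneg hj hj]
      _ = _ := by ring
  have hw : (1 + h * nk (j + l)) ^ N ≤ (1 + 1 * nk j) ^ N * (1 + h * nk l) ^ N := by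
    rw [← mul_pow]
    refine pow_le_pow_left₀ (by positivity) ?_ N
    have h5 : 0 ≤ h * nk l := mul_nonneg hh hl
    have h6 : h * nk (j + l) ≤ h * nk j + h * nk l := by nlinarith
    have h7 : h * nk j ≤ nk j := by nlinarith
    nlinarith [mul_nonneg hj h5]
  calc (1 + h * nk (j + l)) ^ N * ‖Ker (h ^ 2) a W j l‖
      ≤ ((1 + 1 * nk j) ^ N * (1 + h * nk l) ^ N) *
        (‖a j‖ * (2 * h * ((1 + 1 * nk j) ^ 2 * (1 + h * nk l))) * ‖W l‖) := by
        gcongr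
    _ = _ := by ring

/-- bound of the commutator part -/
theorem comm_bound (h1 : TF1) {h : ℝ} (hh : 0 ≤ h) (hh1 : h ≤ 1) {Y W : R12 → ℂ}
    (hY : IsSmoothPeriodic Y) (hW : IsSmoothPeriodic W) (N : ℕ) :
    Summable (fun m => (1 + h * nk m) ^ N * ‖∑' j, Ker (h ^ 2) (cf Y) (cf W) j (m - j)‖) ∧
    ∑' m, (1 + h * nk m) ^ N * ‖∑' j, Ker (h ^ 2) (cf Y) (cf W) j (m - j)‖ ≤
      2 * h * (wn (N + 2) 1 Y * wn (N + 1) h W) := by
  have s1 := summable_wn h1 hY (N + 2) zero_le_one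
  have s2 := summable_wn h1 hW (N + 1) hh
  have hH : Summable fun p : Z12 × Z12 =>
      ((1 + 1 * nk p.1) ^ (N + 2) * ‖cf Y p.1‖) * ((1 + h * nk p.2) ^ (N + 1) * ‖cf W p.2‖) :=
    s1.mul_of_nonneg s2 (fun k => mul_nonneg (w_nonneg _ zero_le_one k) (norm_nonneg _))
      (fun k => mul_nonneg (w_nonneg _ hh k) (norm_nonneg _))
  obtain ⟨a1, a2⟩ := ker_bound (K := Ker (h ^ 2) (cf Y) (cf W)) (F := fun m => (1 + h * nk m) ^ N)
    (fun m => w_nonneg N hh m) (hH.mul_left (2 * h)) (fun k l => ker_norm hh hh1 _ _ N k l)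
  refine ⟨a1, a2.trans_eq ?_⟩
  rw [tsum_mul_left, ← s1.tsum_mul_tsum s2 hH]
  rfl

/-- the source `-i (nl U - nl q) + g` -/
def src (n : ℕ) (U q g : R12 → ℂ) (x : R12) : ℂ := -I * (nl n (U x) - nl n (q x)) + g x

theorem sp_src {n : ℕ} (hn : Even n) {U q g : R12 → ℂ} (hU : IsSmoothPeriodic U)
    (hq : IsSmoothPeriodic q) (hg : IsSmoothPeriodic g) : IsSmoothPeriodic (src n U q g) :=
  sp_add (sp_cmul (sp_sub (sp_nl hn hU) (sp_nl hn hq)) (-I)) hg

theorem cf_src (h1 : TF1) (h2 : TF2) {n : ℕ} (hn : Even n) {U q g : R12 → ℂ}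
    (hU : IsSmoothPeriodic U) (hq : IsSmoothPeriodic q) (hg : IsSmoothPeriodic g) (k : Z12) :
    cf (src n U q g) k = -I * (cf (fun x => nl n (U x)) k - cf (fun x => nl n (q x)) k) + cf g k := by
  have e : src n U q g = fun x => (fun x => -I * (nl n (U x) - nl n (q x))) x + g x := rfl
  rw [e, (TNl.cf_add h1 h2 (sp_cmul (sp_sub (sp_nl hn hU) (sp_nl hn hq)) (-I)) hg).2]
  simp only [TNl.cf_smul]
  rw [cf_sub h1 h2 (sp_nl hn hU) (sp_nl hn hq)]

/-- crude bound of the source, for differentiability only -/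
theorem src_crude (h1 : TF1) (hTN : TN) {n : ℕ} (hn : Even n) {U q g : R12 → ℂ}
    (hU : IsSmoothPeriodic U) (hq : IsSmoothPeriodic q) (hg : IsSmoothPeriodic g) {B : ℝ}
    (b1 : wn 0 1 U ≤ B) (b2 : wn 0 1 q ≤ B) (b3 : wn 0 1 g ≤ B) (k : Z12) :
    ‖cf (src n U q g) k‖ ≤ B ^ (n + 1) + B ^ (n + 1) + B := by
  refine (cf_le h1 (sp_src hn hU hq hg) k).trans ?_
  have e : src n U q g = fun x => (fun x => -I * (nl n (U x) - nl n (q x))) x + g x := rfl
  rw [e]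
  refine (hTN.wn_add _ _ (sp_cmul (sp_sub (sp_nl hn hU) (sp_nl hn hq)) (-I)) hg 0 1
    zero_le_one).trans ?_
  refine add_le_add ?_ b3
  rw [hTN.wn_smul, norm_neg, Complex.norm_I, one_mul]
  refine (wn_sub_le hTN (sp_nl hn hU) (sp_nl hn hq) 0 zero_le_one).trans ?_
  refine add_le_add ((wn_nl_le hTN hn hU 0 zero_le_one).trans ?_)
    ((wn_nl_le hTN hn hq 0 zero_le_one).trans ?_)
  · exact pow_le_pow_left₀ (wn_nonneg 0 zero_le_one _) b1 _
  · exact pow_le_pow_left₀ (wn_nonneg 0 zero_le_one _) b2 _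

/-- the source times `Yc` is small -/
theorem src_far (h1 : TF1) (hTN : TN) {n : ℕ} (hn : Even n) (hn2 : 2 ≤ n) (N : ℕ)
    {h : ℝ} (hh : 0 ≤ h) (hh1 : h ≤ 1) {q W g : R12 → ℂ}
    (hq : IsSmoothPeriodic q) (hW : IsSmoothPeriodic W) (hg : IsSmoothPeriodic g)
    {CR Cp Cg τ L : ℝ}
    (hR : wn N h (fun x => nl n (q x + W x) - nl n (q x) - dnl n (q x) (W x)) ≤ CR * L ^ 2)
    (hp1 : wn N 1 (fun x => Yc x * ((‖q x‖ ^ n : ℝ) : ℂ)) ≤ Cp * τ)
    (hp2 : wn N 1 (fun x => Yc x * (((‖q x‖ ^ (n - 2) : ℝ) : ℂ) * q x ^ 2)) ≤ Cp * τ)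
    (hgb : wn N 1 g ≤ Cg * τ) (hL : wn N h W ≤ L) (hL0 : 0 ≤ L) :
    wn N h (fun x => Yc x * src n (fun x => q x + W x) q g x) ≤
      wn N 1 Yc * CR * L ^ 2 + (1 + n) * Cp * τ * L + wn N 1 Yc * (Cg * τ) := by
  have hn' : Even (n - 2) := by
    obtain ⟨m, hm⟩ := hn
    exact ⟨m - 1, by omega⟩
  have sR : IsSmoothPeriodic (fun x => nl n (q x + W x) - nl n (q x) - dnl n (q x) (W x)) := by
    refine sp_sub (sp_sub (sp_nl hn (sp_add hq hW)) (sp_nl hn hq)) ?_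
    unfold dnl
    exact sp_add (sp_mul (sp_cmul (sp_normpow hn hq) _) hW)
      (sp_mul (sp_mul (sp_cmul (sp_normpow hn' hq) _) (sp_pow hq 2)) (sp_conj hW))
  set A : R12 → ℂ := fun x => Yc x * ((‖q x‖ ^ n : ℝ) : ℂ) with hA
  set B : R12 → ℂ := fun x => Yc x * (((‖q x‖ ^ (n - 2) : ℝ) : ℂ) * q x ^ 2) with hB
  have sA : IsSmoothPeriodic A := sp_mul sp_Yc (sp_normpow hn hq)
  have sB : IsSmoothPeriodic B := sp_mul sp_Yc (sp_mul (sp_normpow hn' hq) (sp_pow hq 2))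
  have e : (fun x => Yc x * src n (fun x => q x + W x) q g x) = fun x =>
      ((-I) * (Yc x * (nl n (q x + W x) - nl n (q x) - dnl n (q x) (W x))) +
      ((-I * (1 + (n : ℂ) / 2)) * (A x * W x) + (-I * ((n : ℂ) / 2)) * (B x * (starRingEnd ℂ) (W x))))
      + Yc x * g x := by
    funext x
    simp only [src, dnl, hA, hB]
    ring
  rw [e]
  have w1 : wn N h Yc ≤ wn N 1 Yc := hTN.wn_mono Yc sp_Yc N h 1 hh hh1
  have hY0 := wn_nonneg N hh Yc
  have hY1 := wn_nonneg N zero_le_one Yc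
  have sAW := sp_mul sA hW
  have sBW := sp_mul sB (sp_conj hW)
  have a1 := hTN.wn_add _ _ (sp_add (sp_cmul (sp_mul sp_Yc sR) (-I))
    (sp_add (sp_cmul sAW (-I * (1 + (n : ℂ) / 2))) (sp_cmul sBW (-I * ((n : ℂ) / 2)))))
    (sp_mul sp_Yc hg) N h hh
  have a2 := hTN.wn_add _ _ (sp_cmul (sp_mul sp_Yc sR) (-I))
    (sp_add (sp_cmul sAW (-I * (1 + (n : ℂ) / 2))) (sp_cmul sBW (-I * ((n : ℂ) / 2)))) N h hh
  have a3 := hTN.wn_add _ _ (sp_cmul sAW (-I * (1 + (n : ℂ) / 2)))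
    (sp_cmul sBW (-I * ((n : ℂ) / 2))) N h hh
  rw [hTN.wn_smul] at a2
  rw [hTN.wn_smul, hTN.wn_smul] at a3
  have n1 : ‖-I‖ = 1 := by rw [norm_neg, Complex.norm_I]
  have n2 : ‖-I * (1 + (n : ℂ) / 2)‖ = 1 + (n : ℝ) / 2 := by
    rw [norm_mul, n1, one_mul]
    have : (1 + (n : ℂ) / 2) = ((1 + (n : ℝ) / 2 : ℝ) : ℂ) := by push_cast; ring
    rw [this, Complex.norm_real, Real.norm_of_nonneg (by positivity)]
  have n3 : ‖-I * ((n : ℂ) / 2)‖ = (n : ℝ) / 2 := by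
    rw [norm_mul, n1, one_mul]
    have : ((n : ℂ) / 2) = (((n : ℝ) / 2 : ℝ) : ℂ) := by push_cast; ring
    rw [this, Complex.norm_real, Real.norm_of_nonneg (by positivity)]
  rw [n1, one_mul] at a2
  rw [n2, n3] at a3
  have b1 : wn N h (fun x => Yc x * (nl n (q x + W x) - nl n (q x) - dnl n (q x) (W x))) ≤
      wn N 1 Yc * (CR * L ^ 2) :=
    (hTN.wn_mul _ _ sp_Yc sR N h hh).trans (mul_le_mul w1 hR (wn_nonneg N hh _) hY1)
  have c1 : wn N h A ≤ Cp * τ := (hTN.wn_mono A sA N h 1 hh hh1).trans hp1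
  have c2 : wn N h B ≤ Cp * τ := (hTN.wn_mono B sB N h 1 hh hh1).trans hp2
  have hCp : 0 ≤ Cp * τ := (wn_nonneg N hh A).trans c1
  have b2 : wn N h (fun x => A x * W x) ≤ Cp * τ * L :=
    (hTN.wn_mul _ _ sA hW N h hh).trans (mul_le_mul c1 hL (wn_nonneg N hh _) hCp)
  have b3 : wn N h (fun x => B x * (starRingEnd ℂ) (W x)) ≤ Cp * τ * L := by
    refine (hTN.wn_mul _ _ sB (sp_conj hW) N h hh).trans ?_
    rw [hTN.wn_conj]
    exact mul_le_mul c2 hL (wn_nonneg N hh _) hCp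
  have b4 : wn N h (fun x => Yc x * g x) ≤ wn N 1 Yc * (Cg * τ) :=
    (hTN.wn_mul _ _ sp_Yc hg N h hh).trans
      (mul_le_mul w1 ((hTN.wn_mono g hg N h 1 hh hh1).trans hgb) (wn_nonneg N hh _) hY1)
  have hn0 : (0:ℝ) ≤ n := Nat.cast_nonneg n
  have b2' := mul_le_mul_of_nonneg_left b2 (by positivity : (0:ℝ) ≤ 1 + (n:ℝ) / 2)
  have b3' := mul_le_mul_of_nonneg_left b3 (by positivity : (0:ℝ) ≤ (n:ℝ) / 2)
  refine a1.trans ?_
  nlinarith [a1, a2, a3, b1, b2', b3', b4]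

end

end Crest.Agent.R086.NSF
end

-- ▼ part R086/NSFarB
section

/-! Row 86, node FarStep of NearStep (helper148): the theorem. -/

set_option autoImplicit false

open MeasureTheory Complex Filter
open scoped ContDiff Topology
open Crest.AnalysisR.PDE.NLS (IsSmoothPeriodic periodCell)

namespace Crest.Agent.R086.NSF

open Profile TB

noncomputable section

/-- convolution with the damped right side: commutator form -/
theorem cz_lin {om νn τ₀ r τ : ℝ} (hτ : τ = τ₀ * Real.exp (-r)) {a W G : Z12 → ℂ}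
    {B BG : ℝ} (ha : Summable fun k => ‖a k‖)
    (hW : ∀ k, ‖W k‖ ≤ B) (hW2 : ∀ k, ‖Lam om νn τ₀ r k * W k‖ ≤ B) (hG : ∀ k, ‖G k‖ ≤ BG) (k : Z12) :
    TNl.cz a (fun k => Lam om νn τ₀ r k * W k + G k) k =
      Lam om νn τ₀ r k * TNl.cz a W k + (∑' j, Ker τ a W j (k - j) + TNl.cz a G k) := by
  have s1 : Summable fun j => a j * W (k - j) := by
    refine Summable.of_norm_bounded (ha.mul_right B) fun j => ?_
    rw [norm_mul]
    exact mul_le_mul_of_nonneg_left (hW _) (norm_nonneg _)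
  have s2 : Summable fun j => a j * (Lam om νn τ₀ r (k - j) * W (k - j)) := by
    refine Summable.of_norm_bounded (ha.mul_right B) fun j => ?_
    rw [norm_mul]
    exact mul_le_mul_of_nonneg_left (hW2 _) (norm_nonneg _)
  have s3 : Summable fun j => a j * G (k - j) := by
    refine Summable.of_norm_bounded (ha.mul_right BG) fun j => ?_
    rw [norm_mul]
    exact mul_le_mul_of_nonneg_left (hG _) (norm_nonneg _)
  have hK : ∀ j, Ker τ a W j (k - j) =
      a j * (Lam om νn τ₀ r (k - j) * W (k - j)) - Lam om νn τ₀ r k * (a j * W (k - j)) := by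
    intro j
    unfold Ker Lam
    rw [add_sub_cancel, hτ]
    push_cast
    ring
  have s4 : Summable fun j => Ker τ a W j (k - j) := by
    simp only [hK]
    exact s2.sub (s1.mul_left _)
  have e : ∀ j, a j * (Lam om νn τ₀ r (k - j) * W (k - j) + G (k - j)) =
      Lam om νn τ₀ r k * (a j * W (k - j)) + (Ker τ a W j (k - j) + a j * G (k - j)) := by
    intro j
    rw [hK]; ring
  unfold TNl.cz
  simp only [e]
  rw [(s1.mul_left _).tsum_add (s4.add s3), s4.tsum_add s3, tsum_mul_left]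

variable {n : ℕ} (P : Profile n) {N : ℕ}

set_option maxHeartbeats 1000000 in
theorem farStep (h1 : TF1) (h2 : TF2) (hP1 : TP1 P) (hP2 : TP2 P) (hP3 : TP3 P) : FarStep P N := by
  intro s hNs
  have hTN : TN := TNl.tn_of h1 h2
  have hn : Even n := P.neven
  have hn2 : 2 ≤ n := P.two_le
  refine ⟨max 1 (wn N 1 Yc), le_max_left _ _, fun S hS => ?_⟩
  obtain ⟨Cq, hCq0, hCq⟩ := hP1.2 N
  obtain ⟨Cq2, hCq20, hCq2⟩ := hP1.2 2
  obtain ⟨gt, hgsm, hgb, hgode⟩ := hP2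
  obtain ⟨Cg, hCg0, hCg⟩ := hgb N
  obtain ⟨Cg1, hCg10, hCg1⟩ := hgb 0
  obtain ⟨Cp, hCp0, hCp⟩ := hP3 N
  obtain ⟨CR, hCR0, hCR⟩ := NS.remEst hTN hn hn2 N Cq
  set Y1 : ℝ := wn N 1 Yc with hY1
  set A1 : ℝ := wn (N + 2) 1 Yc with hA1
  have hY10 : 0 ≤ Y1 := wn_nonneg N zero_le_one Yc
  have hA10 : 0 ≤ A1 := wn_nonneg (N + 2) zero_le_one Yc
  set C' : ℝ := Y1 * CR + (1 + n) * Cp + Y1 * Cg + 2 * A1 * 2 ^ (N + 1) with hC'
  have hn0 : (0:ℝ) ≤ n := Nat.cast_nonneg n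
  have hC'0 : 0 ≤ C' := by positivity
  refine ⟨1 + C' * S, by nlinarith [mul_nonneg hC'0 hS], ?_⟩
  intro τ₀ hτ hτ1 U hU L H hH0 hL1 hL hH
  have hL0 : 0 ≤ L := (wn_nonneg N (hs_nonneg τ₀ 0) _).trans (hL 0 ⟨le_rfl, hS⟩)
  -- scales
  have hτr : ∀ r, 0 < τ₀ * Real.exp (-r) := fun r => mul_pos hτ (Real.exp_pos _)
  have hτr1 : ∀ r ∈ Set.Icc 0 S, τ₀ * Real.exp (-r) ≤ 1 := fun r hr => by
    have h3 := Real.exp_le_one_iff.2 (neg_nonpos.2 hr.1)
    have h4 := Real.exp_pos (-r)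
    nlinarith
  have hτrτ : ∀ r ∈ Set.Icc 0 S, τ₀ * Real.exp (-r) ≤ τ₀ := fun r hr => by
    have h3 := Real.exp_le_one_iff.2 (neg_nonpos.2 hr.1)
    nlinarith
  -- smoothness
  have sq : ∀ r, IsSmoothPeriodic (P.qt (τ₀ * Real.exp (-r))) := fun r => (hP1.1 _ (hτr r)).1
  have sU : ∀ r ∈ Set.Icc 0 S, IsSmoothPeriodic (U r) := hU.smooth
  have sW : ∀ r ∈ Set.Icc 0 S, IsSmoothPeriodic (P.pert τ₀ U r) := fun r hr =>
    sp_sub (sU r hr) (sq r)
  have sg : ∀ r, IsSmoothPeriodic (gt (τ₀ * Real.exp (-r))) := fun r => hgsm _ (hτr r)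
  -- the source
  set G : ℝ → R12 → ℂ := fun r => src n (U r) (P.qt (τ₀ * Real.exp (-r))) (gt (τ₀ * Real.exp (-r)))
    with hG
  have sG : ∀ r ∈ Set.Icc 0 S, IsSmoothPeriodic (G r) := fun r hr =>
    sp_src hn (sU r hr) (sq r) (sg r)
  -- crude bounds
  obtain ⟨BU, hBU⟩ := hU.bdd 2
  have hη : 0 < hs τ₀ S := Real.sqrt_pos.2 (hτr S)
  have hBq : ∀ r ∈ Set.Icc 0 S, wn 2 1 (P.qt (τ₀ * Real.exp (-r))) ≤ ((hs τ₀ S)⁻¹) ^ 2 * Cq2 := by
    intro r hr
    refine (wn_one_le h1 (sq r) 2 hη (hs_anti hτ.le hr.2) (hs_le_one hτ.le hτ1 hr.1)).trans ?_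
    exact mul_le_mul_of_nonneg_left (hCq2 _ (hτr r) (hτr1 r hr)).1 (by positivity)
  set B : ℝ := max (max BU (((hs τ₀ S)⁻¹) ^ 2 * Cq2)) Cg1 with hB
  have w02 : ∀ v : R12 → ℂ, IsSmoothPeriodic v → wn 0 1 v ≤ wn 2 1 v := fun v hv =>
    wn_le_wn h1 hv (by norm_num) zero_le_one le_rfl
  have hBG : ∀ r ∈ Set.Icc 0 S, ∀ k, ‖cf (G r) k‖ ≤ B ^ (n + 1) + B ^ (n + 1) + B := by
    intro r hr k
    refine src_crude h1 hTN hn (sU r hr) (sq r) (sg r) ?_ ?_ ?_ k
    · exact (w02 _ (sU r hr)).trans ((hBU r hr).trans ((le_max_left _ _).trans (le_max_left _ _)))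
    · exact (w02 _ (sq r)).trans ((hBq r hr).trans ((le_max_right _ _).trans (le_max_left _ _)))
    · refine (hCg1 _ (hτr r) (hτr1 r hr)).trans (le_trans ?_ (le_max_right _ _))
      have := hτr1 r hr
      nlinarith
  have hBW : ∀ r ∈ Set.Icc 0 S, wn 2 1 (P.pert τ₀ U r) ≤ B + B := by
    intro r hr
    refine (wn_sub_le hTN (sU r hr) (sq r) 2 zero_le_one).trans (add_le_add ?_ ?_)
    · exact (hBU r hr).trans ((le_max_left _ _).trans (le_max_left _ _))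
    · exact (hBq r hr).trans ((le_max_right _ _).trans (le_max_left _ _))
  have hW2 : ∀ r ∈ Set.Icc 0 S, ∀ k, (1 + nk k) ^ 2 * ‖cf (P.pert τ₀ U r) k‖ ≤ B + B := by
    intro r hr k
    have := wcf_le h1 (sW r hr) 2 zero_le_one k
    rw [one_mul] at this
    exact this.trans (hBW r hr)
  have hBB : 0 ≤ B + B := (wn_nonneg 2 zero_le_one _).trans (hBW 0 ⟨le_rfl, hS⟩)
  have hWb : ∀ r ∈ Set.Icc 0 S, ∀ k, ‖cf (P.pert τ₀ U r) k‖ ≤ (1 + |P.om| + 1 / n) * (B + B) := by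
    intro r hr k
    have h3 := hW2 r hr k
    have h4 : ‖cf (P.pert τ₀ U r) k‖ ≤ (1 + nk k) ^ 2 * ‖cf (P.pert τ₀ U r) k‖ :=
      le_mul_of_one_le_left (norm_nonneg _) (one_le_pow₀ (by linarith [nk_nonneg k]))
    have h5 : (B + B) ≤ (1 + |P.om| + 1 / n) * (B + B) := by
      refine le_mul_of_one_le_left hBB ?_
      have := abs_nonneg P.om
      have : (0:ℝ) ≤ 1 / n := by positivity
      linarith
    linarith
  have hLamb : ∀ r ∈ Set.Icc 0 S, ∀ k, ‖Lam P.om (1 / n) τ₀ r k * cf (P.pert τ₀ U r) k‖ ≤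
      (1 + |P.om| + 1 / n) * (B + B) := by
    intro r hr k
    have h3 : ‖Lam P.om (1 / n) τ₀ r k‖ ≤ (1 + |P.om| + 1 / n) * (1 + nk k) ^ 2 := by
      unfold Lam
      have e1 : ‖-(I * ((τ₀ * Real.exp (-r) * nk k ^ 2 : ℝ) : ℂ))‖ ≤ nk k ^ 2 := by
        rw [norm_neg, norm_mul, Complex.norm_I, one_mul, Complex.norm_real, Real.norm_of_nonneg
          (mul_nonneg (hτr r).le (sq_nonneg _))]
        have := hτr1 r hr
        nlinarith [sq_nonneg (nk k)]
      have e2 : ‖I * (P.om : ℂ) - ((1 / n : ℝ) : ℂ)‖ ≤ |P.om| + 1 / n := by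
        refine (norm_sub_le _ _).trans (add_le_add ?_ ?_)
        · rw [norm_mul, Complex.norm_I, one_mul, Complex.norm_real, Real.norm_eq_abs]
        · rw [Complex.norm_real, Real.norm_of_nonneg (by positivity)]
      refine (norm_add_le _ _).trans ((add_le_add e1 e2).trans ?_)
      have h5 := nk_nonneg k
      have h6 := abs_nonneg P.om
      have h7 : (0:ℝ) ≤ 1 / n := by positivity
      have h8 : 1 ≤ (1 + nk k) ^ 2 := one_le_pow₀ (by linarith)
      nlinarith [mul_nonneg (add_nonneg h6 h7) (sub_nonneg.2 h8)]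
    rw [norm_mul]
    calc ‖Lam P.om (1 / n) τ₀ r k‖ * ‖cf (P.pert τ₀ U r) k‖
        ≤ ((1 + |P.om| + 1 / n) * (1 + nk k) ^ 2) * ‖cf (P.pert τ₀ U r) k‖ :=
          mul_le_mul_of_nonneg_right h3 (norm_nonneg _)
      _ = (1 + |P.om| + 1 / n) * ((1 + nk k) ^ 2 * ‖cf (P.pert τ₀ U r) k‖) := by ring
      _ ≤ _ := mul_le_mul_of_nonneg_left (hW2 r hr k) (by
          have := abs_nonneg P.om
          have : (0:ℝ) ≤ 1 / n := by positivity
          linarith)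
  -- the ODE of `W`
  have hodeW : ∀ r ∈ Set.Icc 0 S, ∀ k, HasDerivWithinAt (fun r => cf (P.pert τ₀ U r) k)
      (Lam P.om (1 / n) τ₀ r k * cf (P.pert τ₀ U r) k + cf (G r) k) (Set.Icc 0 S) r := by
    intro r hr k
    have d1 := hU.ode r hr k
    have d2 := (hgode τ₀ hτ r k).hasDerivWithinAt (s := Set.Icc 0 S)
    have d3 := d1.sub d2
    have e0 : ∀ r ∈ Set.Icc 0 S, cf (P.pert τ₀ U r) k =
        cf (U r) k - cf (P.qt (τ₀ * Real.exp (-r))) k := fun r hr =>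
      cf_sub h1 h2 (sU r hr) (sq r) k
    refine (d3.congr (fun r hr => e0 r hr) (e0 r hr)).congr_deriv ?_
    rw [e0 r hr]
    simp only [hG]
    rw [cf_src h1 h2 hn (sU r hr) (sq r) (sg r)]
    unfold Lam
    push_cast
    ring
  -- the localised equation
  have ha : Summable fun k => ‖cf Yc k‖ := summable_cf h1 sp_Yc
  have hodev : ∀ r ∈ Set.Icc 0 S, ∀ k, HasDerivWithinAt
      (fun r => TNl.cz (cf Yc) (cf (P.pert τ₀ U r)) k)
      (TNl.cz (cf Yc) (fun k => Lam P.om (1 / n) τ₀ r k * cf (P.pert τ₀ U r) k + cf (G r) k) k)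
      (Set.Icc 0 S) r :=
    hasDeriv_cz ha (W := fun r => cf (P.pert τ₀ U r))
      (D := fun r k => Lam P.om (1 / n) τ₀ r k * cf (P.pert τ₀ U r) k + cf (G r) k) hWb
      (fun r hr k => (norm_add_le _ _).trans (add_le_add (hLamb r hr k) (hBG r hr k))) hodeW
  set F : ℝ → Z12 → ℂ := fun r k =>
    ∑' j, Ker (τ₀ * Real.exp (-r)) (cf Yc) (cf (P.pert τ₀ U r)) j (k - j) +
      TNl.cz (cf Yc) (cf (G r)) k with hF
  have hode : ∀ r ∈ Set.Icc 0 S, ∀ k, HasDerivWithinAt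
      (fun r => TNl.cz (cf Yc) (cf (P.pert τ₀ U r)) k)
      ((-(I * ((τ₀ * Real.exp (-r) * nk k ^ 2 : ℝ) : ℂ)) +
        (I * (P.om : ℂ) - ((1 / n : ℝ) : ℂ))) * TNl.cz (cf Yc) (cf (P.pert τ₀ U r)) k + F r k)
      (Set.Icc 0 S) r := by
    intro r hr k
    refine (hodev r hr k).congr_deriv ?_
    exact cz_lin rfl ha (hWb r hr) (hLamb r hr) (hBG r hr) k
  -- bound of the forcing
  set Φ : ℝ := 2 * Real.sqrt τ₀ * (A1 * (2 ^ (N + 1) * (L + H))) +
    (Y1 * CR * L ^ 2 + (1 + n) * Cp * τ₀ * L + Y1 * (Cg * τ₀)) with hΦ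
  have hFb : ∀ r ∈ Set.Icc 0 S, ∀ K : Finset Z12,
      ∑ k ∈ K, (1 + hs τ₀ r * nk k) ^ N * ‖F r k‖ ≤ Φ := by
    intro r hr K
    have hh := hs_nonneg τ₀ r
    have hh1 := hs_le_one hτ.le hτ1 hr.1
    have eτ := hs_sq hτ.le r
    obtain ⟨c1, c2⟩ := comm_bound h1 hh hh1 sp_Yc (sW r hr) N
    have sYG : IsSmoothPeriodic (fun x => Yc x * G r x) := sp_mul sp_Yc (sG r hr)
    have ecz : TNl.cz (cf Yc) (cf (G r)) = cf (fun x => Yc x * G r x) :=
      (TNl.cf_mul h1 h2 sp_Yc (sG r hr)).2.symm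
    have s1 := summable_wn h1 sYG N hh
    have h3 : ∑ k ∈ K, (1 + hs τ₀ r * nk k) ^ N * ‖F r k‖ ≤
        ∑ k ∈ K, ((1 + hs τ₀ r * nk k) ^ N *
          ‖∑' j, Ker (hs τ₀ r ^ 2) (cf Yc) (cf (P.pert τ₀ U r)) j (k - j)‖ +
          (1 + hs τ₀ r * nk k) ^ N * ‖cf (fun x => Yc x * G r x) k‖) := by
      refine Finset.sum_le_sum fun k _ => ?_
      rw [← mul_add]
      refine mul_le_mul_of_nonneg_left ?_ (w_nonneg N hh k)
      simp only [hF]
      rw [ecz, eτ]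
      exact norm_add_le _ _
    refine h3.trans ?_
    rw [Finset.sum_add_distrib]
    refine add_le_add ?_ ?_
    · refine (c1.sum_le_tsum K fun k _ => mul_nonneg (w_nonneg N hh k) (norm_nonneg _)).trans
        (c2.trans ?_)
      have h4 : wn (N + 1) (hs τ₀ r) (P.pert τ₀ U r) ≤ 2 ^ (N + 1) * (L + H) :=
        (wn_succ_le h1 (sW r hr) hNs hh).trans
          (mul_le_mul_of_nonneg_left (add_le_add (hL r hr) (hH r hr)) (by positivity))
      have h5 := hs_le_sqrt hτ.le hr.1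
      have h6 : A1 * wn (N + 1) (hs τ₀ r) (P.pert τ₀ U r) ≤ A1 * (2 ^ (N + 1) * (L + H)) :=
        mul_le_mul_of_nonneg_left h4 hA10
      have h7 : 0 ≤ A1 * wn (N + 1) (hs τ₀ r) (P.pert τ₀ U r) :=
        mul_nonneg hA10 (wn_nonneg _ hh _)
      exact mul_le_mul (by linarith) h6 h7 (by positivity)
    · refine (s1.sum_le_tsum K fun k _ => mul_nonneg (w_nonneg N hh k) (norm_nonneg _)).trans ?_
      have eU : U r = fun x => P.qt (τ₀ * Real.exp (-r)) x + P.pert τ₀ U r x := by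
        funext x; simp only [Profile.pert]; ring
      have eG : (fun x => Yc x * G r x) = fun x => Yc x * src n
          (fun x => P.qt (τ₀ * Real.exp (-r)) x + P.pert τ₀ U r x)
          (P.qt (τ₀ * Real.exp (-r))) (gt (τ₀ * Real.exp (-r))) x := by
        simp only [hG]
        rw [← eU]
      have hLr := hL r hr
      have hrem := hCR (hs τ₀ r) hh (P.qt (τ₀ * Real.exp (-r))) (P.pert τ₀ U r) (sq r) (sW r hr)
        (hCq _ (hτr r) (hτr1 r hr)).1 (hLr.trans hL1)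
      have hrem' := hrem.trans (mul_le_mul_of_nonneg_left
        (pow_le_pow_left₀ (wn_nonneg N hh _) hLr 2) hCR0)
      obtain ⟨p1, p2, -⟩ := hCp _ (hτr r) (hτr1 r hr)
      have hfar := src_far h1 hTN hn hn2 N hh hh1 (sq r) (sW r hr) (sg r) hrem' p1 p2
        (hCg _ (hτr r) (hτr1 r hr)) hLr hL0
      show wn N (hs τ₀ r) (fun x => Yc x * G r x) ≤ _
      rw [eG]
      refine hfar.trans ?_
      have h8 := hτrτ r hr
      have h9 : (1 + n) * Cp * (τ₀ * Real.exp (-r)) * L ≤ (1 + n) * Cp * τ₀ * L := by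
        gcongr
      have h10 : Y1 * (Cg * (τ₀ * Real.exp (-r))) ≤ Y1 * (Cg * τ₀) := by
        gcongr
      linarith
  -- initial value
  have hmul : ∀ r ∈ Set.Icc 0 S, TNl.cz (cf Yc) (cf (P.pert τ₀ U r)) =
      cf (fun x => Yc x * P.pert τ₀ U r x) := fun r hr =>
    (TNl.cf_mul h1 h2 sp_Yc (sW r hr)).2.symm
  have m0 : (0:ℝ) ∈ Set.Icc 0 S := ⟨le_rfl, hS⟩
  have mS : S ∈ Set.Icc 0 S := ⟨hS, le_rfl⟩
  have h0 : ∀ K : Finset Z12, ∑ k ∈ K, (1 + hs τ₀ 0 * nk k) ^ N *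
      ‖TNl.cz (cf Yc) (cf (P.pert τ₀ U 0)) k‖ ≤ Y1 * wn N (Real.sqrt τ₀) (P.pert τ₀ U 0) := by
    intro K
    rw [hmul 0 m0]
    have sYW := sp_mul sp_Yc (sW 0 m0)
    refine ((summable_wn h1 sYW N (hs_nonneg τ₀ 0)).sum_le_tsum K fun k _ =>
      mul_nonneg (w_nonneg N (hs_nonneg τ₀ 0) k) (norm_nonneg _)).trans ?_
    show wn N (hs τ₀ 0) (fun x => Yc x * P.pert τ₀ U 0 x) ≤ _
    refine (hTN.wn_mul _ _ sp_Yc (sW 0 m0) N _ (hs_nonneg τ₀ 0)).trans ?_
    rw [hs_zero]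
    refine mul_le_mul_of_nonneg_right ?_ (wn_nonneg N (Real.sqrt_nonneg _) _)
    refine hTN.wn_mono Yc sp_Yc N _ 1 (Real.sqrt_nonneg _) ?_
    rw [← hs_zero]
    exact hs_le_one hτ.le hτ1 le_rfl
  have htr := transport (νn := 1 / n) (by positivity) hτ.le hS N hode hFb h0
  have hfin : wn N (hs τ₀ S) (fun x => Yc x * P.pert τ₀ U S x) ≤
      Real.exp (-(S * (1 / n))) * (Y1 * wn N (Real.sqrt τ₀) (P.pert τ₀ U 0)) + Φ * S := by
    refine Real.tsum_le_of_sum_le (fun k => mul_nonneg (w_nonneg N (hs_nonneg τ₀ S) k)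
      (norm_nonneg _)) fun K => ?_
    have := htr K
    rw [hmul S mS] at this
    exact this
  refine hfin.trans ?_
  have e1 : Real.exp (-(S * (1 / n))) = Real.exp (-S / n) := by congr 1; ring
  rw [e1]
  have hsq0 := Real.sqrt_nonneg τ₀
  have hw0 := wn_nonneg N (Real.sqrt_nonneg τ₀) (P.pert τ₀ U 0)
  have hΦC : Φ ≤ C' * (L ^ 2 + Real.sqrt τ₀ * (L + H) + τ₀) := by
    have i1 : (1 + n) * Cp * τ₀ * L ≤ (1 + n) * Cp * τ₀ :=
      mul_le_of_le_one_right (by positivity) hL1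
    have i2 : 0 ≤ Real.sqrt τ₀ * (L + H) := mul_nonneg hsq0 (by linarith)
    have i3 : 0 ≤ L ^ 2 := sq_nonneg L
    have j1 : 0 ≤ Y1 * CR := by positivity
    have j2 : 0 ≤ (1 + n) * Cp := by positivity
    have j3 : 0 ≤ Y1 * Cg := by positivity
    have j4 : 0 ≤ 2 * A1 * 2 ^ (N + 1) := by positivity
    have k1 := mul_nonneg j1 (add_nonneg i2 hτ.le)
    have k2 := mul_nonneg j2 (add_nonneg i3 i2)
    have k3 := mul_nonneg j3 (add_nonneg i3 i2)
    have k4 := mul_nonneg j4 (add_nonneg i3 hτ.le)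
    have id1 : C' * (L ^ 2 + Real.sqrt τ₀ * (L + H) + τ₀) - Φ =
        Y1 * CR * (Real.sqrt τ₀ * (L + H) + τ₀) + (1 + n) * Cp * (L ^ 2 + Real.sqrt τ₀ * (L + H)) +
        Y1 * Cg * (L ^ 2 + Real.sqrt τ₀ * (L + H)) + 2 * A1 * 2 ^ (N + 1) * (L ^ 2 + τ₀) +
        ((1 + n) * Cp * τ₀ - (1 + n) * Cp * τ₀ * L) := by
      rw [hΦ, hC']; ring
    linarith [id1, i1, k1, k2, k3, k4]
  have i4 : 0 ≤ L ^ 2 + Real.sqrt τ₀ * (L + H) + τ₀ := by
    have i2 : 0 ≤ Real.sqrt τ₀ * (L + H) := mul_nonneg hsq0 (by linarith)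
    have := sq_nonneg L
    linarith [hτ.le]
  have hexp := Real.exp_pos (-S / n)
  refine add_le_add ?_ ?_
  · calc Real.exp (-S / n) * (Y1 * wn N (Real.sqrt τ₀) (P.pert τ₀ U 0))
        = Y1 * Real.exp (-S / n) * wn N (Real.sqrt τ₀) (P.pert τ₀ U 0) := by ring
      _ ≤ max 1 Y1 * Real.exp (-S / n) * wn N (Real.sqrt τ₀) (P.pert τ₀ U 0) := by
        gcongr
        exact le_max_right _ _
  · calc Φ * S ≤ C' * (L ^ 2 + Real.sqrt τ₀ * (L + H) + τ₀) * S :=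
          mul_le_mul_of_nonneg_right hΦC hS
      _ ≤ (1 + C' * S) * (L ^ 2 + Real.sqrt τ₀ * (L + H) + τ₀) := by nlinarith

end

end Crest.Agent.R086.NSF
end

-- ▼ part R086/NSFin

/-! Row 86, NearStep: the combination of the near and the far part (helper148). -/

set_option autoImplicit false

open MeasureTheory Complex Filter
open scoped ContDiff Topology
open Crest.AnalysisR.PDE.NLS (IsSmoothPeriodic periodCell)

namespace Crest.Agent.R086.NSF

open Profile TB Perz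

noncomputable section

theorem wn_sum_le (hTN : TN) {ι : Type*} (t : Finset ι) {F : ι → R12 → ℂ}
    (hF : ∀ i ∈ t, IsSmoothPeriodic (F i)) (N : ℕ) {h : ℝ} (hh : 0 ≤ h) :
    wn N h (fun x => ∑ i ∈ t, F i x) ≤ ∑ i ∈ t, wn N h (F i) := by
  classical
  induction t using Finset.induction_on with
  | empty => simp [wn_zero]
  | insert a t ha ih =>
    simp only [Finset.sum_insert ha]
    refine (hTN.wn_add (F a) (fun x => ∑ i ∈ t, F i x) (hF a (Finset.mem_insert_self a t))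
      (sp_sum t fun i hi => hF i (Finset.mem_insert_of_mem hi)) N h hh).trans ?_
    exact add_le_add le_rfl (ih fun i hi => hF i (Finset.mem_insert_of_mem hi))

variable {n : ℕ} (P : Profile n) {N : ℕ}

theorem c12 (z : R12) : c1 z * c2 z = c2 z := by
  by_cases h : ‖z‖ ≤ 1 / 2
  · rw [c1_one h, one_mul]
  · have : c2 z = 0 := PZ.chi_zero chi2 (r := 1 / 2) (by norm_num [chi2]) (not_le.1 h).le
    rw [this, mul_zero]

/-- decomposition of the perturbation minus the modes -/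
theorem decomp {τ : ℝ} (hτ : 0 < τ) {W : R12 → ℂ} (hW : IsSmoothPeriodic W) (b : MIx → ℝ) (x : R12) :
    W x - ∑ m, (b m : ℂ) * P.mt m τ x =
      Yc x * W x + (perz (fun x => c1 x *
        (fun y => zn τ W y - ∑ m, (b m : ℂ) * P.mode1 m y) ((Real.sqrt τ)⁻¹ • x)) x +
        ∑ m, (-(b m : ℂ)) * (P.mt m τ x
          - perz (fun x => ((chi1 x : ℝ) : ℂ) * P.mode1 m ((Real.sqrt τ)⁻¹ • x)) x)) := by
  obtain ⟨k, hk⟩ := perz_point x
  set z : R12 := x - (2 * Real.pi) • zv k with hz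
  have e1 : Yc x = 1 - c2 z := by
    unfold Yc
    rw [show perz (fun x => ((chi2 x : ℝ) : ℂ)) x = _ from hk c2 c2_ps]
  have e2 : W x = W z := by
    have := (per_of hW).add_int k z
    rw [← this]
    congr 1
    rw [hz]
    exact (sub_add_cancel _ _).symm
  have e3 := hk (fun x => c1 x *
        (fun y => zn τ W y - ∑ m, (b m : ℂ) * P.mode1 m y) ((Real.sqrt τ)⁻¹ • x))
        (PS.mul_left (ψ := c1) c1_ps
          (G := fun x => (fun y => zn τ W y - ∑ m, (b m : ℂ) * P.mode1 m y) ((Real.sqrt τ)⁻¹ • x)))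
  have e4 : ∀ m, perz (fun x => ((chi1 x : ℝ) : ℂ) * P.mode1 m ((Real.sqrt τ)⁻¹ • x)) x =
      c1 z * P.mode1 m ((Real.sqrt τ)⁻¹ • z) := fun m =>
    hk _ (PS.mul_left (ψ := c1) c1_ps (G := fun x => P.mode1 m ((Real.sqrt τ)⁻¹ • x)))
  have hs : Real.sqrt τ ≠ 0 := (Real.sqrt_pos.2 hτ).ne'
  have e5 : zn τ W ((Real.sqrt τ)⁻¹ • z) = c2 z * W z := by
    unfold zn
    rw [smul_smul, mul_inv_cancel₀ hs, one_smul]
    rfl
  rw [e3, e1]
  simp only [e4]
  rw [e5, e2]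
  have e6 : ∀ m, (-(b m : ℂ)) * (P.mt m τ x - c1 z * P.mode1 m ((Real.sqrt τ)⁻¹ • z)) =
      -((b m : ℂ) * P.mt m τ x) + c1 z * ((b m : ℂ) * P.mode1 m ((Real.sqrt τ)⁻¹ • z)) := fun m => by
    ring
  simp only [e6]
  rw [Finset.sum_add_distrib, Finset.sum_neg_distrib, ← Finset.mul_sum]
  have := c12 z
  linear_combination (-W z) * this

set_option maxHeartbeats 1000000 in
theorem nearStep_of (h1 : TF1) (h2 : TF2) (hP1 : TP1 P) (hP3 : TP3 P) (hNear : NearLin P N)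
    (hFar : FarStep P N) : NearStep P N := by
  intro s hNs κ hκ S₁
  have hTN : TN := TNl.tn_of h1 h2
  have hn0 : 0 < n := lt_of_lt_of_le (by norm_num) P.two_le
  have hnR : (0:ℝ) < n := by exact_mod_cast hn0
  obtain ⟨K, hK0, hK⟩ := PZ.wn_rep_fixed (χ := c1) c1_smooth
    (fun z hz => c1_ps z (by linarith)) N 1 le_rfl
  obtain ⟨C₀, hC₀, hF⟩ := hFar s hNs
  obtain ⟨S₂, hS₂⟩ := hNear s hNs (κ / (2 * (K + 1))) (by positivity)
  obtain ⟨Cp, hCp0, hCp⟩ := hP3 N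
  set S : ℝ := max (max S₁ 1) (max S₂ (n * Real.log (2 * C₀ / κ))) with hSdef
  have hSS1 : S₁ ≤ S := (le_max_left _ _).trans (le_max_left _ _)
  have hS1 : 1 ≤ S := (le_max_right _ _).trans (le_max_left _ _)
  have hSS2 : S₂ ≤ S := (le_max_left _ _).trans (le_max_right _ _)
  have hSlog : n * Real.log (2 * C₀ / κ) ≤ S := (le_max_right _ _).trans (le_max_right _ _)
  have hexp : C₀ * Real.exp (-S / n) ≤ κ / 2 := by
    have hpos : 0 < 2 * C₀ / κ := by positivity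
    have h3 : Real.log (2 * C₀ / κ) ≤ S / n := by
      rw [le_div_iff₀ hnR]; linarith
    have h4 : Real.exp (-S / n) ≤ (2 * C₀ / κ)⁻¹ := by
      rw [← Real.exp_log hpos, ← Real.exp_neg]
      refine Real.exp_le_exp.2 ?_
      rw [neg_div]
      linarith
    calc C₀ * Real.exp (-S / n) ≤ C₀ * (2 * C₀ / κ)⁻¹ :=
          mul_le_mul_of_nonneg_left h4 (by linarith)
      _ = κ / 2 := by field_simp
  obtain ⟨CF, hCF1, hFS⟩ := hF S (by linarith)
  obtain ⟨CN, hCN1, hNS⟩ := hS₂ S hSS2 hS1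
  refine ⟨S, hSS1, hS1, CF + K * CN + 14 * (CN * Cp) + CN, ?_, ?_⟩
  · have : 0 ≤ K * CN := by positivity
    have : 0 ≤ 14 * (CN * Cp) := by positivity
    linarith
  intro τ₀ hτ hτ1 U hU L H hH0 hL1 hL hH
  obtain ⟨b, hb, a, haR, haI⟩ := hNS τ₀ hτ hτ1 U hU L H hH0 hL1 hL hH
  have hfar := hFS τ₀ hτ hτ1 U hU L H hH0 hL1 hL hH
  have hS0 : (0:ℝ) ≤ S := by linarith
  have hL0 : 0 ≤ L := (wn_nonneg N (hs_nonneg τ₀ 0) _).trans (hL 0 ⟨le_rfl, hS0⟩)
  set τ : ℝ := τ₀ * Real.exp (-S) with hτdef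
  have hτp : 0 < τ := mul_pos hτ (Real.exp_pos _)
  have hττ : τ ≤ τ₀ := by
    have h3 := Real.exp_le_one_iff.2 (neg_nonpos.2 hS0)
    nlinarith
  have hτ1' : τ ≤ 1 := hττ.trans hτ1
  have hh : hs τ₀ S = Real.sqrt τ := rfl
  have hh0 : 0 ≤ hs τ₀ S := hs_nonneg _ _
  have hh1 : hs τ₀ S ≤ 1 := hs_le_one hτ.le hτ1 hS0
  have hsp : 0 < Real.sqrt τ := Real.sqrt_pos.2 hτp
  set W : R12 → ℂ := P.pert τ₀ U S with hWdef
  have sW : IsSmoothPeriodic W := sp_sub (hU.smooth S ⟨hS0, le_rfl⟩) (hP1.1 _ hτp).1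
  set f : R12 → ℂ := fun y => zn τ W y - ∑ m, (b m : ℂ) * P.mode1 m y with hf
  have hfs : ContDiff ℝ ∞ f := by
    refine ContDiff.sub ?_ (ContDiff.sum fun m _ => contDiff_const.mul (P.symMode1 m).1)
    unfold zn
    exact (c2_smooth.comp (contDiff_const_smul _)).mul (sW.1.comp (contDiff_const_smul _))
  have sf : IsSmoothPeriodic (perz fun x => c1 x * f ((Real.sqrt τ)⁻¹ • x)) :=
    PZ.smoothPeriodic_scaled hfs c1_smooth (fun z hz => c1_ps z (by linarith)) _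
  have se : ∀ m, IsSmoothPeriodic (fun x => P.mt m τ x
      - perz (fun x => ((chi1 x : ℝ) : ℂ) * P.mode1 m ((Real.sqrt τ)⁻¹ • x)) x) := fun m =>
    sp_sub ((hP1.1 _ hτp).2 m) (PZ.smoothPeriodic_scaled (P.symMode1 m).1 c1_smooth
      (fun z hz => c1_ps z (by linarith)) _)
  refine ⟨b, fun m => ?_, ?_⟩
  · have h3 := hb m
    have h4 : 0 ≤ Real.sqrt τ₀ * H := mul_nonneg (Real.sqrt_nonneg _) hH0
    have h5 : 0 ≤ CF + K * CN + 14 * (CN * Cp) := by
      have : 0 ≤ K * CN := by positivity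
      have : 0 ≤ 14 * (CN * Cp) := by positivity
      linarith
    calc |b m| ≤ CN * L := h3
      _ ≤ (CF + K * CN + 14 * (CN * Cp) + CN) * (L + Real.sqrt τ₀ * H + τ₀) := by
        nlinarith [mul_nonneg h5 (add_nonneg (add_nonneg hL0 h4) hτ.le),
          mul_nonneg (by linarith : 0 ≤ CN) (add_nonneg h4 hτ.le)]
  · have e : (fun x => W x - ∑ m, (b m : ℂ) * P.mt m τ x) = fun x =>
        Yc x * W x + (perz (fun x => c1 x * f ((Real.sqrt τ)⁻¹ • x)) x +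
        ∑ m, (-(b m : ℂ)) * (P.mt m τ x
          - perz (fun x => ((chi1 x : ℝ) : ℂ) * P.mode1 m ((Real.sqrt τ)⁻¹ • x)) x)) := by
      funext x
      exact decomp P hτp sW b x
    rw [e]
    have sS : IsSmoothPeriodic (fun x => ∑ m, (-(b m : ℂ)) * (P.mt m τ x
          - perz (fun x => ((chi1 x : ℝ) : ℂ) * P.mode1 m ((Real.sqrt τ)⁻¹ • x)) x)) :=
      sp_sum Finset.univ fun m _ => sp_cmul (se m) _
    have a1 := hTN.wn_add _ _ (sp_mul sp_Yc sW) (sp_add sf sS) N (hs τ₀ S) hh0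
    have a2 := hTN.wn_add _ _ sf sS N (hs τ₀ S) hh0
    have a3 := wn_sum_le hTN Finset.univ (F := fun (m : MIx) x => (-(b m : ℂ)) * (P.mt m τ x
          - perz (fun x => ((chi1 x : ℝ) : ℂ) * P.mode1 m ((Real.sqrt τ)⁻¹ • x)) x))
          (fun m _ => sp_cmul (se m) _) N hh0
    have b1 : wn N (hs τ₀ S) (fun x => Yc x * W x) ≤
        C₀ * Real.exp (-S / n) * wn N (Real.sqrt τ₀) (P.pert τ₀ U 0)
            + CF * (L ^ 2 + Real.sqrt τ₀ * (L + H) + τ₀) := hfar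
    have b2 := (hK (Real.sqrt τ) (hs τ₀ S) hsp hh0 (by rw [hh, one_mul]) hh1 a f haR).2
    have b2' : wn N (hs τ₀ S) (perz fun x => c1 x * f ((Real.sqrt τ)⁻¹ • x)) ≤
        K * (κ / (2 * (K + 1)) * wn N (Real.sqrt τ₀) (P.pert τ₀ U 0)
          + CN * (L ^ 2 + Real.sqrt τ₀ * (L + H) + τ₀)) :=
      b2.trans (mul_le_mul_of_nonneg_left haI hK0)
    have hpow : τ ^ (1 / (n:ℝ)) ≤ τ₀ ^ (1 / (n:ℝ)) := Real.rpow_le_rpow hτp.le hττ (by positivity)
    have hpow0 : 0 ≤ τ ^ (1 / (n:ℝ)) := Real.rpow_nonneg hτp.le _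
    have b3 : ∑ m, wn N (hs τ₀ S) (fun x => (-(b m : ℂ)) * (P.mt m τ x
          - perz (fun x => ((chi1 x : ℝ) : ℂ) * P.mode1 m ((Real.sqrt τ)⁻¹ • x)) x)) ≤
        14 * (CN * Cp) * (τ₀ ^ (1 / (n:ℝ)) * L) := by
      have b4 : ∀ m : MIx, wn N (hs τ₀ S) (fun x => (-(b m : ℂ)) * (P.mt m τ x
          - perz (fun x => ((chi1 x : ℝ) : ℂ) * P.mode1 m ((Real.sqrt τ)⁻¹ • x)) x)) ≤
          (CN * Cp) * (τ₀ ^ (1 / (n:ℝ)) * L) := by
        intro m
        rw [hTN.wn_smul, norm_neg, Complex.norm_real, Real.norm_eq_abs]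
        have c1' := hTN.wn_mono _ (se m) N (hs τ₀ S) 1 hh0 hh1
        have c2' := (hCp τ hτp hτ1').2.2 m
        calc |b m| * _ ≤ (CN * L) * (Cp * τ₀ ^ (1 / (n:ℝ))) := by
              refine mul_le_mul (hb m) ((c1'.trans c2').trans
                (mul_le_mul_of_nonneg_left hpow hCp0)) (wn_nonneg N hh0 _) (by positivity)
          _ = _ := by ring
      refine (Finset.sum_le_sum fun m _ => b4 m).trans_eq ?_
      rw [Finset.sum_const, nsmul_eq_mul]
      have : ((Finset.univ : Finset MIx).card : ℝ) = 14 := by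
        simp [MIx]
      rw [this]; ring
    have hw0 := wn_nonneg N (Real.sqrt_nonneg τ₀) (P.pert τ₀ U 0)
    have hX : 0 ≤ L ^ 2 + Real.sqrt τ₀ * (L + H) + τ₀ := by
      have i2 : 0 ≤ Real.sqrt τ₀ * (L + H) := mul_nonneg (Real.sqrt_nonneg _) (by linarith)
      have := sq_nonneg L
      linarith [hτ.le]
    have hZ : 0 ≤ τ₀ ^ (1 / (n:ℝ)) * L := mul_nonneg (Real.rpow_nonneg hτ.le _) hL0
    have k1 : K * (κ / (2 * (K + 1))) ≤ κ / 2 := by
      rw [mul_div_assoc', div_le_div_iff₀ (by positivity) (by norm_num)]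
      nlinarith
    have k2 : K * (κ / (2 * (K + 1)) * wn N (Real.sqrt τ₀) (P.pert τ₀ U 0)) ≤
        κ / 2 * wn N (Real.sqrt τ₀) (P.pert τ₀ U 0) := by
      rw [← mul_assoc]
      exact mul_le_mul_of_nonneg_right k1 hw0
    have k3 : C₀ * Real.exp (-S / n) * wn N (Real.sqrt τ₀) (P.pert τ₀ U 0) ≤
        κ / 2 * wn N (Real.sqrt τ₀) (P.pert τ₀ U 0) := mul_le_mul_of_nonneg_right hexp hw0
    have hKC : 0 ≤ K * CN := by positivity
    have hCC : 0 ≤ 14 * (CN * Cp) := by positivity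
    set w0 := wn N (Real.sqrt τ₀) (P.pert τ₀ U 0) with hw0def
    set X := L ^ 2 + Real.sqrt τ₀ * (L + H) + τ₀ with hXdef
    set Z := τ₀ ^ (1 / (n:ℝ)) * L with hZdef
    have tot : wn N (hs τ₀ S) (fun x =>
        Yc x * W x + (perz (fun x => c1 x * f ((Real.sqrt τ)⁻¹ • x)) x +
        ∑ m, (-(b m : ℂ)) * (P.mt m τ x
          - perz (fun x => ((chi1 x : ℝ) : ℂ) * P.mode1 m ((Real.sqrt τ)⁻¹ • x)) x))) ≤
        κ * w0 + CF * X + K * (CN * X) + 14 * (CN * Cp) * Z := by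
      refine a1.trans ?_
      have := a2.trans (add_le_add b2' (a3.trans b3))
      linarith [mul_add K (κ / (2 * (K + 1)) * w0) (CN * X)]
    refine tot.trans ?_
    have id1 : (CF + K * CN + 14 * (CN * Cp) + CN) * (X + Z) =
        CF * X + K * (CN * X) + 14 * (CN * Cp) * Z +
        (CF * Z + K * CN * Z + 14 * (CN * Cp) * X + CN * X + CN * Z) := by ring
    have id2 := mul_nonneg (by linarith : 0 ≤ CF) hZ
    have id3 := mul_nonneg hKC hZ
    have id4 := mul_nonneg hCC hX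
    have id5 := mul_nonneg (by linarith : 0 ≤ CN) hX
    have id6 := mul_nonneg (by linarith : 0 ≤ CN) hZ
    linarith [id1, id2, id3, id4, id5, id6]

/-- NearStep from the near estimate and the two facts on the profile. -/
theorem nearStep (hP2 : TP2 P) (hNear : NearLin P N) : NearStep P N :=
  nearStep_of P tf1 tf2 (tp1 P) (Perz.tp3 P) hNear (farStep P tf1 tf2 (tp1 P) hP2 (Perz.tp3 P))

end

end Crest.Agent.R086.NSF
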