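import Crest.Agent.R086.TP2
import Crest.Agent.R086.TKDefs
import Crest.Agent.R086.TF
import Crest.Agent.R086.TorBasic
import Crest.Agent.R086.PZ
import Crest.Agent.R086.GrowA
import Crest.Agent.R086.TN
import Crest.Agent.R086.DCtop
import Crest.Agent.R086.DCcv
import Crest.Agent.R086.DLForced
import Crest.Agent.R086.DLIface
import Crest.Agent.R086.NSRem2
import Crest.Agent.R086.DGen
import Crest.Agent.R086.NSRem
import Crest.Agent.R086.PerzAlg

-- ▼ part R086/TP2c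
section

/-! Row 86 (helper718): TP2 with continuity of the error coefficients. -/

set_option autoImplicit false

open MeasureTheory Complex Filter
open scoped ContDiff Topology
open Crest.AnalysisR.PDE.NLS (IsSmoothPeriodic)

namespace Crest.Agent.R086.TP

open Crest.Agent.R086 Crest.Agent.R086.Perz Crest.Agent.R086.PF

lemma cut_of_PS {φ : R12 → ℂ} (h1 : ContDiff ℝ ∞ φ) (h2 : PS φ) : Cut φ := ⟨h1, PS_cpt h2⟩

lemma FF_cont {φ f : R12 → ℂ} (hφ : Cut φ) (hf : ContDiff ℝ ∞ f) (k : Z12) :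
    ContinuousOn (fun τ : ℝ => FF 0 φ f τ k) (Set.Ioi 0) := fun τ hτ =>
  (hasDerivAt_FF (z := 0) hφ hf (Set.mem_Ioi.1 hτ) k).continuousAt.continuousWithinAt

theorem cont_gt {n : ℕ} (P : Profile n) (k : Z12) :
    ContinuousOn (fun τ => Crest.Agent.R086.cf (perz (ge P τ)) k) (Set.Ioi 0) := by
  have h : ∀ τ : ℝ, Crest.Agent.R086.cf (perz (ge P τ)) k = I * (τ : ℂ) * (∑ j : Fin 12, FF 0 (D2 j) P.Q τ k) +
    2 * I * ((Real.sqrt τ : ℝ) : ℂ) *
      (∑ j : Fin 12, FF 0 (D1 j) (fun y => fderiv ℝ P.Q y (ei j)) τ k) +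
    I * FF 0 (XN1 n) (NQ P) τ k := by
    intro τ
    rw [cfPerz _ (ge_smooth P τ) (ge_PS P τ), fc_ge, FF0]
  simp only [h]
  have hs : ContinuousOn (fun τ : ℝ => ((Real.sqrt τ : ℝ) : ℂ)) (Set.Ioi 0) :=
    (Complex.continuous_ofReal.comp Real.continuous_sqrt).continuousOn
  have ht : ContinuousOn (fun τ : ℝ => (τ : ℂ)) (Set.Ioi 0) := Complex.continuous_ofReal.continuousOn
  refine ((((continuousOn_const.mul ht).mul (continuousOn_finset_sum _ fun j _ => ?_)).add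
    ((continuousOn_const.mul hs).mul (continuousOn_finset_sum _ fun j _ => ?_)))).add
    (continuousOn_const.mul ?_)
  · exact FF_cont (cut_of_PS (D2_smooth j) (D2_PS j)) P.smooth k
  · exact FF_cont (cut_of_PS (D1_smooth j) (D1_PS j)) (smooth_fderiv P.smooth j) k
  · exact FF_cont (cut_of_PS (XN1_smooth n) (XN1_PS n)) P.symNN.1 k

/-- TP2 with continuity. -/
theorem tp2c {n : ℕ} (P : Profile n) : TP2c P :=
  ⟨fun τ => perz (ge P τ), fun τ _ => isSmoothPeriodic_perz (ge_smooth P τ) (ge_PS P τ),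
    fun N => ge_bound P tn annStmt N, fun k => cont_gt P k,
    fun τ₀ hτ₀ s k => tp2_eq P cfPerz τ₀ hτ₀ s k⟩

end Crest.Agent.R086.TP
end

-- ▼ part R086/TKDefs2
section

/-!
Row 86, NearLin: shared definitions and frozen statements of the pieces (helper501).
-/

set_option autoImplicit false

open MeasureTheory Complex Set
open scoped ContDiff Topology
open Crest.AnalysisR.PDE.NLS (IsSmoothPeriodic periodCell)

namespace Crest.Agent.R086

open Profile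

namespace TK

noncomputable section

/-- jointly continuous, uniformly rapidly decaying families of densities -/
structure Fam (S : ℝ) (F : ℝ → R12 → ℂ) : Prop where
  cont : ContinuousOn (Function.uncurry F) (Icc 0 S ×ˢ univ)
  dec : ∀ m : ℕ, ∃ C : ℝ, 0 ≤ C ∧ ∀ r ∈ Icc 0 S, ∀ ξ, (1 + ‖ξ‖) ^ m * ‖F r ξ‖ ≤ C

/-- continuous, uniformly rapidly decaying coefficient families -/
structure RD (S : ℝ) (c : ℝ → Z12 → ℂ) : Prop where
  cont : ∀ k, ContinuousOn (fun s => c s k) (Icc 0 S)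
  dec : ∀ M : ℕ, ∃ C : ℝ, 0 ≤ C ∧ ∀ s ∈ Icc 0 S, ∀ k, (1 + nk k) ^ M * ‖c s k‖ ≤ C

/-- density as an element of `X_N` -/
def mkX (N : ℕ) (f : R12 → ℂ) : XN N :=
  open Classical in if h : MemLp f 1 (muN N) then h.toLp f else 0

/-- conjugate reflection -/
def cr (f : R12 → ℂ) (ξ : R12) : ℂ := (starRingEnd ℂ) (f (-ξ))

/-- real pair with first density `f` -/
def X2 (N : ℕ) (f : R12 → ℂ) : XX N := (mkX N f, mkX N (cr f))

/-- free flow on densities (literally the formula of `LinData.S0_fst`) -/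
def fr {n : ℕ} (P : Profile n) (s : ℝ) (f : R12 → ℂ) (z : R12) : ℂ :=
  exp ((I * P.om - 1 / n) * s) * exp (6 * (s : ℂ)) *
      exp (-I * (((Real.exp s - 1) * ‖z‖ ^ 2 : ℝ) : ℂ)) * f (Real.exp (s / 2) • z)

/-- lattice density -/
def Jd (φ : R12 → ℂ) (h : ℝ) (c : Z12 → ℂ) (ξ : R12) : ℂ :=
  (((h ^ 12)⁻¹ : ℝ) : ℂ) * ∑' k, c k * φ (h⁻¹ • ξ - zv k)

/-- commutator density -/
def Kd (φ : R12 → ℂ) (h : ℝ) (c : Z12 → ℂ) (ξ : R12) : ℂ :=
  (((h ^ 12)⁻¹ : ℝ) : ℂ) *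
    ∑' k, c k * (I * ((h ^ 2 * (‖h⁻¹ • ξ‖ ^ 2 - nk k ^ 2) : ℝ) : ℂ)) * φ (h⁻¹ • ξ - zv k)

/-- hypotheses on the window (satisfied by `cw chi2`) -/
structure Win (φ : R12 → ℂ) : Prop where
  cont : Continuous φ
  dec : ∀ m : ℕ, ∃ C : ℝ, 0 ≤ C ∧ ∀ ξ, (1 + ‖ξ‖) ^ m * ‖φ ξ‖ ≤ C

/-! ### (B) Bochner part (helper758), file BochX.lean -/

/-- (B-a) -/
def BContStmt : Prop := ∀ (N : ℕ) (S : ℝ) (F : ℝ → R12 → ℂ), Fam S F →
  ContinuousOn (fun r => X2 N (F r)) (Icc 0 S)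

/-- (B-b) pointwise mild equation ⇒ mild equation in `XX N` -/
def BMildStmt : Prop := ∀ (n : ℕ) (P : Profile n) (T : Pot P) (N : ℕ) (D : LinData P T N) (S : ℝ)
  (a g : ℝ → R12 → ℂ), Fam S a → Fam S g →
  (∀ s ∈ Icc 0 S, ∀ ξ, a s ξ = fr P s (a 0) ξ + ∫ r in (0 : ℝ)..s, fr P (s - r) (g r) ξ) →
  ∀ s ∈ Icc 0 S, X2 N (a s) = D.S0 s (X2 N (a 0)) + ∫ r in (0 : ℝ)..s, D.S0 (s - r) (X2 N (g r))

/-- (B-c,d,e) norm, potential operator, reality, for one nice density -/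
def BOneStmt : Prop := ∀ (n : ℕ) (P : Profile n) (T : Pot P) (N : ℕ) (D : LinData P T N)
  (f : R12 → ℂ), Win f →
  ‖X2 N f‖ = ∫ ξ : R12, (1 + ‖ξ‖) ^ N * ‖f ξ‖ ∧
  IsReal (X2 N f) ∧
  ((X2 N f).1 : R12 → ℂ) =ᵐ[volume] f ∧
  ((X2 N f).2 : R12 → ℂ) =ᵐ[volume] cr f ∧
  ((D.VV (X2 N f)).1 : R12 → ℂ) =ᵐ[volume] (fun z => -I * (cv T.v1 f z + cv T.v2 (cr f) z)) ∧
  ((D.VV (X2 N f)).2 : R12 → ℂ) =ᵐ[volume] (fun z => I * (cv T.v1 (cr f) z + cv T.v2c f z))

/-! ### (C) lattice densities -/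

/-- (C1) regularity of the lattice densities (helper893) -/
def CFamStmt : Prop := ∀ (φ : R12 → ℂ), Win φ → ∀ (S : ℝ) (h : ℝ → ℝ) (c : ℝ → Z12 → ℂ),
  ContinuousOn h (Icc 0 S) → (∀ r ∈ Icc 0 S, 0 < h r ∧ h r ≤ 1) → RD S c →
    Fam S (fun r => Jd φ (h r) (c r)) ∧ Fam S (fun r => Kd φ (h r) (c r))

/-- (C2) bounds (helper732) -/
def CBdStmt : Prop := ∀ (φ : R12 → ℂ), Win φ → ∀ N : ℕ, ∃ A : ℝ, 0 ≤ A ∧ ∀ (h : ℝ), 0 < h → h ≤ 1 →
  ∀ c : Z12 → ℂ, (∀ M : ℕ, Summable fun k => (1 + nk k) ^ M * ‖c k‖) →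
    ∫ ξ : R12, (1 + ‖ξ‖) ^ N * ‖Jd φ h c ξ‖ ≤ A * ∑' k, (1 + h * nk k) ^ N * ‖c k‖ ∧
    ∫ ξ : R12, (1 + ‖ξ‖) ^ N * ‖Kd φ h c ξ‖ ≤ A * h * ∑' k, (1 + h * nk k) ^ (N + 1) * ‖c k‖

/-! ### (D) coefficients of the perturbation (helper264) -/

/-- forcing coefficients of the perturbation `W = U - qt` -/
def Gf {n : ℕ} (P : Profile n) (gt : ℝ → R12 → ℂ) (τ₀ : ℝ) (U : ℝ → R12 → ℂ) (s : ℝ) (k : Z12) : ℂ :=
  -I * (cf (fun x => nl n (U s x)) k - cf (fun x => nl n (P.qt (τ₀ * Real.exp (-s)) x)) k)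
    + cf (gt (τ₀ * Real.exp (-s))) k

/-- the three properties of the error `gt` in `TP2c` -/
structure GT {n : ℕ} (P : Profile n) (gt : ℝ → R12 → ℂ) : Prop where
  smooth : ∀ τ : ℝ, 0 < τ → IsSmoothPeriodic (gt τ)
  bdd : ∀ N : ℕ, ∃ C : ℝ, 0 ≤ C ∧ ∀ τ : ℝ, 0 < τ → τ ≤ 1 → wn N 1 (gt τ) ≤ C * τ
  cont : ∀ k : Z12, ContinuousOn (fun τ => cf (gt τ) k) (Set.Ioi 0)
  eqn : ∀ (τ₀ : ℝ), 0 < τ₀ → ∀ (s : ℝ) (k : Z12), HasDerivAt (fun s => cf (P.qt (τ₀ * Real.exp (-s))) k)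
    ((-(I * ((τ₀ * Real.exp (-s) * nk k ^ 2 : ℝ) : ℂ)) + (I * (P.om : ℂ) - 1 / (n : ℂ)))
        * cf (P.qt (τ₀ * Real.exp (-s))) k - I * cf (fun x => nl n (P.qt (τ₀ * Real.exp (-s)) x)) k
      - cf (gt (τ₀ * Real.exp (-s))) k) s

/-- (D2) -/
def DCoefStmt : Prop := ∀ (n : ℕ) (P : Profile n), TP1 P → ∀ gt : ℝ → R12 → ℂ, GT P gt →
  ∀ (τ₀ S : ℝ), 0 < τ₀ → τ₀ ≤ 1 → 0 ≤ S → ∀ U, P.ResSol τ₀ S U →
    RD S (fun s k => cf (P.pert τ₀ U s) k) ∧ RD S (fun s k => Gf P gt τ₀ U s k) ∧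
    ∀ s ∈ Icc 0 S, ∀ k, HasDerivWithinAt (fun s => cf (P.pert τ₀ U s) k)
      ((-(I * ((τ₀ * Real.exp (-s) * nk k ^ 2 : ℝ) : ℂ)) + (I * (P.om : ℂ) - 1 / (n : ℂ)))
        * cf (P.pert τ₀ U s) k + Gf P gt τ₀ U s k) (Icc 0 S) s

end

end TK

end Crest.Agent.R086
end

-- ▼ part R086/TK1
section

/-!
Row 86, Part D (torus), node TK (helper501).
`cw χ ξ = (2π)^{-12} ∫ χ(x) e^{-iξ·x} dx` (normalised Fourier transform), decay, inversion,
windowed transforms of lattice sums and of Fourier integrals.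
-/

set_option autoImplicit false

open MeasureTheory Complex Filter Topology
open scoped ContDiff FourierTransform RealInnerProductSpace

namespace Crest.Agent.R086.TK

@[simp] lemma zv_apply (k : Z12) (i : Fin 12) : zv k i = (k i : ℝ) := rfl

@[simp] lemma zv_zero : zv 0 = 0 := by
  ext i; simp

/-- character `e^{i ξ·x}` -/
noncomputable def ch (ξ x : R12) : ℂ := exp (I * ((inner ℝ ξ x : ℝ) : ℂ))

lemma norm_ch (ξ x : R12) : ‖ch ξ x‖ = 1 := by
  unfold ch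
  rw [mul_comm, norm_exp_ofReal_mul_I]

lemma ch_add_left (ξ η x : R12) : ch (ξ + η) x = ch ξ x * ch η x := by
  unfold ch
  rw [← Complex.exp_add, inner_add_left]
  push_cast
  ring_nf


lemma continuous_ch : Continuous (fun p : R12 × R12 => ch p.1 p.2) := by
  unfold ch
  fun_prop


lemma continuous_ch_right (ξ : R12) : Continuous (fun x : R12 => ch ξ x) := by
  unfold ch
  fun_prop

/-- `(2π)^{-12}` -/
noncomputable def c12 : ℂ := ((((2 * Real.pi) ^ 12 : ℝ)) : ℂ)⁻¹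

/-- normalised Fourier transform -/
noncomputable def cw (χ : R12 → ℂ) (ξ : R12) : ℂ :=
  c12 * ∫ x : R12, ch (-ξ) x * χ x

lemma cw_eq_fourier (χ : R12 → ℂ) (ξ : R12) :
    cw χ ξ = c12 * 𝓕 χ ((2 * Real.pi)⁻¹ • ξ) := by
  unfold cw
  congr 1
  rw [Real.fourier_eq']
  refine integral_congr_ae (Filter.Eventually.of_forall fun x => ?_)
  simp only [smul_eq_mul]
  congr 1
  unfold ch
  rw [inner_smul_right, real_inner_comm, inner_neg_right]
  congr 1
  push_cast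
  have : (Real.pi : ℂ) ≠ 0 := by exact_mod_cast Real.pi_ne_zero
  field_simp

/-- smooth compactly supported cutoffs -/
structure Cut (χ : R12 → ℂ) : Prop where
  smooth : ContDiff ℝ ∞ χ
  supp : HasCompactSupport χ

lemma Cut.continuous {χ : R12 → ℂ} (h : Cut χ) : Continuous χ := h.smooth.continuous

lemma Cut.integrable {χ : R12 → ℂ} (h : Cut χ) : Integrable χ :=
  h.continuous.integrable_of_hasCompactSupport h.supp

lemma Cut.cw_schwartz {χ : R12 → ℂ} (h : Cut χ) :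
    ∃ g : SchwartzMap R12 ℂ, ∀ ξ, cw χ ξ = c12 * g ((2 * Real.pi)⁻¹ • ξ) := by
  refine ⟨𝓕 (h.supp.toSchwartzMap h.smooth), fun ξ => ?_⟩
  rw [cw_eq_fourier]
  rfl

lemma Cut.cw_continuous {χ : R12 → ℂ} (h : Cut χ) : Continuous (cw χ) := by
  obtain ⟨g, hg⟩ := h.cw_schwartz
  have : cw χ = fun ξ => c12 * g ((2 * Real.pi)⁻¹ • ξ) := funext hg
  rw [this]
  have := g.continuous
  fun_prop

/-- rapid decay -/
lemma Cut.cw_decay {χ : R12 → ℂ} (h : Cut χ) (m : ℕ) :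
    ∃ C : ℝ, 0 ≤ C ∧ ∀ ξ, (1 + ‖ξ‖) ^ m * ‖cw χ ξ‖ ≤ C := by
  obtain ⟨g, hg⟩ := h.cw_schwartz
  obtain ⟨C, hC⟩ := g.decay' 0 0
  obtain ⟨D, hD⟩ := g.decay' m 0
  have hC' : ∀ x, ‖g x‖ ≤ C := by
    intro x
    have := hC x
    rw [norm_iteratedFDeriv_zero, pow_zero, one_mul] at this
    exact this
  have hD' : ∀ x, ‖x‖ ^ m * ‖g x‖ ≤ D := by
    intro x
    have := hD x
    rw [norm_iteratedFDeriv_zero] at this
    exact this
  have hC0 : 0 ≤ C := (norm_nonneg _).trans (hC' 0)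
  have hD0 : 0 ≤ D := (by positivity : (0:ℝ) ≤ ‖(0:R12)‖ ^ m * ‖g 0‖).trans (hD' 0)
  refine ⟨‖c12‖ * (2 ^ m * (C + (2 * Real.pi) ^ m * D)), by positivity, fun ξ => ?_⟩
  rw [hg, norm_mul]
  set y := (2 * Real.pi)⁻¹ • ξ with hy
  have hpi : (0:ℝ) < 2 * Real.pi := by positivity
  have hξ : ‖ξ‖ = 2 * Real.pi * ‖y‖ := by
    rw [hy, norm_smul, Real.norm_of_nonneg (by positivity : (0:ℝ) ≤ (2 * Real.pi)⁻¹)]
    field_simp
  have h1 : (1 + ‖ξ‖) ^ m ≤ 2 ^ m * (1 + ‖ξ‖ ^ m) := by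
    have h2 : (1 + ‖ξ‖) ≤ 2 * max 1 ‖ξ‖ := by
      have := le_max_left (1:ℝ) ‖ξ‖
      have := le_max_right (1:ℝ) ‖ξ‖
      linarith
    calc (1 + ‖ξ‖) ^ m ≤ (2 * max 1 ‖ξ‖) ^ m := by gcongr
      _ = 2 ^ m * (max 1 ‖ξ‖) ^ m := by rw [mul_pow]
      _ ≤ 2 ^ m * (1 + ‖ξ‖ ^ m) := by
        gcongr
        rcases le_total (1:ℝ) ‖ξ‖ with h3 | h3
        · rw [max_eq_right h3]; linarith
        · rw [max_eq_left h3]; simp
  calc (1 + ‖ξ‖) ^ m * (‖c12‖ * ‖g y‖)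
      = ‖c12‖ * ((1 + ‖ξ‖) ^ m * ‖g y‖) := by ring
    _ ≤ ‖c12‖ * (2 ^ m * (1 + ‖ξ‖ ^ m) * ‖g y‖) := by gcongr
    _ = ‖c12‖ * (2 ^ m * (‖g y‖ + (2 * Real.pi) ^ m * (‖y‖ ^ m * ‖g y‖))) := by
      rw [hξ, mul_pow]; ring
    _ ≤ ‖c12‖ * (2 ^ m * (C + (2 * Real.pi) ^ m * D)) := by
      gcongr
      · exact hC' y
      · exact hD' y

lemma Cut.cw_integrable_pow {χ : R12 → ℂ} (h : Cut χ) (m : ℕ) :
    Integrable (fun ξ => (1 + ‖ξ‖) ^ m * ‖cw χ ξ‖) := by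
  obtain ⟨C, hC0, hC⟩ := h.cw_decay (m + 13)
  have hI : Integrable (fun ξ : R12 => (1 + ‖ξ‖) ^ (-(13:ℝ))) := by
    apply integrable_one_add_norm
    simp
    norm_num
  have hc := h.cw_continuous
  refine (hI.const_mul C).mono' (by fun_prop) (Eventually.of_forall fun ξ => ?_)
  have h0 : (0:ℝ) < 1 + ‖ξ‖ := by positivity
  rw [Real.norm_of_nonneg (by positivity), Real.rpow_neg h0.le, ← div_eq_mul_inv, le_div_iff₀ (by positivity)]
  have : (1 + ‖ξ‖) ^ (13:ℝ) = (1 + ‖ξ‖) ^ (13:ℕ) := by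
    rw [← Real.rpow_natCast]; norm_num
  rw [this]
  calc (1 + ‖ξ‖) ^ m * ‖cw χ ξ‖ * (1 + ‖ξ‖) ^ 13 = (1 + ‖ξ‖) ^ (m + 13) * ‖cw χ ξ‖ := by
        rw [pow_add]; ring
    _ ≤ C := hC ξ

lemma Cut.cw_integrable {χ : R12 → ℂ} (h : Cut χ) : Integrable (cw χ) := by
  have := h.cw_integrable_pow 0
  simp only [pow_zero, one_mul] at this
  exact (integrable_norm_iff h.cw_continuous.aestronglyMeasurable).1 this

/-- inversion -/
lemma Cut.inversion {χ : R12 → ℂ} (h : Cut χ) (x : R12) :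
    ∫ ξ, ch ξ x * cw χ ξ = χ x := by
  have hpi : (0:ℝ) < 2 * Real.pi := by positivity
  have hF : Integrable (𝓕 χ) := by
    have : 𝓕 χ = (𝓕 (h.supp.toSchwartzMap h.smooth) : SchwartzMap R12 ℂ) := rfl
    rw [this]; exact SchwartzMap.integrable _
  have h1 := congrFun (h.continuous.fourierInv_fourier_eq h.integrable hF) x
  rw [← h1, Real.fourierInv_eq']
  have h2 : ∀ ξ : R12, ch ξ x * cw χ ξ =
      (fun η : R12 => c12 * (cexp (↑(2 * Real.pi * inner ℝ η x) * I) • 𝓕 χ η)) ((2 * Real.pi)⁻¹ • ξ) := by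
    intro ξ
    simp only [smul_eq_mul, cw_eq_fourier]
    unfold ch
    rw [inner_smul_left]
    have : (Real.pi : ℂ) ≠ 0 := by exact_mod_cast Real.pi_ne_zero
    have h3 : (I * ((inner ℝ ξ x : ℝ) : ℂ)) =
      ((2 * Real.pi * ((starRingEnd ℝ) (2 * Real.pi)⁻¹ * inner ℝ ξ x) : ℝ) : ℂ) * I := by
      simp only [conj_trivial]
      push_cast
      field_simp
    rw [h3]
    ring
  rw [integral_congr_ae (Eventually.of_forall h2)]
  rw [Measure.integral_comp_smul volume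
    (fun η : R12 => c12 * (cexp (↑(2 * Real.pi * inner ℝ η x) * I) • 𝓕 χ η)) ((2 * Real.pi)⁻¹), integral_const_mul]
  simp only [finrank_euclideanSpace, Fintype.card_fin, smul_eq_mul]
  have h4 : (|(((2 * Real.pi)⁻¹) ^ 12)⁻¹| : ℝ) = (2 * Real.pi) ^ 12 := by
    rw [abs_of_nonneg (by positivity)]; field_simp
  rw [h4, real_smul, ← mul_assoc]
  unfold c12
  have h5 : (((2 * Real.pi) ^ 12 : ℝ) : ℂ) ≠ 0 := by
    have : ((2 * Real.pi) ^ 12 : ℝ) ≠ 0 := by positivity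
    exact_mod_cast this
  rw [mul_inv_cancel₀ h5, one_mul]

end Crest.Agent.R086.TK
end

-- ▼ part R086/TK2
section

/-!
Row 86, node NearStep, file TK2 (helper501): windowed transforms, products, conjugates.
-/

set_option autoImplicit false

open MeasureTheory Complex Filter Topology
open scoped ContDiff FourierTransform RealInnerProductSpace
open Crest.AnalysisR.PDE.NLS (IsSmoothPeriodic periodCell)

namespace Crest.Agent.R086.TK

noncomputable section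

/-- `chi2` as a complex function -/
def c2 (x : R12) : ℂ := ((chi2 x : ℝ) : ℂ)

lemma cut_c2 : Cut c2 where
  smooth := by
    unfold c2
    exact Complex.ofRealCLM.contDiff.comp chi2.contDiff
  supp := by
    have h := chi2.hasCompactSupport
    exact h.comp_left (g := fun r : ℝ => (r : ℂ)) (by simp)


/-- scaling -/
lemma cw_scale {h : ℝ} (hh : 0 < h) (f : R12 → ℂ) (ξ : R12) :
    cw (fun y => f (h • y)) ξ = (((h ^ 12)⁻¹ : ℝ) : ℂ) * cw f (h⁻¹ • ξ) := by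
  unfold cw
  have h1 : ∀ y : R12, ch (-ξ) y * f (h • y)
      = (fun x => ch (-(h⁻¹ • ξ)) x * f x) (h • y) := by
    intro y
    simp only
    congr 1
    unfold ch
    rw [inner_neg_left, inner_neg_left, inner_smul_left, inner_smul_right]
    simp only [conj_trivial]
    rw [← mul_assoc, inv_mul_cancel₀ hh.ne', one_mul]
  rw [integral_congr_ae (Eventually.of_forall h1),
    Measure.integral_comp_smul volume (fun x => ch (-(h⁻¹ • ξ)) x * f x) h]
  simp only [finrank_euclideanSpace, Fintype.card_fin]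
  rw [abs_of_pos (by positivity), real_smul]
  ring

/-- windowed transform of a periodic function -/
lemma cw_window {χ : R12 → ℂ} (hχ : Cut χ) {v : R12 → ℂ} (hv : IsSmoothPeriodic v) (η : R12) :
    HasSum (fun k => cf v k * cw χ (η - zv k)) (cw (fun x => χ x * v x) η) := by
  obtain ⟨hs, hx⟩ := tf1 v hv
  have hs0 : Summable fun k => ‖cf v k‖ := by simpa using hs 0
  have hF : ∀ k : Z12, Integrable (fun x => cf v k * (ch (-(η - zv k)) x * χ x)) := by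
    intro k
    refine Integrable.const_mul ?_ _
    refine hχ.integrable.bdd_mul (c := 1) (continuous_ch_right _).aestronglyMeasurable ?_
    exact Eventually.of_forall fun x => (norm_ch _ x).le
  have hn : Summable fun k : Z12 => ∫ x, ‖cf v k * (ch (-(η - zv k)) x * χ x)‖ := by
    have : ∀ k : Z12, ∫ x, ‖cf v k * (ch (-(η - zv k)) x * χ x)‖ = ‖cf v k‖ * ∫ x, ‖χ x‖ := by
      intro k
      rw [← integral_const_mul]
      refine integral_congr_ae (Eventually.of_forall fun x => ?_)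
      simp only [norm_mul, norm_ch, one_mul]
    simp only [this]
    exact hs0.mul_right _
  have h1 := hasSum_integral_of_summable_integral_norm hF hn
  have h2 : ∀ k : Z12, cf v k * cw χ (η - zv k) = c12 * ∫ x, cf v k * (ch (-(η - zv k)) x * χ x) := by
    intro k
    unfold cw
    rw [integral_const_mul]
    ring
  have h3 : cw (fun x => χ x * v x) η = c12 * ∫ x, ∑' k, cf v k * (ch (-(η - zv k)) x * χ x) := by
    unfold cw
    congr 1
    refine integral_congr_ae (Eventually.of_forall fun x => ?_)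
    simp only
    rw [hx x, ← tsum_mul_left, ← tsum_mul_left]
    congr 1
    ext k
    have : ch (-(η - zv k)) x = ch (-η) x * exp (I * ((inner ℝ (zv k) x : ℝ) : ℂ)) := by
      rw [show -(η - zv k) = -η + zv k by abel, ch_add_left]
      rfl
    rw [this]
    ring
  rw [h3]
  simp only [h2]
  exact h1.mul_left _

/-- near density as a lattice sum -/
lemma cw_zn {τ : ℝ} (hτ : 0 < τ) {v : R12 → ℂ} (hv : IsSmoothPeriodic v) (ξ : R12) :
    cw (zn τ v) ξ = (((Real.sqrt τ ^ 12)⁻¹ : ℝ) : ℂ) *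
      ∑' k, cf v k * cw c2 ((Real.sqrt τ)⁻¹ • ξ - zv k) := by
  have h1 : zn τ v = fun y => (fun x => c2 x * v x) (Real.sqrt τ • y) := rfl
  rw [h1, cw_scale (Real.sqrt_pos.2 hτ) (fun x => c2 x * v x), (cw_window cut_c2 hv _).tsum_eq]

/-- smoothness and support of the blown-up near part -/
lemma cut_zn {τ : ℝ} (hτ : 0 < τ) {v : R12 → ℂ} (hv : IsSmoothPeriodic v) : Cut (zn τ v) where
  smooth := by
    have h1 : ContDiff ℝ ∞ v := hv.1
    have h2 : zn τ v = fun y => (fun x => c2 x * v x) (Real.sqrt τ • y) := rfl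
    rw [h2]
    exact (cut_c2.smooth.mul h1).comp (contDiff_const_smul _)
  supp := by
    have h2 : zn τ v = fun y => (fun x => c2 x * v x) (Real.sqrt τ • y) := rfl
    rw [h2]
    have h3 : HasCompactSupport (fun x => c2 x * v x) := cut_c2.supp.mul_right
    exact h3.comp_smul (Real.sqrt_pos.2 hτ).ne'

/-- transform of a product -/
lemma cw_mul {V v z : R12 → ℂ} {N : ℕ} (hV : Rep N v V) (hz : Continuous z)
    (hzs : HasCompactSupport z) (η : R12) :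
    cw (fun y => V y * z y) η = cv v (cw z) η := by
  have hv : Integrable v := by
    refine hV.1.mono ?_ (Eventually.of_forall fun ξ => ?_)
    · have h1 := hV.1.aestronglyMeasurable
      have h2 : v = fun ξ => ((((1 + ‖ξ‖) ^ N : ℝ) : ℂ))⁻¹ * ((((1 + ‖ξ‖) ^ N : ℝ) : ℂ) * v ξ) := by
        ext ξ
        have : (((1 + ‖ξ‖) ^ N : ℝ) : ℂ) ≠ 0 := by
          have : (0:ℝ) < (1 + ‖ξ‖) ^ N := by positivity
          exact_mod_cast this.ne'
        rw [inv_mul_cancel_left₀ this]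
      rw [h2]
      refine AEStronglyMeasurable.mul ?_ h1
      have : Continuous (fun ξ : R12 => ((((1 + ‖ξ‖) ^ N : ℝ) : ℂ))⁻¹) := by
        refine Continuous.inv₀ (by fun_prop) fun ξ => ?_
        have : (0:ℝ) < (1 + ‖ξ‖) ^ N := by positivity
        exact_mod_cast this.ne'
      exact this.aestronglyMeasurable
    · rw [norm_mul, Complex.norm_real, Real.norm_of_nonneg (by positivity)]
      have : (1:ℝ) ≤ (1 + ‖ξ‖) ^ N := one_le_pow₀ (by linarith [norm_nonneg ξ])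
      nlinarith [norm_nonneg (v ξ)]
  have hzi : Integrable z := hz.integrable_of_hasCompactSupport hzs
  have h1 : cv v (cw z) η = ∫ ξ, v ξ * cw z (η - ξ) := by
    unfold cv
    rw [← integral_sub_left_eq_self (fun ξ => v ξ * cw z (η - ξ)) volume η]
    refine integral_congr_ae (Eventually.of_forall fun ξ => ?_)
    simp
  rw [h1]
  have h2 : ∀ ξ, v ξ * cw z (η - ξ) = c12 * ∫ y, v ξ * (ch (-(η - ξ)) y * z y) := by
    intro ξ
    unfold cw
    rw [integral_const_mul]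
    ring
  rw [integral_congr_ae (Eventually.of_forall h2), integral_const_mul]
  unfold cw
  congr 1
  have hsw : Integrable (Function.uncurry fun (ξ y : R12) => v ξ * (ch (-(η - ξ)) y * z y))
      (volume.prod volume) := by
    have h3 : Integrable (fun p : R12 × R12 => v p.1 * z p.2) (volume.prod volume) :=
      hv.mul_prod hzi
    have h4 : (Function.uncurry fun (ξ y : R12) => v ξ * (ch (-(η - ξ)) y * z y))
        = fun p : R12 × R12 => ch (-(η - p.1)) p.2 * (v p.1 * z p.2) := by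
      ext p
      simp only [Function.uncurry]
      ring
    rw [h4]
    refine h3.bdd_mul (c := 1) ?_ (Eventually.of_forall fun p => (norm_ch _ _).le)
    have : Continuous (fun p : R12 × R12 => ch (-(η - p.1)) p.2) :=
      continuous_ch.comp (by fun_prop : Continuous fun p : R12 × R12 => (-(η - p.1), p.2))
    exact this.aestronglyMeasurable
  rw [integral_integral_swap hsw]
  refine integral_congr_ae (Eventually.of_forall fun y => ?_)
  simp only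
  rw [hV.2 y, ← integral_mul_const, ← integral_const_mul]
  refine integral_congr_ae (Eventually.of_forall fun ξ => ?_)
  simp only
  rw [show -(η - ξ) = -η + ξ by abel, ch_add_left]
  show ch (-η) y * (ch ξ y * v ξ * z y) = _
  ring

/-- conjugate -/
lemma cw_conj (z : R12 → ℂ) (η : R12) :
    cw (fun y => (starRingEnd ℂ) (z y)) η = (starRingEnd ℂ) (cw z (-η)) := by
  unfold cw
  rw [map_mul, ← integral_conj]
  have h1 : (starRingEnd ℂ) c12 = c12 := by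
    unfold c12
    rw [map_inv₀, Complex.conj_ofReal]
  rw [h1]
  congr 1
  refine integral_congr_ae (Eventually.of_forall fun y => ?_)
  simp only [map_mul]
  congr 1
  unfold ch
  rw [← Complex.exp_conj, map_mul, conj_I, Complex.conj_ofReal, neg_neg, inner_neg_left]
  push_cast
  ring_nf

/-- smooth compactly supported functions are represented by their transform -/
lemma rep_cw {z : R12 → ℂ} (h : Cut z) (N : ℕ) : Rep N (cw z) z := by
  constructor
  · have h1 := h.cw_integrable_pow N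
    have h2 : (fun ξ : R12 => (((1 + ‖ξ‖) ^ N : ℝ) : ℂ) * cw z ξ)
        = fun ξ => (((1 + ‖ξ‖) ^ N : ℝ) : ℂ) * cw z ξ := rfl
    have hc := h.cw_continuous
    refine (integrable_norm_iff (by fun_prop : Continuous _).aestronglyMeasurable).1 ?_
    refine h1.congr (Eventually.of_forall fun ξ => ?_)
    simp only [norm_mul, Complex.norm_real]
    rw [Real.norm_of_nonneg (by positivity)]
  · intro y
    exact (h.inversion y).symm

end

end Crest.Agent.R086.TK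
end

-- ▼ part R086/TKDefs3
section

/-!
Row 86, NearLin: statement of the identity (E) (helper501).
-/

set_option autoImplicit false

open MeasureTheory Complex Set
open scoped ContDiff Topology
open Crest.AnalysisR.PDE.NLS (IsSmoothPeriodic periodCell)

namespace Crest.Agent.R086.TK

open Profile

noncomputable section

/-- error coefficients: `-i R + gt`, `R` = quadratic remainder -/
def Ef {n : ℕ} (P : Profile n) (gt : ℝ → R12 → ℂ) (τ₀ : ℝ) (U : ℝ → R12 → ℂ) (s : ℝ) (k : Z12) : ℂ :=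
  -I * cf (fun x => nl n (P.qt (τ₀ * Real.exp (-s)) x + P.pert τ₀ U s x)
      - nl n (P.qt (τ₀ * Real.exp (-s)) x)
      - dnl n (P.qt (τ₀ * Real.exp (-s)) x) (P.pert τ₀ U s x)) k
    + cf (gt (τ₀ * Real.exp (-s))) k

/-- (E) the forcing density is the error density plus the potential terms -/
def EIdStmt : Prop := ∀ (n : ℕ) (P : Profile n) (T : Pot P), TP1 P → ∀ gt : ℝ → R12 → ℂ, GT P gt →
  ∀ (τ₀ S : ℝ), 0 < τ₀ → τ₀ ≤ 1 → 0 ≤ S → ∀ U, P.ResSol τ₀ S U → ∀ s ∈ Icc 0 S,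
    (∀ ξ, Jd (cw c2) (hs τ₀ s) (Gf P gt τ₀ U s) ξ
      = Jd (cw c2) (hs τ₀ s) (Ef P gt τ₀ U s) ξ
        - I * (cv T.v1 (cw (zn (τ₀ * Real.exp (-s)) (P.pert τ₀ U s))) ξ
          + cv T.v2 (cr (cw (zn (τ₀ * Real.exp (-s)) (P.pert τ₀ U s)))) ξ)) ∧
    (∀ ξ, (starRingEnd ℂ) (cv T.v1 (cw (zn (τ₀ * Real.exp (-s)) (P.pert τ₀ U s))) (-ξ)
          + cv T.v2 (cr (cw (zn (τ₀ * Real.exp (-s)) (P.pert τ₀ U s)))) (-ξ))
      = cv T.v1 (cr (cw (zn (τ₀ * Real.exp (-s)) (P.pert τ₀ U s)))) ξ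
          + cv T.v2c (cw (zn (τ₀ * Real.exp (-s)) (P.pert τ₀ U s))) ξ)

end

end Crest.Agent.R086.TK
end

-- ▼ part R086/TK3
section

/-!
Row 86, NearLin, file TK3 (helper501): the pointwise mild formula for the lattice densities.
-/

set_option autoImplicit false

open MeasureTheory Complex Filter Topology Set
open scoped ContDiff
open Crest.AnalysisR.PDE.NLS (IsSmoothPeriodic periodCell)

namespace Crest.Agent.R086.TK

open Profile

noncomputable section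

lemma summable_inv24 : Summable fun k : Z12 => ((1 + nk k) ^ 24)⁻¹ :=
  Tor.summable_wt_inv (d := 12) (M := 24) le_rfl

lemma le_inv_of_pow_mul_le {x y C : ℝ} {M : ℕ} (hx : 0 < x) (h : x ^ M * y ≤ C) :
    y ≤ C * (x ^ M)⁻¹ := by
  rw [← div_eq_mul_inv, le_div_iff₀ (by positivity)]
  linarith

lemma RD.summable {S : ℝ} {c : ℝ → Z12 → ℂ} (h : RD S c) {s : ℝ} (hs : s ∈ Icc 0 S) (M : ℕ) :
    Summable fun k => (1 + nk k) ^ M * ‖c s k‖ := by
  obtain ⟨C, hC0, hC⟩ := h.dec (M + 24)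
  refine Summable.of_nonneg_of_le (fun k => ?_) (fun k => ?_) (summable_inv24.mul_left C)
  · have := TB.nk_nonneg k
    positivity
  · have h0 := TB.nk_nonneg k
    have h1 : (0:ℝ) < 1 + nk k := by positivity
    refine le_inv_of_pow_mul_le h1 ?_
    calc (1 + nk k) ^ 24 * ((1 + nk k) ^ M * ‖c s k‖) = (1 + nk k) ^ (M + 24) * ‖c s k‖ := by
          rw [pow_add]; ring
      _ ≤ C := hC s hs k

lemma Win.bdd {φ : R12 → ℂ} (h : Win φ) : ∃ C : ℝ, 0 ≤ C ∧ ∀ ξ, ‖φ ξ‖ ≤ C := by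
  obtain ⟨C, hC0, hC⟩ := h.dec 0
  exact ⟨C, hC0, fun ξ => by simpa using hC ξ⟩

section scal

variable {τ₀ : ℝ}

lemma hs_eq (hτ : 0 < τ₀) (r : ℝ) : hs τ₀ r = Real.sqrt τ₀ * Real.exp (-r / 2) := by
  unfold hs
  rw [Real.sqrt_mul hτ.le]
  congr 1
  rw [Real.sqrt_eq_iff_mul_self_eq (Real.exp_pos _).le (Real.exp_pos _).le, ← Real.exp_add]
  ring_nf

lemma hs_pos (hτ : 0 < τ₀) (r : ℝ) : 0 < hs τ₀ r := by
  unfold hs
  exact Real.sqrt_pos.2 (mul_pos hτ (Real.exp_pos _))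

lemma hs_sq (hτ : 0 < τ₀) (r : ℝ) : hs τ₀ r ^ 2 = τ₀ * Real.exp (-r) := by
  unfold hs
  rw [Real.sq_sqrt (mul_pos hτ (Real.exp_pos _)).le]

lemma hs_zero : hs τ₀ 0 = Real.sqrt τ₀ := by
  unfold hs
  simp

lemma hs_le_one (hτ : 0 < τ₀) (h1 : τ₀ ≤ 1) {r : ℝ} (hr : 0 ≤ r) : hs τ₀ r ≤ 1 := by
  unfold hs
  rw [Real.sqrt_le_one]
  have : Real.exp (-r) ≤ 1 := Real.exp_le_one_iff.2 (by linarith)
  nlinarith [Real.exp_pos (-r)]

lemma hs_le_sqrt (hτ : 0 < τ₀) {r : ℝ} (hr : 0 ≤ r) : hs τ₀ r ≤ Real.sqrt τ₀ := by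
  unfold hs
  apply Real.sqrt_le_sqrt
  have : Real.exp (-r) ≤ 1 := Real.exp_le_one_iff.2 (by linarith)
  nlinarith [Real.exp_pos (-r)]

lemma continuous_hs : Continuous (hs τ₀) := by
  unfold hs
  fun_prop

/-- the rescaled frequency is constant along the flow -/
lemma hs_smul (hτ : 0 < τ₀) (s r : ℝ) (ξ : R12) :
    (hs τ₀ r)⁻¹ • (Real.exp ((s - r) / 2) • ξ) = (hs τ₀ s)⁻¹ • ξ := by
  rw [smul_smul]
  congr 1
  rw [hs_eq hτ, hs_eq hτ, mul_inv, mul_inv, ← Real.exp_neg, ← Real.exp_neg, mul_assoc,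
    ← Real.exp_add]
  congr 2
  ring

lemma hs_pow (hτ : 0 < τ₀) (s r : ℝ) :
    Real.exp (6 * (s - r)) * (hs τ₀ r ^ 12)⁻¹ = (hs τ₀ s ^ 12)⁻¹ := by
  rw [hs_eq hτ, hs_eq hτ, mul_pow, mul_pow, mul_inv, mul_inv, ← Real.exp_nat_mul,
    ← Real.exp_nat_mul, ← Real.exp_neg, ← Real.exp_neg, mul_left_comm, ← Real.exp_add]
  congr 2
  push_cast
  ring

end scal

/-- integrating factor -/
def EE {n : ℕ} (P : Profile n) (τ₀ s : ℝ) (η : R12) (r : ℝ) : ℂ :=
  exp ((I * P.om - 1 / n) * ((s - r : ℝ) : ℂ)) *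
    exp (-I * (((τ₀ * Real.exp (-r) - τ₀ * Real.exp (-s)) * ‖η‖ ^ 2 : ℝ) : ℂ))

lemma EE_self {n : ℕ} (P : Profile n) (τ₀ s : ℝ) (η : R12) : EE P τ₀ s η s = 1 := by
  unfold EE
  simp

lemma hasDerivAt_EE {n : ℕ} (P : Profile n) (τ₀ s : ℝ) (η : R12) (r : ℝ) :
    HasDerivAt (EE P τ₀ s η)
      ((-(I * P.om - 1 / n) + I * ((τ₀ * Real.exp (-r) * ‖η‖ ^ 2 : ℝ) : ℂ)) * EE P τ₀ s η r) r := by
  have h1 : HasDerivAt (fun r : ℝ => (I * P.om - 1 / n) * ((s - r : ℝ) : ℂ))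
      (-(I * P.om - 1 / n)) r := by
    have h := ((hasDerivAt_const r s).sub (hasDerivAt_id r)).ofReal_comp.const_mul
      (I * (P.om : ℂ) - 1 / n)
    simpa using h
  have h2 : HasDerivAt (fun r : ℝ => -I * (((τ₀ * Real.exp (-r) - τ₀ * Real.exp (-s)) * ‖η‖ ^ 2 : ℝ) : ℂ))
      (I * ((τ₀ * Real.exp (-r) * ‖η‖ ^ 2 : ℝ) : ℂ)) r := by
    have h0 : HasDerivAt (fun r : ℝ => (τ₀ * Real.exp (-r) - τ₀ * Real.exp (-s)) * ‖η‖ ^ 2)
        (-(τ₀ * Real.exp (-r) * ‖η‖ ^ 2)) r := by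
      have h3 : HasDerivAt (fun r : ℝ => Real.exp (-r)) (-Real.exp (-r)) r := by
        have := (hasDerivAt_neg r).exp
        simpa using this
      have h4 := ((h3.const_mul τ₀).sub_const (τ₀ * Real.exp (-s))).mul_const (‖η‖ ^ 2)
      refine h4.congr_deriv ?_
      ring
    have h5 := h0.ofReal_comp.const_mul (-I)
    refine h5.congr_deriv ?_
    push_cast
    ring
  have h3 := h1.cexp.mul h2.cexp
  refine h3.congr_deriv ?_
  unfold EE
  ring

lemma norm_EE_le {n : ℕ} (P : Profile n) (τ₀ s : ℝ) (η : R12) {r : ℝ} (hr : r ≤ s) :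
    ‖EE P τ₀ s η r‖ ≤ 1 := by
  unfold EE
  rw [norm_mul, Complex.norm_exp, Complex.norm_exp]
  have h1 : ((I * (P.om : ℂ) - 1 / n) * ((s - r : ℝ) : ℂ)).re = -((s - r) / n) := by
    have : (1 / (n : ℂ)) = (((1 / n : ℝ)) : ℂ) := by push_cast; ring
    rw [this]
    simp
    ring
  have h2 : (-I * (((τ₀ * Real.exp (-r) - τ₀ * Real.exp (-s)) * ‖η‖ ^ 2 : ℝ) : ℂ)).re = 0 := by
    have : ∀ x : ℝ, (-I * (x : ℂ)).re = 0 := fun x => by simp
    exact this _
  rw [h1, h2, Real.exp_zero, mul_one]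
  apply Real.exp_le_one_iff.2
  have : 0 ≤ (s - r) / n := div_nonneg (by linarith) (by positivity)
  linarith

lemma continuous_EE {n : ℕ} (P : Profile n) (τ₀ s : ℝ) (η : R12) : Continuous (EE P τ₀ s η) :=
  continuous_iff_continuousAt.2 fun r => (hasDerivAt_EE P τ₀ s η r).continuousAt

/-- free flow of a function evaluated through the constant rescaled frequency -/
lemma fr_eval {n : ℕ} (P : Profile n) {τ₀ : ℝ} (hτ : 0 < τ₀) (s r : ℝ) (g : R12 → ℂ) (ξ : R12) :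
    fr P (s - r) (fun ξ => (((hs τ₀ r ^ 12)⁻¹ : ℝ) : ℂ) * g ((hs τ₀ r)⁻¹ • ξ)) ξ =
      (((hs τ₀ s ^ 12)⁻¹ : ℝ) : ℂ) * (EE P τ₀ s ((hs τ₀ s)⁻¹ • ξ) r * g ((hs τ₀ s)⁻¹ • ξ)) := by
  unfold fr EE
  simp only
  rw [hs_smul hτ]
  have h1 : exp (6 * ((s - r : ℝ) : ℂ)) * (((hs τ₀ r ^ 12)⁻¹ : ℝ) : ℂ) = (((hs τ₀ s ^ 12)⁻¹ : ℝ) : ℂ) := by
    rw [← hs_pow hτ s r]
    push_cast
    rfl
  have h2 : (Real.exp (s - r) - 1) * ‖ξ‖ ^ 2
      = (τ₀ * Real.exp (-r) - τ₀ * Real.exp (-s)) * ‖(hs τ₀ s)⁻¹ • ξ‖ ^ 2 := by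
    have h3 : ‖ξ‖ ^ 2 = hs τ₀ s ^ 2 * ‖(hs τ₀ s)⁻¹ • ξ‖ ^ 2 := by
      rw [norm_smul, norm_inv, Real.norm_of_nonneg (hs_pos hτ s).le, mul_pow, ← mul_assoc, ← mul_pow,
        mul_inv_cancel₀ (hs_pos hτ s).ne', one_pow, one_mul]
    rw [h3, hs_sq hτ]
    have h4 : τ₀ * Real.exp (-r) = Real.exp (s - r) * (τ₀ * Real.exp (-s)) := by
      rw [mul_left_comm, ← Real.exp_add]
      ring_nf
    rw [h4]
    ring
  rw [h2, ← h1]
  ring

/-- POINTWISE MILD FORMULA -/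
theorem mild {n : ℕ} (P : Profile n) {φ : R12 → ℂ} (hφ : Win φ) {τ₀ S : ℝ} (hτ : 0 < τ₀)
    (hτ1 : τ₀ ≤ 1) {c G : ℝ → Z12 → ℂ} (hc : RD S c) (hG : RD S G)
    (hode : ∀ s ∈ Icc 0 S, ∀ k, HasDerivWithinAt (fun s => c s k)
      ((-(I * ((τ₀ * Real.exp (-s) * nk k ^ 2 : ℝ) : ℂ)) + (I * (P.om : ℂ) - 1 / (n : ℂ)))
        * c s k + G s k) (Icc 0 S) s)
    {s : ℝ} (hs' : s ∈ Icc 0 S) (ξ : R12) :
    Jd φ (hs τ₀ s) (c s) ξ = fr P s (Jd φ (hs τ₀ 0) (c 0)) ξ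
      + ∫ r in (0 : ℝ)..s, fr P (s - r) (fun ξ => Jd φ (hs τ₀ r) (G r) ξ + Kd φ (hs τ₀ r) (c r) ξ) ξ := by
  set η : R12 := (hs τ₀ s)⁻¹ • ξ with hη
  have hS : (0:ℝ) ≤ S := hs'.1.trans hs'.2
  have h0S : (0:ℝ) ∈ Icc 0 S := ⟨le_rfl, hS⟩
  obtain ⟨Cφ, hCφ0, hCφ⟩ := hφ.bdd
  -- coefficientwise formula
  set F : Z12 → ℝ → ℂ := fun k r => EE P τ₀ s η r *
    (G r k + I * ((τ₀ * Real.exp (-r) * (‖η‖ ^ 2 - nk k ^ 2) : ℝ) : ℂ) * c r k) with hF
  have hFcont : ∀ k, ContinuousOn (F k) (Icc 0 S) := by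
    intro k
    have h1 := hG.cont k
    have h2 := hc.cont k
    have h3 := (continuous_EE P τ₀ s η).continuousOn (s := Icc 0 S)
    have h4 : ContinuousOn (fun r : ℝ => I * ((τ₀ * Real.exp (-r) * (‖η‖ ^ 2 - nk k ^ 2) : ℝ) : ℂ))
        (Icc 0 S) := by
      have : Continuous (fun r : ℝ => I * ((τ₀ * Real.exp (-r) * (‖η‖ ^ 2 - nk k ^ 2) : ℝ) : ℂ)) := by
        fun_prop
      exact this.continuousOn
    exact h3.mul (h1.add (h4.mul h2))
  have hsub : Icc 0 s ⊆ Icc 0 S := Icc_subset_Icc_right hs'.2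
  have hftc : ∀ k, ∫ r in (0:ℝ)..s, F k r = c s k - EE P τ₀ s η 0 * c 0 k := by
    intro k
    have h1 : ∀ r ∈ Ioo 0 s, HasDerivAt (fun r => EE P τ₀ s η r * c r k) (F k r) r := by
      intro r hr
      have hr' : r ∈ Icc 0 S := hsub ⟨hr.1.le, hr.2.le⟩
      have hd := (hode r hr' k).hasDerivAt (Icc_mem_nhds hr.1 (lt_of_lt_of_le hr.2 hs'.2))
      have := (hasDerivAt_EE P τ₀ s η r).mul hd
      refine this.congr_deriv ?_
      simp only [hF]
      push_cast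
      ring
    have h2 : ContinuousOn (fun r => EE P τ₀ s η r * c r k) (Icc 0 s) :=
      (continuous_EE P τ₀ s η).continuousOn.mul ((hc.cont k).mono hsub)
    have h3 := intervalIntegral.integral_eq_sub_of_hasDerivAt_of_le hs'.1 h2 h1
      (((hFcont k).mono hsub).intervalIntegrable_of_Icc hs'.1)
    rw [h3, EE_self, one_mul]
  -- bounds
  obtain ⟨CG, hCG0, hCG⟩ := hG.dec 24
  obtain ⟨Cc, hCc0, hCc⟩ := hc.dec 26
  set b : Z12 → ℝ := fun k => (CG + (‖η‖ ^ 2 + 1) * Cc) * ((1 + nk k) ^ 24)⁻¹ * Cφ with hb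
  have hbs : Summable b := (summable_inv24.mul_left _).mul_right _
  have hFb : ∀ k, ∀ r ∈ Icc 0 s, ‖F k r * φ (η - zv k)‖ ≤ b k := by
    intro k r hr
    have hr' := hsub hr
    have hk := TB.nk_nonneg k
    have hk1 : (0:ℝ) < 1 + nk k := by positivity
    have h1 : ‖G r k‖ ≤ CG * ((1 + nk k) ^ 24)⁻¹ := le_inv_of_pow_mul_le hk1 (hCG r hr' k)
    have h2 : (1 + nk k) ^ 2 * ‖c r k‖ ≤ Cc * ((1 + nk k) ^ 24)⁻¹ := by
      refine le_inv_of_pow_mul_le hk1 ?_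
      calc (1 + nk k) ^ 24 * ((1 + nk k) ^ 2 * ‖c r k‖) = (1 + nk k) ^ 26 * ‖c r k‖ := by ring
        _ ≤ Cc := hCc r hr' k
    have h3 : ‖I * ((τ₀ * Real.exp (-r) * (‖η‖ ^ 2 - nk k ^ 2) : ℝ) : ℂ)‖
        ≤ (‖η‖ ^ 2 + 1) * (1 + nk k) ^ 2 := by
      rw [norm_mul, norm_I, one_mul, Complex.norm_real, Real.norm_eq_abs, abs_mul, abs_mul,
        abs_of_pos hτ, abs_of_pos (Real.exp_pos _)]
      have h4 : Real.exp (-r) ≤ 1 := Real.exp_le_one_iff.2 (by linarith [hr.1])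
      have h5 : τ₀ * Real.exp (-r) ≤ 1 := by nlinarith [Real.exp_pos (-r)]
      have h6 : |‖η‖ ^ 2 - nk k ^ 2| ≤ ‖η‖ ^ 2 + nk k ^ 2 := by
        rw [abs_le]
        constructor <;> nlinarith [sq_nonneg ‖η‖, sq_nonneg (nk k)]
      calc τ₀ * Real.exp (-r) * |‖η‖ ^ 2 - nk k ^ 2| ≤ 1 * (‖η‖ ^ 2 + nk k ^ 2) := by
            apply mul_le_mul h5 h6 (abs_nonneg _) zero_le_one
        _ ≤ (‖η‖ ^ 2 + 1) * (1 + nk k) ^ 2 := by nlinarith [sq_nonneg ‖η‖, mul_nonneg (sq_nonneg ‖η‖) hk, mul_nonneg (sq_nonneg ‖η‖) (sq_nonneg (nk k))]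
    rw [norm_mul]
    have h7 : ‖F k r‖ ≤ (CG + (‖η‖ ^ 2 + 1) * Cc) * ((1 + nk k) ^ 24)⁻¹ := by
      simp only [hF]
      rw [norm_mul]
      have h8 := norm_EE_le P τ₀ s η hr.2
      have h9 : ‖G r k + I * ((τ₀ * Real.exp (-r) * (‖η‖ ^ 2 - nk k ^ 2) : ℝ) : ℂ) * c r k‖
          ≤ (CG + (‖η‖ ^ 2 + 1) * Cc) * ((1 + nk k) ^ 24)⁻¹ := by
        refine (norm_add_le _ _).trans ?_
        rw [norm_mul]
        have h10 : ‖I * ((τ₀ * Real.exp (-r) * (‖η‖ ^ 2 - nk k ^ 2) : ℝ) : ℂ)‖ * ‖c r k‖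
            ≤ (‖η‖ ^ 2 + 1) * (Cc * ((1 + nk k) ^ 24)⁻¹) := by
          calc _ ≤ ((‖η‖ ^ 2 + 1) * (1 + nk k) ^ 2) * ‖c r k‖ :=
                mul_le_mul_of_nonneg_right h3 (norm_nonneg _)
            _ = (‖η‖ ^ 2 + 1) * ((1 + nk k) ^ 2 * ‖c r k‖) := by ring
            _ ≤ _ := by gcongr
        calc _ ≤ CG * ((1 + nk k) ^ 24)⁻¹ + (‖η‖ ^ 2 + 1) * (Cc * ((1 + nk k) ^ 24)⁻¹) :=
              add_le_add h1 h10
          _ = _ := by ring
      calc _ ≤ 1 * _ := mul_le_mul h8 h9 (norm_nonneg _) zero_le_one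
        _ = _ := one_mul _
    simp only [hb]
    exact mul_le_mul h7 (hCφ _) (norm_nonneg _) (by positivity)
  -- exchange of sum and integral
  have hsum : HasSum (fun k => ∫ r in (0:ℝ)..s, F k r * φ (η - zv k))
      (∫ r in (0:ℝ)..s, ∑' k, F k r * φ (η - zv k)) := by
    refine intervalIntegral.hasSum_integral_of_dominated_convergence (fun k _ => b k) ?_ ?_ ?_ ?_ ?_
    · intro k
      have h1 : ContinuousOn (fun r => F k r * φ (η - zv k)) (Icc 0 s) :=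
        ((hFcont k).mono hsub).mul continuousOn_const
      rw [uIoc_of_le hs'.1]
      exact (h1.mono Ioc_subset_Icc_self).aestronglyMeasurable measurableSet_Ioc
    · intro k
      refine Eventually.of_forall fun r hr => ?_
      rw [uIoc_of_le hs'.1] at hr
      exact hFb k r ⟨hr.1.le, hr.2⟩
    · exact Eventually.of_forall fun r _ => hbs
    · exact intervalIntegrable_const
    · refine Eventually.of_forall fun r hr => ?_
      rw [uIoc_of_le hs'.1] at hr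
      refine (Summable.of_norm_bounded hbs fun k => ?_).hasSum
      exact hFb k r ⟨hr.1.le, hr.2⟩
  -- summability of the three series
  have hsm : ∀ r ∈ Icc 0 S, ∀ (d : ℝ → Z12 → ℂ), RD S d → Summable fun k => d r k * φ (η - zv k) := by
    intro r hr d hd
    refine Summable.of_norm_bounded ((hd.summable hr 0).mul_right Cφ) fun k => ?_
    rw [norm_mul, pow_zero, one_mul]
    exact mul_le_mul_of_nonneg_left (hCφ _) (norm_nonneg _)
  have hkey : ∑' k, c s k * φ (η - zv k) = EE P τ₀ s η 0 * (∑' k, c 0 k * φ (η - zv k))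
      + ∫ r in (0:ℝ)..s, ∑' k, F k r * φ (η - zv k) := by
    rw [← hsum.tsum_eq, ← tsum_mul_left,
      ← Summable.tsum_add ((hsm 0 h0S c hc).mul_left _) hsum.summable]
    congr 1
    ext k
    rw [intervalIntegral.integral_mul_const, hftc k]
    ring
  -- conclusion
  have e1 : Jd φ (hs τ₀ s) (c s) ξ = (((hs τ₀ s ^ 12)⁻¹ : ℝ) : ℂ) * ∑' k, c s k * φ (η - zv k) := rfl
  have e2 : fr P s (Jd φ (hs τ₀ 0) (c 0)) ξ
      = (((hs τ₀ s ^ 12)⁻¹ : ℝ) : ℂ) * (EE P τ₀ s η 0 * ∑' k, c 0 k * φ (η - zv k)) := by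
    have := fr_eval P hτ s 0 (fun ζ => ∑' k, c 0 k * φ (ζ - zv k)) ξ
    rw [sub_zero] at this
    exact this
  have e3 : ∀ r ∈ Icc 0 s,
      fr P (s - r) (fun ξ => Jd φ (hs τ₀ r) (G r) ξ + Kd φ (hs τ₀ r) (c r) ξ) ξ
      = (((hs τ₀ s ^ 12)⁻¹ : ℝ) : ℂ) * ∑' k, F k r * φ (η - zv k) := by
    intro r hr
    have hr' := hsub hr
    have h1 : (fun ξ => Jd φ (hs τ₀ r) (G r) ξ + Kd φ (hs τ₀ r) (c r) ξ)
        = fun ξ => (((hs τ₀ r ^ 12)⁻¹ : ℝ) : ℂ) *
          (fun ζ => (∑' k, G r k * φ (ζ - zv k)) + ∑' k, c r k *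
            (I * ((τ₀ * Real.exp (-r) * (‖ζ‖ ^ 2 - nk k ^ 2) : ℝ) : ℂ)) * φ (ζ - zv k))
              ((hs τ₀ r)⁻¹ • ξ) := by
      ext ξ
      unfold Jd Kd
      simp only
      rw [← mul_add, hs_sq hτ]
    rw [h1]
    refine (fr_eval P hτ s r (fun ζ => (∑' k, G r k * φ (ζ - zv k)) + ∑' k, c r k *
            (I * ((τ₀ * Real.exp (-r) * (‖ζ‖ ^ 2 - nk k ^ 2) : ℝ) : ℂ)) * φ (ζ - zv k)) ξ).trans ?_
    rw [← hη]
    congr 1
    have hs2 : Summable fun k => c r k *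
            (I * ((τ₀ * Real.exp (-r) * (‖η‖ ^ 2 - nk k ^ 2) : ℝ) : ℂ)) * φ (η - zv k) := by
      have h2 : Summable fun k => F k r * φ (η - zv k) :=
        Summable.of_norm_bounded hbs fun k => hFb k r hr
      have hE : EE P τ₀ s η r ≠ 0 := by
        unfold EE
        exact mul_ne_zero (exp_ne_zero _) (exp_ne_zero _)
      have h3 := (h2.mul_left (EE P τ₀ s η r)⁻¹).sub (hsm r hr' G hG)
      refine h3.congr fun k => ?_
      simp only [hF]
      field_simp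
      ring
    rw [← Summable.tsum_add (hsm r hr' G hG) hs2, ← tsum_mul_left]
    congr 1
    ext k
    simp only [hF]
    ring
  have e4 : ∫ r in (0 : ℝ)..s, fr P (s - r) (fun ξ => Jd φ (hs τ₀ r) (G r) ξ + Kd φ (hs τ₀ r) (c r) ξ) ξ
      = (((hs τ₀ s ^ 12)⁻¹ : ℝ) : ℂ) * ∫ r in (0 : ℝ)..s, ∑' k, F k r * φ (η - zv k) := by
    rw [← intervalIntegral.integral_const_mul]
    refine intervalIntegral.integral_congr fun r hr => ?_
    rw [uIcc_of_le hs'.1] at hr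
    exact e3 r hr
  rw [e1, e2, e4, hkey]
  ring

end

end Crest.Agent.R086.TK
end

-- ▼ part R086/TKC1
section

/-!
Row 86, NearLin, piece (C1) `CFamStmt` (helper893): regularity of the lattice densities.
-/

set_option autoImplicit false

open MeasureTheory Complex Set
open scoped ContDiff Topology

namespace Crest.Agent.R086

namespace TK

theorem summable_nk13 : Summable fun k : Z12 => ((1 + nk k) ^ 13)⁻¹ := by
  obtain ⟨A, _, hA⟩ := PZ.lattice_sum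
  have := (hA 0).1
  simpa [nk] using this

/-- general term: weight `w`, window `φ` -/
theorem fam_general {φ : R12 → ℂ} (hφ : Win φ) {S : ℝ} {h : ℝ → ℝ} {c : ℝ → Z12 → ℂ}
    (hh : ContinuousOn h (Icc 0 S)) (hpos : ∀ r ∈ Icc 0 S, 0 < h r ∧ h r ≤ 1) (hc : RD S c)
    (w : Z12 → ℝ → R12 → ℂ)
    (hw : ∀ k, ContinuousOn (Function.uncurry (w k)) (Ioi 0 ×ˢ univ))
    (hwb : ∀ k, ∀ t : ℝ, 0 < t → t ≤ 1 → ∀ ξ : R12,
      ‖w k t ξ‖ ≤ (1 + ‖t⁻¹ • ξ - zv k‖) ^ 2 * (1 + nk k)) :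
    Fam S (fun r ξ => ((((h r) ^ 12)⁻¹ : ℝ) : ℂ) *
      ∑' k, c r k * w k (h r) ξ * φ ((h r)⁻¹ • ξ - zv k)) := by
  have hnk : ∀ k : Z12, 0 ≤ nk k := fun k => norm_nonneg _
  -- bound of the prefactor
  obtain ⟨H, hH⟩ : ∃ H : ℝ, ∀ r ∈ Icc 0 S, ‖((((h r) ^ 12)⁻¹ : ℝ) : ℂ)‖ ≤ H := by
    have hcont : ContinuousOn (fun r => ((((h r) ^ 12)⁻¹ : ℝ) : ℂ)) (Icc 0 S) := by
      refine Complex.continuous_ofReal.comp_continuousOn ?_
      exact (hh.pow 12).inv₀ fun r hr => (pow_pos (hpos r hr).1 12).ne'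
    exact isCompact_Icc.exists_bound_of_continuousOn hcont
  have hpre : ContinuousOn (fun p : ℝ × R12 => ((((h p.1) ^ 12)⁻¹ : ℝ) : ℂ))
      (Icc 0 S ×ˢ univ) := by
    refine Complex.continuous_ofReal.comp_continuousOn ?_
    refine ContinuousOn.inv₀ ?_ fun p hp => (pow_pos (hpos p.1 hp.1).1 12).ne'
    exact (hh.comp continuous_fst.continuousOn fun p hp => hp.1).pow 12
  -- the key term bound
  have key : ∀ m : ℕ, ∃ C : ℝ, 0 ≤ C ∧ ∀ r ∈ Icc 0 S, ∀ ξ : R12, ∀ k : Z12,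
      (1 + ‖ξ‖) ^ m * ‖c r k * w k (h r) ξ * φ ((h r)⁻¹ • ξ - zv k)‖
        ≤ C * ((1 + nk k) ^ 13)⁻¹ := by
    intro m
    obtain ⟨A, hA0, hA⟩ := hφ.dec (m + 2)
    obtain ⟨B, hB0, hB⟩ := hc.dec (m + 14)
    refine ⟨A * B, by positivity, fun r hr ξ k => ?_⟩
    obtain ⟨ht0, ht1⟩ := hpos r hr
    set t := h r with ht
    set ζ := t⁻¹ • ξ - zv k with hζ
    have h1 : 1 + ‖ξ‖ ≤ (1 + ‖ζ‖) * (1 + nk k) := by
      have e : ξ = t • (ζ + zv k) := by
        rw [hζ, sub_add_cancel, smul_smul, mul_inv_cancel₀ ht0.ne', one_smul]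
      have e2 : ‖ξ‖ ≤ ‖ζ‖ + nk k := by
        calc ‖ξ‖ = t * ‖ζ + zv k‖ := by
              conv_lhs => rw [e, norm_smul, Real.norm_of_nonneg ht0.le]
          _ ≤ 1 * ‖ζ + zv k‖ := by gcongr
          _ ≤ ‖ζ‖ + nk k := by rw [one_mul]; exact norm_add_le _ _
      nlinarith [norm_nonneg ζ, hnk k, mul_nonneg (norm_nonneg ζ) (hnk k)]
    have h2 := hwb k t ht0 ht1 ξ
    have h3 := hA ζ
    have h4 := hB r hr k
    have hk1 : 0 < 1 + nk k := by have := hnk k; linarith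
    calc (1 + ‖ξ‖) ^ m * ‖c r k * w k t ξ * φ ζ‖
        = (1 + ‖ξ‖) ^ m * ‖w k t ξ‖ * ‖φ ζ‖ * ‖c r k‖ := by
          rw [norm_mul, norm_mul]; ring
      _ ≤ ((1 + ‖ζ‖) * (1 + nk k)) ^ m * ((1 + ‖ζ‖) ^ 2 * (1 + nk k)) * ‖φ ζ‖ * ‖c r k‖ := by
          gcongr
      _ = ((1 + ‖ζ‖) ^ (m + 2) * ‖φ ζ‖) * ((1 + nk k) ^ (m + 14) * ‖c r k‖) *
            ((1 + nk k) ^ 13)⁻¹ := by
          have e5 : (1 + nk k) ^ (m + 14) = (1 + nk k) ^ (m + 1) * (1 + nk k) ^ 13 := by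
            rw [← pow_add]
          rw [e5, mul_pow]
          field_simp
          ring
      _ ≤ (A * B) * ((1 + nk k) ^ 13)⁻¹ := by
          refine mul_le_mul_of_nonneg_right ?_ (by positivity)
          exact mul_le_mul h3 h4 (by positivity) hA0
  have hsum := summable_nk13
  refine ⟨?_, fun m => ?_⟩
  · -- continuity
    obtain ⟨C, hC0, hC⟩ := key 0
    refine hpre.mul ?_
    refine continuousOn_tsum (u := fun k => C * ((1 + nk k) ^ 13)⁻¹) ?_ (hsum.mul_left C) ?_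
    · intro k
      have c1 : ContinuousOn (fun p : ℝ × R12 => c p.1 k) (Icc 0 S ×ˢ univ) :=
        (hc.cont k).comp continuous_fst.continuousOn fun p hp => hp.1
      have c2 : ContinuousOn (fun p : ℝ × R12 => h p.1) (Icc 0 S ×ˢ univ) :=
        hh.comp continuous_fst.continuousOn fun p hp => hp.1
      have c3 : ContinuousOn (fun p : ℝ × R12 => w k (h p.1) p.2) (Icc 0 S ×ˢ univ) :=
        (hw k).comp (c2.prodMk continuous_snd.continuousOn)
          fun p hp => ⟨(hpos p.1 hp.1).1, trivial⟩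
      have c4 : ContinuousOn (fun p : ℝ × R12 => φ ((h p.1)⁻¹ • p.2 - zv k))
          (Icc 0 S ×ˢ univ) := by
        refine hφ.cont.comp_continuousOn ?_
        refine ContinuousOn.sub ?_ continuousOn_const
        exact (c2.inv₀ fun p hp => (hpos p.1 hp.1).1.ne').smul continuous_snd.continuousOn
      exact (c1.mul c3).mul c4
    · intro k p hp
      have := hC p.1 hp.1 p.2 k
      simpa using this
  · -- decay
    obtain ⟨C, hC0, hC⟩ := key m
    have hT0 : 0 ≤ ∑' k : Z12, ((1 + nk k) ^ 13)⁻¹ :=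
      tsum_nonneg fun k => by have := hnk k; positivity
    refine ⟨|H| * (C * ∑' k : Z12, ((1 + nk k) ^ 13)⁻¹), by positivity, fun r hr ξ => ?_⟩
    have hs0 : Summable fun k => C * ((1 + nk k) ^ 13)⁻¹ := hsum.mul_left C
    have hs1 : Summable fun k => (1 + ‖ξ‖) ^ m *
        ‖c r k * w k (h r) ξ * φ ((h r)⁻¹ • ξ - zv k)‖ :=
      Summable.of_nonneg_of_le (fun k => by positivity) (fun k => hC r hr ξ k) hs0
    have hpm : 0 < (1 + ‖ξ‖) ^ m := by positivity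
    have hs2 : Summable fun k => ‖c r k * w k (h r) ξ * φ ((h r)⁻¹ • ξ - zv k)‖ := by
      have := hs1.mul_left ((1 + ‖ξ‖) ^ m)⁻¹
      refine this.congr fun k => ?_
      rw [← mul_assoc, inv_mul_cancel₀ hpm.ne', one_mul]
    have h5 : ‖∑' k, c r k * w k (h r) ξ * φ ((h r)⁻¹ • ξ - zv k)‖
        ≤ ∑' k, ‖c r k * w k (h r) ξ * φ ((h r)⁻¹ • ξ - zv k)‖ := norm_tsum_le_tsum_norm hs2
    have h6 : (1 + ‖ξ‖) ^ m * ∑' k, ‖c r k * w k (h r) ξ * φ ((h r)⁻¹ • ξ - zv k)‖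
        ≤ C * ∑' k : Z12, ((1 + nk k) ^ 13)⁻¹ := by
      rw [← tsum_mul_left, ← tsum_mul_left]
      exact hs1.tsum_le_tsum (fun k => hC r hr ξ k) hs0
    have h7 := (hH r hr).trans (le_abs_self H)
    show (1 + ‖ξ‖) ^ m * ‖((((h r) ^ 12)⁻¹ : ℝ) : ℂ) * _‖ ≤ _
    rw [norm_mul]
    calc (1 + ‖ξ‖) ^ m * (‖((((h r) ^ 12)⁻¹ : ℝ) : ℂ)‖ *
          ‖∑' k, c r k * w k (h r) ξ * φ ((h r)⁻¹ • ξ - zv k)‖)
        ≤ (1 + ‖ξ‖) ^ m * (|H| *
          ∑' k, ‖c r k * w k (h r) ξ * φ ((h r)⁻¹ • ξ - zv k)‖) := by gcongr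
      _ = |H| * ((1 + ‖ξ‖) ^ m *
          ∑' k, ‖c r k * w k (h r) ξ * φ ((h r)⁻¹ • ξ - zv k)‖) := by ring
      _ ≤ |H| * (C * ∑' k : Z12, ((1 + nk k) ^ 13)⁻¹) := by gcongr

/-- (C1) -/
theorem cFam : CFamStmt := by
  intro φ hφ S h c hh hpos hc
  have hnk : ∀ k : Z12, 0 ≤ nk k := fun k => norm_nonneg _
  constructor
  · have := fam_general hφ hh hpos hc (fun _ _ _ => 1) (fun k => continuousOn_const)
      (fun k t _ _ ξ => by
        rw [norm_one]
        have h1 : (1:ℝ) ≤ (1 + ‖t⁻¹ • ξ - zv k‖) ^ 2 :=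
          one_le_pow₀ (by linarith [norm_nonneg (t⁻¹ • ξ - zv k)])
        have h2 : (1:ℝ) ≤ 1 + nk k := by linarith [hnk k]
        nlinarith)
    simp only [mul_one] at this
    exact this
  · refine fam_general hφ hh hpos hc
      (fun k t ξ => I * ((t ^ 2 * (‖t⁻¹ • ξ‖ ^ 2 - nk k ^ 2) : ℝ) : ℂ)) (fun k => ?_)
      (fun k t ht0 ht1 ξ => ?_)
    · refine continuousOn_const.mul (Complex.continuous_ofReal.comp_continuousOn ?_)
      have c1 : ContinuousOn (fun p : ℝ × R12 => p.1⁻¹ • p.2) (Ioi 0 ×ˢ univ) :=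
        (continuous_fst.continuousOn.inv₀ fun p hp => (show (0:ℝ) < p.1 from hp.1).ne').smul
          continuous_snd.continuousOn
      exact (continuous_fst.continuousOn.pow 2).mul ((c1.norm.pow 2).sub continuousOn_const)
    · set ζ := t⁻¹ • ξ - zv k with hζ
      have e : t⁻¹ • ξ = ζ + zv k := by rw [hζ, sub_add_cancel]
      rw [norm_mul, Complex.norm_I, one_mul, Complex.norm_real, norm_mul, norm_pow,
        Real.norm_of_nonneg ht0.le, e]
      have h1 : ‖‖ζ + zv k‖ ^ 2 - nk k ^ 2‖ ≤ ‖ζ‖ ^ 2 + 2 * ‖ζ‖ * nk k := by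
        rw [@norm_add_sq_real _ _ _ ζ (zv k)]
        have h2 : |inner ℝ ζ (zv k)| ≤ ‖ζ‖ * ‖zv k‖ := abs_real_inner_le_norm _ _
        have h3 : ‖zv k‖ = nk k := rfl
        rw [h3] at h2 ⊢
        rw [Real.norm_eq_abs, abs_le]
        have h4 := abs_le.1 h2
        constructor <;> nlinarith [norm_nonneg ζ, hnk k, sq_nonneg ‖ζ‖]
      have h5 : t ^ 2 ≤ 1 := pow_le_one₀ ht0.le ht1
      have h6 : (0:ℝ) ≤ ‖ζ‖ ^ 2 + 2 * ‖ζ‖ * nk k := by
        have := hnk k; positivity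
      calc t ^ 2 * ‖‖ζ + zv k‖ ^ 2 - nk k ^ 2‖
          ≤ 1 * (‖ζ‖ ^ 2 + 2 * ‖ζ‖ * nk k) := by gcongr
        _ ≤ (1 + ‖ζ‖) ^ 2 * (1 + nk k) := by
          nlinarith [norm_nonneg ζ, hnk k, mul_nonneg (norm_nonneg ζ) (hnk k),
            mul_nonneg (sq_nonneg ‖ζ‖) (hnk k)]

end TK

end Crest.Agent.R086
end

-- ▼ part R086/TKC2
section

/-!
Row 86, NearLin, node CBdStmt (helper732): bounds for the lattice densities.
-/

set_option autoImplicit false

open MeasureTheory Complex Filter Topology Set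
open scoped ContDiff

namespace Crest.Agent.R086.TK

theorem int_norm_tsum_le {F : Z12 → R12 → ℂ} (hF : ∀ k, Integrable (F k))
    (hs : Summable fun k => ∫ ξ, ‖F k ξ‖) :
    ∫ ξ, ‖∑' k, F k ξ‖ ≤ ∑' k, ∫ ξ, ‖F k ξ‖ := by
  have hnn : 0 ≤ ∑' k, ∫ ξ, ‖F k ξ‖ := tsum_nonneg fun k => integral_nonneg fun _ => norm_nonneg _
  by_cases h : Integrable (fun ξ => ‖∑' k, F k ξ‖)
  · rw [integral_eq_lintegral_of_nonneg_ae (Eventually.of_forall fun _ => norm_nonneg _) h.1]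
    refine ENNReal.toReal_le_of_le_ofReal hnn ?_
    have hlin : ∫⁻ ξ, ∑' k, ‖F k ξ‖ₑ = ENNReal.ofReal (∑' k, ∫ ξ, ‖F k ξ‖) := by
      rw [lintegral_tsum (fun k => (hF k).1.enorm)]
      rw [ENNReal.ofReal_tsum_of_nonneg (fun k => integral_nonneg fun _ => norm_nonneg _) hs]
      congr 1
      ext k
      rw [ofReal_integral_norm_eq_lintegral_enorm (hF k)]
    rw [← hlin]
    refine lintegral_mono fun ξ => ?_
    rw [ofReal_norm]
    exact enorm_tsum_le_tsum_enorm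
  · rw [integral_undef h]
    exact hnn

theorem win_int {φ : R12 → ℂ} (hφ : Win φ) (N : ℕ) :
    Integrable fun z : R12 => (1 + ‖z‖) ^ N * ‖φ z‖ := by
  obtain ⟨C, hC, hd⟩ := hφ.dec (N + 13)
  have hint13 : Integrable (fun ξ : R12 => (1 + ‖ξ‖) ^ (-(13 : ℝ))) := by
    apply integrable_one_add_norm
    rw [SymX.finrank12]; norm_num
  refine (hint13.const_mul C).mono' ?_ (Eventually.of_forall fun z => ?_)
  · have hc := hφ.cont
    exact (by fun_prop : Continuous fun z : R12 => (1 + ‖z‖) ^ N * ‖φ z‖).aestronglyMeasurable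
  · rw [Real.norm_of_nonneg (by positivity)]
    have h2 : (1 + ‖z‖) ^ (-(13:ℝ)) = ((1 + ‖z‖) ^ 13)⁻¹ := by
      rw [Real.rpow_neg (by positivity)]
      norm_cast
    rw [h2, ← div_eq_mul_inv, le_div_iff₀ (by positivity)]
    calc (1 + ‖z‖) ^ N * ‖φ z‖ * (1 + ‖z‖) ^ 13 = (1 + ‖z‖) ^ (N + 13) * ‖φ z‖ := by
          rw [pow_add]; ring
      _ ≤ C := hd z

/-- general bound: windows times coefficients with a weight -/
theorem gen_bd {φ : R12 → ℂ} (hφ : Win φ) (N Q : ℕ) {h : ℝ} (hh : 0 < h) (hh1 : h ≤ 1)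
    (c : Z12 → ℂ) (hc : ∀ M : ℕ, Summable fun k => (1 + nk k) ^ M * ‖c k‖)
    (g : Z12 → R12 → ℂ) (hgc : ∀ k, Continuous (g k)) (B : ℝ) (hB : 0 ≤ B)
    (hg : ∀ k ζ, ‖g k ζ‖ ≤ B * (1 + h * nk k) ^ Q * (1 + ‖ζ - zv k‖) ^ (2 * Q)) :
    ∫ ξ : R12, (1 + ‖ξ‖) ^ N * ‖(((h ^ 12)⁻¹ : ℝ) : ℂ) * ∑' k, c k * g k (h⁻¹ • ξ) *
        φ (h⁻¹ • ξ - zv k)‖ ≤
      B * (∫ z : R12, (1 + ‖z‖) ^ (N + 2 * Q) * ‖φ z‖) * ∑' k, (1 + h * nk k) ^ (N + Q) * ‖c k‖ := by
  have hnk : ∀ k : Z12, 0 ≤ nk k := fun k => norm_nonneg _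
  set A : ℝ := ∫ z : R12, (1 + ‖z‖) ^ (N + 2 * Q) * ‖φ z‖ with hA
  have hA0 : 0 ≤ A := integral_nonneg fun z => by positivity
  set F : Z12 → R12 → ℂ := fun k ζ => (((1 + h * ‖ζ‖) ^ N : ℝ) : ℂ) * (c k * g k ζ * φ (ζ - zv k))
    with hF
  -- substitution
  have hsub : ∫ ξ : R12, (1 + ‖ξ‖) ^ N * ‖(((h ^ 12)⁻¹ : ℝ) : ℂ) * ∑' k, c k * g k (h⁻¹ • ξ) *
        φ (h⁻¹ • ξ - zv k)‖ = ∫ ζ, ‖∑' k, F k ζ‖ := by
    have h1 := Measure.integral_comp_smul (volume : Measure R12)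
      (fun ξ => (1 + ‖ξ‖) ^ N * ‖(((h ^ 12)⁻¹ : ℝ) : ℂ) * ∑' k, c k * g k (h⁻¹ • ξ) *
        φ (h⁻¹ • ξ - zv k)‖) h
    rw [SymX.finrank12, abs_of_pos (by positivity), smul_eq_mul] at h1
    have h2 : ∫ ξ : R12, (1 + ‖ξ‖) ^ N * ‖(((h ^ 12)⁻¹ : ℝ) : ℂ) * ∑' k, c k * g k (h⁻¹ • ξ) *
        φ (h⁻¹ • ξ - zv k)‖ = h ^ 12 * ∫ ζ : R12, (1 + ‖h • ζ‖) ^ N * ‖(((h ^ 12)⁻¹ : ℝ) : ℂ) *
          ∑' k, c k * g k (h⁻¹ • h • ζ) * φ (h⁻¹ • h • ζ - zv k)‖ := by
      rw [h1, ← mul_assoc, mul_inv_cancel₀ (by positivity), one_mul]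
    rw [h2, ← integral_const_mul]
    refine integral_congr_ae (Eventually.of_forall fun ζ => ?_)
    simp only [hF]
    rw [tsum_mul_left, norm_mul, norm_mul, Complex.norm_real, Complex.norm_real,
      Real.norm_of_nonneg (by positivity), Real.norm_of_nonneg (by positivity), norm_smul,
      Real.norm_of_nonneg hh.le, smul_smul, inv_mul_cancel₀ hh.ne', one_smul]
    have : h ^ 12 * ((1 + h * ‖ζ‖) ^ N * ((h ^ 12)⁻¹ * ‖∑' k, c k * g k ζ * φ (ζ - zv k)‖)) =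
        (h ^ 12 * (h ^ 12)⁻¹) * ((1 + h * ‖ζ‖) ^ N * ‖∑' k, c k * g k ζ * φ (ζ - zv k)‖) := by ring
    rw [this, mul_inv_cancel₀ (by positivity), one_mul]
  rw [hsub]
  -- pointwise bound of `F k`
  have hpt : ∀ k ζ, ‖F k ζ‖ ≤ (B * (1 + h * nk k) ^ (N + Q) * ‖c k‖) *
      ((1 + ‖ζ - zv k‖) ^ (N + 2 * Q) * ‖φ (ζ - zv k)‖) := by
    intro k ζ
    have hk := hnk k
    simp only [hF]
    rw [norm_mul, norm_mul, norm_mul, Complex.norm_real, Real.norm_of_nonneg (by positivity)]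
    have h3 : 1 + h * ‖ζ‖ ≤ (1 + h * nk k) * (1 + ‖ζ - zv k‖) := by
      have e : ‖ζ‖ ≤ ‖ζ - zv k‖ + nk k := by
        have : ζ = (ζ - zv k) + zv k := by abel
        calc ‖ζ‖ = ‖(ζ - zv k) + zv k‖ := by rw [← this]
          _ ≤ ‖ζ - zv k‖ + nk k := norm_add_le _ _
      have e2 : h * ‖ζ‖ ≤ h * ‖ζ - zv k‖ + h * nk k := by nlinarith
      have e3 : h * ‖ζ - zv k‖ ≤ 1 * ‖ζ - zv k‖ := by gcongr
      have e4 : 0 ≤ h * nk k * ‖ζ - zv k‖ := by positivity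
      nlinarith
    have h4 : (1 + h * ‖ζ‖) ^ N ≤ (1 + h * nk k) ^ N * (1 + ‖ζ - zv k‖) ^ N := by
      rw [← mul_pow]
      exact pow_le_pow_left₀ (by positivity) h3 N
    calc (1 + h * ‖ζ‖) ^ N * (‖c k‖ * ‖g k ζ‖ * ‖φ (ζ - zv k)‖)
        ≤ ((1 + h * nk k) ^ N * (1 + ‖ζ - zv k‖) ^ N) *
          (‖c k‖ * (B * (1 + h * nk k) ^ Q * (1 + ‖ζ - zv k‖) ^ (2 * Q)) * ‖φ (ζ - zv k)‖) := by
          gcongr
          exact hg k ζ
      _ = _ := by rw [pow_add, pow_add]; ring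
  have hwi := win_int hφ (N + 2 * Q)
  have hFi : ∀ k, Integrable (F k) := by
    intro k
    have h5 : Integrable fun ζ : R12 => (B * (1 + h * nk k) ^ (N + Q) * ‖c k‖) *
        ((1 + ‖ζ - zv k‖) ^ (N + 2 * Q) * ‖φ (ζ - zv k)‖) :=
      (hwi.comp_sub_right (zv k)).const_mul _
    refine h5.mono' ?_ (Eventually.of_forall fun ζ => hpt k ζ)
    have hc' := hφ.cont
    have hg' := hgc k
    simp only [hF]
    exact (by fun_prop : Continuous fun ζ : R12 => (((1 + h * ‖ζ‖) ^ N : ℝ) : ℂ) *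
      (c k * g k ζ * φ (ζ - zv k))).aestronglyMeasurable
  have hbd : ∀ k, ∫ ζ, ‖F k ζ‖ ≤ B * A * ((1 + h * nk k) ^ (N + Q) * ‖c k‖) := by
    intro k
    calc ∫ ζ, ‖F k ζ‖ ≤ ∫ ζ : R12, (B * (1 + h * nk k) ^ (N + Q) * ‖c k‖) *
        ((1 + ‖ζ - zv k‖) ^ (N + 2 * Q) * ‖φ (ζ - zv k)‖) :=
          integral_mono (hFi k).norm ((hwi.comp_sub_right (zv k)).const_mul _) (hpt k)
      _ = (B * (1 + h * nk k) ^ (N + Q) * ‖c k‖) * A := by
          rw [integral_const_mul, integral_sub_right_eq_self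
            (fun z : R12 => (1 + ‖z‖) ^ (N + 2 * Q) * ‖φ z‖) (zv k)]
      _ = _ := by ring
  have hcs : Summable fun k => (1 + h * nk k) ^ (N + Q) * ‖c k‖ := by
    refine Summable.of_nonneg_of_le (fun k => ?_) (fun k => ?_) (hc (N + Q))
    · have := hnk k
      positivity
    · have := hnk k
      have : h * nk k ≤ 1 * nk k := by gcongr
      gcongr
      linarith
  have hsum : Summable fun k => ∫ ζ, ‖F k ζ‖ :=
    Summable.of_nonneg_of_le (fun k => integral_nonneg fun _ => norm_nonneg _) hbd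
      (hcs.mul_left _)
  refine (int_norm_tsum_le hFi hsum).trans ?_
  refine (hsum.tsum_le_tsum hbd (hcs.mul_left _)).trans (le_of_eq ?_)
  rw [tsum_mul_left]

/-- NODE (C2) -/
theorem cBd : CBdStmt := by
  intro φ hφ N
  have hnk : ∀ k : Z12, 0 ≤ nk k := fun k => norm_nonneg _
  set A0 : ℝ := ∫ z : R12, (1 + ‖z‖) ^ (N + 2 * 0) * ‖φ z‖ with hA0
  set A1 : ℝ := ∫ z : R12, (1 + ‖z‖) ^ (N + 2 * 1) * ‖φ z‖ with hA1
  have hA0' : 0 ≤ A0 := integral_nonneg fun z => by positivity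
  have hA1' : 0 ≤ A1 := integral_nonneg fun z => by positivity
  refine ⟨A0 + 2 * A1, by positivity, fun h hh hh1 c hc => ⟨?_, ?_⟩⟩
  · have h1 := gen_bd hφ N 0 hh hh1 c hc (fun _ _ => 1) (fun k => continuous_const) 1 zero_le_one
      (fun k ζ => by simp)
    have e : (fun ξ : R12 => (1 + ‖ξ‖) ^ N * ‖Jd φ h c ξ‖) = fun ξ : R12 => (1 + ‖ξ‖) ^ N *
        ‖(((h ^ 12)⁻¹ : ℝ) : ℂ) * ∑' k, c k * (1:ℂ) * φ (h⁻¹ • ξ - zv k)‖ := by
      funext ξ
      unfold Jd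
      simp only [mul_one]
    rw [e]
    refine h1.trans ?_
    have hs0 : 0 ≤ ∑' k, (1 + h * nk k) ^ N * ‖c k‖ := tsum_nonneg fun k => by
      have := hnk k; positivity
    simp only [add_zero]
    rw [one_mul]
    have : A0 ≤ A0 + 2 * A1 := by linarith
    exact mul_le_mul_of_nonneg_right this hs0
  · have h1 := gen_bd hφ N 1 hh hh1 c hc
      (fun k ζ => I * ((h ^ 2 * (‖ζ‖ ^ 2 - nk k ^ 2) : ℝ) : ℂ)) (fun k => by fun_prop) (2 * h)
      (by positivity) (fun k ζ => ?_)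
    · have e : (fun ξ : R12 => (1 + ‖ξ‖) ^ N * ‖Kd φ h c ξ‖) = fun ξ : R12 => (1 + ‖ξ‖) ^ N *
          ‖(((h ^ 12)⁻¹ : ℝ) : ℂ) * ∑' k, c k * (I * ((h ^ 2 * (‖h⁻¹ • ξ‖ ^ 2 - nk k ^ 2) : ℝ) : ℂ)) *
            φ (h⁻¹ • ξ - zv k)‖ := by
        funext ξ
        unfold Kd
        rfl
      rw [e]
      refine h1.trans ?_
      have hs0 : 0 ≤ ∑' k, (1 + h * nk k) ^ (N + 1) * ‖c k‖ := tsum_nonneg fun k => by
        have := hnk k; positivity
      have : 2 * h * A1 ≤ (A0 + 2 * A1) * h := by nlinarith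
      exact mul_le_mul_of_nonneg_right this hs0
    · have hk := hnk k
      rw [norm_mul, Complex.norm_I, one_mul, Complex.norm_real, Real.norm_eq_abs, abs_mul,
        abs_of_nonneg (by positivity : (0:ℝ) ≤ h ^ 2), pow_one]
      set z : ℝ := ‖ζ - zv k‖ with hz
      have hz0 : 0 ≤ z := norm_nonneg _
      have e1 : |‖ζ‖ - nk k| ≤ z := abs_norm_sub_norm_le ζ (zv k)
      have e2 : ‖ζ‖ + nk k ≤ z + 2 * nk k := by
        have : ‖ζ‖ ≤ z + nk k := by
          have : ζ = (ζ - zv k) + zv k := by abel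
          calc ‖ζ‖ = ‖(ζ - zv k) + zv k‖ := by rw [← this]
            _ ≤ z + nk k := norm_add_le _ _
        linarith
      have e3 : |‖ζ‖ ^ 2 - nk k ^ 2| ≤ z * (z + 2 * nk k) := by
        have : ‖ζ‖ ^ 2 - nk k ^ 2 = (‖ζ‖ - nk k) * (‖ζ‖ + nk k) := by ring
        rw [this, abs_mul, abs_of_nonneg (by positivity : 0 ≤ ‖ζ‖ + nk k)]
        exact mul_le_mul e1 e2 (by positivity) hz0
      calc h ^ 2 * |‖ζ‖ ^ 2 - nk k ^ 2| ≤ h ^ 2 * (z * (z + 2 * nk k)) := by gcongr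
        _ = h * (z * (h * z + 2 * (h * nk k))) := by ring
        _ ≤ h * (z * (1 * z + 2 * (h * nk k))) := by gcongr
        _ ≤ 2 * h * (1 + h * nk k) * (1 + z) ^ (2 * 1) := by
            have p1 : 0 ≤ h * nk k := by positivity
            have p2 : 0 ≤ z * (h * nk k) := by positivity
            have p3 : 0 ≤ z ^ 2 * (h * nk k) := by positivity
            have p4 : 0 ≤ z ^ 2 := by positivity
            have e5 : 2 * (1 + h * nk k) * (1 + z) ^ (2 * 1) - z * (1 * z + 2 * (h * nk k)) =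
                2 + 4 * z + z ^ 2 + 2 * (h * nk k) + 2 * (z * (h * nk k)) +
                  2 * (z ^ 2 * (h * nk k)) := by ring
            have e6 : z * (1 * z + 2 * (h * nk k)) ≤ 2 * (1 + h * nk k) * (1 + z) ^ (2 * 1) := by
              linarith
            calc h * (z * (1 * z + 2 * (h * nk k))) ≤
                h * (2 * (1 + h * nk k) * (1 + z) ^ (2 * 1)) := by gcongr
              _ = _ := by ring

end Crest.Agent.R086.TK
end

-- ▼ part R086/TKD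
section

/-!
Row 86, node NearStep, piece (D2) (helper264): coefficients of the perturbation.
-/

set_option autoImplicit false

open MeasureTheory Complex Set
open scoped ContDiff Topology
open Crest.AnalysisR.PDE.NLS (IsSmoothPeriodic periodCell)

namespace Crest.Agent.R086.TKD

noncomputable section

lemma meas_cell : MeasurableSet (periodCell : Set R12) := by
  have h : (periodCell : Set R12) = ⋂ i : Fin 12, {x : R12 | x i ∈ Set.Ico 0 (2 * Real.pi)} := by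
    ext x; simp [periodCell]
  rw [h]
  refine MeasurableSet.iInter fun i => ?_
  exact (EuclideanSpace.proj (𝕜 := ℝ) i).continuous.measurable measurableSet_Ico

/-- uniform weighted bounds and continuity of the coefficients give joint continuity -/
lemma cont_joint {S : ℝ} {U : ℝ → R12 → ℂ} (hU : ∀ s ∈ Icc 0 S, IsSmoothPeriodic (U s))
    (hb : ∀ M : ℕ, ∃ B : ℝ, ∀ s ∈ Icc 0 S, wn M 1 (U s) ≤ B)
    (hc : ∀ k, ContinuousOn (fun s => cf (U s) k) (Icc 0 S)) :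
    ContinuousOn (fun q : ℝ × R12 => U q.1 q.2) (Icc 0 S ×ˢ univ) := by
  obtain ⟨B, hB⟩ := hb 24
  have h : ContinuousOn (fun q : ℝ × R12 => ∑' k : Z12, cf (U q.1) k *
      exp (I * ((inner ℝ (zv k) q.2 : ℝ) : ℂ))) (Icc 0 S ×ˢ univ) := by
    refine continuousOn_tsum (u := fun k : Z12 => |B| * ((1 + nk k) ^ 24)⁻¹) (fun k => ?_)
      (Grow.summable_inv24.mul_left _) (fun k q hq => ?_)
    · refine ContinuousOn.mul ?_ ?_
      · exact (hc k).comp continuousOn_fst (fun q hq => hq.1)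
      · refine Continuous.continuousOn ?_
        fun_prop
    · rw [norm_mul, mul_comm I, Complex.norm_exp_ofReal_mul_I, mul_one]
      have h0 : 0 ≤ ((1 + nk k) ^ 24)⁻¹ := by
        have := Grow.one_add_nk_pos k; positivity
      refine (Grow.cf_le tf1 (hU _ hq.1) 24 k).trans ?_
      exact mul_le_mul_of_nonneg_right ((hB _ hq.1).trans (le_abs_self _)) h0
  refine h.congr fun q hq => ?_
  exact (tf1 _ (hU _ hq.1)).2 q.2

/-- coefficients of a jointly continuous family are continuous in time -/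
lemma cont_cf {S : ℝ} {V : ℝ → R12 → ℂ}
    (hV : ContinuousOn (fun q : ℝ × R12 => V q.1 q.2) (Icc 0 S ×ˢ univ)) (k : Z12) :
    ContinuousOn (fun s => cf (V s) k) (Icc 0 S) := by
  unfold cf
  refine ContinuousOn.mul continuousOn_const ?_
  set K : Set R12 := Metric.closedBall (0 : R12) (Real.sqrt (12 * (2 * Real.pi) ^ 2)) with hK
  have hKc : IsCompact (Icc (0 : ℝ) S ×ˢ K) := isCompact_Icc.prod (isCompact_closedBall _ _)
  obtain ⟨C, hC⟩ := hKc.exists_bound_of_continuousOn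
    (hV.mono (Set.prod_mono le_rfl (subset_univ _)))
  have hvol : volume (periodCell : Set R12) < ⊤ :=
    (measure_mono Grow.cell_subset).trans_lt measure_closedBall_lt_top
  refine continuousOn_of_dominated (bound := fun _ => C) (fun s hs => ?_) (fun s hs => ?_) ?_ ?_
  · have h1 : Continuous (fun x => V s x) := by
      have := hV.comp (f := fun x : R12 => (s, x)) (s := univ) (by fun_prop)
        (fun x _ => ⟨hs, mem_univ _⟩)
      exact continuousOn_univ.1 this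
    refine Continuous.aestronglyMeasurable ?_
    exact h1.mul (by fun_prop)
  · refine (ae_restrict_iff' meas_cell).2 (Filter.Eventually.of_forall fun x hx => ?_)
    rw [norm_mul]
    have e : ‖exp (-(I * ((inner ℝ (zv k) x : ℝ) : ℂ)))‖ = 1 := by
      have : -(I * ((inner ℝ (zv k) x : ℝ) : ℂ)) = ((-(inner ℝ (zv k) x) : ℝ) : ℂ) * I := by
        push_cast; ring
      rw [this, Complex.norm_exp_ofReal_mul_I]
    rw [e, mul_one]
    exact hC (s, x) ⟨hs, Grow.cell_subset hx⟩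
  · haveI : IsFiniteMeasure (volume.restrict (periodCell : Set R12)) :=
      ⟨by rw [Measure.restrict_apply_univ]; exact hvol⟩
    exact integrable_const C
  · refine Filter.Eventually.of_forall fun x => ?_
    refine ContinuousOn.mul ?_ continuousOn_const
    exact hV.comp (f := fun s : ℝ => (s, x)) (by fun_prop) (fun s hs => ⟨hs, mem_univ _⟩)

/-- the coefficient family of a smooth family with uniform bounds -/
lemma rd_of {S : ℝ} {U : ℝ → R12 → ℂ} (hU : ∀ s ∈ Icc 0 S, IsSmoothPeriodic (U s))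
    (hb : ∀ M : ℕ, ∃ B : ℝ, ∀ s ∈ Icc 0 S, wn M 1 (U s) ≤ B)
    (hc : ∀ k, ContinuousOn (fun s => cf (U s) k) (Icc 0 S)) :
    TK.RD S (fun s k => cf (U s) k) := by
  refine ⟨hc, fun M => ?_⟩
  obtain ⟨B, hB⟩ := hb M
  exact ⟨|B|, abs_nonneg _, fun s hs k =>
    (Grow.term_le_wn tf1 (hU s hs) M k).trans ((hB s hs).trans (le_abs_self _))⟩

lemma rd_add {S : ℝ} {c d : ℝ → Z12 → ℂ} (hc : TK.RD S c) (hd : TK.RD S d) :
    TK.RD S (fun s k => c s k + d s k) := by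
  refine ⟨fun k => (hc.cont k).add (hd.cont k), fun M => ?_⟩
  obtain ⟨A, hA0, hA⟩ := hc.dec M
  obtain ⟨B, hB0, hB⟩ := hd.dec M
  refine ⟨A + B, add_nonneg hA0 hB0, fun s hs k => ?_⟩
  have h1 := hA s hs k
  have h2 := hB s hs k
  have h3 : 0 ≤ (1 + nk k) ^ M := (pow_pos (Grow.one_add_nk_pos k) _).le
  calc (1 + nk k) ^ M * ‖c s k + d s k‖ ≤ (1 + nk k) ^ M * (‖c s k‖ + ‖d s k‖) :=
        mul_le_mul_of_nonneg_left (norm_add_le _ _) h3
    _ ≤ A + B := by rw [mul_add]; exact add_le_add h1 h2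

lemma rd_smul {S : ℝ} {c : ℝ → Z12 → ℂ} (hc : TK.RD S c) (z : ℂ) :
    TK.RD S (fun s k => z * c s k) := by
  refine ⟨fun k => continuousOn_const.mul (hc.cont k), fun M => ?_⟩
  obtain ⟨A, hA0, hA⟩ := hc.dec M
  refine ⟨‖z‖ * A, by positivity, fun s hs k => ?_⟩
  rw [norm_mul]
  have h1 := mul_le_mul_of_nonneg_left (hA s hs k) (norm_nonneg z)
  linarith

lemma rd_sub {S : ℝ} {c d : ℝ → Z12 → ℂ} (hc : TK.RD S c) (hd : TK.RD S d) :
    TK.RD S (fun s k => c s k - d s k) := by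
  have := rd_add hc (rd_smul hd (-1))
  refine ⟨fun k => (hc.cont k).sub (hd.cont k), fun M => ?_⟩
  obtain ⟨A, hA0, hA⟩ := this.dec M
  refine ⟨A, hA0, fun s hs k => ?_⟩
  have h := hA s hs k
  rwa [neg_one_mul, ← sub_eq_add_neg] at h

/-- the nonlinearity of a smooth family with uniform bounds -/
lemma rd_nl {n : ℕ} (hn : Even n) {S : ℝ} {U : ℝ → R12 → ℂ}
    (hU : ∀ s ∈ Icc 0 S, IsSmoothPeriodic (U s))
    (hb : ∀ M : ℕ, ∃ B : ℝ, ∀ s ∈ Icc 0 S, wn M 1 (U s) ≤ B)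
    (hc : ∀ k, ContinuousOn (fun s => cf (U s) k) (Icc 0 S)) :
    TK.RD S (fun s k => cf (fun x => nl n (U s x)) k) := by
  have hTN : TN := TNl.tn_of tf1 tf2
  obtain ⟨m, rfl⟩ := hn
  rw [← two_mul]
  have e : ∀ z, nl (2 * m) z = Grow.pm m z := Grow.nl_eq_pm m
  have hsm : ∀ s ∈ Icc 0 S, IsSmoothPeriodic (fun x => nl (2 * m) (U s x)) := by
    intro s hs
    have : (fun x => nl (2 * m) (U s x)) = fun x => Grow.pm m (U s x) := by
      funext x; exact e _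
    rw [this]; exact Grow.sp_pm (hU s hs) m
  refine rd_of (U := fun s x => nl (2 * m) (U s x)) hsm (fun M => ?_) (fun k => ?_)
  · obtain ⟨B, hB⟩ := hb M
    refine ⟨B ^ (2 * m + 1), fun s hs => ?_⟩
    have : (fun x => nl (2 * m) (U s x)) = fun x => Grow.pm m (U s x) := by
      funext x; exact e _
    show wn M 1 (fun x => nl (2 * m) (U s x)) ≤ _
    rw [this]
    exact Grow.wn_pm hTN (hU s hs) M zero_le_one (hB s hs) m
  · have hj := cont_joint hU hb hc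
    refine cont_cf (V := fun s x => nl (2 * m) (U s x)) ?_ k
    unfold nl
    refine ContinuousOn.mul ?_ hj
    exact Complex.continuous_ofReal.comp_continuousOn (hj.norm.pow _)

theorem dCoef : TK.DCoefStmt := by
  intro n P hP1 gt hgt τ₀ S hτ₀ hτ1 hS U hU
  have hτs : ∀ s : ℝ, 0 < τ₀ * Real.exp (-s) := fun s => by positivity
  have hτs1 : ∀ s ∈ Icc 0 S, τ₀ * Real.exp (-s) ≤ 1 := by
    intro s hs
    have h1 : Real.exp (-s) ≤ 1 := by rw [Real.exp_le_one_iff]; linarith [hs.1]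
    have h2 := Real.exp_pos (-s)
    nlinarith
  -- the solution
  have hUc : ∀ k, ContinuousOn (fun s => cf (U s) k) (Icc 0 S) := fun k s hs =>
    (hU.ode s hs k).continuousWithinAt
  have rU := rd_of hU.smooth hU.bdd hUc
  have rNU := rd_nl P.neven hU.smooth hU.bdd hUc
  -- the profile
  have hqs : ∀ s ∈ Icc 0 S, IsSmoothPeriodic (P.qt (τ₀ * Real.exp (-s))) := fun s _ =>
    (hP1.1 _ (hτs s)).1
  have hqc : ∀ k, ContinuousOn (fun s => cf (P.qt (τ₀ * Real.exp (-s))) k) (Icc 0 S) := fun k s _ =>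
    (hgt.eqn τ₀ hτ₀ s k).continuousAt.continuousWithinAt
  have hqb : ∀ M : ℕ, ∃ B : ℝ, ∀ s ∈ Icc 0 S, wn M 1 (P.qt (τ₀ * Real.exp (-s))) ≤ B := by
    intro M
    obtain ⟨C, hC0, hC⟩ := hP1.2 M
    refine ⟨((Real.sqrt (τ₀ * Real.exp (-S)))⁻¹) ^ M * C, fun s hs => ?_⟩
    have h0 : 0 < Real.sqrt (τ₀ * Real.exp (-s)) := Real.sqrt_pos.2 (hτs s)
    have h1 : Real.sqrt (τ₀ * Real.exp (-s)) ≤ 1 := Real.sqrt_le_one.2 (hτs1 s hs)
    have h00 : 0 < Real.sqrt (τ₀ * Real.exp (-S)) := Real.sqrt_pos.2 (hτs S)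
    refine (Grow.wn_one_le tf1 (hqs s hs) M h0 h1).trans ?_
    have h2 : Real.sqrt (τ₀ * Real.exp (-S)) ≤ Real.sqrt (τ₀ * Real.exp (-s)) := by
      apply Real.sqrt_le_sqrt
      apply mul_le_mul_of_nonneg_left _ hτ₀.le
      apply Real.exp_le_exp.2
      linarith [hs.2]
    have h3 : (Real.sqrt (τ₀ * Real.exp (-s)))⁻¹ ≤ (Real.sqrt (τ₀ * Real.exp (-S)))⁻¹ :=
      inv_anti₀ h00 h2
    have h4 := (hC _ (hτs s) (hτs1 s hs)).1
    exact mul_le_mul (pow_le_pow_left₀ (inv_pos.2 h0).le h3 M) h4 (Grow.wn_nonneg _ h0.le _)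
      (by positivity)
  have rQ := rd_of hqs hqb hqc
  have rNQ := rd_nl (U := fun s => P.qt (τ₀ * Real.exp (-s))) P.neven hqs hqb hqc
  -- the error
  have hgc : ∀ k, ContinuousOn (fun s => cf (gt (τ₀ * Real.exp (-s))) k) (Icc 0 S) := fun k =>
    (hgt.cont k).comp (by fun_prop) (fun s _ => hτs s)
  have hgb : ∀ M : ℕ, ∃ B : ℝ, ∀ s ∈ Icc 0 S, wn M 1 (gt (τ₀ * Real.exp (-s))) ≤ B := by
    intro M
    obtain ⟨C, hC0, hC⟩ := hgt.bdd M
    refine ⟨C, fun s hs => (hC _ (hτs s) (hτs1 s hs)).trans ?_⟩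
    have := hτs1 s hs
    nlinarith
  have rG := rd_of (U := fun s => gt (τ₀ * Real.exp (-s))) (fun s _ => hgt.smooth _ (hτs s)) hgb hgc
  -- coefficients of the perturbation
  have hcf : ∀ s ∈ Icc 0 S, ∀ k, cf (P.pert τ₀ U s) k
      = cf (U s) k - cf (P.qt (τ₀ * Real.exp (-s))) k := by
    intro s hs k
    exact Grow.cf_sub (hU.smooth s hs).1.continuous (hqs s hs).1.continuous k
  refine ⟨?_, ?_, ?_⟩
  · have h := rd_sub rU rQ
    refine ⟨fun k => (h.cont k).congr fun s hs => hcf s hs k, fun M => ?_⟩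
    obtain ⟨C, hC0, hC⟩ := h.dec M
    refine ⟨C, hC0, fun s hs k => ?_⟩
    rw [hcf s hs k]; exact hC s hs k
  · exact rd_add (rd_smul (rd_sub rNU rNQ) (-I)) rG
  · intro s hs k
    have h1 := hU.ode s hs k
    have h2 := (hgt.eqn τ₀ hτ₀ s k).hasDerivWithinAt (s := Icc 0 S)
    have h3 := h1.sub h2
    refine (h3.congr_of_mem (f₁ := fun s => cf (P.pert τ₀ U s) k) (fun s hs => ?_) hs).congr_deriv ?_
    · rw [hcf s hs k]; rfl
    · rw [hcf s hs k]
      unfold TK.Gf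
      ring

end

end Crest.Agent.R086.TKD
end

-- ▼ part R086/BochX
section

/-!
Row 86, helper758 (second of 501, NearStep near part): Bochner integrals in `XN N` have the
pointwise integral as density; continuity of curves of densities in `XN N`; transfer of the
pointwise mild equation to `XX N` (hypotheses of `ForcedStmt`).
-/

set_option autoImplicit false

open MeasureTheory Complex Set Filter Topology Function

namespace Crest.Agent.R086.BochX

open Crest.Agent.R086.Wie (XG GInt wtV)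
open Crest.Agent.R086.DC (YN ae_comp_smul)

/-- testing functional `a ↦ ∫ φ a` -/
noncomputable def testL (N : ℕ) (φ : R12 → ℂ) (hφ : Measurable φ) (h1 : ∀ x, ‖φ x‖ ≤ 1) :
    YN N →L[ℂ] ℂ :=
  LinearMap.mkContinuous
    { toFun := fun a => ∫ ξ : R12, φ ξ * XG.den a ξ
      map_add' := by
        intro a b
        have ha := (XG.integrable_den a).bdd_mul hφ.aestronglyMeasurable (Eventually.of_forall h1)
        have hb := (XG.integrable_den b).bdd_mul hφ.aestronglyMeasurable (Eventually.of_forall h1)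
        rw [← integral_add ha hb]
        refine integral_congr_ae ((XG.den_add a b).mono fun ξ h => ?_)
        simp only [h, mul_add]
      map_smul' := by
        intro c a
        rw [RingHom.id_apply, smul_eq_mul, ← integral_const_mul]
        refine integral_congr_ae ((XG.den_smul c a).mono fun ξ h => ?_)
        simp only [h]; ring } 1
    (by
      intro a
      rw [one_mul]
      show ‖∫ ξ : R12, φ ξ * XG.den a ξ‖ ≤ ‖a‖
      refine (norm_integral_le_integral_norm _).trans ((integral_mono ?_ (XG.integrable_den a).norm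
        fun ξ => ?_).trans (XG.integral_norm_le a))
      · exact ((XG.integrable_den a).bdd_mul hφ.aestronglyMeasurable (Eventually.of_forall h1)).norm
      · rw [norm_mul]
        calc ‖φ ξ‖ * ‖XG.den a ξ‖ ≤ 1 * ‖XG.den a ξ‖ :=
              mul_le_mul_of_nonneg_right (h1 ξ) (norm_nonneg _)
          _ = _ := one_mul _)

theorem testL_apply (N : ℕ) (φ : R12 → ℂ) (hφ : Measurable φ) (h1 : ∀ x, ‖φ x‖ ≤ 1) (a : YN N) :
    testL N φ hφ h1 a = ∫ ξ : R12, φ ξ * XG.den a ξ := rfl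

theorem bochner_den_Y {N : ℕ} (ν : Measure ℝ) [SFinite ν] (G : ℝ → YN N) (hG : Integrable G ν)
    (g : ℝ → R12 → ℂ) (hm : AEStronglyMeasurable (uncurry g) (ν.prod volume))
    (hg : ∀ᵐ r ∂ν, XG.den (G r) =ᵐ[volume] g r) :
    XG.den (∫ r, G r ∂ν) =ᵐ[volume] fun ξ => ∫ r, g r ξ ∂ν := by
  have hgi : ∀ᵐ r ∂ν, Integrable (g r) volume := by
    filter_upwards [hg] with r hr
    exact (XG.integrable_den (G r)).congr hr
  have hgn : Integrable (fun r => ∫ ξ, ‖uncurry g (r, ξ)‖) ν := by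
    refine hG.norm.mono' hm.norm.integral_prod_right' ?_
    filter_upwards [hg] with r hr
    rw [Real.norm_of_nonneg (integral_nonneg fun _ => norm_nonneg _)]
    refine le_trans (le_of_eq ?_) (XG.integral_norm_le (G r))
    refine integral_congr_ae (hr.mono fun ξ h => ?_)
    simp only [uncurry, h]
  have hprod : Integrable (uncurry g) (ν.prod volume) :=
    (integrable_prod_iff hm).2 ⟨hgi, hgn⟩
  refine Wie.ae_eq_of_test (XG.integrable_den _) hprod.integral_prod_right fun φ hφ h1 => ?_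
  have e1 : ∫ ξ : R12, φ ξ * XG.den (∫ r, G r ∂ν) ξ = ∫ r, ∫ ξ, φ ξ * g r ξ ∂volume ∂ν := by
    rw [← testL_apply N φ hφ h1, ← ContinuousLinearMap.integral_comp_comm _ hG]
    refine integral_congr_ae (hg.mono fun r hr => ?_)
    simp only [testL_apply]
    refine integral_congr_ae (hr.mono fun ξ h => ?_)
    simp only [h]
  rw [e1]
  have hφg : Integrable (fun p : ℝ × R12 => φ p.2 * g p.1 p.2) (ν.prod volume) :=
    hprod.bdd_mul (hφ.comp measurable_snd).aestronglyMeasurable (Eventually.of_forall fun p => h1 p.2)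
  rw [integral_integral_swap hφg]
  refine integral_congr_ae (Eventually.of_forall fun ξ => ?_)
  simp only
  rw [integral_const_mul]

/-- (B1) -/
theorem bochner_den {N : ℕ} {a b : ℝ} (hab : a ≤ b) (G : ℝ → XN N)
    (hG : IntervalIntegrable G volume a b) (g : ℝ → R12 → ℂ)
    (hm : AEStronglyMeasurable (uncurry g) ((volume.restrict (Ioc a b)).prod volume))
    (hg : ∀ r ∈ Ioc a b, (G r : R12 → ℂ) =ᵐ[volume] g r) :
    ((∫ r in a..b, G r : XN N) : R12 → ℂ) =ᵐ[volume] fun ξ => ∫ r in a..b, g r ξ := by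
  have h1 := bochner_den_Y (N := N) (volume.restrict (Ioc a b)) G hG.1 g hm
    ((ae_restrict_iff' measurableSet_Ioc).2 (Eventually.of_forall hg))
  simp only [intervalIntegral.integral_of_le hab]
  exact h1

/-! ### continuity of curves of densities -/

theorem contOn_curve_Y {N : ℕ} {K : Set ℝ} (G : ℝ → YN N) (g : ℝ → R12 → ℂ)
    (hG : ∀ s ∈ K, XG.den (G s) =ᵐ[volume] g s)
    (hc : ∀ᵐ ξ : R12, ContinuousOn (fun s => g s ξ) K) (β : R12 → ℝ)
    (hβ : Integrable (fun ξ : R12 => wtV R12 N ξ * β ξ))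
    (hb : ∀ s ∈ K, ∀ᵐ ξ : R12, ‖g s ξ‖ ≤ β ξ) : ContinuousOn G K := by
  intro s0 hs0
  rw [ContinuousWithinAt, tendsto_iff_norm_sub_tendsto_zero]
  have hform : ∀ s ∈ K, ‖G s - G s0‖ = ∫ ξ : R12, wtV R12 N ξ * ‖g s ξ - g s0 ξ‖ := by
    intro s hs
    rw [XG.norm_eq]
    refine integral_congr_ae ?_
    filter_upwards [XG.den_sub (G s) (G s0), hG s hs, hG s0 hs0] with ξ h1 h2 h3
    rw [h1, h2, h3]
  have hlim : Tendsto (fun s => ∫ ξ : R12, wtV R12 N ξ * ‖g s ξ - g s0 ξ‖) (𝓝[K] s0)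
      (𝓝 (∫ ξ : R12, (0:ℝ))) := by
    refine tendsto_integral_filter_of_dominated_convergence
      (fun ξ => 2 * (wtV R12 N ξ * β ξ)) ?_ ?_ (hβ.const_mul 2) ?_
    · filter_upwards [self_mem_nhdsWithin] with s hs
      have h1 : AEStronglyMeasurable (g s) volume :=
        ((XG.integrable_den (G s)).aestronglyMeasurable).congr (hG s hs)
      have h2 : AEStronglyMeasurable (g s0) volume :=
        ((XG.integrable_den (G s0)).aestronglyMeasurable).congr (hG s0 hs0)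
      exact (wtV R12 N).meas.aestronglyMeasurable.mul (h1.sub h2).norm
    · filter_upwards [self_mem_nhdsWithin] with s hs
      filter_upwards [hb s hs, hb s0 hs0] with ξ h1 h2
      rw [Real.norm_of_nonneg (mul_nonneg ((wtV R12 N).nonneg ξ) (norm_nonneg _))]
      calc wtV R12 N ξ * ‖g s ξ - g s0 ξ‖ ≤ wtV R12 N ξ * (β ξ + β ξ) :=
            mul_le_mul_of_nonneg_left ((norm_sub_le _ _).trans (add_le_add h1 h2))
              ((wtV R12 N).nonneg ξ)
        _ = _ := by ring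
    · filter_upwards [hc] with ξ hξ
      have h1 : Tendsto (fun s => g s ξ) (𝓝[K] s0) (𝓝 (g s0 ξ)) := hξ s0 hs0
      have h2 : Tendsto (fun s => wtV R12 N ξ * ‖g s ξ - g s0 ξ‖) (𝓝[K] s0)
          (𝓝 (wtV R12 N ξ * ‖g s0 ξ - g s0 ξ‖)) :=
        tendsto_const_nhds.mul (h1.sub tendsto_const_nhds).norm
      simpa using h2
  rw [integral_zero] at hlim
  refine hlim.congr' ?_
  filter_upwards [self_mem_nhdsWithin] with s hs
  exact (hform s hs).symm

/-- (B2) a dominated pointwise continuous family of densities is a continuous curve in `XN N`. -/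
theorem contOn_curve {N : ℕ} {K : Set ℝ} (G : ℝ → XN N) (g : ℝ → R12 → ℂ)
    (hG : ∀ s ∈ K, (G s : R12 → ℂ) =ᵐ[volume] g s)
    (hc : ∀ᵐ ξ : R12, ContinuousOn (fun s => g s ξ) K) (β : R12 → ℝ)
    (hβ : Integrable (fun ξ : R12 => (1 + ‖ξ‖) ^ N * β ξ))
    (hb : ∀ s ∈ K, ∀ᵐ ξ : R12, ‖g s ξ‖ ≤ β ξ) : ContinuousOn G K :=
  contOn_curve_Y (N := N) G g hG hc β hβ hb

open Classical in
/-- element with a given density (junk `0` if not integrable) -/
noncomputable def mkY (N : ℕ) (a : R12 → ℂ) : YN N :=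
  if h : GInt volume (wtV R12 N) a then XG.mk a h else 0

/-- element of `XN N` with a given density (junk `0` if not integrable) -/
noncomputable def mkX (N : ℕ) (a : R12 → ℂ) : XN N := mkY N a

theorem gint_of_int {N : ℕ} {a : R12 → ℂ} (ha : AEStronglyMeasurable a volume)
    (h : Integrable (fun ξ : R12 => (1 + ‖ξ‖) ^ N * ‖a ξ‖)) : GInt volume (wtV R12 N) a :=
  (Wie.gint_iff ha).2 h

theorem mkY_eq {N : ℕ} {a : R12 → ℂ} (h : GInt volume (wtV R12 N) a) : mkY N a = XG.mk a h := by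
  unfold mkY
  rw [dif_pos h]

theorem mkX_den {N : ℕ} {a : R12 → ℂ} (h : GInt volume (wtV R12 N) a) :
    ((mkX N a : XN N) : R12 → ℂ) =ᵐ[volume] a := by
  have h1 : XG.den (mkY N a) =ᵐ[volume] a := by
    rw [mkY_eq h]
    exact XG.den_mk h
  exact h1

theorem mkX_norm {N : ℕ} {a : R12 → ℂ} (h : GInt volume (wtV R12 N) a) :
    ‖mkX N a‖ = ∫ ξ : R12, (1 + ‖ξ‖) ^ N * ‖a ξ‖ := by
  have h1 : ‖mkY N a‖ = ∫ ξ : R12, (1 + ‖ξ‖) ^ N * ‖a ξ‖ := by
    rw [mkY_eq h]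
    exact XG.norm_mk h
  exact h1

theorem XN_norm {N : ℕ} (a : XN N) : ‖a‖ = ∫ ξ : R12, (1 + ‖ξ‖) ^ N * ‖(a : R12 → ℂ) ξ‖ :=
  XG.norm_eq (μ := volume) (W := wtV R12 N) a

theorem XN_ext {N : ℕ} {a b : XN N} (h : (a : R12 → ℂ) =ᵐ[volume] b) : a = b :=
  XG.ext (μ := volume) (W := wtV R12 N) h

theorem XN_add {N : ℕ} (a b : XN N) :
    ((a + b : XN N) : R12 → ℂ) =ᵐ[volume] fun ξ => (a : R12 → ℂ) ξ + (b : R12 → ℂ) ξ :=
  XG.den_add (μ := volume) (W := wtV R12 N) a b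

/-! ### transfer of the pointwise mild equation -/

/-- first component symbol of `S0` -/
noncomputable def sy1 (om : ℝ) (n : ℕ) (s : ℝ) (z : R12) : ℂ :=
  exp ((I * om - 1 / n) * s) * exp (6 * (s : ℂ)) *
      exp (-I * (((Real.exp s - 1) * ‖z‖ ^ 2 : ℝ) : ℂ))

/-- second component symbol of `S0` -/
noncomputable def sy2 (om : ℝ) (n : ℕ) (s : ℝ) (z : R12) : ℂ :=
  exp ((-I * om - 1 / n) * s) * exp (6 * (s : ℂ)) *
      exp (I * (((Real.exp s - 1) * ‖z‖ ^ 2 : ℝ) : ℂ))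

theorem cont_sy1 (om : ℝ) (n : ℕ) : Continuous (fun p : ℝ × R12 => sy1 om n p.1 p.2) := by
  unfold sy1; fun_prop

theorem cont_sy2 (om : ℝ) (n : ℕ) : Continuous (fun p : ℝ × R12 => sy2 om n p.1 p.2) := by
  unfold sy2; fun_prop

theorem conj_sy1 (om : ℝ) (n : ℕ) (s : ℝ) (z : R12) :
    (starRingEnd ℂ) (sy1 om n s z) = sy2 om n s z := by
  unfold sy1 sy2
  simp only [map_mul, ← Complex.exp_conj, map_sub, map_neg, map_div₀, map_one, map_natCast,
    Complex.conj_I, Complex.conj_ofReal]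
  have h6 : (starRingEnd ℂ) 6 = 6 := map_ofNat (starRingEnd ℂ) 6
  rw [h6]
  congr 2
  · congr 1
    ring

theorem aesm_aux {s a : ℝ} (hsa : s ≤ a) {g : ℝ → R12 → ℂ}
    (hg : ContinuousOn (uncurry g) (Icc 0 a ×ˢ univ)) {P : ℝ → R12 → ℂ}
    (hP : Continuous (fun p : ℝ × R12 => P p.1 p.2)) :
    AEStronglyMeasurable (uncurry fun r ξ => P (s - r) ξ * g r (Real.exp ((s - r) / 2) • ξ))
      ((volume.restrict (Ioc 0 s)).prod (volume : Measure R12)) := by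
  have h1 : (volume.restrict (Ioc 0 s)).prod (volume : Measure R12) =
      ((volume : Measure ℝ).prod (volume : Measure R12)).restrict (Ioc 0 s ×ˢ univ) := by
    rw [← Measure.prod_restrict, Measure.restrict_univ]
  rw [h1]
  refine ContinuousOn.aestronglyMeasurable ?_ (measurableSet_Ioc.prod MeasurableSet.univ)
  have h2 : ContinuousOn (fun p : ℝ × R12 => P (s - p.1) p.2) (Ioc 0 s ×ˢ univ) :=
    (hP.comp (by fun_prop : Continuous (fun p : ℝ × R12 => (s - p.1, p.2)))).continuousOn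
  have h3 : ContinuousOn (fun p : ℝ × R12 => (uncurry g) (p.1, Real.exp ((s - p.1) / 2) • p.2))
      (Ioc 0 s ×ˢ univ) := by
    refine hg.comp (Continuous.continuousOn (by fun_prop)) ?_
    rintro ⟨r, ξ⟩ hp
    exact ⟨⟨hp.1.1.le, hp.1.2.trans hsa⟩, mem_univ _⟩
  exact h2.mul h3

/-- (B3) pointwise mild equation with jointly continuous densities ⟹ mild equation in `XX N`. -/
theorem mild_transfer {n : ℕ} {P : Profile n} {T : Pot P} {N : ℕ} (D : LinData P T N) {a : ℝ}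
    (x G : ℝ → XX N) (hG : ContinuousOn G (Icc 0 a))
    (u1 u2 g1 g2 : ℝ → R12 → ℂ)
    (hu1 : ∀ s ∈ Icc 0 a, ((x s).1 : R12 → ℂ) =ᵐ[volume] u1 s)
    (hu2 : ∀ s ∈ Icc 0 a, ((x s).2 : R12 → ℂ) =ᵐ[volume] u2 s)
    (hg1 : ∀ s ∈ Icc 0 a, ((G s).1 : R12 → ℂ) =ᵐ[volume] g1 s)
    (hg2 : ∀ s ∈ Icc 0 a, ((G s).2 : R12 → ℂ) =ᵐ[volume] g2 s)
    (hc1 : ContinuousOn (uncurry g1) (Icc 0 a ×ˢ univ))
    (hc2 : ContinuousOn (uncurry g2) (Icc 0 a ×ˢ univ))
    (hm1 : ∀ s ∈ Icc 0 a, ∀ᵐ ξ : R12, u1 s ξ = sy1 P.om n s ξ * u1 0 (Real.exp (s / 2) • ξ) +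
      ∫ r in (0:ℝ)..s, sy1 P.om n (s - r) ξ * g1 r (Real.exp ((s - r) / 2) • ξ))
    (hm2 : ∀ s ∈ Icc 0 a, ∀ᵐ ξ : R12, u2 s ξ = sy2 P.om n s ξ * u2 0 (Real.exp (s / 2) • ξ) +
      ∫ r in (0:ℝ)..s, sy2 P.om n (s - r) ξ * g2 r (Real.exp ((s - r) / 2) • ξ)) :
    ∀ s ∈ Icc 0 a, x s = D.S0 s (x 0) + ∫ r in (0:ℝ)..s, D.S0 (s - r) (G r) := by
  intro s hs
  have ha0 : (0:ℝ) ∈ Icc 0 a := ⟨le_rfl, hs.1.trans hs.2⟩
  have hsub : ∀ r ∈ Icc 0 s, r ∈ Icc 0 a := fun r hr => ⟨hr.1, hr.2.trans hs.2⟩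
  have hint : IntervalIntegrable (fun r => D.S0 (s - r) (G r)) volume 0 s := by
    apply ContinuousOn.intervalIntegrable
    rw [uIcc_of_le hs.1]
    have h2 : ContinuousOn (fun r => ((s - r, G r) : ℝ × XX N)) (Icc 0 s) :=
      ContinuousOn.prodMk (by fun_prop) (hG.mono hsub)
    have h1 : ContinuousOn (fun r => D.S0 (max (s - r) 0) (G r)) (Icc 0 s) :=
      (DL.joint_cont D.S0_cont).comp_continuousOn h2
    refine h1.congr fun r hr => ?_
    simp only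
    rw [max_eq_left (by linarith [hr.2])]
  set Iv := ∫ r in (0:ℝ)..s, D.S0 (s - r) (G r) with hIv
  have hI1 : Iv.1 = ∫ r in (0:ℝ)..s, (D.S0 (s - r) (G r)).1 :=
    ((ContinuousLinearMap.fst ℂ (XN N) (XN N)).intervalIntegral_comp_comm hint).symm
  have hI2 : Iv.2 = ∫ r in (0:ℝ)..s, (D.S0 (s - r) (G r)).2 :=
    ((ContinuousLinearMap.snd ℂ (XN N) (XN N)).intervalIntegral_comp_comm hint).symm
  have hd1 : (Iv.1 : R12 → ℂ) =ᵐ[volume] fun ξ =>
      ∫ r in (0:ℝ)..s, sy1 P.om n (s - r) ξ * g1 r (Real.exp ((s - r) / 2) • ξ) := by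
    rw [hI1]
    refine bochner_den hs.1 _ ?_ _ (aesm_aux hs.2 hc1 (cont_sy1 P.om n)) ?_
    · exact ⟨(ContinuousLinearMap.fst ℂ (XN N) (XN N)).integrable_comp hint.1,
        (ContinuousLinearMap.fst ℂ (XN N) (XN N)).integrable_comp hint.2⟩
    · intro r hr
      have hr' : r ∈ Icc 0 a := hsub r ⟨hr.1.le, hr.2⟩
      filter_upwards [D.S0_fst (s - r) (by linarith [hr.2]) (G r),
        ae_comp_smul (Real.exp_pos ((s - r) / 2)).ne' (hg1 r hr')] with ξ h1 h2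
      rw [h1, h2]
      simp only [sy1]
  have hd2 : (Iv.2 : R12 → ℂ) =ᵐ[volume] fun ξ =>
      ∫ r in (0:ℝ)..s, sy2 P.om n (s - r) ξ * g2 r (Real.exp ((s - r) / 2) • ξ) := by
    rw [hI2]
    refine bochner_den hs.1 _ ?_ _ (aesm_aux hs.2 hc2 (cont_sy2 P.om n)) ?_
    · exact ⟨(ContinuousLinearMap.snd ℂ (XN N) (XN N)).integrable_comp hint.1,
        (ContinuousLinearMap.snd ℂ (XN N) (XN N)).integrable_comp hint.2⟩
    · intro r hr
      have hr' : r ∈ Icc 0 a := hsub r ⟨hr.1.le, hr.2⟩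
      filter_upwards [D.S0_snd (s - r) (by linarith [hr.2]) (G r),
        ae_comp_smul (Real.exp_pos ((s - r) / 2)).ne' (hg2 r hr')] with ξ h1 h2
      rw [h1, h2]
      simp only [sy2]
  refine Prod.ext ?_ ?_
  · refine XN_ext ?_
    have h0 : (D.S0 s (x 0) + Iv).1 = (D.S0 s (x 0)).1 + Iv.1 := rfl
    rw [h0]
    filter_upwards [hu1 s hs, hm1 s hs, XN_add (D.S0 s (x 0)).1 Iv.1, D.S0_fst s hs.1 (x 0), hd1,
      ae_comp_smul (Real.exp_pos (s / 2)).ne' (hu1 0 ha0)] with ξ h1 h2 h3 h4 h5 h6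
    rw [h1, h2, h3, h4, h5, h6]
    simp only [sy1]
  · refine XN_ext ?_
    have h0 : (D.S0 s (x 0) + Iv).2 = (D.S0 s (x 0)).2 + Iv.2 := rfl
    rw [h0]
    filter_upwards [hu2 s hs, hm2 s hs, XN_add (D.S0 s (x 0)).2 Iv.2, D.S0_snd s hs.1 (x 0), hd2,
      ae_comp_smul (Real.exp_pos (s / 2)).ne' (hu2 0 ha0)] with ξ h1 h2 h3 h4 h5 h6
    rw [h1, h2, h3, h4, h5, h6]
    simp only [sy2]

/-! ### real pairs -/

/-- `(a, conj a(-·))` as an element of `XX N` -/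
noncomputable def prX (N : ℕ) (a : R12 → ℂ) : XX N :=
  (mkX N a, mkX N (fun ξ => (starRingEnd ℂ) (a (-ξ))))

theorem prX_fst {N : ℕ} {a : R12 → ℂ} (h : GInt volume (wtV R12 N) a) :
    ((prX N a).1 : R12 → ℂ) =ᵐ[volume] a := mkX_den h

theorem gint_cj {N : ℕ} {a : R12 → ℂ} (h : GInt volume (wtV R12 N) a) :
    GInt volume (wtV R12 N) (fun ξ => (starRingEnd ℂ) (a (-ξ))) := h.star

theorem prX_snd {N : ℕ} {a : R12 → ℂ} (h : GInt volume (wtV R12 N) a) :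
    ((prX N a).2 : R12 → ℂ) =ᵐ[volume] fun ξ => (starRingEnd ℂ) (a (-ξ)) := mkX_den (gint_cj h)

theorem prX_norm {N : ℕ} {a : R12 → ℂ} (h : GInt volume (wtV R12 N) a) :
    ‖prX N a‖ = ∫ ξ : R12, (1 + ‖ξ‖) ^ N * ‖a ξ‖ := by
  have h1 : ‖mkX N a‖ = ∫ ξ : R12, (1 + ‖ξ‖) ^ N * ‖a ξ‖ := mkX_norm h
  have h2 : ‖mkX N (fun ξ => (starRingEnd ℂ) (a (-ξ)))‖ = ∫ ξ : R12, (1 + ‖ξ‖) ^ N * ‖a ξ‖ := by
    rw [mkX_norm (gint_cj h), ← integral_neg_eq_self (fun ξ : R12 => (1 + ‖ξ‖) ^ N * ‖a ξ‖) volume]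
    refine integral_congr_ae (Eventually.of_forall fun ξ => ?_)
    simp only [norm_neg, RCLike.norm_conj]
  rw [prX, Prod.norm_def, h1, h2, max_self]

theorem ae_neg' {p : R12 → Prop} (h : ∀ᵐ z : R12, p z) : ∀ᵐ z : R12, p (-z) :=
  (Measure.measurePreserving_neg (volume : Measure R12)).quasiMeasurePreserving.ae h

theorem isReal_prX {N : ℕ} {a : R12 → ℂ} (h : GInt volume (wtV R12 N) a) : IsReal (prX N a) := by
  filter_upwards [prX_snd h, ae_neg' (prX_fst h)] with z h1 h2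
  rw [h1, h2]

theorem contOn_prX {N : ℕ} {K : Set ℝ} (u : ℝ → R12 → ℂ)
    (hu : ∀ s ∈ K, GInt volume (wtV R12 N) (u s))
    (hc : ∀ ξ : R12, ContinuousOn (fun s => u s ξ) K) (β : R12 → ℝ)
    (hβ : Integrable (fun ξ : R12 => (1 + ‖ξ‖) ^ N * β ξ))
    (hb : ∀ s ∈ K, ∀ ξ : R12, ‖u s ξ‖ ≤ β ξ) : ContinuousOn (fun s => prX N (u s)) K := by
  refine ContinuousOn.prodMk ?_ ?_
  · exact contOn_curve _ u (fun s hs => mkX_den (hu s hs)) (Eventually.of_forall hc) β hβ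
      (fun s hs => Eventually.of_forall (hb s hs))
  · refine contOn_curve _ (fun s ξ => (starRingEnd ℂ) (u s (-ξ)))
      (fun s hs => mkX_den (gint_cj (hu s hs)))
      (Eventually.of_forall fun ξ => Complex.continuous_conj.comp_continuousOn (hc (-ξ)))
      (fun ξ => β (-ξ)) ?_ (fun s hs => Eventually.of_forall fun ξ => ?_)
    · have h1 := hβ.comp_neg
      simpa only [norm_neg] using h1
    · rw [RCLike.norm_conj]
      exact hb s hs (-ξ)

/-- (B3', the form for 501) scalar pointwise mild equation ⟹ mild equation for the real pair. -/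
theorem mild_real {n : ℕ} {P : Profile n} {T : Pot P} {N : ℕ} (D : LinData P T N) {a : ℝ}
    (u g : ℝ → R12 → ℂ)
    (hu : ∀ s ∈ Icc 0 a, GInt volume (wtV R12 N) (u s))
    (hg : ∀ s ∈ Icc 0 a, GInt volume (wtV R12 N) (g s))
    (hcg : ContinuousOn (uncurry g) (Icc 0 a ×ˢ univ)) (βg : R12 → ℝ)
    (hβg : Integrable (fun ξ : R12 => (1 + ‖ξ‖) ^ N * βg ξ))
    (hbg : ∀ s ∈ Icc 0 a, ∀ ξ : R12, ‖g s ξ‖ ≤ βg ξ)
    (hm : ∀ s ∈ Icc 0 a, ∀ ξ : R12, u s ξ = sy1 P.om n s ξ * u 0 (Real.exp (s / 2) • ξ) +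
      ∫ r in (0:ℝ)..s, sy1 P.om n (s - r) ξ * g r (Real.exp ((s - r) / 2) • ξ)) :
    ∀ s ∈ Icc 0 a, prX N (u s) = D.S0 s (prX N (u 0)) +
      ∫ r in (0:ℝ)..s, D.S0 (s - r) (prX N (g r)) := by
  have hneg : ∀ (s : ℝ) (z : R12), sy1 P.om n s (-z) = sy1 P.om n s z := by
    intro s z
    simp only [sy1, norm_neg]
  refine mild_transfer D (fun s => prX N (u s)) (fun s => prX N (g s))
    (contOn_prX g hg (fun ξ => ?_) βg hβg hbg) u (fun s ξ => (starRingEnd ℂ) (u s (-ξ))) g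
    (fun s ξ => (starRingEnd ℂ) (g s (-ξ))) (fun s hs => prX_fst (hu s hs))
    (fun s hs => prX_snd (hu s hs)) (fun s hs => prX_fst (hg s hs))
    (fun s hs => prX_snd (hg s hs)) hcg ?_ (fun s hs => Eventually.of_forall (hm s hs)) ?_
  · exact hcg.comp (f := fun s : ℝ => (s, ξ)) (by fun_prop) (fun s hs => ⟨hs, mem_univ _⟩)
  · have h1 : ContinuousOn (fun p : ℝ × R12 => (uncurry g) (p.1, -p.2)) (Icc 0 a ×ˢ univ) :=
      hcg.comp (f := fun p : ℝ × R12 => (p.1, -p.2)) (Continuous.continuousOn (by fun_prop))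
        (fun p hp => ⟨hp.1, mem_univ _⟩)
    exact Complex.continuous_conj.comp_continuousOn h1
  · intro s hs
    refine Eventually.of_forall fun ξ => ?_
    have h1 := congrArg (starRingEnd ℂ) (hm s hs (-ξ))
    rw [map_add, map_mul, hneg, conj_sy1, smul_neg] at h1
    rw [h1]
    congr 1
    rw [intervalIntegral.integral_of_le hs.1, intervalIntegral.integral_of_le hs.1, ← integral_conj]
    refine integral_congr_ae (Eventually.of_forall fun r => ?_)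
    simp only [map_mul, hneg, conj_sy1, smul_neg]

end Crest.Agent.R086.BochX
end

-- ▼ part R086/BochX2
section

/-!
Row 86, helper758: `BContStmt`, `BMildStmt`, `BOneStmt` of `TKDefs2` (helper501).
-/

set_option autoImplicit false

open MeasureTheory Complex Set Filter Topology Function

namespace Crest.Agent.R086.BochX

open Crest.Agent.R086.Wie (XG GInt wtV)
open Crest.Agent.R086.DC (YN ae_comp_smul)

theorem memLp_of_gint {N : ℕ} {f : R12 → ℂ} (h : GInt volume (wtV R12 N) f) : MemLp f 1 (muN N) := by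
  have h1 : Integrable f (Wie.mW (volume : Measure R12) (wtV R12 N)) := Wie.integrable_mW_iff.2 h
  exact memLp_one_iff_integrable.2 h1

theorem tk_mkX {N : ℕ} {f : R12 → ℂ} (h : GInt volume (wtV R12 N) f) : TK.mkX N f = mkX N f := by
  refine XN_ext ?_
  have h1 : ((TK.mkX N f : XN N) : R12 → ℂ) =ᵐ[volume] f := by
    unfold TK.mkX
    rw [dif_pos (memLp_of_gint h)]
    exact (DC.ac_muN N).ae_le (memLp_of_gint h).coeFn_toLp
  exact h1.trans (mkX_den h).symm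

theorem tk_X2 {N : ℕ} {f : R12 → ℂ} (h : GInt volume (wtV R12 N) f) : TK.X2 N f = prX N f := by
  unfold TK.X2 prX
  rw [tk_mkX h]
  have h2 : TK.mkX N (TK.cr f) = mkX N (fun ξ => (starRingEnd ℂ) (f (-ξ))) := tk_mkX (gint_cj h)
  rw [h2]

/-- the dominating function -/
noncomputable def bet (N : ℕ) (C : ℝ) (ξ : R12) : ℝ := C * ((1 + ‖ξ‖) ^ (N + 13))⁻¹

theorem bet_integrable (N : ℕ) (C : ℝ) :
    Integrable (fun ξ : R12 => (1 + ‖ξ‖) ^ N * bet N C ξ) := by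
  have h1 : Integrable (fun ξ : R12 => (1 + ‖ξ‖) ^ (-(13:ℝ))) :=
    integrable_one_add_norm (by rw [DC.finrank_R12]; norm_num)
  refine (h1.const_mul C).congr (Eventually.of_forall fun ξ => ?_)
  have hp : (0:ℝ) < 1 + ‖ξ‖ := by positivity
  simp only [bet]
  rw [Real.rpow_neg hp.le, pow_add, mul_inv]
  have h13 : (1 + ‖ξ‖) ^ (13:ℝ) = (1 + ‖ξ‖) ^ 13 := by
    rw [← Real.rpow_natCast]; norm_num
  rw [h13]
  field_simp

theorem le_bet {N : ℕ} {C : ℝ} {a : ℂ} {ξ : R12} (h : (1 + ‖ξ‖) ^ (N + 13) * ‖a‖ ≤ C) :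
    ‖a‖ ≤ bet N C ξ := by
  have hp : (0:ℝ) < (1 + ‖ξ‖) ^ (N + 13) := by positivity
  unfold bet
  rw [← div_eq_mul_inv, le_div_iff₀ hp, mul_comm]
  exact h

theorem gint_of_dec {N : ℕ} {f : R12 → ℂ} (hf : AEStronglyMeasurable f volume) {C : ℝ}
    (h : ∀ ξ, (1 + ‖ξ‖) ^ (N + 13) * ‖f ξ‖ ≤ C) : GInt volume (wtV R12 N) f := by
  refine gint_of_int hf ?_
  refine (bet_integrable N C).mono
    (((wtV R12 N).meas.aestronglyMeasurable).mul hf.norm) (Eventually.of_forall fun ξ => ?_)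
  have h0 : (0:ℝ) ≤ (1 + ‖ξ‖) ^ N := by positivity
  rw [Real.norm_of_nonneg (mul_nonneg h0 (norm_nonneg _)), Real.norm_of_nonneg
    (mul_nonneg h0 ((norm_nonneg _).trans (le_bet (h ξ))))]
  exact mul_le_mul_of_nonneg_left (le_bet (h ξ)) h0

theorem fam_cont {S : ℝ} {F : ℝ → R12 → ℂ} (hF : TK.Fam S F) {s : ℝ} (hs : s ∈ Icc 0 S) :
    Continuous (F s) := by
  have h1 : ContinuousOn (fun ξ : R12 => (uncurry F) (s, ξ)) univ :=
    hF.cont.comp (by fun_prop) (fun ξ _ => ⟨hs, mem_univ _⟩)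
  exact continuousOn_univ.1 h1

theorem fam_gint {S : ℝ} {F : ℝ → R12 → ℂ} (hF : TK.Fam S F) (N : ℕ) {s : ℝ} (hs : s ∈ Icc 0 S) :
    GInt volume (wtV R12 N) (F s) := by
  obtain ⟨C, _, hC⟩ := hF.dec (N + 13)
  exact gint_of_dec (fam_cont hF hs).aestronglyMeasurable (hC s hs)

theorem fam_time {S : ℝ} {F : ℝ → R12 → ℂ} (hF : TK.Fam S F) (ξ : R12) :
    ContinuousOn (fun s => F s ξ) (Icc 0 S) :=
  hF.cont.comp (f := fun s : ℝ => (s, ξ)) (by fun_prop) (fun s hs => ⟨hs, mem_univ _⟩)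

theorem bCont : TK.BContStmt := by
  intro N S F hF
  obtain ⟨C, _, hC⟩ := hF.dec (N + 13)
  have h1 := contOn_prX (N := N) (K := Icc 0 S) F (fun s hs => fam_gint hF N hs) (fam_time hF)
    (bet N C) (bet_integrable N C) (fun s hs ξ => le_bet (hC s hs ξ))
  exact h1.congr fun s hs => tk_X2 (fam_gint hF N hs)

theorem bMild : TK.BMildStmt := by
  intro n P T N D S a g ha hg hm s hs
  have h0 : (0:ℝ) ∈ Icc 0 S := ⟨le_rfl, hs.1.trans hs.2⟩
  obtain ⟨C, _, hC⟩ := hg.dec (N + 13)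
  have key := mild_real D a g (fun s hs => fam_gint ha N hs) (fun s hs => fam_gint hg N hs)
    hg.cont (bet N C) (bet_integrable N C) (fun s hs ξ => le_bet (hC s hs ξ)) (fun s hs ξ => hm s hs ξ)
    s hs
  rw [tk_X2 (fam_gint ha N hs), tk_X2 (fam_gint ha N h0), key]
  congr 1
  apply intervalIntegral.integral_congr
  intro r hr
  rw [uIcc_of_le hs.1] at hr
  simp only
  rw [tk_X2 (fam_gint hg N ⟨hr.1, hr.2.trans hs.2⟩)]

theorem bOne : TK.BOneStmt := by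
  intro n P T N D f hf
  obtain ⟨C, _, hC⟩ := hf.dec (N + 13)
  have hg : GInt volume (wtV R12 N) f := gint_of_dec hf.cont.aestronglyMeasurable hC
  rw [tk_X2 hg]
  have h1 := prX_fst hg
  have h2 : ((prX N f).2 : R12 → ℂ) =ᵐ[volume] TK.cr f := prX_snd hg
  have hcv : ∀ (v a b : R12 → ℂ), a =ᵐ[volume] b → cv v a = cv v b := by
    intro v a b hab
    funext η
    unfold cv
    refine integral_congr_ae (hab.mono fun ξ h => ?_)
    simp only [h]
  refine ⟨prX_norm hg, isReal_prX hg, h1, h2, ?_, ?_⟩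
  · refine (D.VV_fst (prX N f)).trans (Eventually.of_forall fun z => ?_)
    simp only
    rw [hcv T.v1 _ _ h1, hcv T.v2 _ _ h2]
  · refine (D.VV_snd (prX N f)).trans (Eventually.of_forall fun z => ?_)
    simp only
    rw [hcv T.v1 _ _ h2, hcv T.v2c _ _ h1]

end Crest.Agent.R086.BochX
end

-- ▼ part R086/TSLin
section

/-!
Row 86, node TS (helper264): the linear step in the form used on the torus side,
from `LINStmt` and `ForcedStmt`.
-/

set_option autoImplicit false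

open MeasureTheory Complex Set
open scoped ContDiff

namespace Crest.Agent.R086.TS

/-- strongly continuous families are bounded on compact intervals -/
lemma bdd_of_strong {X : Type*} [NormedAddCommGroup X] [NormedSpace ℂ X] [CompleteSpace X]
    {S : ℝ → X →L[ℂ] X} (hc : ∀ x, ContinuousOn (fun s => S s x) (Ici 0)) (a : ℝ) :
    ∃ C : ℝ, 0 ≤ C ∧ ∀ s ∈ Icc 0 a, ‖S s‖ ≤ C := by
  have h : ∀ x, ∃ C, ∀ i : Icc (0 : ℝ) a, ‖(S i) x‖ ≤ C := by
    intro x
    have hcx : ContinuousOn (fun s => ‖S s x‖) (Icc 0 a) :=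
      ((hc x).mono Icc_subset_Ici_self).norm
    obtain ⟨C, hC⟩ := isCompact_Icc.bddAbove_image hcx
    exact ⟨C, fun i => hC ⟨i.1, i.2, rfl⟩⟩
  obtain ⟨C, hC⟩ := banach_steinhaus h
  refine ⟨max C 0, le_max_right _ _, fun s hs => (hC ⟨s, hs⟩).trans (le_max_left _ _)⟩

/-- LINEAR STEP: forced mild solutions, at time `S`, are `κ`-close to the span of the modes. -/
theorem linStep (hLIN : LINStmt) (hF : ForcedStmt) {n : ℕ} (P : Profile n) (T : Pot P)
    (hP : P.SpecGood N0) :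
    ∃ N1 : ℕ, ∀ N, N1 ≤ N → ∀ D : LinData P T N, ∀ κ : ℝ, 0 < κ →
      ∃ s0 : ℝ, 0 < s0 ∧ ∀ S : ℝ, s0 ≤ S → ∃ C : ℝ, 0 ≤ C ∧
        ∀ x h : ℝ → XX N, ContinuousOn x (Icc 0 S) → ContinuousOn h (Icc 0 S) →
        IsReal (x 0) →
        (∀ s ∈ Icc 0 S, x s = D.S0 s (x 0) + ∫ r in (0 : ℝ)..s, D.S0 (s - r) (D.VV (x r) + h r)) →
        ∀ Fb : ℝ, (∀ r ∈ Icc 0 S, ‖h r‖ ≤ Fb) →
        ∃ b : MI → ℝ, (∀ i, |b i| ≤ C * ‖x 0‖) ∧
          ‖x S - ∑ i, (b i : ℂ) • D.mode i‖ ≤ κ * ‖x 0‖ + C * Fb := by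
  obtain ⟨N1, hN1⟩ := hLIN n P T hP
  refine ⟨N1, fun N hN D κ hκ => ?_⟩
  obtain ⟨s0, hs0, hs⟩ := hN1 N hN D κ hκ
  refine ⟨s0, hs0, fun S hS => ?_⟩
  obtain ⟨C1, hC1⟩ := hs S hS
  obtain ⟨C2, hC20, hC2⟩ := bdd_of_strong D.S_cont S
  have hSpos : 0 ≤ S := hs0.le.trans hS
  refine ⟨max C1 0 + C2 * S, by positivity, ?_⟩
  intro x h hx hh hreal hmild Fb hFb
  have hFb0 : 0 ≤ Fb := (norm_nonneg _).trans (hFb 0 ⟨le_rfl, hSpos⟩)
  have hforced := hF n P T N D S hSpos x h hx hh hmild S ⟨hSpos, le_rfl⟩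
  obtain ⟨b, hb1, hb2⟩ := hC1 (x 0) hreal
  have hint : ‖∫ r in (0 : ℝ)..S, D.S (S - r) (h r)‖ ≤ C2 * Fb * |S - 0| := by
    apply intervalIntegral.norm_integral_le_of_norm_le_const
    intro r hr
    rw [uIoc_of_le hSpos] at hr
    have h1 : ‖D.S (S - r)‖ ≤ C2 := hC2 _ ⟨by linarith [hr.2], by linarith [hr.1]⟩
    have h2 : ‖h r‖ ≤ Fb := hFb r ⟨hr.1.le, hr.2⟩
    calc ‖D.S (S - r) (h r)‖ ≤ ‖D.S (S - r)‖ * ‖h r‖ := ContinuousLinearMap.le_opNorm _ _
      _ ≤ C2 * Fb := mul_le_mul h1 h2 (norm_nonneg _) hC20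
  rw [sub_zero, abs_of_nonneg hSpos] at hint
  refine ⟨b, fun i => (hb1 i).trans ?_, ?_⟩
  · apply mul_le_mul_of_nonneg_right _ (norm_nonneg _)
    have := le_max_left C1 0
    have h2 : 0 ≤ C2 * S := by positivity
    linarith
  · rw [hforced]
    have e : D.S S (x 0) + (∫ r in (0 : ℝ)..S, D.S (S - r) (h r)) - ∑ i, (b i : ℂ) • D.mode i
        = (D.S S (x 0) - ∑ i, (b i : ℂ) • D.mode i) + ∫ r in (0 : ℝ)..S, D.S (S - r) (h r) := by
      abel
    rw [e]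
    refine (norm_add_le _ _).trans ?_
    have h3 : C2 * Fb * S ≤ (max C1 0 + C2 * S) * Fb := by
      have : 0 ≤ max C1 0 * Fb := mul_nonneg (le_max_right _ _) hFb0
      nlinarith
    linarith

end Crest.Agent.R086.TS
end

-- ▼ part R086/TK4
section

/-!
Row 86, NearLin, file TK4 (helper501): assembly of `NearLin P N`.
-/

set_option autoImplicit false

open MeasureTheory Complex Filter Topology Set
open scoped ContDiff
open Crest.AnalysisR.PDE.NLS (IsSmoothPeriodic periodCell)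

namespace Crest.Agent.R086.TK

open Profile

noncomputable section

lemma win_cw : Win (cw c2) := ⟨cut_c2.cw_continuous, cut_c2.cw_decay⟩


lemma Fam.win {S : ℝ} {F : ℝ → R12 → ℂ} (h : Fam S F) {r : ℝ} (hr : r ∈ Icc 0 S) : Win (F r) where
  cont := BochX.fam_cont h hr
  dec := fun m => by
    obtain ⟨C, hC0, hC⟩ := h.dec m
    exact ⟨C, hC0, fun ξ => hC r hr ξ⟩

lemma Fam.add {S : ℝ} {F G : ℝ → R12 → ℂ} (hF : Fam S F) (hG : Fam S G) :
    Fam S (fun r ξ => F r ξ + G r ξ) where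
  cont := hF.cont.add hG.cont
  dec := fun m => by
    obtain ⟨C, hC0, hC⟩ := hF.dec m
    obtain ⟨D, hD0, hD⟩ := hG.dec m
    refine ⟨C + D, by positivity, fun r hr ξ => ?_⟩
    calc (1 + ‖ξ‖) ^ m * ‖F r ξ + G r ξ‖ ≤ (1 + ‖ξ‖) ^ m * (‖F r ξ‖ + ‖G r ξ‖) := by
          gcongr; exact norm_add_le _ _
      _ = (1 + ‖ξ‖) ^ m * ‖F r ξ‖ + (1 + ‖ξ‖) ^ m * ‖G r ξ‖ := by ring
      _ ≤ C + D := add_le_add (hC r hr ξ) (hD r hr ξ)

lemma Win.add {f g : R12 → ℂ} (hf : Win f) (hg : Win g) : Win (fun ξ => f ξ + g ξ) where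
  cont := hf.cont.add hg.cont
  dec := fun m => by
    obtain ⟨C, hC0, hC⟩ := hf.dec m
    obtain ⟨D, hD0, hD⟩ := hg.dec m
    refine ⟨C + D, by positivity, fun ξ => ?_⟩
    calc (1 + ‖ξ‖) ^ m * ‖f ξ + g ξ‖ ≤ (1 + ‖ξ‖) ^ m * (‖f ξ‖ + ‖g ξ‖) := by
          gcongr; exact norm_add_le _ _
      _ = (1 + ‖ξ‖) ^ m * ‖f ξ‖ + (1 + ‖ξ‖) ^ m * ‖g ξ‖ := by ring
      _ ≤ C + D := add_le_add (hC ξ) (hD ξ)

/-- lattice densities of one rapidly decaying coefficient sequence are nice -/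
lemma win_Jd {h : ℝ} (hh : 0 < h) (h1 : h ≤ 1) {c : Z12 → ℂ}
    (hc : ∀ M : ℕ, ∃ C : ℝ, 0 ≤ C ∧ ∀ k, (1 + nk k) ^ M * ‖c k‖ ≤ C) :
    Win (Jd (cw c2) h c) ∧ Win (Kd (cw c2) h c) := by
  have hRD : RD 0 (fun _ : ℝ => c) := by
    refine ⟨fun k => continuousOn_const, fun M => ?_⟩
    obtain ⟨C, hC0, hC⟩ := hc M
    exact ⟨C, hC0, fun s _ k => hC k⟩
  have hF := cFam (cw c2) win_cw 0 (fun _ => h) (fun _ => c) continuousOn_const
    (fun r _ => ⟨hh, h1⟩) hRD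
  exact ⟨hF.1.win (r := 0) ⟨le_rfl, le_rfl⟩, hF.2.win (r := 0) ⟨le_rfl, le_rfl⟩⟩

/-- coefficients of smooth periodic functions decay rapidly -/
lemma cf_dec {v : R12 → ℂ} (hv : IsSmoothPeriodic v) (M : ℕ) :
    ∃ C : ℝ, 0 ≤ C ∧ ∀ k, (1 + nk k) ^ M * ‖cf v k‖ ≤ C := by
  have hs := (tf1 v hv).1 M
  refine ⟨∑' k, (1 + nk k) ^ M * ‖cf v k‖, tsum_nonneg fun k => ?_, fun k => ?_⟩
  · have := TB.nk_nonneg k; positivity
  · refine hs.le_tsum k fun j _ => ?_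
    have := TB.nk_nonneg j
    positivity

section id

variable {n : ℕ} {P : Profile n} {T : Pot P} {N : ℕ} (D : LinData P T N)

/-- the forcing in `XX N` -/
lemma X2_sub_VV {a g e : R12 → ℂ} (ha : Win a) (hg : Win g) (he : Win e)
    (h1 : ∀ ξ, g ξ = e ξ - I * (cv T.v1 a ξ + cv T.v2 (cr a) ξ))
    (h2 : ∀ ξ, (starRingEnd ℂ) (cv T.v1 a (-ξ) + cv T.v2 (cr a) (-ξ))
      = cv T.v1 (cr a) ξ + cv T.v2c a ξ) :
    D.VV (X2 N a) + X2 N e = X2 N g := by
  obtain ⟨-, -, a1, a2, a3, a4⟩ := BochX.bOne n P T N D a ha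
  obtain ⟨-, -, g1, g2, -, -⟩ := BochX.bOne n P T N D g hg
  obtain ⟨-, -, e1, e2, -, -⟩ := BochX.bOne n P T N D e he
  refine Prod.ext ?_ ?_
  · refine BochX.XN_ext ?_
    rw [Prod.fst_add]
    filter_upwards [BochX.XN_add (D.VV (X2 N a)).1 (X2 N e).1, a3, g1, e1] with ξ k1 k2 k3 k4
    rw [k1, k2, k3, k4, h1 ξ]
    ring
  · refine BochX.XN_ext ?_
    rw [Prod.snd_add]
    filter_upwards [BochX.XN_add (D.VV (X2 N a)).2 (X2 N e).2, a4, g2, e2] with ξ k1 k2 k3 k4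
    rw [k1, k2, k3, k4, ← h2 ξ]
    have h3 : cr g ξ = cr e ξ + I * (starRingEnd ℂ) (cv T.v1 a (-ξ) + cv T.v2 (cr a) (-ξ)) := by
      show (starRingEnd ℂ) (g (-ξ)) = (starRingEnd ℂ) (e (-ξ)) + _
      rw [h1 (-ξ), map_sub, map_mul, conj_I]
      ring
    rw [h3]
    ring

end id

lemma XN_smul' {N : ℕ} (c : ℂ) (a : XN N) :
    ((c • a : XN N) : R12 → ℂ) =ᵐ[volume] fun ξ => c * (a : R12 → ℂ) ξ :=
  (DC.ac_muN N).ae_le (Lp.coeFn_smul c a)

lemma XN_sum' {N : ℕ} (c : MI → ℂ) (m : MI → XN N) (s : Finset MI) :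
    ((∑ i ∈ s, c i • m i : XN N) : R12 → ℂ) =ᵐ[volume] fun ξ => ∑ i ∈ s, c i * (m i : R12 → ℂ) ξ := by
  classical
  induction s using Finset.induction_on with
  | empty =>
    simp only [Finset.sum_empty]
    exact (DC.ac_muN N).ae_le (Lp.coeFn_zero ℂ 1 (muN N))
  | insert i s hi ih =>
    rw [Finset.sum_insert hi]
    filter_upwards [BochX.XN_add (c i • m i) (∑ i ∈ s, c i • m i), XN_smul' (c i) (m i), ih]
      with ξ h1 h2 h3
    rw [h1, h2, h3, Finset.sum_insert hi]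

lemma sub_sum_ae {N : ℕ} (x : XX N) (c : MI → ℂ) (m : MI → XX N) :
    ((x - ∑ i, c i • m i).1 : R12 → ℂ) =ᵐ[volume]
      fun ξ => (x.1 : R12 → ℂ) ξ - ∑ i, c i * ((m i).1 : R12 → ℂ) ξ := by
  have h0 : (x - ∑ i, c i • m i).1 = x.1 + (-1 : ℂ) • (∑ i, c i • (m i).1) := by
    rw [Prod.fst_sub, Prod.fst_sum]
    simp only [Prod.smul_fst, neg_smul, one_smul]
    abel
  rw [h0]
  filter_upwards [BochX.XN_add x.1 ((-1 : ℂ) • (∑ i, c i • (m i).1)),
    XN_smul' (-1 : ℂ) (∑ i, c i • (m i).1), XN_sum' c (fun i => (m i).1) Finset.univ] with ξ h1 h2 h3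
  rw [h1, h2, h3]
  ring

/-- identification of the near density -/
lemma near_density {τ₀ : ℝ} (hτ : 0 < τ₀) (s : ℝ) {v : R12 → ℂ} (hv : IsSmoothPeriodic v) :
    Jd (cw c2) (hs τ₀ s) (fun k => cf v k) = cw (zn (τ₀ * Real.exp (-s)) v) := by
  funext ξ
  rw [cw_zn (mul_pos hτ (Real.exp_pos _)) hv]
  rfl

theorem nearLin_of (hE : EIdStmt) (hTN : TN) {n : ℕ} (P : Profile n) (hTP1 : TP1 P)
    (hTP2 : TP2c P) (T : Pot P) (N : ℕ) (D : LinData P T N)
    (hlin : ∀ κ : ℝ, 0 < κ →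
      ∃ s0 : ℝ, 0 < s0 ∧ ∀ S : ℝ, s0 ≤ S → ∃ C : ℝ, 0 ≤ C ∧
        ∀ x h : ℝ → XX N, ContinuousOn x (Icc 0 S) → ContinuousOn h (Icc 0 S) →
        IsReal (x 0) →
        (∀ s ∈ Icc 0 S, x s = D.S0 s (x 0) + ∫ r in (0 : ℝ)..s, D.S0 (s - r) (D.VV (x r) + h r)) →
        ∀ Fb : ℝ, (∀ r ∈ Icc 0 S, ‖h r‖ ≤ Fb) →
        ∃ b : MI → ℝ, (∀ i, |b i| ≤ C * ‖x 0‖) ∧
          ‖x S - ∑ i, (b i : ℂ) • D.mode i‖ ≤ κ * ‖x 0‖ + C * Fb) : NearLin P N := by
  obtain ⟨gt, hg1, hg2, hg3, hg4⟩ := hTP2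
  have hGT : GT P gt := ⟨hg1, hg2, hg3, hg4⟩
  intro s hsN κ hκ
  obtain ⟨A, hA0, hA⟩ := cBd (cw c2) win_cw N
  obtain ⟨s0, hs0, hlin'⟩ := hlin (κ / (A + 1)) (by positivity)
  refine ⟨s0, fun S hS hS1 => ?_⟩
  obtain ⟨C, hC0, hlin''⟩ := hlin' S hS
  -- constants
  obtain ⟨Cq, hCq0, hCq⟩ := hTP1.2 N
  obtain ⟨CR, hCR0, hCR⟩ := NS.remEst hTN P.neven P.two_le N Cq
  obtain ⟨Cg, hCg0, hCg⟩ := hg2 N
  set K : ℝ := A * (CR + Cg + 2 ^ (N + 1)) with hK
  have hK0 : 0 ≤ K := by positivity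
  refine ⟨max 1 (C * A + C * K), le_max_left _ _, ?_⟩
  intro τ₀ hτ hτ1 U hU L H hH hL1 hlow hhi
  have hSpos : 0 ≤ S := by linarith
  have h0S : (0:ℝ) ∈ Icc 0 S := ⟨le_rfl, hSpos⟩
  have hSS : S ∈ Icc 0 S := ⟨hSpos, le_rfl⟩
  obtain ⟨hc, hG, hode⟩ := TKD.dCoef n P hTP1 gt hGT τ₀ S hτ hτ1 hSpos U hU
  -- smoothness of the pieces
  have hτs : ∀ r ∈ Icc 0 S, 0 < τ₀ * Real.exp (-r) := fun r _ => mul_pos hτ (Real.exp_pos _)
  have hτs1 : ∀ r ∈ Icc 0 S, τ₀ * Real.exp (-r) ≤ τ₀ := fun r hr => by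
    have : Real.exp (-r) ≤ 1 := Real.exp_le_one_iff.2 (by linarith [hr.1])
    nlinarith [Real.exp_pos (-r)]
  have hqs : ∀ r ∈ Icc 0 S, IsSmoothPeriodic (P.qt (τ₀ * Real.exp (-r))) := fun r hr =>
    (hTP1.1 _ (hτs r hr)).1
  have hWs : ∀ r ∈ Icc 0 S, IsSmoothPeriodic (P.pert τ₀ U r) := fun r hr =>
    TB.sp_sub (hU.smooth r hr) (hqs r hr)
  have hL0 : 0 ≤ L := (TB.wn_nonneg N (hs_pos hτ 0).le _).trans (hlow 0 h0S)
  -- densities
  set a : ℝ → R12 → ℂ := fun r => Jd (cw c2) (hs τ₀ r) (fun k => cf (P.pert τ₀ U r) k) with ha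
  set g : ℝ → R12 → ℂ := fun r ξ => Jd (cw c2) (hs τ₀ r) (fun k => Gf P gt τ₀ U r k) ξ
    + Kd (cw c2) (hs τ₀ r) (fun k => cf (P.pert τ₀ U r) k) ξ with hgdef
  set e : ℝ → R12 → ℂ := fun r ξ => Jd (cw c2) (hs τ₀ r) (Ef P gt τ₀ U r) ξ
    + Kd (cw c2) (hs τ₀ r) (fun k => cf (P.pert τ₀ U r) k) ξ with hedef
  have hhc : ContinuousOn (hs τ₀) (Icc 0 S) := continuous_hs.continuousOn
  have hh01 : ∀ r ∈ Icc 0 S, 0 < hs τ₀ r ∧ hs τ₀ r ≤ 1 := fun r hr =>
    ⟨hs_pos hτ r, hs_le_one hτ hτ1 hr.1⟩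
  have hFc := cFam (cw c2) win_cw S (hs τ₀) _ hhc hh01 hc
  have hFG := cFam (cw c2) win_cw S (hs τ₀) _ hhc hh01 hG
  have hfa : Fam S a := hFc.1
  have hfg : Fam S g := hFG.1.add hFc.2
  -- the mild formula
  have hmild : ∀ s ∈ Icc 0 S, ∀ ξ, a s ξ = fr P s (a 0) ξ
      + ∫ r in (0 : ℝ)..s, fr P (s - r) (g r) ξ := fun s hs' ξ =>
    mild P win_cw hτ hτ1 hc hG hode hs' ξ
  have hM := BochX.bMild n P T N D S a g hfa hfg hmild
  -- remainder coefficients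
  set R : ℝ → R12 → ℂ := fun r x => nl n (P.qt (τ₀ * Real.exp (-r)) x + P.pert τ₀ U r x)
      - nl n (P.qt (τ₀ * Real.exp (-r)) x)
      - dnl n (P.qt (τ₀ * Real.exp (-r)) x) (P.pert τ₀ U r x) with hR
  have hRs : ∀ r ∈ Icc 0 S, IsSmoothPeriodic (R r) := by
    intro r hr
    have h1 := hqs r hr
    have h2 := hWs r hr
    have h3 := TB.sp_nl P.neven (TB.sp_add h1 h2)
    have h4 := TB.sp_nl P.neven h1
    have hev : Even (n - 2) := by
      obtain ⟨m, hm⟩ := P.neven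
      exact ⟨m - 1, by omega⟩
    have h5 : IsSmoothPeriodic (fun x => dnl n (P.qt (τ₀ * Real.exp (-r)) x) (P.pert τ₀ U r x)) := by
      unfold dnl
      have k1 := TB.sp_mul (TB.sp_cmul (TB.sp_normpow P.neven h1) (1 + (n : ℂ) / 2)) h2
      have k2 := TB.sp_mul (TB.sp_mul (TB.sp_cmul (TB.sp_normpow hev h1) ((n : ℂ) / 2))
        (TB.sp_pow h1 2)) (TB.sp_conj h2)
      exact TB.sp_add k1 k2
    exact TB.sp_sub (TB.sp_sub h3 h4) h5
  have hEf : ∀ r ∈ Icc 0 S, ∀ k, ‖Ef P gt τ₀ U r k‖ ≤ ‖cf (R r) k‖ + ‖cf (gt (τ₀ * Real.exp (-r))) k‖ := by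
    intro r hr k
    unfold Ef
    refine (norm_add_le _ _).trans ?_
    rw [norm_mul, norm_neg, norm_I, one_mul]
  have hEfd : ∀ r ∈ Icc 0 S, ∀ M : ℕ, ∃ C : ℝ, 0 ≤ C ∧ ∀ k, (1 + nk k) ^ M * ‖Ef P gt τ₀ U r k‖ ≤ C := by
    intro r hr M
    obtain ⟨C1, hC10, hC1⟩ := cf_dec (hRs r hr) M
    obtain ⟨C2, hC20, hC2⟩ := cf_dec (hg1 _ (hτs r hr)) M
    refine ⟨C1 + C2, by positivity, fun k => ?_⟩
    have h0 : 0 ≤ (1 + nk k) ^ M := by
      have := TB.nk_nonneg k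
      positivity
    have h1 := mul_le_mul_of_nonneg_left (hEf r hr k) h0
    have h2 := hC1 k
    have h3 := hC2 k
    rw [mul_add] at h1
    linarith
  have hEfs : ∀ r ∈ Icc 0 S, ∀ M : ℕ, Summable fun k => (1 + nk k) ^ M * ‖Ef P gt τ₀ U r k‖ := by
    intro r hr M
    refine Summable.of_nonneg_of_le (fun k => ?_) (fun k => ?_)
      (((tf1 _ (hRs r hr)).1 M).add ((tf1 _ (hg1 _ (hτs r hr))).1 M))
    · have := TB.nk_nonneg k; positivity
    · have h0 : 0 ≤ (1 + nk k) ^ M := by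
        have := TB.nk_nonneg k
        positivity
      have h1 := mul_le_mul_of_nonneg_left (hEf r hr k) h0
      rw [mul_add] at h1
      exact h1
  have hwa : ∀ r ∈ Icc 0 S, Win (a r) := fun r hr => hfa.win hr
  have hwg : ∀ r ∈ Icc 0 S, Win (g r) := fun r hr => hfg.win hr
  have hwe1 : ∀ r ∈ Icc 0 S, Win (Jd (cw c2) (hs τ₀ r) (Ef P gt τ₀ U r)) := fun r hr =>
    (win_Jd (hh01 r hr).1 (hh01 r hr).2 (hEfd r hr)).1
  have hwe2 : ∀ r ∈ Icc 0 S, Win (Kd (cw c2) (hs τ₀ r) (fun k => cf (P.pert τ₀ U r) k)) := fun r hr =>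
    hFc.2.win hr
  have hwe : ∀ r ∈ Icc 0 S, Win (e r) := fun r hr => (hwe1 r hr).add (hwe2 r hr)
  have haz : ∀ r ∈ Icc 0 S, a r = cw (zn (τ₀ * Real.exp (-r)) (P.pert τ₀ U r)) := fun r hr =>
    near_density hτ r (hWs r hr)
  have hident : ∀ r ∈ Icc 0 S, D.VV (X2 N (a r)) + X2 N (e r) = X2 N (g r) := by
    intro r hr
    obtain ⟨i1, i2⟩ := hE n P T hTP1 gt hGT τ₀ S hτ hτ1 hSpos U hU r hr
    rw [← haz r hr] at i1 i2
    refine X2_sub_VV D (hwa r hr) (hwg r hr) (hwe r hr) (fun ξ => ?_) i2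
    simp only [hgdef, hedef]
    have := i1 ξ
    rw [show (fun k => Gf P gt τ₀ U r k) = Gf P gt τ₀ U r from rfl, this]
    ring
  -- the curve and the forcing
  set x : ℝ → XX N := fun r => X2 N (a r) with hx
  set hf : ℝ → XX N := fun r => X2 N (g r) - D.VV (x r) with hhf
  have hxc : ContinuousOn x (Icc 0 S) := BochX.bCont N S a hfa
  have hgc : ContinuousOn (fun r => X2 N (g r)) (Icc 0 S) := BochX.bCont N S g hfg
  have hfc : ContinuousOn hf (Icc 0 S) := hgc.sub (D.VV.continuous.comp_continuousOn hxc)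
  have hfe : ∀ r ∈ Icc 0 S, hf r = X2 N (e r) := fun r hr => by
    simp only [hhf, hx]
    rw [← hident r hr]
    abel
  have hreal : IsReal (x 0) := (BochX.bOne n P T N D (a 0) (hwa 0 h0S)).2.1
  have hmildX : ∀ s ∈ Icc 0 S, x s = D.S0 s (x 0)
      + ∫ r in (0 : ℝ)..s, D.S0 (s - r) (D.VV (x r) + hf r) := by
    intro s hs'
    have h1 := hM s hs'
    simp only [hx] at h1 ⊢
    rw [h1]
    congr 1
    refine intervalIntegral.integral_congr fun r _ => ?_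
    simp only [hhf, hx]
    congr 1
    abel
  have hwcf : ∀ r ∈ Icc 0 S, ∀ M : ℕ, Summable fun k => (1 + nk k) ^ M * ‖cf (P.pert τ₀ U r) k‖ :=
    fun r hr M => (tf1 _ (hWs r hr)).1 M
  -- bound of the forcing
  have hFb : ∀ r ∈ Icc 0 S, ‖hf r‖ ≤ K * (L ^ 2 + Real.sqrt τ₀ * (L + H) + τ₀) := by
    intro r hr
    have hh := (hh01 r hr).1
    have hh1 := (hh01 r hr).2
    rw [hfe r hr, (BochX.bOne n P T N D (e r) (hwe r hr)).1]
    have h1 : ∫ ξ : R12, (1 + ‖ξ‖) ^ N * ‖e r ξ‖ ≤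
        (∫ ξ : R12, (1 + ‖ξ‖) ^ N * ‖Jd (cw c2) (hs τ₀ r) (Ef P gt τ₀ U r) ξ‖)
        + ∫ ξ : R12, (1 + ‖ξ‖) ^ N * ‖Kd (cw c2) (hs τ₀ r) (fun k => cf (P.pert τ₀ U r) k) ξ‖ := by
      rw [← integral_add (win_int (hwe1 r hr) N) (win_int (hwe2 r hr) N)]
      refine integral_mono (win_int (hwe r hr) N)
        ((win_int (hwe1 r hr) N).add (win_int (hwe2 r hr) N)) fun ξ => ?_
      simp only [Pi.add_apply]
      rw [← mul_add]
      have : (0:ℝ) ≤ (1 + ‖ξ‖) ^ N := by positivity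
      exact mul_le_mul_of_nonneg_left (norm_add_le _ _) this
    have h2 := (hA (hs τ₀ r) hh hh1 (Ef P gt τ₀ U r) (hEfs r hr)).1
    have h3 := (hA (hs τ₀ r) hh hh1 (fun k => cf (P.pert τ₀ U r) k) (hwcf r hr)).2
    have h4 : ∑' k, (1 + hs τ₀ r * nk k) ^ N * ‖Ef P gt τ₀ U r k‖
        ≤ wn N (hs τ₀ r) (R r) + wn N (hs τ₀ r) (gt (τ₀ * Real.exp (-r))) := by
      have k1 := TB.summable_wn tf1 (hRs r hr) N hh.le
      have k2 := TB.summable_wn tf1 (hg1 _ (hτs r hr)) N hh.le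
      unfold wn
      rw [← Summable.tsum_add k1 k2]
      have k3 : ∀ k, (1 + hs τ₀ r * nk k) ^ N * ‖Ef P gt τ₀ U r k‖
          ≤ (1 + hs τ₀ r * nk k) ^ N * ‖cf (R r) k‖
            + (1 + hs τ₀ r * nk k) ^ N * ‖cf (gt (τ₀ * Real.exp (-r))) k‖ := by
        intro k
        rw [← mul_add]
        exact mul_le_mul_of_nonneg_left (hEf r hr k) (TB.w_nonneg N hh.le k)
      refine Summable.tsum_le_tsum k3 ?_ (k1.add k2)
      exact Summable.of_nonneg_of_le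
        (fun k => mul_nonneg (TB.w_nonneg N hh.le k) (norm_nonneg _)) k3 (k1.add k2)
    have h5 : wn N (hs τ₀ r) (R r) ≤ CR * L ^ 2 := by
      have hq := (hCq (τ₀ * Real.exp (-r)) (hτs r hr) ((hτs1 r hr).trans hτ1)).1
      have hw := hlow r hr
      have k1 := hCR (hs τ₀ r) hh.le (P.qt (τ₀ * Real.exp (-r))) (P.pert τ₀ U r) (hqs r hr)
        (hWs r hr) hq (hw.trans hL1)
      refine k1.trans ?_
      have k2 := TB.wn_nonneg N hh.le (P.pert τ₀ U r)
      gcongr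
    have h6 : wn N (hs τ₀ r) (gt (τ₀ * Real.exp (-r))) ≤ Cg * τ₀ := by
      have k1 := TB.wn_le_wn tf1 (hg1 _ (hτs r hr)) (le_refl N) hh.le hh1
      have k2 := hCg (τ₀ * Real.exp (-r)) (hτs r hr) ((hτs1 r hr).trans hτ1)
      refine k1.trans (k2.trans ?_)
      exact mul_le_mul_of_nonneg_left (hτs1 r hr) hCg0
    have h7 : ∑' k, (1 + hs τ₀ r * nk k) ^ (N + 1) * ‖cf (P.pert τ₀ U r) k‖
        ≤ 2 ^ (N + 1) * (L + H) := by
      have k1 := TB.wn_succ_le tf1 (hWs r hr) hsN hh.le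
      refine k1.trans ?_
      gcongr
      · exact hlow r hr
      · exact hhi r hr
    have h8 : hs τ₀ r ≤ Real.sqrt τ₀ := hs_le_sqrt hτ hr.1
    calc ∫ ξ : R12, (1 + ‖ξ‖) ^ N * ‖e r ξ‖
        ≤ A * (CR * L ^ 2 + Cg * τ₀) + A * Real.sqrt τ₀ * (2 ^ (N + 1) * (L + H)) := by
          refine h1.trans (add_le_add (h2.trans ?_) (h3.trans ?_))
          · exact mul_le_mul_of_nonneg_left (h4.trans (add_le_add h5 h6)) hA0
          · have : (0:ℝ) ≤ ∑' k, (1 + hs τ₀ r * nk k) ^ (N + 1) * ‖cf (P.pert τ₀ U r) k‖ :=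
              tsum_nonneg fun k => mul_nonneg (TB.w_nonneg _ hh.le k) (norm_nonneg _)
            apply mul_le_mul _ h7 this (by positivity)
            exact mul_le_mul_of_nonneg_left h8 hA0
      _ ≤ K * (L ^ 2 + Real.sqrt τ₀ * (L + H) + τ₀) := by
          rw [hK]
          have p1 : 0 ≤ L ^ 2 := sq_nonneg _
          have p2 : 0 ≤ Real.sqrt τ₀ * (L + H) := by positivity
          have p3 : (0:ℝ) ≤ 2 ^ (N + 1) := by positivity
          have e1 : A * (CR + Cg + 2 ^ (N + 1)) * (L ^ 2 + Real.sqrt τ₀ * (L + H) + τ₀)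
              - (A * (CR * L ^ 2 + Cg * τ₀) + A * Real.sqrt τ₀ * (2 ^ (N + 1) * (L + H)))
              = A * (CR * (Real.sqrt τ₀ * (L + H)) + CR * τ₀ + Cg * L ^ 2
                + Cg * (Real.sqrt τ₀ * (L + H)) + 2 ^ (N + 1) * L ^ 2 + 2 ^ (N + 1) * τ₀) := by ring
          have e2 : 0 ≤ A * (CR * (Real.sqrt τ₀ * (L + H)) + CR * τ₀ + Cg * L ^ 2
                + Cg * (Real.sqrt τ₀ * (L + H)) + 2 ^ (N + 1) * L ^ 2 + 2 ^ (N + 1) * τ₀) := by
            have := hτ.le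
            positivity
          linarith
  obtain ⟨b, hb1, hb2⟩ := hlin'' x hf hxc hfc hreal hmildX _ hFb
  -- norm of the initial datum
  have hx0 : ‖x 0‖ ≤ A * wn N (Real.sqrt τ₀) (P.pert τ₀ U 0) := by
    simp only [hx]
    rw [(BochX.bOne n P T N D (a 0) (hwa 0 h0S)).1]
    have h1 := (hA (hs τ₀ 0) (hs_pos hτ 0) (hs_le_one hτ hτ1 le_rfl)
      (fun k => cf (P.pert τ₀ U 0) k) (hwcf 0 h0S)).1
    rw [hs_zero] at h1
    have h2 : a 0 = Jd (cw c2) (Real.sqrt τ₀) (fun k => cf (P.pert τ₀ U 0) k) := by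
      simp only [ha]
      rw [hs_zero]
    rw [h2]
    exact h1
  have hw0 : wn N (Real.sqrt τ₀) (P.pert τ₀ U 0) ≤ L := by
    have := hlow 0 h0S
    rwa [hs_zero] at this
  have hw00 : 0 ≤ wn N (Real.sqrt τ₀) (P.pert τ₀ U 0) := TB.wn_nonneg N (Real.sqrt_nonneg _) _
  refine ⟨b, fun m => ?_, ?_⟩
  · calc |b m| ≤ C * ‖x 0‖ := hb1 m
      _ ≤ C * (A * L) := by
        gcongr
        exact hx0.trans (mul_le_mul_of_nonneg_left hw0 hA0)
      _ = (C * A) * L := by ring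
      _ ≤ max 1 (C * A + C * K) * L := by
        apply mul_le_mul_of_nonneg_right _ hL0
        refine le_trans ?_ (le_max_right _ _)
        have : 0 ≤ C * K := by positivity
        linarith
  · set aS : R12 → ℂ := fun ξ => a S ξ - ∑ m, (b m : ℂ) * T.m1 m ξ with haS
    refine ⟨aS, ?_, ?_⟩
    · -- representation
      have hz : Cut (zn (τ₀ * Real.exp (-S)) (P.pert τ₀ U S)) := cut_zn (hτs S hSS) (hWs S hSS)
      have r1 := rep_cw hz N
      rw [← haz S hSS] at r1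
      have hterm : ∀ m, Integrable (fun ξ : R12 => (((1 + ‖ξ‖) ^ N : ℝ) : ℂ) * ((b m : ℂ) * T.m1 m ξ)) := by
        intro m
        have := (T.rep_m1 m N).1.const_mul (b m : ℂ)
        refine this.congr (Eventually.of_forall fun ξ => ?_)
        simp only
        ring
      constructor
      · have h1 := r1.1.sub (integrable_finsetSum Finset.univ fun m _ => hterm m)
        refine h1.congr (Eventually.of_forall fun ξ => ?_)
        simp only [haS, Pi.sub_apply, Finset.sum_apply]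
        rw [mul_sub, Finset.mul_sum]
      · intro y
        have i0 : ∀ {f : R12 → ℂ}, Integrable f →
            Integrable (fun ξ : R12 => exp (I * ((inner ℝ ξ y : ℝ) : ℂ)) * f ξ) := by
          intro f hf
          refine hf.bdd_mul (c := 1) ?_ (Eventually.of_forall fun ξ => ?_)
          · have : Continuous (fun ξ : R12 => exp (I * ((inner ℝ ξ y : ℝ) : ℂ))) := by fun_prop
            exact this.aestronglyMeasurable
          · exact (norm_ch ξ y).le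
        have i1 : Integrable (a S) := by
          rw [haz S hSS]
          exact hz.cw_integrable
        have i2 : ∀ m, Integrable (T.m1 m) := fun m => DGen.integrable_rep (T.rep_m1 m N)
        simp only [haS, mul_sub, Finset.mul_sum]
        rw [integral_sub (i0 i1), integral_finsetSum]
        · rw [r1.2 y]
          congr 1
          refine Finset.sum_congr rfl fun m _ => ?_
          rw [(T.rep_m1 m N).2 y, ← integral_const_mul]
          refine integral_congr_ae (Eventually.of_forall fun ξ => ?_)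
          simp only
          ring
        · intro m _
          exact i0 ((i2 m).const_mul _)
        · exact integrable_finsetSum _ fun m _ => i0 ((i2 m).const_mul _)
    · -- the norm
      have h1 : ∫ ξ : R12, (1 + ‖ξ‖) ^ N * ‖aS ξ‖ = ‖(x S - ∑ i, (b i : ℂ) • D.mode i).1‖ := by
        rw [BochX.XN_norm]
        have k1 : ((x S - ∑ i, (b i : ℂ) • D.mode i).1 : R12 → ℂ) =ᵐ[volume] aS := by
          have q1 := sub_sum_ae (x S) (fun i => (b i : ℂ)) D.mode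
          have q2 := (BochX.bOne n P T N D (a S) (hwa S hSS)).2.2.1
          have q3 : ∀ᵐ ξ : R12, ∀ i, ((D.mode i).1 : R12 → ℂ) ξ = T.m1 i ξ :=
            ae_all_iff.2 fun i => D.mode_fst i
          filter_upwards [q1, q2, q3] with ξ w1 w2 w3
          rw [w1]
          simp only [haS]
          rw [show ((x S).1 : R12 → ℂ) ξ = a S ξ from w2]
          congr 1
          exact Finset.sum_congr rfl fun i _ => by rw [w3 i]
        refine integral_congr_ae (k1.mono fun ξ h => ?_)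
        simp only [h]
      rw [h1]
      refine (norm_fst_le _).trans (hb2.trans ?_)
      have h2 : κ / (A + 1) * ‖x 0‖ ≤ κ * wn N (Real.sqrt τ₀) (P.pert τ₀ U 0) := by
        calc κ / (A + 1) * ‖x 0‖ ≤ κ / (A + 1) * (A * wn N (Real.sqrt τ₀) (P.pert τ₀ U 0)) := by
              gcongr
          _ = κ * (A / (A + 1)) * wn N (Real.sqrt τ₀) (P.pert τ₀ U 0) := by ring
          _ ≤ κ * 1 * wn N (Real.sqrt τ₀) (P.pert τ₀ U 0) := by
              gcongr
              rw [div_le_one (by positivity)]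
              linarith
          _ = _ := by ring
      have h3 : C * (K * (L ^ 2 + Real.sqrt τ₀ * (L + H) + τ₀))
          ≤ max 1 (C * A + C * K) * (L ^ 2 + Real.sqrt τ₀ * (L + H) + τ₀) := by
        rw [← mul_assoc]
        have p1 : 0 ≤ L ^ 2 + Real.sqrt τ₀ * (L + H) + τ₀ := by
          have := hτ.le
          positivity
        apply mul_le_mul_of_nonneg_right _ p1
        refine le_trans ?_ (le_max_right _ _)
        have : 0 ≤ C * A := by positivity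
        linarith
      exact add_le_add h2 h3

end

end Crest.Agent.R086.TK
end

-- ▼ part R086/TKE

/-!
Row 86, NearLin: the identity (E), `EIdStmt` (helper893).
-/

set_option autoImplicit false

open MeasureTheory Complex Set
open scoped ContDiff Topology
open Crest.AnalysisR.PDE.NLS (IsSmoothPeriodic periodCell)

namespace Crest.Agent.R086.TK

open Profile

noncomputable section

/-- window sums of smooth periodic functions converge -/
lemma summable_win {v : R12 → ℂ} (hv : IsSmoothPeriodic v) (η : R12) :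
    Summable fun k : Z12 => cf v k * cw c2 (η - zv k) := by
  obtain ⟨C, hC0, hC⟩ := cut_c2.cw_decay 0
  have hs0 : Summable fun k => ‖cf v k‖ := by simpa using (tf1 v hv).1 0
  refine Summable.of_norm_bounded (hs0.mul_right C) fun k => ?_
  rw [norm_mul]
  gcongr
  simpa using hC (η - zv k)

/-- `Jd` of the coefficients of a smooth periodic function -/
lemma Jd_cf {τ₀ s : ℝ} (hτ : 0 < τ₀ * Real.exp (-s)) {v : R12 → ℂ} (hv : IsSmoothPeriodic v)
    (ξ : R12) : Jd (cw c2) (hs τ₀ s) (cf v) ξ = cw (zn (τ₀ * Real.exp (-s)) v) ξ := by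
  rw [cw_zn hτ hv]
  rfl

/-- near the centre the periodised profile is the profile -/
lemma chi2_qt {n : ℕ} (P : Profile n) {τ : ℝ} (hτ : 0 < τ) {y : R12}
    (hy : chi2 (Real.sqrt τ • y) ≠ 0) : P.qt τ (Real.sqrt τ • y) = P.Q y := by
  have h1 : ‖Real.sqrt τ • y‖ < 1 / 2 := by
    by_contra hlt
    push Not at hlt
    refine hy (chi2.zero_of_le_dist ?_)
    rw [dist_zero_right]
    exact hlt
  have hps : Perz.PS (fun x : R12 => ((chi0 x : ℝ) : ℂ) * P.Q ((Real.sqrt τ)⁻¹ • x)) := by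
    intro x hx
    have : chi0 x = 0 := chi0.zero_of_le_dist (by rw [dist_zero_right]; exact hx)
    simp only [this, ofReal_zero, zero_mul]
  show perz (fun x : R12 => ((chi0 x : ℝ) : ℂ) * P.Q ((Real.sqrt τ)⁻¹ • x)) _ = _
  rw [Perz.perz_of_norm_le hps (by linarith)]
  have h2 : chi0 (Real.sqrt τ • y) = 1 := by
    refine chi0.one_of_mem_closedBall ?_
    rw [mem_closedBall_zero_iff]
    show ‖Real.sqrt τ • y‖ ≤ 1
    linarith
  have h3 : Real.sqrt τ ≠ 0 := (Real.sqrt_pos.2 hτ).ne'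
  simp only [h2, smul_smul, inv_mul_cancel₀ h3, one_smul, ofReal_one, one_mul]

/-- the near part of the linearised nonlinearity -/
lemma zn_dnl {n : ℕ} (P : Profile n) {τ : ℝ} (hτ : 0 < τ) (W : R12 → ℂ) (y : R12) :
    zn τ (fun x => dnl n (P.qt τ x) (W x)) y
      = P.V1 y * zn τ W y + P.V2 y * (starRingEnd ℂ) (zn τ W y) := by
  unfold zn
  by_cases hy : chi2 (Real.sqrt τ • y) = 0
  · simp [hy]
  · beta_reduce
    rw [chi2_qt P hτ hy, map_mul, Complex.conj_ofReal]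
    unfold dnl Profile.V1 Profile.V2
    ring

lemma V1_cont {n : ℕ} (P : Profile n) : Continuous P.V1 := by
  unfold Profile.V1
  have := P.smooth.continuous
  fun_prop

lemma V2_cont {n : ℕ} (P : Profile n) : Continuous P.V2 := by
  unfold Profile.V2
  have := P.smooth.continuous
  fun_prop

lemma cw_add {f g : R12 → ℂ} (hf : Integrable f) (hg : Integrable g) (ξ : R12) :
    cw (fun y => f y + g y) ξ = cw f ξ + cw g ξ := by
  unfold cw
  rw [← mul_add, ← integral_add]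
  · congr 1
    refine integral_congr_ae (Filter.Eventually.of_forall fun y => ?_)
    simp only
    ring
  · exact hf.bdd_mul (c := 1) (continuous_ch_right _).aestronglyMeasurable
      (Filter.Eventually.of_forall fun x => (norm_ch _ x).le)
  · exact hg.bdd_mul (c := 1) (continuous_ch_right _).aestronglyMeasurable
      (Filter.Eventually.of_forall fun x => (norm_ch _ x).le)

/-- transform of `V1 z + V2 conj z` -/
lemma cw_pot {n : ℕ} (P : Profile n) (T : Pot P) {z : R12 → ℂ} (hz : Cut z) (ξ : R12) :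
    cw (fun y => P.V1 y * z y + P.V2 y * (starRingEnd ℂ) (z y)) ξ
      = cv T.v1 (cw z) ξ + cv T.v2 (cr (cw z)) ξ := by
  have hzc := hz.continuous
  have hcc : Continuous fun y => (starRingEnd ℂ) (z y) := Complex.continuous_conj.comp hzc
  have hcs : HasCompactSupport fun y => (starRingEnd ℂ) (z y) :=
    hz.supp.comp_left (g := fun w : ℂ => (starRingEnd ℂ) w) (map_zero _)
  have i1 : Integrable fun y => P.V1 y * z y :=
    ((V1_cont P).mul hzc).integrable_of_hasCompactSupport hz.supp.mul_left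
  have i2 : Integrable fun y => P.V2 y * (starRingEnd ℂ) (z y) :=
    ((V2_cont P).mul hcc).integrable_of_hasCompactSupport hcs.mul_left
  rw [cw_add i1 i2, cw_mul (T.rep_v1 0) hzc hz.supp, cw_mul (T.rep_v2 0) hcc hcs]
  have e : cw (fun y => (starRingEnd ℂ) (z y)) = cr (cw z) := funext fun η => cw_conj z η
  rw [e]

/-- transform of `V1 conj z + V2c z` -/
lemma cw_potc {n : ℕ} (P : Profile n) (T : Pot P) {z : R12 → ℂ} (hz : Cut z) (ξ : R12) :
    cw (fun y => P.V1 y * (starRingEnd ℂ) (z y) + P.V2c y * z y) ξ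
      = cv T.v1 (cr (cw z)) ξ + cv T.v2c (cw z) ξ := by
  have hzc := hz.continuous
  have hcc : Continuous fun y => (starRingEnd ℂ) (z y) := Complex.continuous_conj.comp hzc
  have hcs : HasCompactSupport fun y => (starRingEnd ℂ) (z y) :=
    hz.supp.comp_left (g := fun w : ℂ => (starRingEnd ℂ) w) (map_zero _)
  have hV2c : Continuous P.V2c := by
    unfold Profile.V2c
    have := P.smooth.continuous
    have h2 := Complex.continuous_conj.comp this
    simp only [Function.comp_def] at h2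
    fun_prop
  have i1 : Integrable fun y => P.V1 y * (starRingEnd ℂ) (z y) :=
    ((V1_cont P).mul hcc).integrable_of_hasCompactSupport hcs.mul_left
  have i2 : Integrable fun y => P.V2c y * z y :=
    (hV2c.mul hzc).integrable_of_hasCompactSupport hz.supp.mul_left
  rw [cw_add i1 i2, cw_mul (T.rep_v1 0) hcc hcs, cw_mul (T.rep_v2c 0) hzc hz.supp]
  have e : cw (fun y => (starRingEnd ℂ) (z y)) = cr (cw z) := funext fun η => cw_conj z η
  rw [e]

lemma conj_V1 {n : ℕ} (P : Profile n) (y : R12) : (starRingEnd ℂ) (P.V1 y) = P.V1 y := by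
  unfold Profile.V1
  simp only [map_mul, map_add, map_one, map_div₀, Complex.conj_ofReal, Complex.conj_natCast,
    map_ofNat]

lemma conj_V2 {n : ℕ} (P : Profile n) (y : R12) : (starRingEnd ℂ) (P.V2 y) = P.V2c y := by
  unfold Profile.V2 Profile.V2c
  simp only [map_mul, map_div₀, Complex.conj_ofReal, Complex.conj_natCast, map_ofNat, map_pow]

/-- (E) -/
theorem eId : EIdStmt := by
  intro n P T hTP gt hG τ₀ S hτ₀ hτ₁ hS U hU s hs'
  set τ := τ₀ * Real.exp (-s) with hτdef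
  have hτ : 0 < τ := by positivity
  set W := P.pert τ₀ U s with hW
  have sU : IsSmoothPeriodic (U s) := hU.smooth s hs'
  have sq : IsSmoothPeriodic (P.qt τ) := (hTP.1 τ hτ).1
  have sW : IsSmoothPeriodic W := NS.sp_sub sU sq
  have sg : IsSmoothPeriodic (gt τ) := hG.smooth τ hτ
  have hneven := P.neven
  have hn2 : Even (n - 2) := (Nat.even_sub P.two_le).2 (by simp [hneven])
  have snU : IsSmoothPeriodic (fun x => nl n (U s x)) := NS.sp_nl sU hneven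
  have snq : IsSmoothPeriodic (fun x => nl n (P.qt τ x)) := NS.sp_nl sq hneven
  have sd : IsSmoothPeriodic (fun x => dnl n (P.qt τ x) (W x)) := by
    unfold dnl
    refine NS.sp_add (NS.sp_mul (NS.sp_mul (NS.sp_const _) (NS.sp_normpow sq hneven)) sW) ?_
    exact NS.sp_mul (NS.sp_mul (NS.sp_mul (NS.sp_const _) (NS.sp_normpow sq hn2))
      (NS.sp_pow sq 2)) (NS.sp_conj sW)
  have hUW : ∀ x, P.qt τ x + W x = U s x := by
    intro x
    rw [hW]
    unfold Profile.pert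
    rw [← hτdef]
    ring
  have snr : IsSmoothPeriodic (fun x => nl n (P.qt τ x + W x) - nl n (P.qt τ x)
      - dnl n (P.qt τ x) (W x)) := by
    have : (fun x => nl n (P.qt τ x + W x) - nl n (P.qt τ x) - dnl n (P.qt τ x) (W x))
        = fun x => nl n (U s x) - nl n (P.qt τ x) - dnl n (P.qt τ x) (W x) := by
      funext x; rw [hUW]
    rw [this]
    exact NS.sp_sub (NS.sp_sub snU snq) sd
  -- the coefficients
  have hcoef : ∀ k, Gf P gt τ₀ U s k = Ef P gt τ₀ U s k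
      + (-I) * cf (fun x => dnl n (P.qt τ x) (W x)) k := by
    intro k
    have e1 : cf (fun x => nl n (P.qt τ x + W x) - nl n (P.qt τ x)
        - dnl n (P.qt τ x) (W x)) k
        = cf (fun x => nl n (U s x)) k - cf (fun x => nl n (P.qt τ x)) k
          - cf (fun x => dnl n (P.qt τ x) (W x)) k := by
      have : (fun x => nl n (P.qt τ x + W x) - nl n (P.qt τ x) - dnl n (P.qt τ x) (W x))
          = fun x => (nl n (U s x) - nl n (P.qt τ x)) - dnl n (P.qt τ x) (W x) := by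
        funext x; rw [hUW]
      rw [this, Grow.cf_sub (NS.sp_sub snU snq).1.continuous sd.1.continuous,
        Grow.cf_sub snU.1.continuous snq.1.continuous]
    unfold Gf Ef
    rw [← hτdef, ← hW, e1]
    ring
  have hE : Ef P gt τ₀ U s = fun k => -I * cf (fun x => nl n (P.qt τ x + W x)
      - nl n (P.qt τ x) - dnl n (P.qt τ x) (W x)) k + cf (gt τ) k := rfl
  have hsumE : ∀ η, Summable fun k => Ef P gt τ₀ U s k * cw c2 (η - zv k) := by
    intro η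
    have h1 := ((summable_win snr η).mul_left (-I)).add (summable_win sg η)
    refine h1.congr fun k => ?_
    rw [hE]
    ring
  have hzc : Cut (zn τ W) := cut_zn hτ sW
  constructor
  · intro ξ
    have h1 : Jd (cw c2) (hs τ₀ s) (Gf P gt τ₀ U s) ξ
        = Jd (cw c2) (hs τ₀ s) (Ef P gt τ₀ U s) ξ
          + (-I) * Jd (cw c2) (hs τ₀ s) (cf (fun x => dnl n (P.qt τ x) (W x))) ξ := by
      unfold Jd
      have h2 : ∀ k, Gf P gt τ₀ U s k * cw c2 ((hs τ₀ s)⁻¹ • ξ - zv k)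
          = Ef P gt τ₀ U s k * cw c2 ((hs τ₀ s)⁻¹ • ξ - zv k)
            + (-I) * (cf (fun x => dnl n (P.qt τ x) (W x)) k
              * cw c2 ((hs τ₀ s)⁻¹ • ξ - zv k)) := by
        intro k
        rw [hcoef k]
        ring
      rw [tsum_congr h2, Summable.tsum_add (hsumE _) ((summable_win sd _).mul_left _),
        tsum_mul_left]
      ring
    rw [h1, Jd_cf hτ sd, ← hτdef]
    have h3 : zn τ (fun x => dnl n (P.qt τ x) (W x))
        = fun y => P.V1 y * zn τ W y + P.V2 y * (starRingEnd ℂ) (zn τ W y) :=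
      funext fun y => zn_dnl P hτ W y
    rw [h3, cw_pot P T hzc]
    ring
  · intro ξ
    rw [← cw_pot P T hzc, ← cw_conj, ← cw_potc P T hzc]
    congr 1
    funext y
    rw [map_add, map_mul, map_mul, conj_V1, conj_V2, Complex.conj_conj]

end

end Crest.Agent.R086.TK
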