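import Crest.Agent.R086.TorDefs
import Crest.Agent.R086.GrowG
import Crest.Agent.R086.DMft
import Crest.Agent.R086.DLLin
import Crest.Agent.R086.DLForced
import Crest.Agent.R086.DLIface
import Mathlib
import Crest.Agent.R086.DCcv
import Crest.Agent.R086.DCtop
import Crest.Agent.R086.SymCalc
import Crest.Agent.R086.TKE_Mg
import Crest.Agent.R086.TPOne
import Crest.Agent.R086.TN

-- ▼ part R086/TorTop
section

/-! Row 86, PART D-TORUS: assembly of `NonlinearThm` from the frozen nodes (helper277). -/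

set_option autoImplicit false

namespace Crest.Agent.R086

/-- what the node owners must deliver (basic nodes may be used as hypotheses by everybody, they
are discharged at the end). -/
theorem nonlinear_of
    (hNear : ∀ (n : ℕ) (P : Profile n), P.SpecGood N0 → ∃ N, NearStep P N)
    (hGrow : ∀ (n : ℕ) (P : Profile n) (N : ℕ), GrowStep P N)
    (hOne : ∀ (n : ℕ) (P : Profile n) (N : ℕ), GrowStep P N → NearStep P N →
      ∃ s, N + 1 ≤ s ∧ OneStep P N s)
    (hMod : ∀ (n : ℕ) (P : Profile n) (N s : ℕ), Modul P N s)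
    (hFin : ∀ (n : ℕ) (P : Profile n) (N s : ℕ), N + 1 ≤ s → OneStep P N s → Modul P N s →
      BlowupConcl (n + 1)) : NonlinearThm := by
  intro n P hS
  obtain ⟨N, hN⟩ := hNear n P hS
  obtain ⟨s, hs, h1⟩ := hOne n P N (hGrow n P N) hN
  exact hFin n P N s hs h1 (hMod n P N s)

end Crest.Agent.R086
end

-- ▼ part R086/GrowH
section

/-!
Row 86 (S0114), node GrowStep (helper263), file H: existence on the step and the final theorem.
-/

set_option autoImplicit false

open MeasureTheory Complex Set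
open scoped ContDiff Topology ComplexConjugate
open Crest.AnalysisR.PDE.NLS (IsSmoothPeriodic periodCell)

namespace Crest.Agent.R086.Grow

noncomputable section

open Profile

/-- conversion of a solution started at time `0` with blow-up time `τ₀` -/
def conv {n : ℕ} (P : Profile n) (τ₀ : ℝ) (u : ℝ → R12 → ℂ) : ℝ → R12 → ℂ :=
  fun σ x => (P.amp ⟨τ₀, 0, 0⟩ (τ₀ - τ₀ * Real.exp (-σ)))⁻¹ * u (τ₀ - τ₀ * Real.exp (-σ)) x

lemma conv_resSol {n : ℕ} (P : Profile n) (h1 : TF1) (h2 : TF2) {τ₀ S t : ℝ} (hτ : 0 < τ₀)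
    {u : ℝ → R12 → ℂ} (hu : IsSol n (Icc 0 t) u) (ht : t = τ₀ - Real.exp (-S) * τ₀) :
    P.ResSol τ₀ S (conv P τ₀ u) := by
  have := TS.resSol_of_isSol P h1 h2 hτ (⟨τ₀, 0, 0⟩ : Par) (t₀ := 0) (t₁ := t) hu (sub_zero _) ht
  simp only [add_zero] at this
  exact this

lemma l1_smul (hN : TN) (c : ℂ) (v : R12 → ℂ) : l1 (fun x => c * v x) = ‖c‖ * l1 v := by
  have := hN.wn_smul v c 0 0
  simpa only [wn_zero] using this

theorem growStep {n : ℕ} (P : Profile n) (N : ℕ) (hN : TN) (h1 : TF1) (h2 : TF2) (h3 : TC3)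
    (hP1 : TP1 P) (hP2 : TP2 P) : GrowStep P N := by
  obtain ⟨s, hs1, hap⟩ := apriori P N hN h1 hP1 hP2
  refine ⟨s, hs1, fun S hS => ?_⟩
  obtain ⟨C, r, τ₁, hC, hr, hτ₁, hτ₁1, hap⟩ := hap S hS
  refine ⟨C, r, τ₁, hC, hr, hτ₁, hτ₁1, fun τ₀ hτ hττ W₀ hW₀ hrW => ?_⟩
  have hτ1 : τ₀ ≤ 1 := hττ.trans hτ₁1
  have hn0 : n ≠ 0 := by have := P.two_le; omega
  set a : Par := ⟨τ₀, 0, 0⟩ with ha
  have hsq : IsSmoothPeriodic (P.qt τ₀) := (hP1.1 τ₀ hτ).1
  set u₀ : R12 → ℂ := fun x => P.amp a 0 * (P.qt τ₀ x + W₀ x) with hu₀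
  have hu₀s : IsSmoothPeriodic u₀ := sp_smul _ (sp_add hsq hW₀)
  have hamp0 : P.amp a 0 ≠ 0 := TS.amp_ne_zero P a 0 (by simpa [ha] using hτ)
  -- initial value of the converted solution
  have hinit : ∀ v : ℝ → R12 → ℂ, v 0 = u₀ → ∀ x, conv P τ₀ v 0 x = P.qt τ₀ x + W₀ x := by
    intro v hv x
    have e0 : τ₀ - τ₀ * Real.exp (-0) = 0 := by simp
    unfold conv
    rw [e0, hv, hu₀]
    show (P.amp a 0)⁻¹ * (P.amp a 0 * (P.qt τ₀ x + W₀ x)) = _
    rw [← mul_assoc, inv_mul_cancel₀ hamp0, one_mul]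
  have hpert : ∀ v : ℝ → R12 → ℂ, v 0 = u₀ → P.pert τ₀ (conv P τ₀ v) 0 = W₀ := by
    intro v hv
    funext x
    have e0 : τ₀ * Real.exp (-0) = τ₀ := by simp
    unfold Profile.pert
    rw [hinit v hv x, e0]
    ring
  obtain ⟨Cq, hCq0, hCq⟩ := hP1.2 N
  set R : ℝ := (Real.exp (-S) * τ₀) ^ (-(1 / (n : ℝ))) * (Cq + 1) with hR
  have hR0 : 0 < R := mul_pos (Real.rpow_pos_of_pos (by positivity) _) (by linarith)
  have hES : Real.exp (-S) ≤ 1 := by rw [Real.exp_le_one_iff]; linarith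
  obtain ⟨u, hu, hu0⟩ := h3 n P.neven P.two_le 0 (τ₀ - Real.exp (-S) * τ₀) R u₀ (by nlinarith) hR0
    hu₀s (by
      intro t ht v hv hv0
      have hpos : 0 < τ₀ - t := by
        have := ht.2
        have : 0 < Real.exp (-S) * τ₀ := by positivity
        linarith
      set S' : ℝ := -Real.log ((τ₀ - t) / τ₀) with hS'
      have hexp : Real.exp (-S') = (τ₀ - t) / τ₀ := by
        rw [hS', neg_neg, Real.exp_log (by positivity)]
      have hS'0 : 0 ≤ S' := by
        have : (τ₀ - t) / τ₀ ≤ 1 := by rw [div_le_one hτ]; linarith [ht.1]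
        have := Real.log_nonpos (by positivity) this
        linarith
      have hS'S : S' ≤ S := by
        have e1 : Real.exp (-S) ≤ Real.exp (-S') := by
          rw [hexp, le_div_iff₀ hτ]; linarith [ht.2]
        have := Real.exp_le_exp.1 e1
        linarith
      have htS : t = τ₀ - Real.exp (-S') * τ₀ := by
        rw [hexp]; field_simp; ring
      have htS' : τ₀ - τ₀ * Real.exp (-S') = t := by rw [htS]; ring
      have hV := conv_resSol P h1 h2 hτ hv htS
      have hest := (hap τ₀ hτ hττ S' hS'S _ hV (by rw [hpert v hv0]; exact hrW)).1 S'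
        (right_mem_Icc.2 hS'0)
      have hhp := hs_pos hτ S'
      -- l1 of the rescaled solution
      have hVs : IsSmoothPeriodic (conv P τ₀ v S') := hV.smooth S' (right_mem_Icc.2 hS'0)
      have hl : l1 (conv P τ₀ v S') ≤ Cq + 1 := by
        have e : conv P τ₀ v S' = fun x => qq P τ₀ S' x + P.pert τ₀ (conv P τ₀ v) S' x := by
          funext x; simp only [qq, Profile.pert]; ring
        have hps := sp_pert P hP1 hτ hV S' (right_mem_Icc.2 hS'0)
        have hqs := sp_qq P hP1 hτ S'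
        refine (hN.l1_le _ hVs N _ hhp.le).trans ?_
        rw [e]
        refine (hN.wn_add _ _ hqs hps N _ hhp.le).trans ?_
        have e2 : wn N (hs τ₀ S') (qq P τ₀ S') ≤ Cq :=
          (hCq _ (tau_pos hτ S') ((tau_le hτ hS'0).trans hτ1)).1
        exact add_le_add e2 hest.1
      have hvt : v t = fun x => P.amp a t * conv P τ₀ v S' x := by
        funext x
        unfold conv
        rw [htS']
        have hne : P.amp a t ≠ 0 := TS.amp_ne_zero P a t (by simpa [ha] using hpos)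
        show v t x = P.amp a t * ((P.amp a t)⁻¹ * v t x)
        rw [← mul_assoc, mul_inv_cancel₀ hne, one_mul]
      rw [hvt, l1_smul hN, TS.norm_amp P a t (by simpa [ha] using hpos)]
      refine mul_le_mul ?_ hl (l1_nonneg _) (Real.rpow_nonneg (by positivity) _)
      refine Real.rpow_le_rpow_of_nonpos (by positivity) ?_ ?_
      · have : a.T = τ₀ := rfl
        rw [this]
        linarith [ht.2]
      · have : 0 < (n : ℝ) := Nat.cast_pos.2 (Nat.pos_of_ne_zero hn0)
        have : 0 < 1 / (n : ℝ) := by positivity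
        linarith)
  have hV := conv_resSol P h1 h2 hτ hu rfl
  have hp := hpert u hu0
  obtain ⟨hA, hB⟩ := hap τ₀ hτ hττ S le_rfl _ hV (by rw [hp]; exact hrW)
  rw [hp] at hA hB
  exact ⟨conv P τ₀ u, hV, hinit u hu0, hA, hB⟩

end

end Crest.Agent.R086.Grow
end

-- ▼ part R086/DMflow
section

/-!
Row 86 (helper839), node MODE: the pure dilation flow tested against `C_c^∞` functions.
-/

set_option autoImplicit false
set_option linter.style.longLine false

open MeasureTheory Complex Filter Topology Set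
open scoped ContDiff FourierTransform

namespace Crest.Agent.R086.DM

/-- `eul Φ` of a test function is bounded and continuous -/
theorem eul_bdd {Φ : R12 → ℂ} (h1 : ContDiff ℝ ∞ Φ) (h2 : HasCompactSupport Φ) :
    ∃ C, ∀ ζ, ‖eul Φ ζ‖ ≤ C := by
  have hE : HasCompactSupport (eul Φ) := by
    unfold eul
    refine HasCompactSupport.mono (h2.fderiv (𝕜 := ℝ)) ?_
    intro ζ hζ
    simp only [Function.mem_support] at hζ ⊢
    intro h0
    exact hζ (by rw [h0]; simp)
  exact (smooth_eul h1).continuous.bounded_above_of_compact_support hE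

/-- pairing with the dilated test function -/
noncomputable def pair (Φ b : R12 → ℂ) (τ : ℝ) : ℂ := ∫ ζ : R12, Φ (Real.exp (-τ / 2) • ζ) * b ζ

theorem hasDerivAt_dil {Φ : R12 → ℂ} (h1 : ContDiff ℝ ∞ Φ) (ζ : R12) (τ : ℝ) :
    HasDerivAt (fun τ : ℝ => Φ (Real.exp (-τ / 2) • ζ)) (-(1 / 2) * eul Φ (Real.exp (-τ / 2) • ζ)) τ := by
  have e1 : HasDerivAt (fun t : ℝ => Real.exp (-t / 2)) (Real.exp (-τ / 2) * (-1 / 2)) τ := by
    have := ((hasDerivAt_id τ).neg.div_const 2).exp
    simpa using this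
  have e2 : HasDerivAt (fun t : ℝ => Real.exp (-t / 2) • ζ) ((Real.exp (-τ / 2) * (-1 / 2)) • ζ) τ :=
    e1.smul_const ζ
  have e3 := ((h1.differentiable (by simp) (Real.exp (-τ / 2) • ζ)).hasFDerivAt).comp_hasDerivAt τ e2
  refine e3.congr_deriv ?_
  unfold eul
  rw [show ((Real.exp (-τ / 2) * (-1 / 2)) • ζ : R12) = (-(1 / 2) : ℝ) • (Real.exp (-τ / 2) • ζ) by
    rw [smul_smul]; congr 1; ring, map_smul]
  rw [Complex.real_smul]
  push_cast
  ring

theorem hasDerivAt_pair {Φ b : R12 → ℂ} (h1 : ContDiff ℝ ∞ Φ) (h2 : HasCompactSupport Φ) (hb : Integrable b)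
    (τ : ℝ) : HasDerivAt (pair Φ b) (-(1 / 2) * ∫ ζ : R12, eul Φ (Real.exp (-τ / 2) • ζ) * b ζ) τ := by
  obtain ⟨C, hC⟩ := h1.continuous.bounded_above_of_compact_support h2
  obtain ⟨C', hC'⟩ := eul_bdd h1 h2
  have hsc : ∀ τ : ℝ, Continuous fun ζ : R12 => Real.exp (-τ / 2) • ζ := fun τ => by fun_prop
  have hm : ∀ τ : ℝ, AEStronglyMeasurable (fun ζ : R12 => Φ (Real.exp (-τ / 2) • ζ) * b ζ) volume := fun τ =>
    (h1.continuous.comp (hsc τ)).aestronglyMeasurable.mul hb.1
  have key := (hasDerivAt_integral_of_dominated_loc_of_deriv_le (μ := (volume : Measure R12))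
    (F := fun τ ζ => Φ (Real.exp (-τ / 2) • ζ) * b ζ)
    (F' := fun τ ζ => -(1 / 2) * eul Φ (Real.exp (-τ / 2) • ζ) * b ζ)
    (x₀ := τ) (s := univ) (bound := fun ζ => (1 / 2) * C' * ‖b ζ‖)
    univ_mem (Eventually.of_forall hm) ?_ ?_ ?_ (hb.norm.const_mul _) ?_).2
  · refine key.congr_deriv ?_
    rw [← integral_const_mul]
    congr 1; funext ζ; ring
  · exact hb.bdd_mul (c := C) (h1.continuous.comp (hsc τ)).aestronglyMeasurable
      (Eventually.of_forall fun ζ => hC _)
  · exact ((continuous_const.mul ((smooth_eul h1).continuous.comp (hsc τ))).aestronglyMeasurable).mul hb.1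
  · refine Eventually.of_forall fun ζ τ' _ => ?_
    rw [norm_mul, norm_mul]
    have : ‖(-(1 / 2) : ℂ)‖ = 1 / 2 := by simp
    rw [this]
    have := hC' (Real.exp (-τ' / 2) • ζ)
    gcongr
  · refine Eventually.of_forall fun ζ τ' _ => ?_
    exact (hasDerivAt_dil h1 ζ τ').mul_const (b ζ)

/-- `T_τ b = e^{βτ} ∫ Φ(e^{-τ/2}ζ) e^{-iσ|ζ|²} b(ζ)` -/
noncomputable def tst (Φ : R12 → ℂ) (σ : ℝ) (β : ℂ) (b : R12 → ℂ) (τ : ℝ) : ℂ :=
  exp (β * τ) * pair Φ (fun ζ => chirp σ ζ * b ζ) τ

theorem int_chirp (σ : ℝ) {b : R12 → ℂ} (hb : Integrable b) : Integrable (fun ζ => chirp σ ζ * b ζ) :=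
  hb.bdd_mul (c := 1) (continuous_chirp σ).aestronglyMeasurable
    (Eventually.of_forall fun ζ => (norm_chirp σ ζ).le)

theorem hasDerivAt_expβ (β : ℂ) (τ : ℝ) : HasDerivAt (fun t : ℝ => exp (β * t)) (β * exp (β * τ)) τ := by
  have h := ((((hasDerivAt_id (τ : ℝ)).ofReal_comp).const_mul β)).cexp
  refine h.congr_deriv ?_
  simp
  ring

theorem continuous_tst {Φ b : R12 → ℂ} (σ : ℝ) (β : ℂ) (h1 : ContDiff ℝ ∞ Φ) (h2 : HasCompactSupport Φ)
    (hb : Integrable b) : Continuous (tst Φ σ β b) := by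
  refine Continuous.mul ?_ ?_
  · fun_prop
  · exact continuous_iff_continuousAt.2 fun τ => (hasDerivAt_pair h1 h2 (int_chirp σ hb) τ).continuousAt

/-- the tested identity `(d/dτ) S0(τ) a = S0(τ)(lam a - w)` -/
theorem hasDerivAt_tst {a w : R12 → ℂ} (σ : ℝ) (β lam : ℂ) (ha : Integrable a)
    (ha1 : Integrable fun ζ => ‖ζ‖ * ‖a ζ‖)
    (ha2 : Integrable fun ζ => ‖ζ‖ ^ 2 * ‖a ζ‖) (hw : Integrable w)
    (hPDE : ∀ y, (1 / 2) * eul (ft a) y =
      ft (fun ζ => -(σ : ℂ) * I * ((‖ζ‖ ^ 2 : ℝ) : ℂ) * a ζ + ((β - lam) * a ζ + w ζ)) y)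
    {Φ : R12 → ℂ} (h1 : ContDiff ℝ ∞ Φ) (h2 : HasCompactSupport Φ) (τ : ℝ) :
    HasDerivAt (tst Φ σ β a) (tst Φ σ β (fun ζ => lam * a ζ - w ζ) τ) τ := by
  have hd := (hasDerivAt_expβ β τ).mul (hasDerivAt_pair h1 h2 (int_chirp σ ha) τ)
  refine hd.congr_deriv ?_
  -- the dilated test function
  set c : ℝ := Real.exp (-τ / 2) with hc
  have hc0 : c ≠ 0 := (Real.exp_pos _).ne'
  have g1 : ContDiff ℝ ∞ (fun ζ => Φ (c • ζ)) := h1.comp (contDiff_const_smul c)
  have g2 : HasCompactSupport (fun ζ => Φ (c • ζ)) := h2.comp_homeomorph (Homeomorph.smulOfNeZero c hc0)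
  have hk := weakG σ β lam ha ha1 ha2 hw hPDE g1 g2
  have e1 : ∀ ζ, eul (fun ζ => Φ (c • ζ)) ζ = eul Φ (c • ζ) := fun ζ =>
    eul_scale Φ c ζ (h1.differentiable (by simp) _)
  simp only [e1] at hk
  unfold tst pair
  rw [← hc]
  obtain ⟨C, hC⟩ := h1.continuous.bounded_above_of_compact_support h2
  have hb : ∀ g : R12 → ℂ, Integrable g → Integrable fun ζ => Φ (c • ζ) * g ζ := by
    intro g hg
    exact hg.bdd_mul (c := C) g1.continuous.aestronglyMeasurable (Eventually.of_forall fun ζ => hC _)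
  have e2 : ∫ ζ : R12, Φ (c • ζ) * (chirp σ ζ * (lam * a ζ - w ζ)) =
      β * (∫ ζ : R12, Φ (c • ζ) * (chirp σ ζ * a ζ)) -
      ∫ ζ : R12, Φ (c • ζ) * (chirp σ ζ * ((β - lam) * a ζ + w ζ)) := by
    have hi2 : Integrable (fun ζ : R12 => (β - lam) * a ζ + w ζ) := (ha.const_mul _).add hw
    rw [← integral_const_mul, ← integral_sub ((hb _ (int_chirp σ ha)).const_mul β)
      (hb _ (int_chirp σ hi2))]
    refine integral_congr_ae (Eventually.of_forall fun ζ => ?_)
    simp only
    ring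
  rw [e2, ← hk]
  ring

theorem tst_integral {a w : R12 → ℂ} (σ : ℝ) (β lam : ℂ) (ha : Integrable a)
    (ha1 : Integrable fun ζ => ‖ζ‖ * ‖a ζ‖)
    (ha2 : Integrable fun ζ => ‖ζ‖ ^ 2 * ‖a ζ‖) (hw : Integrable w)
    (hPDE : ∀ y, (1 / 2) * eul (ft a) y =
      ft (fun ζ => -(σ : ℂ) * I * ((‖ζ‖ ^ 2 : ℝ) : ℂ) * a ζ + ((β - lam) * a ζ + w ζ)) y)
    {Φ : R12 → ℂ} (h1 : ContDiff ℝ ∞ Φ) (h2 : HasCompactSupport Φ) (s : ℝ) :
    tst Φ σ β a s - tst Φ σ β a 0 = ∫ τ in (0 : ℝ)..s, tst Φ σ β (fun ζ => lam * a ζ - w ζ) τ := by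
  symm
  refine intervalIntegral.integral_eq_sub_of_hasDerivAt (fun τ _ =>
    hasDerivAt_tst σ β lam ha ha1 ha2 hw hPDE h1 h2 τ) ?_
  exact (continuous_tst σ β h1 h2 ((ha.const_mul _).sub hw)).intervalIntegrable _ _

/-- relation with the free flow on densities -/
theorem test_free (σ : ℝ) (β : ℂ) (t : ℝ) (ψ a : R12 → ℂ) :
    ∫ z : R12, ψ z * (exp (β * t) * exp (6 * (t : ℂ)) *
      exp (-(σ : ℂ) * I * (((Real.exp t - 1) * ‖z‖ ^ 2 : ℝ) : ℂ)) * a (Real.exp (t / 2) • z)) =
      tst (fun z => ψ z * chirp (-σ) z) σ β a t := by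
  have hE : Real.exp t = Real.exp (t / 2) ^ 2 := by
    rw [← Real.exp_nat_mul]; congr 1; push_cast; ring
  have hE'' : Real.exp (-t / 2) = (Real.exp (t / 2))⁻¹ := by
    rw [← Real.exp_neg]; congr 1; ring
  have hR : Real.exp (t / 2) ≠ 0 := (Real.exp_pos _).ne'
  have hp : 0 < Real.exp (t / 2) := Real.exp_pos _
  have h6 : exp (6 * (t : ℂ)) = ((Real.exp (t / 2) ^ 12 : ℝ) : ℂ) := by
    rw [← Real.exp_nat_mul]
    push_cast
    congr 1; ring
  generalize Real.exp (t / 2) = c at *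
  have h1 : ∀ z : R12, ψ z * (exp (β * t) * exp (6 * (t : ℂ)) *
      exp (-(σ : ℂ) * I * (((Real.exp t - 1) * ‖z‖ ^ 2 : ℝ) : ℂ)) * a (c • z)) =
      (exp (β * t) * exp (6 * (t : ℂ))) *
        (fun η : R12 => (ψ (c⁻¹ • η) * chirp (-σ) (c⁻¹ • η)) * (chirp σ η * a η)) (c • z) := by
    intro z
    simp only
    rw [smul_smul, inv_mul_cancel₀ hR, one_smul]
    have h3 : exp (-(σ : ℂ) * I * (((Real.exp t - 1) * ‖z‖ ^ 2 : ℝ) : ℂ)) =
        chirp (-σ) z * chirp σ (c • z) := by
      unfold chirp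
      rw [← Complex.exp_add, norm_smul, hE, Real.norm_of_nonneg hp.le]
      congr 1
      push_cast; ring
    rw [h3]; ring
  rw [integral_congr_ae (Eventually.of_forall h1), integral_const_mul,
    Measure.integral_comp_smul volume (fun η : R12 => (ψ (c⁻¹ • η) * chirp (-σ) (c⁻¹ • η)) * (chirp σ η * a η)) c]
  have hfr : Module.finrank ℝ R12 = 12 := by simp
  rw [hfr, abs_of_pos (by positivity)]
  rw [h6, Complex.real_smul]
  unfold tst pair
  rw [hE'']
  have hR' : (((c ^ 12 : ℝ)) : ℂ) * (((c ^ 12)⁻¹ : ℝ) : ℂ) = 1 := by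
    rw [← Complex.ofReal_mul, mul_inv_cancel₀ (pow_ne_zero _ hR), Complex.ofReal_one]
  linear_combination (exp (β * t) * ∫ (ζ : R12), ψ (c⁻¹ • ζ) * chirp (-σ) (c⁻¹ • ζ) * (chirp σ ζ * a ζ)) * hR'

end Crest.Agent.R086.DM
end

-- ▼ part R086/DMode
section

/-!
Row 86 (helper839), node MODE: the 14 modes are eigenvectors of the flow.
-/

set_option autoImplicit false
set_option linter.style.longLine false

open MeasureTheory Complex Filter Topology Set
open scoped ContDiff FourierTransform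

namespace Crest.Agent.R086.DM

/-! ### testing elements of `XN` -/

theorem int_test {N : ℕ} {ψ : R12 → ℂ} (h1 : Continuous ψ) {C : ℝ} (hC : ∀ z, ‖ψ z‖ ≤ C) (x : XN N) :
    Integrable fun z => ψ z * (x : R12 → ℂ) z :=
  (DGen.integrable_XN x).bdd_mul (c := C) h1.aestronglyMeasurable (Eventually.of_forall hC)

theorem norm_int_le {N : ℕ} (x : XN N) : ∫ z : R12, ‖(x : R12 → ℂ) z‖ ≤ ‖x‖ := by
  rw [DGen.norm_XN]
  refine integral_mono (DGen.integrable_XN x).norm (DGen.wint x).1 fun z => ?_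
  have : 1 ≤ wt N z := one_le_pow₀ (by linarith [norm_nonneg z])
  simp only
  nlinarith [norm_nonneg ((x : R12 → ℂ) z)]

/-- pairing with a bounded continuous function as a continuous linear functional -/
noncomputable def lf (N : ℕ) (ψ : R12 → ℂ) (h1 : Continuous ψ) (C : ℝ) (hC : ∀ z, ‖ψ z‖ ≤ C) :
    XN N →L[ℂ] ℂ :=
  LinearMap.mkContinuous
    { toFun := fun x => ∫ z : R12, ψ z * (x : R12 → ℂ) z
      map_add' := fun x y => by
        rw [← integral_add (int_test h1 hC x) (int_test h1 hC y)]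
        refine integral_congr_ae ?_
        filter_upwards [DGen.ac_muN.ae_le (Lp.coeFn_add x y)] with z hz
        rw [hz, Pi.add_apply]; ring
      map_smul' := fun c x => by
        simp only [RingHom.id_apply, smul_eq_mul]
        rw [← integral_const_mul]
        refine integral_congr_ae ?_
        filter_upwards [DGen.ac_muN.ae_le (Lp.coeFn_smul c x)] with z hz
        rw [hz, Pi.smul_apply, smul_eq_mul]; ring } C
    (fun x => by
      simp only [LinearMap.coe_mk, AddHom.coe_mk]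
      refine (norm_integral_le_integral_norm _).trans ?_
      have hC0 : 0 ≤ C := (norm_nonneg _).trans (hC 0)
      calc ∫ z : R12, ‖ψ z * (x : R12 → ℂ) z‖ ≤ ∫ z : R12, C * ‖(x : R12 → ℂ) z‖ := by
            refine integral_mono (int_test h1 hC x).norm ((DGen.integrable_XN x).norm.const_mul C) fun z => ?_
            simp only [norm_mul]
            exact mul_le_mul_of_nonneg_right (hC z) (norm_nonneg _)
        _ = C * ∫ z : R12, ‖(x : R12 → ℂ) z‖ := integral_const_mul _ _
        _ ≤ C * ‖x‖ := mul_le_mul_of_nonneg_left (norm_int_le x) hC0)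


/-- `C_c^∞` functions separate the points of `XN N` -/
theorem ext_test {N : ℕ} {p q : XN N}
    (h : ∀ ψ : R12 → ℝ, ContDiff ℝ ∞ ψ → HasCompactSupport ψ →
      ∫ z : R12, (ψ z : ℂ) * (p : R12 → ℂ) z = ∫ z : R12, (ψ z : ℂ) * (q : R12 → ℂ) z) : p = q := by
  have hp := DGen.integrable_XN p
  have hq := DGen.integrable_XN q
  have h0 := ae_eq_zero_of_integral_contDiff_smul_eq_zero (μ := (volume : Measure R12))
    (f := fun z => (p : R12 → ℂ) z - (q : R12 → ℂ) z) (hp.sub hq).locallyIntegrable ?_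
  · apply Lp.ext
    rw [Filter.EventuallyEq, DL.ae_muN_iff]
    filter_upwards [h0] with z hz
    exact sub_eq_zero.1 hz
  · intro ψ h1 h2
    obtain ⟨C, hC⟩ := h1.continuous.bounded_above_of_compact_support h2
    have hc : Continuous fun z => (ψ z : ℂ) := Complex.continuous_ofReal.comp h1.continuous
    have hC' : ∀ z, ‖(ψ z : ℂ)‖ ≤ C := fun z => by rw [Complex.norm_real]; exact hC z
    have e := h ψ h1 h2
    have e1 : ∀ z, ψ z • ((p : R12 → ℂ) z - (q : R12 → ℂ) z) =
        (ψ z : ℂ) * (p : R12 → ℂ) z - (ψ z : ℂ) * (q : R12 → ℂ) z := fun z => by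
      rw [Complex.real_smul]; ring
    simp only [e1]
    rw [integral_sub (int_test hc hC' p) (int_test hc hC' q), e, sub_self]

theorem tst_congr {Φ : R12 → ℂ} {σ : ℝ} {β : ℂ} {a b : R12 → ℂ} (h : a =ᵐ[volume] b) (τ : ℝ) :
    tst Φ σ β a τ = tst Φ σ β b τ := by
  unfold tst pair
  congr 1
  refine integral_congr_ae (h.mono fun z hz => ?_)
  simp only [hz]

section flow
variable {n : ℕ} {P : Profile n} {T : Pot P} {N : ℕ} (D : LinData P T N)

theorem test_S0_fst (ψ : R12 → ℂ) {s : ℝ} (hs : 0 ≤ s) (x : XX N) :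
    ∫ z : R12, ψ z * ((D.S0 s x).1 : R12 → ℂ) z =
      tst (fun z => ψ z * chirp (-1) z) 1 (I * P.om - 1 / n) x.1 s := by
  rw [← test_free]
  refine integral_congr_ae ((D.S0_fst s hs x).mono fun z hz => ?_)
  simp only [hz]
  push_cast
  ring_nf

theorem test_S0_snd (ψ : R12 → ℂ) {s : ℝ} (hs : 0 ≤ s) (x : XX N) :
    ∫ z : R12, ψ z * ((D.S0 s x).2 : R12 → ℂ) z =
      tst (fun z => ψ z * chirp (-(-1)) z) (-1) (-I * P.om - 1 / n) x.2 s := by
  rw [← test_free]
  refine integral_congr_ae ((D.S0_snd s hs x).mono fun z hz => ?_)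
  simp only [hz]
  push_cast
  ring_nf

/-- integrated curve of `S0`, one component, tested -/
theorem test_curve {a w : R12 → ℂ} (σ : ℝ) (β lam : ℂ) (ha : Integrable a)
    (ha1 : Integrable fun ζ => ‖ζ‖ * ‖a ζ‖)
    (ha2 : Integrable fun ζ => ‖ζ‖ ^ 2 * ‖a ζ‖) (hw : Integrable w)
    (hPDE : ∀ y, (1 / 2) * eul (ft a) y =
      ft (fun ζ => -(σ : ℂ) * I * ((‖ζ‖ ^ 2 : ℝ) : ℂ) * a ζ + ((β - lam) * a ζ + w ζ)) y)
    {ψ : R12 → ℝ} (h1 : ContDiff ℝ ∞ ψ) (h2 : HasCompactSupport ψ) (s : ℝ) :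
    tst (fun z => (ψ z : ℂ) * chirp (-σ) z) σ β a s - tst (fun z => (ψ z : ℂ) * chirp (-σ) z) σ β a 0 =
      ∫ τ in (0 : ℝ)..s, tst (fun z => (ψ z : ℂ) * chirp (-σ) z) σ β (fun ζ => lam * a ζ - w ζ) τ := by
  have g1 : ContDiff ℝ ∞ (fun z => (ψ z : ℂ)) := Complex.ofRealCLM.contDiff.comp h1
  have g2 : HasCompactSupport (fun z => (ψ z : ℂ)) := h2.comp_left (g := fun r : ℝ => (r : ℂ)) (by simp)
  exact tst_integral σ β lam ha ha1 ha2 hw hPDE (g1.mul (smooth_chirp (-σ))) g2.mul_right s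

theorem weight_facts {a f : R12 → ℂ} (h : Rep 2 a f) : Integrable a ∧ (Integrable fun ζ => ‖ζ‖ * ‖a ζ‖) ∧
    (Integrable fun ζ => ‖ζ‖ ^ 2 * ‖a ζ‖) ∧ Integrable (fun ξ : R12 => wt 2 ξ * ‖a ξ‖) := by
  have ha := DGen.integrable_rep h
  have hw : Integrable (fun ξ : R12 => wt 2 ξ * ‖a ξ‖) := by
    refine h.1.norm.congr (Eventually.of_forall fun ξ => ?_)
    simp only
    rw [norm_mul, Complex.norm_real, Real.norm_of_nonneg (by positivity)]
    rfl
  refine ⟨ha, ?_, DGen.moments hw ha.1 2 le_rfl, hw⟩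
  have := DGen.moments hw ha.1 1 (by norm_num)
  simpa using this

/-- from the pointwise equation to the form used in `weakG` -/
theorem pde_form {a w f : R12 → ℂ} (h : Rep 2 a f) (hw : Integrable w) (σ : ℝ) (β lam : ℂ)
    (he : ∀ y, (σ : ℂ) * I * lap f y - (1 / 2) * eul f y + β * f y + ft w y = lam * f y) (y : R12) :
    (1 / 2) * eul (ft a) y =
      ft (fun ζ => -(σ : ℂ) * I * ((‖ζ‖ ^ 2 : ℝ) : ℂ) * a ζ + ((β - lam) * a ζ + w ζ)) y := by
  obtain ⟨ha, ha1, ha2, hw2⟩ := weight_facts h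
  have ef : f = ft a := DL.rep_ft h
  have h1 := he y
  rw [ef, DGen.lap_ft le_rfl hw2 ha.1] at h1
  have hi : Integrable (fun ζ : R12 => (-((‖ζ‖ ^ 2 : ℝ) : ℂ)) * a ζ) := by
    refine Integrable.mono' ha2 ?_ (Eventually.of_forall fun ζ => ?_)
    · exact (Continuous.aestronglyMeasurable (by fun_prop)).mul ha.1
    · rw [norm_mul, norm_neg, Complex.norm_real, Real.norm_of_nonneg (by positivity)]
  have hi' : Integrable (fun ζ : R12 => -(σ : ℂ) * I * ((‖ζ‖ ^ 2 : ℝ) : ℂ) * a ζ) := by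
    refine (hi.const_mul ((σ : ℂ) * I)).congr (Eventually.of_forall fun ζ => ?_)
    simp only; ring
  have e1 : ft (fun ζ => -(σ : ℂ) * I * ((‖ζ‖ ^ 2 : ℝ) : ℂ) * a ζ + ((β - lam) * a ζ + w ζ)) y =
      (σ : ℂ) * I * (∫ ξ : R12, exp (I * ((inner ℝ ξ y : ℝ) : ℂ)) * ((-((‖ξ‖ ^ 2 : ℝ) : ℂ)) * a ξ)) +
        ((β - lam) * ft a y + ft w y) := by
    unfold ft
    have i1 := (DGen.integrable_ftterm ha y).const_mul (β - lam)
    have i2 := DGen.integrable_ftterm hw y
    have i3 : Integrable (fun ζ : R12 => (β - lam) * (exp (I * ((inner ℝ ζ y : ℝ) : ℂ)) * a ζ) +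
      exp (I * ((inner ℝ ζ y : ℝ) : ℂ)) * w ζ) := i1.add i2
    rw [← integral_const_mul, ← integral_const_mul, ← integral_add i1 i2,
      ← integral_add ((DGen.integrable_ftterm hi y).const_mul _) i3]
    refine integral_congr_ae (Eventually.of_forall fun ζ => ?_)
    simp only
    ring
  rw [e1]
  linear_combination (-1 : ℂ) * h1

/-- density of the first component of `VV (mode i)` -/
noncomputable def w1 (T : Pot P) (i : MI) (z : R12) : ℂ := -I * (cv T.v1 (T.m1 i) z + cv T.v2 (T.m2 i) z)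
noncomputable def w2 (T : Pot P) (i : MI) (z : R12) : ℂ := I * (cv T.v1 (T.m2 i) z + cv T.v2c (T.m1 i) z)

theorem cv_congr {v a a' : R12 → ℂ} (h : a =ᵐ[volume] a') : cv v a = cv v a' := by
  funext z
  unfold cv
  exact integral_congr_ae (h.mono fun ξ hξ => by simp only [hξ])

theorem cv_congr_left {v v' a : R12 → ℂ} (h : v =ᵐ[volume] v') : cv v a = cv v' a := by
  funext z
  unfold cv
  have h2 : ∀ᵐ ξ ∂(volume : Measure R12), v (z - ξ) = v' (z - ξ) :=
    (quasiMeasurePreserving_sub_left (volume : Measure R12) z).ae h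
  exact integral_congr_ae (h2.mono fun ξ hξ => by simp only [hξ])

theorem int_w1 (T : Pot P) (i : MI) : Integrable (w1 T i) := by
  have h1 := DGen.integrable_rep (T.rep_v1 2)
  have h2 := DGen.integrable_rep (T.rep_v2 2)
  have h3 := DGen.integrable_rep (T.rep_m1 i 2)
  have h4 := DGen.integrable_rep (T.rep_m2 i 2)
  exact ((DGen.integrable_cv h1 h3).add (DGen.integrable_cv h2 h4)).const_mul _

theorem int_w2 (T : Pot P) (i : MI) : Integrable (w2 T i) := by
  have h1 := DGen.integrable_rep (T.rep_v1 2)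
  have h2 := DGen.integrable_rep (T.rep_v2c 2)
  have h3 := DGen.integrable_rep (T.rep_m1 i 2)
  have h4 := DGen.integrable_rep (T.rep_m2 i 2)
  exact ((DGen.integrable_cv h1 h4).add (DGen.integrable_cv h2 h3)).const_mul _

theorem ft_w1 (T : Pot P) (i : MI) (y : R12) :
    ft (w1 T i) y = -I * (P.V1 y * P.mode1 i y + P.V2 y * P.mode2 i y) := by
  have h1 := DGen.integrable_rep (T.rep_v1 2)
  have h2 := DGen.integrable_rep (T.rep_v2 2)
  have h3 := DGen.integrable_rep (T.rep_m1 i 2)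
  have h4 := DGen.integrable_rep (T.rep_m2 i 2)
  have e := DGen.ft_comb (DGen.integrable_cv h1 h3) (DGen.integrable_cv h2 h4) (-I) y
  rw [DGen.ft_cv h1 h3, DGen.ft_cv h2 h4, DGen.ft_rep (T.rep_v1 2), DGen.ft_rep (T.rep_v2 2),
    DGen.ft_rep (T.rep_m1 i 2), DGen.ft_rep (T.rep_m2 i 2)] at e
  exact e

theorem ft_w2 (T : Pot P) (i : MI) (y : R12) :
    ft (w2 T i) y = I * (P.V1 y * P.mode2 i y + P.V2c y * P.mode1 i y) := by
  have h1 := DGen.integrable_rep (T.rep_v1 2)
  have h2 := DGen.integrable_rep (T.rep_v2c 2)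
  have h3 := DGen.integrable_rep (T.rep_m1 i 2)
  have h4 := DGen.integrable_rep (T.rep_m2 i 2)
  have e := DGen.ft_comb (DGen.integrable_cv h1 h4) (DGen.integrable_cv h2 h3) I y
  rw [DGen.ft_cv h1 h4, DGen.ft_cv h2 h3, DGen.ft_rep (T.rep_v1 2), DGen.ft_rep (T.rep_v2c 2),
    DGen.ft_rep (T.rep_m1 i 2), DGen.ft_rep (T.rep_m2 i 2)] at e
  exact e

theorem mlam_eq (i : MI) : mlam i = ml i := by rcases i with _ | _ | j <;> rfl

theorem pde1 (T : Pot P) (i : MI) (y : R12) :
    (1 / 2) * eul (ft (T.m1 i)) y =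
      ft (fun ζ => -((1 : ℝ) : ℂ) * I * ((‖ζ‖ ^ 2 : ℝ) : ℂ) * T.m1 i ζ +
        (((I * P.om - 1 / n) - (mlam i : ℂ)) * T.m1 i ζ + w1 T i ζ)) y := by
  refine pde_form (T.rep_m1 i 2) (int_w1 T i) 1 _ _ (fun y => ?_) y
  have h := gen1_mode P i y
  unfold Profile.gen1 at h
  rw [ft_w1, mlam_eq, ← h]
  push_cast
  ring

theorem pde2 (T : Pot P) (i : MI) (y : R12) :
    (1 / 2) * eul (ft (T.m2 i)) y =
      ft (fun ζ => -((-1 : ℝ) : ℂ) * I * ((‖ζ‖ ^ 2 : ℝ) : ℂ) * T.m2 i ζ +
        (((-I * P.om - 1 / n) - (mlam i : ℂ)) * T.m2 i ζ + w2 T i ζ)) y := by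
  refine pde_form (T.rep_m2 i 2) (int_w2 T i) (-1) _ _ (fun y => ?_) y
  have h := gen2_mode P i y
  unfold Profile.gen2 at h
  rw [ft_w2, mlam_eq, ← h]
  push_cast
  ring

/-- the vector `lam M - VV M` -/
noncomputable def YY (i : MI) : XX N := ((mlam i : ℝ) : ℂ) • D.mode i - D.VV (D.mode i)

theorem YY_fst (i : MI) : ((YY D i).1 : R12 → ℂ) =ᵐ[volume] fun z => (mlam i : ℂ) * T.m1 i z - w1 T i z := by
  have h1 : ((YY D i).1 : R12 → ℂ) =ᵐ[volume]
      fun z => ((((mlam i : ℝ) : ℂ) • (D.mode i).1 : XN N) : R12 → ℂ) z - ((D.VV (D.mode i)).1 : R12 → ℂ) z :=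
    DGen.ac_muN.ae_le (Lp.coeFn_sub _ _)
  filter_upwards [h1, DGen.ac_muN.ae_le (Lp.coeFn_smul ((mlam i : ℝ) : ℂ) (D.mode i).1), D.VV_fst (D.mode i),
    D.mode_fst i] with z h1 h2 h3 h4
  rw [h1, h2, h3, Pi.smul_apply, smul_eq_mul, h4, cv_congr (D.mode_fst i), cv_congr (D.mode_snd i)]
  rfl

theorem YY_snd (i : MI) : ((YY D i).2 : R12 → ℂ) =ᵐ[volume] fun z => (mlam i : ℂ) * T.m2 i z - w2 T i z := by
  have h1 : ((YY D i).2 : R12 → ℂ) =ᵐ[volume]
      fun z => ((((mlam i : ℝ) : ℂ) • (D.mode i).2 : XN N) : R12 → ℂ) z - ((D.VV (D.mode i)).2 : R12 → ℂ) z :=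
    DGen.ac_muN.ae_le (Lp.coeFn_sub _ _)
  filter_upwards [h1, DGen.ac_muN.ae_le (Lp.coeFn_smul ((mlam i : ℝ) : ℂ) (D.mode i).2), D.VV_snd (D.mode i),
    D.mode_snd i] with z h1 h2 h3 h4
  rw [h1, h2, h3, Pi.smul_apply, smul_eq_mul, h4, cv_congr (D.mode_fst i), cv_congr (D.mode_snd i)]
  rfl

theorem S0_intervalIntegrable (x : XX N) {s : ℝ} (hs : 0 ≤ s) :
    IntervalIntegrable (fun τ => D.S0 τ x) volume 0 s := by
  refine ContinuousOn.intervalIntegrable ?_
  rw [uIcc_of_le hs]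
  exact (D.S0_cont x).mono Icc_subset_Ici_self

/-- `S0(s) M - M = ∫_0^s S0(τ)(lam M - VV M) dτ` -/
theorem free_curve (i : MI) {s : ℝ} (hs : 0 ≤ s) :
    D.S0 s (D.mode i) - D.mode i = ∫ τ in (0 : ℝ)..s, D.S0 τ (YY D i) := by
  have hint := S0_intervalIntegrable D (YY D i) hs
  obtain ⟨ha, ha1, ha2, -⟩ := weight_facts (T.rep_m1 i 2)
  obtain ⟨hb, hb1, hb2, -⟩ := weight_facts (T.rep_m2 i 2)
  refine Prod.ext ?_ ?_
  · refine ext_test fun ψ h1 h2 => ?_
    obtain ⟨C, hC⟩ := h1.continuous.bounded_above_of_compact_support h2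
    have hc : Continuous fun z => (ψ z : ℂ) := Complex.continuous_ofReal.comp h1.continuous
    have hC' : ∀ z, ‖(ψ z : ℂ)‖ ≤ C := fun z => by rw [Complex.norm_real]; exact hC z
    let L : XX N →L[ℂ] ℂ := (lf N (fun z => (ψ z : ℂ)) hc C hC').comp (ContinuousLinearMap.fst ℂ (XN N) (XN N))
    have hL : ∀ x : XX N, L x = ∫ z : R12, (ψ z : ℂ) * (x.1 : R12 → ℂ) z := fun x => rfl
    have e1 : L (D.S0 s (D.mode i) - D.mode i) = L (∫ τ in (0 : ℝ)..s, D.S0 τ (YY D i)) := by
      rw [← L.intervalIntegral_comp_comm hint]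
      have e2 : D.mode i = D.S0 0 (D.mode i) := by rw [D.S0_zero]; rfl
      rw [map_sub]
      conv_lhs => rw [e2]
      have e3 : L (D.S0 s (D.S0 0 (D.mode i))) = L (D.S0 s (D.mode i)) := by rw [← e2]
      rw [e3, hL, hL, test_S0_fst D _ hs, test_S0_fst D _ le_rfl, tst_congr (D.mode_fst i), tst_congr (D.mode_fst i),
        test_curve 1 _ (mlam i : ℂ) ha ha1 ha2 (int_w1 T i) (pde1 T i) h1 h2 s]
      refine intervalIntegral.integral_congr fun τ hτ => ?_
      rw [uIcc_of_le hs] at hτ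
      show _ = L (D.S0 τ (YY D i))
      rw [hL, test_S0_fst D _ hτ.1, tst_congr (YY_fst D i)]
    exact e1
  · refine ext_test fun ψ h1 h2 => ?_
    obtain ⟨C, hC⟩ := h1.continuous.bounded_above_of_compact_support h2
    have hc : Continuous fun z => (ψ z : ℂ) := Complex.continuous_ofReal.comp h1.continuous
    have hC' : ∀ z, ‖(ψ z : ℂ)‖ ≤ C := fun z => by rw [Complex.norm_real]; exact hC z
    let L : XX N →L[ℂ] ℂ := (lf N (fun z => (ψ z : ℂ)) hc C hC').comp (ContinuousLinearMap.snd ℂ (XN N) (XN N))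
    have hL : ∀ x : XX N, L x = ∫ z : R12, (ψ z : ℂ) * (x.2 : R12 → ℂ) z := fun x => rfl
    have e1 : L (D.S0 s (D.mode i) - D.mode i) = L (∫ τ in (0 : ℝ)..s, D.S0 τ (YY D i)) := by
      rw [← L.intervalIntegral_comp_comm hint]
      have e2 : D.mode i = D.S0 0 (D.mode i) := by rw [D.S0_zero]; rfl
      rw [map_sub]
      conv_lhs => rw [e2]
      have e3 : L (D.S0 s (D.S0 0 (D.mode i))) = L (D.S0 s (D.mode i)) := by rw [← e2]
      rw [e3, hL, hL, test_S0_snd D _ hs, test_S0_snd D _ le_rfl, tst_congr (D.mode_snd i), tst_congr (D.mode_snd i),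
        test_curve (-1) _ (mlam i : ℂ) hb hb1 hb2 (int_w2 T i) (pde2 T i) h1 h2 s]
      refine intervalIntegral.integral_congr fun τ hτ => ?_
      rw [uIcc_of_le hs] at hτ
      show _ = L (D.S0 τ (YY D i))
      rw [hL, test_S0_snd D _ hτ.1, tst_congr (YY_snd D i)]
    exact e1

end flow

end Crest.Agent.R086.DM
end

-- ▼ part R086/DLInd
section

set_option autoImplicit false

open MeasureTheory Complex Set Function Filter
open scoped ContDiff Topology

namespace Crest.Agent.R086.DL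

variable {n : ℕ} (P : Profile n)

lemma Q_tendsto (y v : R12) (hv : v ≠ 0) :
    Tendsto (fun t : ℝ => ‖P.Q (y + t • v)‖) atTop (𝓝 0) := by
  obtain ⟨C, hC⟩ := P.decay 0
  have hn : (0 : ℝ) < n := by have := P.two_le; exact_mod_cast (by omega : 0 < n)
  have h1 : Tendsto (fun t : ℝ => 1 + ‖y + t • v‖) atTop atTop := by
    apply tendsto_atTop_add_const_left
    have h2 : ∀ t : ℝ, 0 ≤ t → t * ‖v‖ - ‖y‖ ≤ ‖y + t • v‖ := by
      intro t ht
      have := norm_sub_norm_le (t • v) (-y)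
      rw [norm_smul, norm_neg, Real.norm_of_nonneg ht, sub_neg_eq_add, add_comm (t • v)] at this
      exact this
    apply tendsto_atTop_mono' atTop (f₁ := fun t : ℝ => t * ‖v‖ - ‖y‖)
    · filter_upwards [eventually_ge_atTop 0] with t ht using h2 t ht
    · apply tendsto_atTop_add_const_right
      exact tendsto_id.atTop_mul_const (norm_pos_iff.2 hv)
  have h3 : Tendsto (fun t : ℝ => C * (1 + ‖y + t • v‖) ^ (-(2 : ℝ) / n - (0 : ℕ))) atTop (𝓝 (C * 0)) := by
    apply Tendsto.const_mul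
    have : (-(2 : ℝ) / n - (0 : ℕ)) = -(2 / n) := by push_cast; ring
    rw [this]
    exact (tendsto_rpow_neg_atTop (by positivity)).comp h1
  rw [mul_zero] at h3
  refine squeeze_zero (fun _ => norm_nonneg _) (fun t => ?_) h3
  have := hC (y + t • v)
  rwa [norm_iteratedFDeriv_zero] at this

/-- real coefficients: no nontrivial real relation between the modes -/
lemma real_indep (a : MI → ℝ) (h : ∀ y, ∑ i, (a i : ℂ) * P.mode1 i y = 0) : a = 0 := by
  have hn : (0 : ℝ) < n := by have := P.two_le; exact_mod_cast (by omega : 0 < n)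
  have hnC : (n : ℂ) ≠ 0 := by exact_mod_cast hn.ne'
  have hdiff : Differentiable ℝ P.Q := P.smooth.differentiable (by simp)
  set a0 := a none with ha0
  set a1 := a (some none) with ha1
  set v : R12 := WithLp.toLp 2 (fun j => a (some (some j))) with hv
  have hvsum : v = ∑ j : Fin 12, a (some (some j)) • ei j := by
    ext i
    have : ∀ j : Fin 12, (a (some (some j)) • ei j : R12) i = if i = j then a (some (some j)) else 0 := by
      intro j
      simp [ei, EuclideanSpace.single_apply]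
    rw [WithLp.ofLp_sum, Finset.sum_apply]
    simp only [this]
    simp [hv]
  -- the relation
  have hrel : ∀ y, (a0 : ℂ) * (I * P.Q y) + (a1 : ℂ) * (((1 : ℂ) / n - I * P.om) * P.Q y
      + (1 / 2) * fderiv ℝ P.Q y y) + fderiv ℝ P.Q y v = 0 := by
    intro y
    have h1 := h y
    rw [Fintype.sum_option, Fintype.sum_option] at h1
    have h2 : fderiv ℝ P.Q y v = ∑ j : Fin 12, (a (some (some j)) : ℂ) * P.mode1 (some (some j)) y := by
      rw [hvsum, map_sum]
      apply Finset.sum_congr rfl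
      intro j _
      rw [map_smul, Complex.real_smul]
      rfl
    rw [h2, ← h1]
    simp only [Profile.mode1, eul]
    ring
  by_cases hA : a1 = 0
  · -- transport case
    have hrel' : ∀ y, fderiv ℝ P.Q y v = -((a0 : ℂ) * I) * P.Q y := by
      intro y
      have := hrel y
      rw [hA] at this
      simp only [ofReal_zero, zero_mul, add_zero] at this
      linear_combination this
    have hv0 : v = 0 := by
      by_contra hne
      -- |Q| constant along the line
      have hder : ∀ t : ℝ, HasDerivAt (fun t : ℝ => exp ((a0 : ℂ) * I * t) * P.Q (0 + t • v)) 0 t := by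
        intro t
        have e1 : HasDerivAt (fun t : ℝ => P.Q (0 + t • v)) (fderiv ℝ P.Q (0 + t • v) v) t := by
          have l1 : HasDerivAt (fun t : ℝ => (0 : R12) + t • v) v t := by
            simpa using ((hasDerivAt_id t).smul_const v).const_add (0 : R12)
          exact (hdiff _).hasFDerivAt.comp_hasDerivAt t l1
        have e2 : HasDerivAt (fun t : ℝ => exp ((a0 : ℂ) * I * t)) (exp ((a0 : ℂ) * I * t) * ((a0 : ℂ) * I)) t := by
          have l2 : HasDerivAt (fun t : ℝ => (a0 : ℂ) * I * (t : ℂ)) ((a0 : ℂ) * I) t := by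
            simpa using (Complex.ofRealCLM.hasDerivAt (x := t)).const_mul ((a0 : ℂ) * I)
          exact l2.cexp
        have e3 := e2.mul e1
        rw [hrel'] at e3
        have e5 : exp ((a0 : ℂ) * I * t) * ((a0 : ℂ) * I) * P.Q (0 + t • v)
            + exp ((a0 : ℂ) * I * t) * (-((a0 : ℂ) * I) * P.Q (0 + t • v)) = 0 := by ring
        rw [e5] at e3
        exact e3
      have hconst : ∀ t : ℝ, exp ((a0 : ℂ) * I * t) * P.Q (0 + t • v) = P.Q 0 := by
        intro t
        have := is_const_of_deriv_eq_zero (f := fun t : ℝ => exp ((a0 : ℂ) * I * t) * P.Q (0 + t • v))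
          (fun t => (hder t).differentiableAt) (fun t => (hder t).deriv) t 0
        simpa using this
      have hnorm : ∀ t : ℝ, ‖P.Q (0 + t • v)‖ = ‖P.Q 0‖ := by
        intro t
        rw [← hconst t, norm_mul, Complex.norm_exp]
        simp
      have hl := Q_tendsto P 0 v hne
      simp only [hnorm] at hl
      have := tendsto_nhds_unique hl tendsto_const_nhds
      exact P.Q_zero (norm_eq_zero.1 this.symm)
    have ha0' : a0 = 0 := by
      have h2 := hrel' 0
      rw [hv0, map_zero] at h2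
      have h3 : (a0 : ℂ) * I * P.Q 0 = 0 := by linear_combination h2
      rcases mul_eq_zero.1 h3 with h4 | h4
      · rcases mul_eq_zero.1 h4 with h5 | h5
        · exact_mod_cast h5
        · exact absurd h5 I_ne_zero
      · exact absurd h4 P.Q_zero
    funext i
    match i with
    | none => exact ha0'
    | some none => exact hA
    | some (some j) =>
      have := congrArg (fun w : R12 => w j) hv0
      simpa [hv] using this
  · -- dilation case: contradiction
    exfalso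
    have hA' : (a1 : ℂ) ≠ 0 := by exact_mod_cast hA
    set y0 : R12 := (-2 / a1) • v with hy0
    set κ : ℂ := 2 * ((a0 : ℂ) * I + (a1 : ℂ) * ((1 : ℂ) / n - I * P.om)) / a1 with hκ
    have hκre : κ.re = 2 / n := by
      have : κ = (2 / n : ℝ) + (2 * (a0 / a1 - P.om) : ℝ) * I := by
        rw [hκ]; push_cast; field_simp; ring
      rw [this]
      simp
    have hrel' : ∀ y, fderiv ℝ P.Q y (y - y0) = -κ * P.Q y := by
      intro y
      have h1 := hrel y
      rw [map_sub, hy0, map_smul, Complex.real_smul, hκ]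
      push_cast
      have h5 : fderiv ℝ P.Q y y - -2 / (a1 : ℂ) * fderiv ℝ P.Q y v
          + 2 * ((a0 : ℂ) * I + (a1 : ℂ) * ((1 : ℂ) / n - I * P.om)) / a1 * P.Q y
          = (2 / (a1 : ℂ)) * ((a0 : ℂ) * (I * P.Q y) + (a1 : ℂ) * (((1 : ℂ) / n - I * P.om) * P.Q y
      + (1 / 2) * fderiv ℝ P.Q y y) + fderiv ℝ P.Q y v) := by
        field_simp
        ring
      rw [h1, mul_zero] at h5
      linear_combination h5
    -- path
    have hder : ∀ t : ℝ, HasDerivAt (fun t : ℝ => exp (κ * t) * P.Q (y0 + Real.exp t • (-y0))) 0 t := by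
      intro t
      have e1 : HasDerivAt (fun t : ℝ => P.Q (y0 + Real.exp t • (-y0)))
          (fderiv ℝ P.Q (y0 + Real.exp t • (-y0)) (Real.exp t • (-y0))) t := by
        have l1 : HasDerivAt (fun t : ℝ => y0 + Real.exp t • (-y0)) (Real.exp t • (-y0)) t :=
          ((Real.hasDerivAt_exp t).smul_const (-y0)).const_add y0
        exact (hdiff _).hasFDerivAt.comp_hasDerivAt t l1
      have e2 : HasDerivAt (fun t : ℝ => exp (κ * t)) (exp (κ * t) * κ) t := by
        have l2 : HasDerivAt (fun t : ℝ => κ * (t : ℂ)) κ t := by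
          simpa using (Complex.ofRealCLM.hasDerivAt (x := t)).const_mul κ
        exact l2.cexp
      have e3 := e2.mul e1
      have e4 := hrel' (y0 + Real.exp t • (-y0))
      rw [add_sub_cancel_left] at e4
      rw [e4] at e3
      have e5 : exp (κ * t) * κ * P.Q (y0 + Real.exp t • (-y0))
          + exp (κ * t) * (-κ * P.Q (y0 + Real.exp t • (-y0))) = 0 := by ring
      rw [e5] at e3
      exact e3
    have hconst : ∀ t : ℝ, exp (κ * t) * P.Q (y0 + Real.exp t • (-y0)) = P.Q 0 := by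
      intro t
      have := is_const_of_deriv_eq_zero (f := fun t : ℝ => exp (κ * t) * P.Q (y0 + Real.exp t • (-y0)))
        (fun t => (hder t).differentiableAt) (fun t => (hder t).deriv) t 0
      simpa using this
    have hlim : Tendsto (fun t : ℝ => exp (κ * t) * P.Q (y0 + Real.exp t • (-y0))) atBot (𝓝 (0 * P.Q (y0 + (0:ℝ) • (-y0)))) := by
      apply Tendsto.mul
      · rw [tendsto_zero_iff_norm_tendsto_zero]
        have : (fun t : ℝ => ‖exp (κ * t)‖) = fun t : ℝ => Real.exp (2 / n * t) := by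
          ext t
          rw [Complex.norm_exp]
          congr 1
          simp [hκre]
        rw [this]
        exact Real.tendsto_exp_atBot.comp (tendsto_id.const_mul_atBot (by positivity))
      · apply (P.smooth.continuous.tendsto _).comp
        apply Tendsto.const_add
        exact Real.tendsto_exp_atBot.smul_const _
    rw [zero_mul] at hlim
    simp only [hconst] at hlim
    exact P.Q_zero (tendsto_nhds_unique tendsto_const_nhds hlim)

theorem mode_indep (T : Pot P) (N : ℕ) (D : LinData P T N) (c : MI → ℂ)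
    (hc : ∑ i, c i • D.mode i = 0) : c = 0 := by
  have hmode1 : ∀ i, ft (D.mode i).1 = P.mode1 i := fun i => by
    rw [ft_congr (D.mode_fst i)]; exact (rep_ft (T.rep_m1 i N)).symm
  have hmode2 : ∀ i, ft (D.mode i).2 = P.mode2 i := fun i => by
    rw [ft_congr (D.mode_snd i)]; exact (rep_ft (T.rep_m2 i N)).symm
  have h1 : ∀ y, ∑ i, c i * P.mode1 i y = 0 := by
    intro y
    have := congrArg (fun x : XX N => ft x.1 y) hc
    simp only [Prod.fst_sum, ft_sum, Prod.smul_fst, ft_smul, hmode1] at this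
    rw [this]
    exact ft_zero y
  have h2 : ∀ y, ∑ i, c i * P.mode2 i y = 0 := by
    intro y
    have := congrArg (fun x : XX N => ft x.2 y) hc
    simp only [Prod.snd_sum, ft_sum, Prod.smul_snd, ft_smul, hmode2] at this
    rw [this]
    exact ft_zero y
  have h3 : ∀ y, ∑ i, (starRingEnd ℂ) (c i) * P.mode1 i y = 0 := by
    intro y
    have := congrArg (starRingEnd ℂ) (h2 y)
    rw [map_sum, map_zero] at this
    rw [← this]
    apply Finset.sum_congr rfl
    intro i _
    rw [map_mul, Profile.mode2, Complex.conj_conj]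
  have hre : (fun i => (c i).re) = 0 := by
    apply real_indep P
    intro y
    have e : ∀ i, (((c i).re : ℝ) : ℂ) * P.mode1 i y
        = (1/2 : ℂ) * (c i * P.mode1 i y + (starRingEnd ℂ) (c i) * P.mode1 i y) := by
      intro i
      rw [← add_mul, Complex.add_conj]; push_cast; ring
    simp only [e]
    rw [← Finset.mul_sum, Finset.sum_add_distrib, h1 y, h3 y]; ring
  have him : (fun i => (c i).im) = 0 := by
    apply real_indep P
    intro y
    have e : ∀ i, (((c i).im : ℝ) : ℂ) * P.mode1 i y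
        = (-I/2 : ℂ) * (c i * P.mode1 i y - (starRingEnd ℂ) (c i) * P.mode1 i y) := by
      intro i
      rw [← sub_mul, Complex.sub_conj]
      push_cast
      linear_combination (((c i).im : ℂ) * P.mode1 i y) * Complex.I_sq
    simp only [e]
    rw [← Finset.mul_sum, Finset.sum_sub_distrib, h1 y, h3 y]; ring
  funext i
  apply Complex.ext
  · exact congrFun hre i
  · exact congrFun him i

end Crest.Agent.R086.DL
end

-- ▼ part R086/DMain
section

/-!
Row 86 (helper839), node MODE: eigenvector property and reality.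
-/

set_option autoImplicit false
set_option linter.style.longLine false

open MeasureTheory Complex Filter Topology Set
open scoped ContDiff FourierTransform

namespace Crest.Agent.R086.DM

section flow
variable {n : ℕ} {P : Profile n} {T : Pot P} {N : ℕ} (D : LinData P T N)

theorem hasDerivAt_S0_mode (i : MI) {τ : ℝ} (hτ : 0 < τ) :
    HasDerivAt (fun t => D.S0 t (D.mode i)) (D.S0 τ (YY D i)) τ := by
  have hint := S0_intervalIntegrable D (YY D i) hτ.le
  have hc : ContinuousOn (fun t => D.S0 t (YY D i)) (Ioi 0) := (D.S0_cont _).mono Ioi_subset_Ici_self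
  have hca : ContinuousAt (fun t => D.S0 t (YY D i)) τ := hc.continuousAt (Ioi_mem_nhds hτ)
  have hm : StronglyMeasurableAtFilter (fun t => D.S0 t (YY D i)) (𝓝 τ) volume :=
    ContinuousOn.stronglyMeasurableAtFilter isOpen_Ioi hc τ hτ
  have h := intervalIntegral.integral_hasDerivAt_right hint hm hca
  have h2 := h.const_add (D.mode i)
  refine h2.congr_of_eventuallyEq ?_
  filter_upwards [Ioi_mem_nhds hτ] with t ht
  rw [← free_curve D i (le_of_lt ht)]
  abel

theorem hasDerivAt_ee (lam : ℝ) (r : ℝ) :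
    HasDerivAt (fun r : ℝ => ((Real.exp (lam * r) : ℝ) : ℂ)) ((lam : ℂ) * ((Real.exp (lam * r) : ℝ) : ℂ)) r := by
  have h1 : HasDerivAt (fun r : ℝ => Real.exp (lam * r)) (Real.exp (lam * r) * lam) r := by
    have := ((hasDerivAt_id r).const_mul lam).exp
    simpa using this
  have h2 := h1.ofReal_comp
  refine h2.congr_deriv ?_
  push_cast
  ring

theorem continuous_ee (lam : ℝ) : Continuous (fun r : ℝ => ((Real.exp (lam * r) : ℝ) : ℂ)) := by
  fun_prop

theorem duh_mode (i : MI) {s : ℝ} (hs : 0 ≤ s) :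
    ((Real.exp (mlam i * s) : ℝ) : ℂ) • D.mode i = D.S0 s (D.mode i) +
      ∫ r in (0 : ℝ)..s, D.S0 (s - r) (D.VV (((Real.exp (mlam i * r) : ℝ) : ℂ) • D.mode i)) := by
  have hcS : ∀ x : XX N, ContinuousOn (fun r => D.S0 (s - r) x) (Icc 0 s) := by
    intro x
    refine (D.S0_cont x).comp (by fun_prop) fun r hr => ?_
    simp only [mem_Ici, sub_nonneg]; exact hr.2
  have key := intervalIntegral.integral_eq_sub_of_hasDerivAt_of_le (a := 0) (b := s)
    (f := fun r => ((Real.exp (mlam i * r) : ℝ) : ℂ) • D.S0 (s - r) (D.mode i))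
    (f' := fun r => D.S0 (s - r) (D.VV (((Real.exp (mlam i * r) : ℝ) : ℂ) • D.mode i))) hs ?_ ?_ ?_
  · rw [key]
    simp only [sub_self, mul_zero, Real.exp_zero, Complex.ofReal_one, one_smul, sub_zero, D.S0_zero]
    rw [add_sub_cancel]
    rfl
  · exact (continuous_ee _).continuousOn.smul (hcS _)
  · intro r hr
    have h1 : HasDerivAt (fun r => D.S0 (s - r) (D.mode i)) (-(D.S0 (s - r) (YY D i))) r := by
      have h0 := hasDerivAt_S0_mode D i (τ := s - r) (by linarith [hr.2])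
      have h2 : HasDerivAt (fun r => s - r) (-1 : ℝ) r := by simpa using (hasDerivAt_id r).const_sub s
      exact (h0.scomp r h2).congr_deriv (by simp)
    have h4 := (hasDerivAt_ee (mlam i) r).smul h1
    refine h4.congr_deriv ?_
    unfold YY
    simp only [map_sub, map_smul]
    module
  · refine ContinuousOn.intervalIntegrable ?_
    rw [uIcc_of_le hs]
    have e : (fun r => D.S0 (s - r) (D.VV (((Real.exp (mlam i * r) : ℝ) : ℂ) • D.mode i))) =
        fun r => ((Real.exp (mlam i * r) : ℝ) : ℂ) • D.S0 (s - r) (D.VV (D.mode i)) := by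
      funext r; rw [map_smul, map_smul]
    rw [e]
    exact (continuous_ee _).continuousOn.smul (hcS _)

theorem mode_eig (i : MI) {s : ℝ} (hs : 0 ≤ s) :
    D.S s (D.mode i) = ((Real.exp (mlam i * s) : ℝ) : ℂ) • D.mode i := by
  have h := DL.forced n P T N D s hs (fun r => ((Real.exp (mlam i * r) : ℝ) : ℂ) • D.mode i) (fun _ => 0)
    ((continuous_ee _).smul continuous_const).continuousOn continuousOn_const ?_ s ⟨hs, le_rfl⟩
  · simp only [mul_zero, Real.exp_zero, Complex.ofReal_one, one_smul, map_zero,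
      intervalIntegral.integral_zero, add_zero] at h
    exact h.symm
  · intro r hr
    have := duh_mode D i hr.1
    simp only [mul_zero, Real.exp_zero, Complex.ofReal_one, one_smul, add_zero]
    exact this

/-! ### reality -/

theorem ft_conj (a : R12 → ℂ) (y : R12) :
    ft (fun ζ => starRingEnd ℂ (a (-ζ))) y = starRingEnd ℂ (ft a y) := by
  unfold ft
  rw [← integral_conj, ← integral_neg_eq_self]
  refine integral_congr_ae (Eventually.of_forall fun ζ => ?_)
  simp only [neg_neg, map_mul, ← Complex.exp_conj, Complex.conj_I, Complex.conj_ofReal, inner_neg_left]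
  push_cast
  ring_nf

theorem int_conj {a : R12 → ℂ} (ha : Integrable a) : Integrable fun ζ => starRingEnd ℂ (a (-ζ)) :=
  Complex.conjCLE.toContinuousLinearMap.integrable_comp ha.comp_neg

theorem ft_inj_fun {a b : R12 → ℂ} (ha : Integrable a) (hb : Integrable b) (h : ∀ y, ft a y = ft b y) :
    a =ᵐ[volume] b := by
  have h0 := DL.ft_zero_ae (a := fun z => a z - b z) (ha.sub hb) (fun y => by
    have e : ft (fun z => a z - b z) y = ft a y - ft b y := by
      unfold ft
      rw [← integral_sub (DGen.integrable_ftterm ha y) (DGen.integrable_ftterm hb y)]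
      refine integral_congr_ae (Eventually.of_forall fun ζ => ?_)
      simp only; ring
    rw [e, h y, sub_self])
  filter_upwards [h0] with z hz
  exact sub_eq_zero.1 hz

/-- conjugate functions have conjugate densities -/
theorem conj_dens {a b f g : R12 → ℂ} (ha : Rep 2 a f) (hb : Rep 2 b g) (h : ∀ y, g y = starRingEnd ℂ (f y)) :
    b =ᵐ[volume] fun z => starRingEnd ℂ (a (-z)) := by
  refine ft_inj_fun (DGen.integrable_rep hb) (int_conj (DGen.integrable_rep ha)) fun y => ?_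
  rw [ft_conj, DGen.ft_rep ha, DGen.ft_rep hb, h]

theorem m2_conj (i : MI) : T.m2 i =ᵐ[volume] fun z => starRingEnd ℂ (T.m1 i (-z)) :=
  conj_dens (T.rep_m1 i 2) (T.rep_m2 i 2) fun _ => rfl

theorem v1_conj : T.v1 =ᵐ[volume] fun z => starRingEnd ℂ (T.v1 (-z)) :=
  conj_dens (T.rep_v1 2) (T.rep_v1 2) fun y => (conj_V1 P y).symm

theorem v2_conj : T.v2c =ᵐ[volume] fun z => starRingEnd ℂ (T.v2 (-z)) :=
  conj_dens (T.rep_v2 2) (T.rep_v2c 2) fun y => (conj_V2 P y).symm

theorem v2c_conj : T.v2 =ᵐ[volume] fun z => starRingEnd ℂ (T.v2c (-z)) :=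
  conj_dens (T.rep_v2c 2) (T.rep_v2 2) fun y => by rw [← conj_V2 P y, Complex.conj_conj]

theorem ae_neg {p : R12 → Prop} (h : ∀ᵐ z ∂(volume : Measure R12), p z) :
    ∀ᵐ z ∂(volume : Measure R12), p (-z) :=
  (Measure.measurePreserving_neg (volume : Measure R12)).quasiMeasurePreserving.ae h

theorem ae_dil {p : R12 → Prop} (h : ∀ᵐ z ∂(volume : Measure R12), p z) {c : ℝ} (hc : c ≠ 0) :
    ∀ᵐ z ∂(volume : Measure R12), p (c • z) := by
  have hq : Measure.QuasiMeasurePreserving (fun z : R12 => c • z) volume volume := by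
    refine ⟨measurable_const_smul c, ?_⟩
    rw [Measure.map_addHaar_smul _ hc]
    exact Measure.smul_absolutelyContinuous
  exact hq.ae h

theorem mode_real (i : MI) : IsReal (D.mode i) := by
  filter_upwards [D.mode_snd i, m2_conj (T := T) i, ae_neg (D.mode_fst i)] with z h1 h2 h3
  rw [h1, h2, h3]

theorem J_vol {N : ℕ} (a : XN N) :
    ((DL.J N a : XN N) : R12 → ℂ) =ᵐ[volume] fun z => (starRingEnd ℂ) ((a : R12 → ℂ) (-z)) :=
  DGen.ac_muN.ae_le (DL.J_coe a)

theorem rsmul (c : ℝ) (x : XN N) : c • x = ((c : ℝ) : ℂ) • x := by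
  apply Lp.ext
  filter_upwards [Lp.coeFn_smul c x, Lp.coeFn_smul ((c : ℝ) : ℂ) x] with z h1 h2
  rw [h1, h2, Pi.smul_apply, Pi.smul_apply, Complex.real_smul, smul_eq_mul]

/-- conjugation on `XN` as a real continuous linear map -/
noncomputable def JL (N : ℕ) : XN N →L[ℝ] XN N :=
  LinearMap.mkContinuous
    { toFun := DL.J N
      map_add' := DL.J_add
      map_smul' := fun c x => by
        have h := DL.J_smul ((c : ℝ) : ℂ) x
        rw [Complex.conj_ofReal] at h
        rw [RingHom.id_apply, rsmul, rsmul, h] } 1 (fun x => by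
      simp only [LinearMap.coe_mk, AddHom.coe_mk]
      rw [DL.J_norm, one_mul])

/-- the conjugation of pairs -/
noncomputable def JJ (N : ℕ) : XX N →L[ℝ] XX N :=
  ((JL N).comp (ContinuousLinearMap.snd ℝ (XN N) (XN N))).prod
    ((JL N).comp (ContinuousLinearMap.fst ℝ (XN N) (XN N)))

theorem JJ_fst (x : XX N) : (JJ N x).1 = DL.J N x.2 := rfl
theorem JJ_snd (x : XX N) : (JJ N x).2 = DL.J N x.1 := rfl

theorem cv_conj (v a : R12 → ℂ) (z : R12) :
    starRingEnd ℂ (cv v a (-z)) = cv (fun ξ => starRingEnd ℂ (v (-ξ))) (fun ξ => starRingEnd ℂ (a (-ξ))) z := by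
  unfold cv
  rw [← integral_conj, ← integral_neg_eq_self]
  refine integral_congr_ae (Eventually.of_forall fun ξ => ?_)
  simp only [map_mul]
  congr 3
  abel

theorem xn_ext {p q : XN N} (h : (p : R12 → ℂ) =ᵐ[volume] (q : R12 → ℂ)) : p = q := by
  apply Lp.ext
  rw [Filter.EventuallyEq, DL.ae_muN_iff]
  exact h

theorem JJ_S0 {s : ℝ} (hs : 0 ≤ s) (x : XX N) : JJ N (D.S0 s x) = D.S0 s (JJ N x) := by
  have hc : Real.exp (s / 2) ≠ 0 := (Real.exp_pos _).ne'
  refine Prod.ext (xn_ext ?_) (xn_ext ?_)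
  · filter_upwards [J_vol (D.S0 s x).2, D.S0_fst s hs (JJ N x), ae_neg (D.S0_snd s hs x),
      ae_dil (J_vol x.2) hc] with z h1 h2 h3 h4
    rw [JJ_fst, h1, h2, h3, JJ_fst, h4]
    simp only [map_mul, ← Complex.exp_conj, norm_neg, smul_neg, Complex.conj_I, Complex.conj_ofReal,
      map_sub, map_neg, map_div₀, map_one, map_natCast, map_ofNat, neg_neg]
  · filter_upwards [J_vol (D.S0 s x).1, D.S0_snd s hs (JJ N x), ae_neg (D.S0_fst s hs x),
      ae_dil (J_vol x.1) hc] with z h1 h2 h3 h4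
    rw [JJ_snd, h1, h2, h3, JJ_snd, h4]
    simp only [map_mul, ← Complex.exp_conj, norm_neg, smul_neg, Complex.conj_I, Complex.conj_ofReal,
      map_sub, map_neg, map_div₀, map_one, map_natCast, map_ofNat, neg_neg]

theorem JJ_VV (x : XX N) : JJ N (D.VV x) = D.VV (JJ N x) := by
  refine Prod.ext (xn_ext ?_) (xn_ext ?_)
  · filter_upwards [J_vol (D.VV x).2, D.VV_fst (JJ N x), ae_neg (D.VV_snd x)] with z h1 h2 h3
    rw [JJ_fst, h1, h2, h3, JJ_fst, JJ_snd, cv_congr (J_vol x.2), cv_congr (J_vol x.1), map_mul, map_add,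
      cv_conj, cv_conj, cv_congr_left (v1_conj (T := T)), cv_congr_left (v2c_conj (T := T)), Complex.conj_I]
  · filter_upwards [J_vol (D.VV x).1, D.VV_snd (JJ N x), ae_neg (D.VV_fst x)] with z h1 h2 h3
    rw [JJ_snd, h1, h2, h3, JJ_fst, JJ_snd, cv_congr (J_vol x.2), cv_congr (J_vol x.1), map_mul, map_add,
      cv_conj, cv_conj, cv_congr_left (v1_conj (T := T)), cv_congr_left (v2_conj (T := T)), map_neg,
      Complex.conj_I, neg_neg]

theorem JJ_S {s : ℝ} (hs : 0 ≤ s) (x : XX N) : JJ N (D.S s x) = D.S s (JJ N x) := by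
  have h := DL.forced n P T N D s hs (fun r => JJ N (D.S r x)) (fun _ => 0) ?_ continuousOn_const ?_ s ⟨hs, le_rfl⟩
  · simp only [map_zero, intervalIntegral.integral_zero, add_zero, D.S_zero] at h
    exact h
  · exact (JJ N).continuous.comp_continuousOn ((D.S_cont x).mono Icc_subset_Ici_self)
  · intro r hr
    have hcont : ContinuousOn (fun q => D.S0 (r - q) (D.VV (D.S q x))) (Icc 0 r) :=
      DGen.cont_duh D (((D.VV).continuous.comp_continuousOn ((D.S_cont x).mono Icc_subset_Ici_self)))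
    have hint : IntervalIntegrable (fun q => D.S0 (r - q) (D.VV (D.S q x))) volume 0 r := by
      refine ContinuousOn.intervalIntegrable ?_
      rw [uIcc_of_le hr.1]; exact hcont
    have e := congrArg (JJ N) (D.duh r hr.1 x)
    rw [map_add, ← (JJ N).intervalIntegral_comp_comm hint] at e
    simp only [add_zero]
    rw [e, JJ_S0 D hr.1, D.S_zero]
    congr 1
    refine intervalIntegral.integral_congr fun q hq => ?_
    rw [uIcc_of_le hr.1] at hq
    show JJ N (D.S0 (r - q) (D.VV (D.S q x))) = D.S0 (r - q) (D.VV (JJ N (D.S q x)))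
    rw [JJ_S0 D (by linarith [hq.2]), JJ_VV]

theorem S_real {s : ℝ} (hs : 0 ≤ s) (x : XX N) (hx : IsReal x) : IsReal (D.S s x) := by
  have hx' : JJ N x = x := by
    have h2 := (DL.isReal_iff x).1 hx
    refine Prod.ext ?_ ?_
    · rw [JJ_fst, h2, DL.J_J]
    · rw [JJ_snd, ← h2]
  rw [DL.isReal_iff, ← JJ_snd, JJ_S D hs, hx']

end flow

/-- NODE MODE -/
theorem modeStmt : ModeStmt := fun _ P T N D =>
  ⟨fun _ hs i => mode_eig D i hs, fun i => mode_real D i, fun _ hs x hx => S_real D hs x hx,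
    fun c hc => DL.mode_indep P T N D c hc⟩

end Crest.Agent.R086.DM
end

-- ▼ part R086/DEsi
section

/-!
Row 86, Part D, module DE (helper733): strong integrals of compact operators (special case).
-/

set_option autoImplicit false

open MeasureTheory Filter Set
open scoped Topology

namespace Crest.Agent.R086.DE

variable {X : Type*} [NormedAddCommGroup X] [NormedSpace ℂ X] [CompleteSpace X]

/-- `x ↦ ∫₀ᵀ S(T-r) C G(r) x dr` is compact if `C` is compact. -/
theorem isCompact_strong_integral {S G : ℝ → X →L[ℂ] X} {C K : X →L[ℂ] X} {T M : ℝ} (hT : 0 < T)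
    (hS : ∀ x, ContinuousOn (fun s => S s x) (Ici 0))
    (hG : ∀ x, ContinuousOn (fun s => G s x) (Ici 0))
    (hGM : ∀ r, 0 ≤ r → ∀ x, ‖G r x‖ ≤ M * ‖x‖)
    (hC : IsCompactOperator C)
    (hK : ∀ x, K x = ∫ r in (0 : ℝ)..T, S (T - r) (C (G r x))) :
    IsCompactOperator K := by
  have hM : 0 ≤ |M| := abs_nonneg M
  obtain ⟨Z, hZ, hCZ⟩ := IsCompactOperator.image_closedBall_subset_compact
    (f := (C : X →ₗ[ℂ] X)) hC |M|
  have hj := DL.joint_cont hS
  set W : Set X := (fun p : ℝ × X => S (max p.1 0) p.2) '' (Icc 0 T ×ˢ Z) with hW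
  have hWc : IsCompact W := (isCompact_Icc.prod hZ).image hj
  set K' : Set X := closedAbsConvexHull ℝ W with hK'
  have hK'c : IsCompact K' := isCompact_closedAbsConvexHull_of_totallyBounded hWc.totallyBounded
  have hconv : Convex ℝ K' := absConvex_convexClosedHull.2
  have hcl : IsClosed K' := isClosed_closedAbsConvexHull
  have hsub : W ⊆ K' := subset_closedAbsConvexHull
  have hTc : IsCompact ((fun y : X => T • y) '' K') := hK'c.image (continuous_const_smul T)
  rw [isCompactOperator_iff_exists_mem_nhds_image_subset_compact]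
  refine ⟨Metric.closedBall 0 1, Metric.closedBall_mem_nhds 0 one_pos, _, hTc, ?_⟩
  rintro _ ⟨x, hx, rfl⟩
  have hx1 : ‖x‖ ≤ 1 := by simpa using hx
  -- the integrand
  have hmem : ∀ r ∈ Icc (0 : ℝ) T, S (T - r) (C (G r x)) ∈ W := by
    intro r hr
    refine ⟨(T - r, C (G r x)), ⟨⟨by linarith [hr.2], by linarith [hr.1]⟩, ?_⟩, ?_⟩
    · refine hCZ ⟨G r x, ?_, rfl⟩
      rw [mem_closedBall_zero_iff]
      calc ‖G r x‖ ≤ M * ‖x‖ := hGM r hr.1 x
        _ ≤ |M| * 1 := by
            refine mul_le_mul (le_abs_self M) hx1 (norm_nonneg _) hM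
        _ = |M| := mul_one _
    · simp only
      rw [max_eq_left (by linarith [hr.2])]
  have hcont : ContinuousOn (fun r => S (T - r) (C (G r x))) (Icc 0 T) := by
    have h1 : Continuous (fun r : ℝ => S (max (T - r) 0) (C (G (max r 0) x))) := by
      have h2 : Continuous (fun r : ℝ => G (max r 0) x) :=
        (hG x).comp_continuous (by fun_prop) (fun s => mem_Ici.2 (le_max_right _ _))
      have h3 : Continuous (fun r : ℝ => (T - r, C (G (max r 0) x))) :=
        (by fun_prop : Continuous fun r : ℝ => T - r).prodMk (C.continuous.comp h2)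
      exact hj.comp h3
    refine h1.continuousOn.congr fun r hr => ?_
    simp only
    rw [max_eq_left hr.1, max_eq_left (by linarith [hr.2])]
  have hint : IntegrableOn (fun r => S (T - r) (C (G r x))) (Ioc 0 T) :=
    (hcont.integrableOn_compact isCompact_Icc).mono_set Ioc_subset_Icc_self
  haveI : IsFiniteMeasure ((volume : Measure ℝ).restrict (Ioc 0 T)) := inferInstance
  haveI : NeZero ((volume : Measure ℝ).restrict (Ioc 0 T)) := by
    refine ⟨fun h => ?_⟩
    have := congrArg (fun m : Measure ℝ => m univ) h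
    simp only [Measure.restrict_apply_univ, Real.volume_Ioc, Measure.coe_zero, Pi.zero_apply,
      ENNReal.ofReal_eq_zero] at this
    linarith
  have hav := hconv.average_mem hcl
    ((ae_restrict_mem measurableSet_Ioc).mono fun r hr =>
      hsub (hmem r (Ioc_subset_Icc_self hr))) hint
  refine ⟨_, hav, ?_⟩
  simp only
  rw [hK, intervalIntegral.integral_of_le hT.le]
  have h5 := measure_smul_average ((volume : Measure ℝ).restrict (Ioc 0 T))
    (fun r => S (T - r) (C (G r x)))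
  rw [← h5]
  congr 1
  simp [Measure.real, hT.le]

end Crest.Agent.R086.DE
end

-- ▼ part R086/DEx
section

/-!
Row 86, Part D, module DE (helper733): basic facts on `XN N`, multiplication operators.
-/

set_option autoImplicit false
set_option linter.unusedSectionVars false

open MeasureTheory Filter Set Complex
open scoped Topology ENNReal NNReal

namespace Crest.Agent.R086.DE

open Crest.Agent.R086

variable {N M : ℕ}

theorem one_le_wt (N : ℕ) (ξ : R12) : 1 ≤ wt N ξ :=
  one_le_pow₀ (by linarith [norm_nonneg ξ])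

theorem wt_pos (N : ℕ) (ξ : R12) : 0 < wt N ξ := lt_of_lt_of_le one_pos (one_le_wt N ξ)

theorem wt_nonneg (N : ℕ) (ξ : R12) : 0 ≤ wt N ξ := (wt_pos N ξ).le

@[simp] theorem wt_zero (ξ : R12) : wt 0 ξ = 1 := by simp [wt]

theorem continuous_wt (N : ℕ) : Continuous (wt N) := by
  unfold wt; fun_prop

theorem measurable_wt (N : ℕ) : Measurable (wt N) := (continuous_wt N).measurable

theorem wt_add_le (N : ℕ) (ξ η : R12) : wt N (ξ + η) ≤ wt N ξ * wt N η := by
  unfold wt
  rw [← mul_pow]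
  refine pow_le_pow_left₀ (by positivity) ?_ N
  have h := norm_add_le ξ η
  nlinarith [norm_nonneg ξ, norm_nonneg η, mul_nonneg (norm_nonneg ξ) (norm_nonneg η)]

theorem measurable_dens (N : ℕ) : Measurable fun ξ : R12 => ENNReal.ofReal (wt N ξ) :=
  (measurable_wt N).ennreal_ofReal

theorem muN_ac (N : ℕ) : muN N ≪ volume := withDensity_absolutelyContinuous _ _

theorem ac_muN (N : ℕ) : (volume : Measure R12) ≪ muN N :=
  withDensity_absolutelyContinuous' (measurable_dens N).aemeasurable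
    (Eventually.of_forall fun ξ => by simpa using wt_pos N ξ)


theorem integrable_muN_iff {N : ℕ} {E : Type*} [NormedAddCommGroup E] [NormedSpace ℝ E]
    {f : R12 → E} : Integrable f (muN N) ↔ Integrable (fun ξ => wt N ξ • f ξ) := by
  unfold muN
  rw [integrable_withDensity_iff_integrable_smul' (measurable_dens N)
    (Eventually.of_forall fun ξ => ENNReal.ofReal_lt_top)]
  refine integrable_congr (Eventually.of_forall fun ξ => ?_)
  simp only [ENNReal.toReal_ofReal (wt_nonneg N ξ)]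

theorem integral_muN {N : ℕ} {E : Type*} [NormedAddCommGroup E] [NormedSpace ℝ E]
    (f : R12 → E) : ∫ ξ, f ξ ∂(muN N) = ∫ ξ, wt N ξ • f ξ := by
  unfold muN
  rw [integral_withDensity_eq_integral_toReal_smul (measurable_dens N)
    (Eventually.of_forall fun ξ => ENNReal.ofReal_lt_top)]
  refine integral_congr_ae (Eventually.of_forall fun ξ => ?_)
  simp only [ENNReal.toReal_ofReal (wt_nonneg N ξ)]

theorem norm_XN (a : XN N) : ‖a‖ = ∫ ξ, wt N ξ * ‖a ξ‖ := by
  rw [L1.norm_eq_integral_norm a, integral_muN]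
  rfl

theorem integrable_wt_XN (a : XN N) : Integrable (fun ξ => wt N ξ * ‖a ξ‖) := by
  have h : Integrable (fun ξ => ‖a ξ‖) (muN N) := (L1.integrable_coeFn a).norm
  exact integrable_muN_iff.1 h

theorem aesm_XN (a : XN N) : AEStronglyMeasurable (a : R12 → ℂ) volume :=
  (Lp.stronglyMeasurable a).aestronglyMeasurable

theorem integrable_XN (a : XN N) : Integrable (a : R12 → ℂ) volume := by
  refine (integrable_wt_XN a).mono (aesm_XN a) (Eventually.of_forall fun ξ => ?_)
  rw [Real.norm_of_nonneg (mul_nonneg (wt_nonneg N ξ) (norm_nonneg _))]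
  nlinarith [one_le_wt N ξ, norm_nonneg (a ξ)]

/-- element with given density -/
noncomputable def mkX (N : ℕ) (f : R12 → ℂ) (hf : Integrable (fun ξ => wt N ξ • f ξ)) : XN N :=
  (integrable_muN_iff.2 hf).toL1 f

theorem coe_mkX {f : R12 → ℂ} (hf : Integrable (fun ξ => wt N ξ • f ξ)) :
    (mkX N f hf : R12 → ℂ) =ᵐ[volume] f :=
  (ac_muN N).ae_le (integrable_muN_iff.2 hf).coeFn_toL1

theorem norm_mkX {f : R12 → ℂ} (hf : Integrable (fun ξ => wt N ξ • f ξ)) :
    ‖mkX N f hf‖ = ∫ ξ, wt N ξ * ‖f ξ‖ := by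
  rw [norm_XN]
  refine integral_congr_ae ((coe_mkX hf).mono fun ξ hξ => ?_)
  simp only [hξ]

theorem ext_XN {a b : XN N} (h : (a : R12 → ℂ) =ᵐ[volume] b) : a = b :=
  Lp.ext ((muN_ac N).ae_le h)

theorem coe_add (a b : XN N) : ((a + b : XN N) : R12 → ℂ) =ᵐ[volume] fun ξ => a ξ + b ξ :=
  (ac_muN N).ae_le (Lp.coeFn_add a b)

theorem coe_sub (a b : XN N) : ((a - b : XN N) : R12 → ℂ) =ᵐ[volume] fun ξ => a ξ - b ξ :=
  (ac_muN N).ae_le (Lp.coeFn_sub a b)

theorem coe_smul (c : ℂ) (a : XN N) : ((c • a : XN N) : R12 → ℂ) =ᵐ[volume] fun ξ => c * a ξ :=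
  (ac_muN N).ae_le (Lp.coeFn_smul c a)


/-- data of an admissible multiplier from `XN N` to `XN M` -/
structure Mult (N M : ℕ) where
  m : R12 → ℂ
  meas : Measurable m
  C : ℝ
  C_nonneg : 0 ≤ C
  bd : ∀ ξ, wt M ξ * ‖m ξ‖ ≤ C * wt N ξ

namespace Mult

variable (m : Mult N M)

theorem integrable (a : XN N) : Integrable (fun ξ => wt M ξ • (m.m ξ * a ξ)) := by
  refine ((integrable_wt_XN a).const_mul m.C).mono
    ((continuous_wt M).aestronglyMeasurable.smul
      (m.meas.aestronglyMeasurable.mul (aesm_XN a))) (Eventually.of_forall fun ξ => ?_)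
  rw [norm_smul, Real.norm_of_nonneg (wt_nonneg M ξ), norm_mul, Real.norm_of_nonneg
    (mul_nonneg m.C_nonneg (mul_nonneg (wt_nonneg N ξ) (norm_nonneg _))), ← mul_assoc, ← mul_assoc]
  exact mul_le_mul_of_nonneg_right (m.bd ξ) (norm_nonneg _)

/-- the linear map -/
noncomputable def lin : XN N →ₗ[ℂ] XN M where
  toFun a := mkX M (fun ξ => m.m ξ * a ξ) (m.integrable a)
  map_add' a b := by
    refine ext_XN ((coe_mkX _).trans (EventuallyEq.trans ?_ (coe_add _ _).symm))
    filter_upwards [coe_add a b, coe_mkX (m.integrable a), coe_mkX (m.integrable b)]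
      with ξ h1 h2 h3
    rw [h1, h2, h3, mul_add]
  map_smul' c a := by
    refine ext_XN ((coe_mkX _).trans (EventuallyEq.trans ?_ (coe_smul _ _).symm))
    filter_upwards [coe_smul c a, coe_mkX (m.integrable a)] with ξ h1 h2
    simp only [RingHom.id_apply]
    rw [h1, h2]; ring

/-- the multiplication operator -/
noncomputable def op : XN N →L[ℂ] XN M :=
  m.lin.mkContinuous m.C (fun a => by
    have h1 : ‖m.lin a‖ = ∫ ξ, wt M ξ * ‖m.m ξ * a ξ‖ := norm_mkX (m.integrable a)
    rw [h1, norm_XN a, ← integral_const_mul]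
    refine integral_mono_of_nonneg (Eventually.of_forall fun ξ =>
      mul_nonneg (wt_nonneg M ξ) (norm_nonneg _)) ((integrable_wt_XN a).const_mul _)
      (Eventually.of_forall fun ξ => ?_)
    show wt M ξ * ‖m.m ξ * a ξ‖ ≤ m.C * (wt N ξ * ‖a ξ‖)
    rw [norm_mul, ← mul_assoc, ← mul_assoc]
    exact mul_le_mul_of_nonneg_right (m.bd ξ) (norm_nonneg _))

theorem coe_op (a : XN N) : (m.op a : R12 → ℂ) =ᵐ[volume] fun ξ => m.m ξ * a ξ :=
  coe_mkX (m.integrable a)

theorem norm_op_apply (a : XN N) : ‖m.op a‖ = ∫ ξ, wt M ξ * (‖m.m ξ‖ * ‖a ξ‖) := by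
  have h1 : ‖m.op a‖ = ∫ ξ, wt M ξ * ‖m.m ξ * a ξ‖ := norm_mkX (m.integrable a)
  rw [h1]
  simp only [norm_mul]

theorem norm_op_le (a : XN N) : ‖m.op a‖ ≤ m.C * ‖a‖ :=
  m.lin.mkContinuous_norm_le m.C_nonneg _ |> fun h => (m.op.le_opNorm a).trans
    (mul_le_mul_of_nonneg_right h (norm_nonneg _))

end Mult

/-- inclusion `XN N → XN 0` -/
noncomputable def mJ0 (N : ℕ) : Mult N 0 where
  m := fun _ => 1
  meas := measurable_const
  C := 1
  C_nonneg := zero_le_one
  bd ξ := by simpa using one_le_wt N ξ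

/-- `a ↦ |ξ|^N a` -/
noncomputable def mJ1 (N : ℕ) : Mult N 0 where
  m := fun ξ => ((‖ξ‖ ^ N : ℝ) : ℂ)
  meas := by fun_prop
  C := 1
  C_nonneg := zero_le_one
  bd ξ := by
    rw [wt_zero, one_mul, one_mul, Complex.norm_real, Real.norm_of_nonneg (by positivity)]
    exact pow_le_pow_left₀ (norm_nonneg _) (by linarith) N

open Classical in
/-- low frequency cut-off -/
noncomputable def mP (N : ℕ) (R : ℝ) : Mult N N where
  m := (Metric.closedBall (0 : R12) R).indicator (fun _ => 1)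
  meas := measurable_const.indicator Metric.isClosed_closedBall.measurableSet
  C := 1
  C_nonneg := zero_le_one
  bd ξ := by
    by_cases h : ξ ∈ Metric.closedBall (0 : R12) R
    · rw [indicator_of_mem h]; simp
    · rw [indicator_of_notMem h]; simp [wt_nonneg]

/-- `(1+t)^N ≤ 2^N (1 + t^N)` -/
theorem one_add_pow_le {t : ℝ} (ht : 0 ≤ t) (N : ℕ) : (1 + t) ^ N ≤ 2 ^ N * (1 + t ^ N) := by
  by_cases h : t ≤ 1
  · calc (1 + t) ^ N ≤ 2 ^ N := pow_le_pow_left₀ (by linarith) (by linarith) N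
      _ ≤ 2 ^ N * (1 + t ^ N) := by
        have : (0 : ℝ) ≤ t ^ N := pow_nonneg ht N
        nlinarith [pow_pos (two_pos : (0 : ℝ) < 2) N]
  · push Not at h
    calc (1 + t) ^ N ≤ (2 * t) ^ N := pow_le_pow_left₀ (by linarith) (by linarith) N
      _ = 2 ^ N * t ^ N := mul_pow _ _ _
      _ ≤ 2 ^ N * (1 + t ^ N) := by
        have := pow_pos (two_pos : (0 : ℝ) < 2) N
        nlinarith

theorem norm_le_J (a : XN N) : ‖a‖ ≤ 2 ^ N * (‖(mJ0 N).op a‖ + ‖(mJ1 N).op a‖) := by
  rw [norm_XN, Mult.norm_op_apply, Mult.norm_op_apply]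
  have i0 : Integrable (fun ξ => wt 0 ξ * (‖(mJ0 N).m ξ‖ * ‖a ξ‖)) := by
    have := ((mJ0 N).integrable a).norm
    refine this.congr (Eventually.of_forall fun ξ => ?_)
    simp [norm_smul]
  have i1 : Integrable (fun ξ => wt 0 ξ * (‖(mJ1 N).m ξ‖ * ‖a ξ‖)) := by
    have := ((mJ1 N).integrable a).norm
    refine this.congr (Eventually.of_forall fun ξ => ?_)
    simp [norm_smul]
  rw [← integral_add i0 i1, ← integral_const_mul]
  refine integral_mono_of_nonneg (Eventually.of_forall fun ξ =>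
      mul_nonneg (wt_nonneg N ξ) (norm_nonneg _)) ((i0.add i1).const_mul _)
      (Eventually.of_forall fun ξ => ?_)
  have h := one_add_pow_le (norm_nonneg ξ) N
  simp only [wt_zero, one_mul, mJ0, mJ1, norm_one, Complex.norm_real, norm_pow, norm_norm, wt,
    Pi.add_apply, pow_zero]
  calc (1 + ‖ξ‖) ^ N * ‖a ξ‖ ≤ (2 ^ N * (1 + ‖ξ‖ ^ N)) * ‖a ξ‖ :=
        mul_le_mul_of_nonneg_right h (norm_nonneg _)
    _ = 2 ^ N * (‖a ξ‖ + ‖ξ‖ ^ N * ‖a ξ‖) := by ring

end Crest.Agent.R086.DE
end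

-- ▼ part R086/DEn
section

/-!
Row 86, Part D, module DE (helper733): moment estimates for the free semigroup and for convolutions.
-/

set_option autoImplicit false
set_option linter.unusedSectionVars false

open MeasureTheory Filter Set Complex
open scoped Topology ENNReal NNReal

namespace Crest.Agent.R086.DE

open Crest.Agent.R086

variable {N M : ℕ}

/-- moments `∫ |ξ|^k |f|` -/
noncomputable def mom (k : ℕ) (f : R12 → ℂ) : ℝ := ∫ ξ, ‖ξ‖ ^ k * ‖f ξ‖

theorem mom_nonneg (k : ℕ) (f : R12 → ℂ) : 0 ≤ mom k f :=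
  integral_nonneg fun _ => mul_nonneg (pow_nonneg (norm_nonneg _) _) (norm_nonneg _)

theorem norm_J0 (a : XN N) : ‖(mJ0 N).op a‖ = mom 0 a := by
  rw [Mult.norm_op_apply]
  simp [mJ0, mom]

theorem norm_J1 (a : XN N) : ‖(mJ1 N).op a‖ = mom N a := by
  rw [Mult.norm_op_apply]
  simp [mJ1, mom]


theorem finrank_R12 : Module.finrank ℝ R12 = 12 := by simp [R12]

/-- scaling of moments under the free flow -/
theorem mom_scale {k : ℕ} {a b : R12 → ℂ} {s c : ℝ}
    (h : ∀ᵐ z ∂(volume : Measure R12), ‖b z‖ = c * (Real.exp (6 * s) * ‖a (Real.exp (s / 2) • z)‖)) :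
    mom k b = c * (Real.exp (-(k / 2 * s)) * mom k a) := by
  have hpos := Real.exp_pos (s / 2)
  have h1 : mom k b = ∫ z, (c * Real.exp (6 * s) * (Real.exp (s / 2) ^ k)⁻¹) *
      (fun ξ : R12 => ‖ξ‖ ^ k * ‖a ξ‖) (Real.exp (s / 2) • z) := by
    unfold mom
    refine integral_congr_ae (h.mono fun z hz => ?_)
    simp only [hz, norm_smul, Real.norm_of_nonneg hpos.le, mul_pow]
    have : Real.exp (s / 2) ^ k ≠ 0 := (pow_pos hpos k).ne'
    field_simp
  rw [h1, integral_const_mul,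
    Measure.integral_comp_smul volume (fun ξ : R12 => ‖ξ‖ ^ k * ‖a ξ‖) (Real.exp (s / 2)),
    finrank_R12]
  rw [smul_eq_mul, abs_of_nonneg (by positivity)]
  show _ = c * (Real.exp (-(k / 2 * s)) * ∫ ξ, ‖ξ‖ ^ k * ‖a ξ‖)
  have e1 : (Real.exp (s / 2) ^ 12)⁻¹ = Real.exp (-(6 * s)) := by
    rw [← Real.exp_nat_mul, ← Real.exp_neg]; congr 1; push_cast; ring
  have e2 : (Real.exp (s / 2) ^ k)⁻¹ = Real.exp (-(k / 2 * s)) := by
    rw [← Real.exp_nat_mul, ← Real.exp_neg]; congr 1; push_cast; ring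
  rw [e1, e2]
  have e3 : Real.exp (6 * s) * Real.exp (-(6 * s)) = 1 := by rw [← Real.exp_add]; simp
  calc c * Real.exp (6 * s) * Real.exp (-(k / 2 * s)) * (Real.exp (-(6 * s)) *
        ∫ ξ, ‖ξ‖ ^ k * ‖a ξ‖)
      = (Real.exp (6 * s) * Real.exp (-(6 * s))) * (c * Real.exp (-(k / 2 * s)) *
        ∫ ξ, ‖ξ‖ ^ k * ‖a ξ‖) := by ring
    _ = _ := by rw [e3]; ring

/-- `(s+t)^N ≤ 2 s^N + C t^N`. -/
theorem exists_pow_add_le (N : ℕ) : ∃ C : ℝ, 0 ≤ C ∧ ∀ s t : ℝ, 0 ≤ s → 0 ≤ t →
    (s + t) ^ N ≤ 2 * s ^ N + C * t ^ N := by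
  set θ : ℝ := 1 / (2 * (N + 1)) with hθ
  have hθ0 : 0 < θ := by positivity
  refine ⟨(1 + 1 / θ) ^ N, by positivity, fun s t hs ht => ?_⟩
  by_cases h : t ≤ θ * s
  · have h1 : (s + t) ^ N ≤ ((1 + θ) * s) ^ N := pow_le_pow_left₀ (by linarith) (by linarith) N
    have h2 : (1 + θ) ^ N ≤ 2 := by
      calc (1 + θ) ^ N ≤ (Real.exp θ) ^ N :=
            pow_le_pow_left₀ (by linarith) (by linarith [Real.add_one_le_exp θ]) N
        _ = Real.exp (N * θ) := by rw [← Real.exp_nat_mul]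
        _ ≤ Real.exp (1 / 2) := by
            apply Real.exp_le_exp.2
            rw [hθ]
            have : (0 : ℝ) < N + 1 := by positivity
            rw [mul_one_div, div_le_div_iff₀ (by positivity) two_pos]
            linarith
        _ ≤ 2 := by
            have h3 := Real.exp_one_lt_d9
            have h4 : Real.exp (1 / 2) ^ 2 = Real.exp 1 := by
              rw [← Real.exp_nat_mul]; norm_num
            nlinarith [Real.exp_pos (1 / 2 : ℝ)]
    rw [mul_pow] at h1
    have h3 : (1 + θ) ^ N * s ^ N ≤ 2 * s ^ N := mul_le_mul_of_nonneg_right h2 (pow_nonneg hs N)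
    have h4 : 0 ≤ (1 + 1 / θ) ^ N * t ^ N := by positivity
    linarith
  · push Not at h
    have h1 : s ≤ 1 / θ * t := by
      rw [one_div, ← div_eq_inv_mul, le_div_iff₀ hθ0]; linarith
    have h2 : (s + t) ^ N ≤ ((1 + 1 / θ) * t) ^ N :=
      pow_le_pow_left₀ (by linarith) (by linarith) N
    rw [mul_pow] at h2
    have h3 : 0 ≤ 2 * s ^ N := by positivity
    linarith

/-- integrability with all weights -/
def AllW (v : R12 → ℂ) : Prop := ∀ N : ℕ, Integrable (fun ξ => wt N ξ • v ξ)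

theorem allW_of_rep {v f : R12 → ℂ} (h : ∀ N, Rep N v f) : AllW v := by
  intro N
  refine (h N).1.congr (Eventually.of_forall fun ξ => ?_)
  simp only [wt, Complex.real_smul]

theorem AllW.integrable {v : R12 → ℂ} (h : AllW v) : Integrable v := by
  have := h 0
  simpa using this

theorem AllW.aesm {v : R12 → ℂ} (h : AllW v) : AEStronglyMeasurable v volume :=
  h.integrable.aestronglyMeasurable

theorem integrable_mom_of_wt {k N : ℕ} (hk : k ≤ N) {f : R12 → ℂ}
    (h : Integrable (fun ξ => wt N ξ • f ξ)) : Integrable (fun ξ => ‖ξ‖ ^ k * ‖f ξ‖) := by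
  have hm : AEStronglyMeasurable f volume := by
    have h1 : AEStronglyMeasurable (fun ξ => (wt N ξ)⁻¹ • (wt N ξ • f ξ)) volume :=
      ((measurable_wt N).inv.aestronglyMeasurable).smul h.aestronglyMeasurable
    refine h1.congr (Eventually.of_forall fun ξ => ?_)
    simp only [smul_smul, inv_mul_cancel₀ (wt_pos N ξ).ne', one_smul]
  refine h.mono ((by fun_prop : Continuous fun ξ : R12 => ‖ξ‖ ^ k).aestronglyMeasurable.mul hm.norm)
    (Eventually.of_forall fun ξ => ?_)
  rw [norm_smul, norm_mul, norm_norm, Real.norm_of_nonneg (wt_nonneg N ξ),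
    Real.norm_of_nonneg (by positivity)]
  refine mul_le_mul_of_nonneg_right ?_ (norm_nonneg _)
  calc ‖ξ‖ ^ k ≤ (1 + ‖ξ‖) ^ k := pow_le_pow_left₀ (norm_nonneg _) (by linarith) k
    _ ≤ (1 + ‖ξ‖) ^ N := pow_le_pow_right₀ (by linarith [norm_nonneg ξ]) hk

theorem ofReal_mom {k N : ℕ} (hk : k ≤ N) {f : R12 → ℂ}
    (h : Integrable (fun ξ => wt N ξ • f ξ)) :
    ENNReal.ofReal (mom k f) = ∫⁻ ξ, ENNReal.ofReal (‖ξ‖ ^ k) * ‖f ξ‖ₑ := by
  unfold mom
  rw [ofReal_integral_eq_lintegral_ofReal (integrable_mom_of_wt hk h)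
    (Eventually.of_forall fun ξ => mul_nonneg (pow_nonneg (norm_nonneg _) _) (norm_nonneg _))]
  refine lintegral_congr fun ξ => ?_
  rw [ENNReal.ofReal_mul (pow_nonneg (norm_nonneg _) _), ofReal_norm]

/-- moment bound for convolutions -/
theorem mom_cv_le {k : ℕ} {A B : ℝ} (hA : 0 ≤ A) (hB : 0 ≤ B)
    (hAB : ∀ s t : ℝ, 0 ≤ s → 0 ≤ t → (s + t) ^ k ≤ A * s ^ k + B * t ^ k)
    {v : R12 → ℂ} (hv : AllW v) {a : R12 → ℂ} {N : ℕ} (hk : k ≤ N)
    (ha : Integrable (fun ξ => wt N ξ • a ξ)) :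
    mom k (cv v a) ≤ A * (mom 0 v * mom k a) + B * (mom k v * mom 0 a) := by
  have ham : AEStronglyMeasurable a volume := by
    have h1 : AEStronglyMeasurable (fun ξ => (wt N ξ)⁻¹ • (wt N ξ • a ξ)) volume :=
      ((measurable_wt N).inv.aestronglyMeasurable).smul ha.aestronglyMeasurable
    refine h1.congr (Eventually.of_forall fun ξ => ?_)
    simp only [smul_smul, inv_mul_cancel₀ (wt_pos N ξ).ne', one_smul]
  have hvm := hv.aesm
  have hsub : AEStronglyMeasurable (fun p : R12 × R12 => v (p.1 - p.2)) (volume.prod volume) :=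
    hvm.comp_quasiMeasurePreserving (quasiMeasurePreserving_sub volume volume)
  have ha2 : AEStronglyMeasurable (fun p : R12 × R12 => a p.2) (volume.prod volume) :=
    ham.comp_snd
  have key : ∫⁻ z, ENNReal.ofReal (‖z‖ ^ k) * ‖cv v a z‖ₑ ≤
      ENNReal.ofReal (A * (mom 0 v * mom k a) + B * (mom k v * mom 0 a)) := by
    calc ∫⁻ z, ENNReal.ofReal (‖z‖ ^ k) * ‖cv v a z‖ₑ
        ≤ ∫⁻ z, ∫⁻ ξ, ENNReal.ofReal (‖z‖ ^ k) * (‖v (z - ξ)‖ₑ * ‖a ξ‖ₑ) := by
          refine lintegral_mono fun z => ?_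
          rw [lintegral_const_mul' _ _ ENNReal.ofReal_ne_top]
          refine mul_le_mul_right (a := ENNReal.ofReal (‖z‖ ^ k)) ?_
          unfold cv
          refine (enorm_integral_le_lintegral_enorm _).trans (le_of_eq ?_)
          refine lintegral_congr fun ξ => ?_
          rw [enorm_mul]
      _ = ∫⁻ ξ, ∫⁻ z, ENNReal.ofReal (‖z‖ ^ k) * (‖v (z - ξ)‖ₑ * ‖a ξ‖ₑ) := by
          refine lintegral_lintegral_swap ?_
          refine AEMeasurable.mul ?_ (hsub.enorm.mul ha2.enorm)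
          exact (by fun_prop : Measurable fun p : R12 × R12 => ENNReal.ofReal (‖p.1‖ ^ k)).aemeasurable
      _ ≤ ∫⁻ ξ, ‖a ξ‖ₑ * (ENNReal.ofReal (A * ‖ξ‖ ^ k) * ENNReal.ofReal (mom 0 v) +
            ENNReal.ofReal B * ENNReal.ofReal (mom k v)) := by
          refine lintegral_mono fun ξ => ?_
          have hz : ∀ z : R12, ENNReal.ofReal (‖z‖ ^ k) * (‖v (z - ξ)‖ₑ * ‖a ξ‖ₑ) ≤
              ‖a ξ‖ₑ * (ENNReal.ofReal (A * ‖ξ‖ ^ k) * ‖v (z - ξ)‖ₑ +
                ENNReal.ofReal B * (ENNReal.ofReal (‖z - ξ‖ ^ k) * ‖v (z - ξ)‖ₑ)) := by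
            intro z
            have h1 : ‖z‖ ^ k ≤ A * ‖ξ‖ ^ k + B * ‖z - ξ‖ ^ k := by
              refine le_trans (pow_le_pow_left₀ (norm_nonneg _) ?_ k)
                (hAB ‖ξ‖ ‖z - ξ‖ (norm_nonneg _) (norm_nonneg _))
              calc ‖z‖ = ‖ξ + (z - ξ)‖ := by congr 1; abel
                _ ≤ _ := norm_add_le _ _
            have h2 : ENNReal.ofReal (‖z‖ ^ k) ≤ ENNReal.ofReal (A * ‖ξ‖ ^ k) +
                ENNReal.ofReal B * ENNReal.ofReal (‖z - ξ‖ ^ k) := by
              rw [← ENNReal.ofReal_mul hB, ← ENNReal.ofReal_add (by positivity) (by positivity)]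
              exact ENNReal.ofReal_le_ofReal h1
            calc ENNReal.ofReal (‖z‖ ^ k) * (‖v (z - ξ)‖ₑ * ‖a ξ‖ₑ)
                ≤ (ENNReal.ofReal (A * ‖ξ‖ ^ k) +
                ENNReal.ofReal B * ENNReal.ofReal (‖z - ξ‖ ^ k)) * (‖v (z - ξ)‖ₑ * ‖a ξ‖ₑ) := by
                  gcongr
              _ = _ := by ring
          refine (lintegral_mono hz).trans (le_of_eq ?_)
          rw [lintegral_const_mul' _ _ enorm_ne_top]
          congr 1
          have hvt : AEMeasurable (fun z : R12 => ENNReal.ofReal (A * ‖ξ‖ ^ k) * ‖v (z - ξ)‖ₑ)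
              volume := (hvm.comp_quasiMeasurePreserving
            (measurePreserving_sub_right volume ξ).quasiMeasurePreserving).enorm.const_mul _
          rw [lintegral_add_left' hvt,
            lintegral_const_mul' _ _ ENNReal.ofReal_ne_top,
            lintegral_const_mul' _ _ ENNReal.ofReal_ne_top]
          rw [lintegral_sub_right_eq_self (fun z => ‖v z‖ₑ) ξ,
            lintegral_sub_right_eq_self (fun z => ENNReal.ofReal (‖z‖ ^ k) * ‖v z‖ₑ) ξ,
            ofReal_mom (le_refl k) (hv k), ofReal_mom (le_refl 0) (hv 0)]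
          simp
      _ = _ := by
          have hkm := ofReal_mom hk ha
          have h0m := ofReal_mom (Nat.zero_le N) ha
          have hs : ∀ ξ : R12, ‖a ξ‖ₑ * (ENNReal.ofReal (A * ‖ξ‖ ^ k) * ENNReal.ofReal (mom 0 v) +
            ENNReal.ofReal B * ENNReal.ofReal (mom k v)) =
            (ENNReal.ofReal A * ENNReal.ofReal (mom 0 v)) * (ENNReal.ofReal (‖ξ‖ ^ k) * ‖a ξ‖ₑ) +
            (ENNReal.ofReal B * ENNReal.ofReal (mom k v)) * (ENNReal.ofReal (‖ξ‖ ^ 0) * ‖a ξ‖ₑ) := by
            intro ξ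
            rw [ENNReal.ofReal_mul hA, pow_zero, ENNReal.ofReal_one]
            ring
          have hx : AEMeasurable (fun ξ : R12 => ENNReal.ofReal A * ENNReal.ofReal (mom 0 v) *
              (ENNReal.ofReal (‖ξ‖ ^ k) * ‖a ξ‖ₑ)) volume :=
            AEMeasurable.const_mul ((by fun_prop : Measurable fun ξ : R12 =>
              ENNReal.ofReal (‖ξ‖ ^ k)).aemeasurable.mul ham.enorm) _
          rw [lintegral_congr hs, lintegral_add_left' hx,
            lintegral_const_mul' _ _ (ENNReal.mul_ne_top ENNReal.ofReal_ne_top ENNReal.ofReal_ne_top),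
            lintegral_const_mul' _ _ (ENNReal.mul_ne_top ENNReal.ofReal_ne_top ENNReal.ofReal_ne_top),
            ← hkm, ← h0m, ENNReal.ofReal_add (by have := mom_nonneg 0 v; have := mom_nonneg k a; positivity)
              (by have := mom_nonneg k v; have := mom_nonneg 0 a; positivity),
            ENNReal.ofReal_mul hA, ENNReal.ofReal_mul hB, ENNReal.ofReal_mul (mom_nonneg 0 v),
            ENNReal.ofReal_mul (mom_nonneg k v)]
          ring
  have hnn : 0 ≤ A * (mom 0 v * mom k a) + B * (mom k v * mom 0 a) := by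
    have := mom_nonneg 0 v; have := mom_nonneg k a; have := mom_nonneg k v
    have := mom_nonneg 0 a; positivity
  by_cases hi : Integrable (fun z => ‖z‖ ^ k * ‖cv v a z‖)
  · rw [← ENNReal.ofReal_le_ofReal_iff hnn]
    unfold mom at key ⊢
    rw [ofReal_integral_eq_lintegral_ofReal hi
      (Eventually.of_forall fun ξ => mul_nonneg (pow_nonneg (norm_nonneg _) _) (norm_nonneg _))]
    refine le_trans (le_of_eq (lintegral_congr fun ξ => ?_)) key
    rw [ENNReal.ofReal_mul (pow_nonneg (norm_nonneg _) _), ofReal_norm]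
  · have : mom k (cv v a) = 0 := integral_undef hi
    rw [this]; exact hnn

end Crest.Agent.R086.DE
end

-- ▼ part R086/DEtr
section

/-!
Row 86, Part D, module DE (helper733): continuity of translations in `XN N`.
-/

set_option autoImplicit false
set_option linter.unusedSectionVars false

open MeasureTheory Filter Set Complex
open scoped Topology ENNReal NNReal

namespace Crest.Agent.R086.DE

open Crest.Agent.R086

variable {N M : ℕ}

/-- the shift `z ↦ z - h` as a continuous map, depending continuously on `h` -/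
def shiftC (h : R12) : C(R12, R12) := ⟨fun z => z - h, by fun_prop⟩

theorem continuous_shiftC : Continuous shiftC := by
  let F : C(R12 × R12, R12) := ⟨fun p => p.2 - p.1, by fun_prop⟩
  have : shiftC = fun h => F.curry h := by
    funext h; ext z; rfl
  rw [this]
  exact F.curry.continuous

theorem mp_shiftC (h : R12) : MeasurePreserving (shiftC h) (volume : Measure R12) volume :=
  measurePreserving_sub_right volume h

/-- `L¹` continuity of translations -/
theorem tendsto_translate_L1 {b : R12 → ℂ} (hb : Integrable b) :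
    Tendsto (fun h : R12 => ∫ z, ‖b (z - h) - b z‖) (𝓝 0) (𝓝 0) := by
  set f : Lp ℂ 1 (volume : Measure R12) := hb.toL1 b with hf
  have hc : Continuous (fun h : R12 => Lp.compMeasurePreserving (shiftC h) (mp_shiftC h) f) :=
    Continuous.compMeasurePreservingLp continuous_const continuous_shiftC mp_shiftC (by simp)
  have hcf : ∀ h : R12, (Lp.compMeasurePreserving (shiftC h) (mp_shiftC h) f : R12 → ℂ) =ᵐ[volume]
      fun z => b (z - h) := by
    intro h
    refine (Lp.coeFn_compMeasurePreserving f (mp_shiftC h)).trans ?_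
    exact (mp_shiftC h).quasiMeasurePreserving.ae_eq_comp hb.coeFn_toL1
  have h0 : Lp.compMeasurePreserving (shiftC 0) (mp_shiftC 0) f = f := by
    refine Lp.ext ((hcf 0).trans (EventuallyEq.trans ?_ hb.coeFn_toL1.symm))
    exact Eventually.of_forall fun z => by simp
  have h1 : Tendsto (fun h : R12 => ‖Lp.compMeasurePreserving (shiftC h) (mp_shiftC h) f - f‖)
      (𝓝 0) (𝓝 0) := by
    have := (hc.tendsto 0)
    rw [h0] at this
    have h2 := (this.sub_const f).norm
    simpa using h2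
  refine h1.congr fun h => ?_
  rw [L1.norm_eq_integral_norm]
  refine integral_congr_ae ?_
  filter_upwards [Lp.coeFn_sub (Lp.compMeasurePreserving (shiftC h) (mp_shiftC h) f) f, hcf h,
    hb.coeFn_toL1] with z hz1 hz2 hz3
  rw [hz1, Pi.sub_apply, hz2, hz3]

theorem wt_sub_abs_le (N : ℕ) (z h : R12) : |wt N (z + h) - wt N z| ≤ (wt N h + 1) * wt N z := by
  have h1 := wt_add_le N z h
  have h2 := wt_nonneg N (z + h)
  have h3 := wt_nonneg N z
  have h4 := wt_nonneg N h
  rw [abs_le]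
  constructor <;> nlinarith [mul_nonneg h3 h4]

theorem AllW.integrable_tr {v : R12 → ℂ} (hv : AllW v) (N : ℕ) (h : R12) :
    Integrable (fun z => wt N z • v (z - h)) := by
  have h1 : Integrable (fun z => wt N (z - h) • v (z - h)) := (hv N).comp_sub_right h
  refine (h1.norm.const_mul (wt N h)).mono ?_ (Eventually.of_forall fun z => ?_)
  · exact (measurable_wt N).aestronglyMeasurable.smul
      (hv.aesm.comp_quasiMeasurePreserving (mp_shiftC h).quasiMeasurePreserving)
  · rw [norm_smul, norm_smul, Real.norm_of_nonneg (wt_nonneg N z),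
      Real.norm_of_nonneg (wt_nonneg N (z - h)), Real.norm_of_nonneg (by
        have := wt_nonneg N h; have := wt_nonneg N (z - h); positivity), ← mul_assoc]
    refine mul_le_mul_of_nonneg_right ?_ (norm_nonneg _)
    have := wt_add_le N (z - h) h
    rw [sub_add_cancel] at this
    linarith [this]

/-- the translate as an element of `XN N` -/
noncomputable def tr (N : ℕ) {v : R12 → ℂ} (hv : AllW v) (h : R12) : XN N :=
  mkX N (fun z => v (z - h)) (hv.integrable_tr N h)

theorem coe_tr {v : R12 → ℂ} (hv : AllW v) (h : R12) :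
    (tr N hv h : R12 → ℂ) =ᵐ[volume] fun z => v (z - h) := coe_mkX _

theorem tendsto_wt_diff {v : R12 → ℂ} (hv : AllW v) (N : ℕ) :
    Tendsto (fun h : R12 => ∫ z, |wt N (z + h) - wt N z| * ‖v z‖) (𝓝 0) (𝓝 0) := by
  have h0 : (0 : ℝ) = ∫ z : R12, |wt N (z + 0) - wt N z| * ‖v z‖ := by simp
  rw [h0]
  refine tendsto_integral_filter_of_dominated_convergence
    (fun z => (2 ^ N + 1) * ‖wt N z • v z‖) ?_ ?_ ((hv N).norm.const_mul _) ?_
  · refine Eventually.of_forall fun h => ?_
    have hc : Continuous fun z : R12 => |wt N (z + h) - wt N z| := by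
      have h1 := continuous_wt N
      have h2 : Continuous fun z : R12 => wt N (z + h) := h1.comp (by fun_prop)
      exact (h2.sub h1).abs
    exact hc.aestronglyMeasurable.mul hv.aesm.norm
  · filter_upwards [Metric.ball_mem_nhds (0 : R12) one_pos] with h hh
    refine Eventually.of_forall fun z => ?_
    rw [mem_ball_zero_iff] at hh
    rw [norm_mul, norm_norm, norm_smul, Real.norm_of_nonneg (wt_nonneg N z), Real.norm_eq_abs,
      abs_abs, ← mul_assoc]
    refine mul_le_mul_of_nonneg_right ((wt_sub_abs_le N z h).trans ?_) (norm_nonneg _)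
    refine mul_le_mul_of_nonneg_right ?_ (wt_nonneg N z)
    have : wt N h ≤ 2 ^ N := by
      unfold wt
      exact pow_le_pow_left₀ (by positivity) (by linarith) N
    linarith
  · refine Eventually.of_forall fun z => ?_
    have hc : Continuous fun h : R12 => |wt N (z + h) - wt N z| * ‖v z‖ := by
      have h2 : Continuous fun h : R12 => wt N (z + h) := (continuous_wt N).comp (by fun_prop)
      exact ((h2.sub continuous_const).abs).mul continuous_const
    exact hc.tendsto 0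

theorem tendsto_translate_wt {v : R12 → ℂ} (hv : AllW v) (N : ℕ) :
    Tendsto (fun h : R12 => ∫ z, wt N z * ‖v (z - h) - v z‖) (𝓝 0) (𝓝 0) := by
  have hb := hv N
  have hle : ∀ h : R12, ∫ z, wt N z * ‖v (z - h) - v z‖ ≤
      (∫ z, ‖(fun z => wt N z • v z) (z - h) - (fun z => wt N z • v z) z‖) +
        ∫ z, |wt N (z + h) - wt N z| * ‖v z‖ := by
    intro h
    have i1 : Integrable (fun z => ‖(fun z => wt N z • v z) (z - h) - (fun z => wt N z • v z) z‖) :=
      ((hb.comp_sub_right h).sub hb).norm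
    have i2 : Integrable (fun z => |wt N (z + h) - wt N z| * ‖v z‖) := by
      refine (hb.norm.const_mul (wt N h + 1)).mono ?_ (Eventually.of_forall fun z => ?_)
      · have hc : Continuous fun z : R12 => |wt N (z + h) - wt N z| := by
          have h1 := continuous_wt N
          have h2 : Continuous fun z : R12 => wt N (z + h) := h1.comp (by fun_prop)
          exact (h2.sub h1).abs
        exact hc.aestronglyMeasurable.mul hv.aesm.norm
      · rw [norm_mul, norm_norm, norm_smul, Real.norm_of_nonneg (wt_nonneg N z), Real.norm_eq_abs,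
          abs_abs, Real.norm_of_nonneg (by
            have := wt_nonneg N h; have := wt_nonneg N z; positivity), ← mul_assoc]
        exact mul_le_mul_of_nonneg_right (wt_sub_abs_le N z h) (norm_nonneg _)
    have e2 : ∫ z, |wt N (z + h) - wt N z| * ‖v z‖ =
        ∫ z, |wt N z - wt N (z - h)| * ‖v (z - h)‖ := by
      rw [← integral_sub_right_eq_self (fun z : R12 => |wt N (z + h) - wt N z| * ‖v z‖) h]
      refine integral_congr_ae (Eventually.of_forall fun z => ?_)
      simp only [sub_add_cancel]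
    have i2' : Integrable (fun z => |wt N z - wt N (z - h)| * ‖v (z - h)‖) := by
      refine (i2.comp_sub_right h).congr (Eventually.of_forall fun z => ?_)
      simp only [sub_add_cancel]
    rw [e2, ← integral_add i1 i2']
    refine integral_mono_of_nonneg (Eventually.of_forall fun z =>
      mul_nonneg (wt_nonneg N z) (norm_nonneg _)) (i1.add i2') (Eventually.of_forall fun z => ?_)
    show wt N z * ‖v (z - h) - v z‖ ≤
      ‖wt N (z - h) • v (z - h) - wt N z • v z‖ + |wt N z - wt N (z - h)| * ‖v (z - h)‖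
    have e3 : wt N z • (v (z - h) - v z) = (wt N (z - h) • v (z - h) - wt N z • v z) +
        (wt N z - wt N (z - h)) • v (z - h) := by
      rw [sub_smul, smul_sub]; abel
    calc wt N z * ‖v (z - h) - v z‖ = ‖wt N z • (v (z - h) - v z)‖ := by
          rw [norm_smul, Real.norm_of_nonneg (wt_nonneg N z)]
      _ ≤ _ := by
          rw [e3]
          refine (norm_add_le _ _).trans (le_of_eq ?_)
          rw [norm_smul (wt N z - wt N (z - h)), Real.norm_eq_abs]
  have hlim := (tendsto_translate_L1 hb).add (tendsto_wt_diff hv N)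
  rw [add_zero] at hlim
  exact squeeze_zero (fun h => integral_nonneg fun z => mul_nonneg (wt_nonneg N z) (norm_nonneg _))
    hle hlim

/-- translations are continuous in `XN N` -/
theorem continuous_tr {v : R12 → ℂ} (hv : AllW v) (N : ℕ) : Continuous (tr N hv) := by
  rw [continuous_iff_continuousAt]
  intro η
  rw [ContinuousAt, tendsto_iff_norm_sub_tendsto_zero]
  have hle : ∀ ξ : R12, ‖tr N hv ξ - tr N hv η‖ ≤
      wt N η * ∫ z, wt N z * ‖v (z - (ξ - η)) - v z‖ := by
    intro ξ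
    have i1 : Integrable (fun z => wt N z * ‖v (z - (ξ - η)) - v z‖) := by
      have := ((hv.integrable_tr N (ξ - η)).sub (hv N)).norm
      refine this.congr (Eventually.of_forall fun z => ?_)
      show ‖wt N z • v (z - (ξ - η)) - wt N z • v z‖ = _
      rw [← smul_sub, norm_smul, Real.norm_of_nonneg (wt_nonneg N z)]
    have e1 : ‖tr N hv ξ - tr N hv η‖ = ∫ z, wt N z * ‖v (z - ξ) - v (z - η)‖ := by
      rw [norm_XN]
      refine integral_congr_ae ?_
      filter_upwards [coe_sub (tr N hv ξ) (tr N hv η), coe_tr (N := N) hv ξ, coe_tr (N := N) hv η]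
        with z h1 h2 h3
      rw [h1, h2, h3]
    have e2 : ∫ z, wt N z * ‖v (z - ξ) - v (z - η)‖ =
        ∫ z, wt N (z + η) * ‖v (z - (ξ - η)) - v z‖ := by
      rw [← integral_add_right_eq_self (fun z : R12 => wt N z * ‖v (z - ξ) - v (z - η)‖) η]
      refine integral_congr_ae (Eventually.of_forall fun z => ?_)
      simp only [add_sub_cancel_right]
      congr 4
      abel
    rw [e1, e2, ← integral_const_mul]
    refine integral_mono_of_nonneg (Eventually.of_forall fun z =>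
      mul_nonneg (wt_nonneg N _) (norm_nonneg _)) (i1.const_mul _) (Eventually.of_forall fun z => ?_)
    show wt N (z + η) * _ ≤ wt N η * (wt N z * _)
    rw [← mul_assoc]
    refine mul_le_mul_of_nonneg_right ?_ (norm_nonneg _)
    rw [mul_comm (wt N η)]
    exact wt_add_le N z η
  have hlim : Tendsto (fun ξ : R12 => wt N η * ∫ z, wt N z * ‖v (z - (ξ - η)) - v z‖) (𝓝 η)
      (𝓝 0) := by
    have h1 : Tendsto (fun ξ : R12 => ξ - η) (𝓝 η) (𝓝 0) := by
      have : Continuous fun ξ : R12 => ξ - η := by fun_prop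
      simpa using this.tendsto η
    have h2 := ((tendsto_translate_wt hv N).comp h1).const_mul (wt N η)
    simpa using h2
  exact squeeze_zero (fun _ => norm_nonneg _) hle hlim

end Crest.Agent.R086.DE
end

-- ▼ part R086/DEcol
section

/-!
Row 86, Part D, module DE (helper733): operators on `L¹` given by a continuous column function
on a compact set are compact.
-/

set_option autoImplicit false

open MeasureTheory Filter Set
open scoped ENNReal NNReal Topology

namespace Crest.Agent.R086.DE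

variable {Ω : Type*} [TopologicalSpace Ω] [MeasurableSpace Ω] [OpensMeasurableSpace Ω]
variable {X : Type*} [NormedAddCommGroup X] [NormedSpace ℂ X] [CompleteSpace X]

/-- the phase of a complex number (0 at 0) -/
noncomputable def ph (z : ℂ) : ℂ := z / ((‖z‖ : ℝ) : ℂ)

lemma ph_norm_le (z : ℂ) : ‖ph z‖ ≤ 1 := by
  unfold ph
  rw [norm_div, Complex.norm_real, norm_norm]
  exact div_self_le_one _

lemma ph_measurable : Measurable ph := by
  unfold ph
  fun_prop

lemma norm_smul_ph (z : ℂ) (x : X) : (‖z‖ : ℝ) • (ph z • x) = z • x := by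
  by_cases hz : z = 0
  · simp [hz]
  have hz' : ((‖z‖ : ℝ) : ℂ) ≠ 0 := by
    simpa using hz
  have : (‖z‖ : ℝ) • (ph z • x) = (((‖z‖ : ℝ) : ℂ) * ph z) • x := by
    rw [mul_smul]; rfl
  rw [this]
  congr 1
  unfold ph
  field_simp

/-- Bochner integral of columns against an `L¹` function of norm `≤ 1` lies in the closed absolutely
convex hull. -/
theorem integral_mem_hull {μ : Measure Ω} {B : Set Ω} (hBm : MeasurableSet B)
    {k : Ω → X} (hkm : AEStronglyMeasurable k (μ.restrict B)) {K : Set X} (hKc : Convex ℝ K)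
    (hKcl : IsClosed K) (h0 : (0 : X) ∈ K)
    (hK : ∀ c : ℂ, ‖c‖ ≤ 1 → ∀ η ∈ B, c • k η ∈ K) {C : ℝ} (hC : ∀ η ∈ B, ‖k η‖ ≤ C)
    {a : Ω → ℂ} (ha : StronglyMeasurable a) (hai : Integrable a μ) (han : ∫ η, ‖a η‖ ∂μ ≤ 1) :
    ∫ η in B, a η • k η ∂μ ∈ K := by
  classical
  set ρ : Measure Ω := (μ.restrict B).withDensity (fun η => (‖a η‖₊ : ℝ≥0∞)) with hρ
  have hmeas : Measurable (fun η => ‖a η‖₊) := ha.measurable.nnnorm
  have hmass : ρ univ ≤ 1 := by
    rw [hρ, withDensity_apply _ MeasurableSet.univ]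
    calc ∫⁻ η in univ, (‖a η‖₊ : ℝ≥0∞) ∂(μ.restrict B)
        ≤ ∫⁻ η, (‖a η‖₊ : ℝ≥0∞) ∂μ := by
          rw [Measure.restrict_univ]
          exact setLIntegral_le_lintegral _ _
      _ = ENNReal.ofReal (∫ η, ‖a η‖ ∂μ) := by
          rw [ofReal_integral_norm_eq_lintegral_enorm hai]; rfl
      _ ≤ 1 := by
          rw [← ENNReal.ofReal_one]; exact ENNReal.ofReal_le_ofReal han
  haveI : IsFiniteMeasure ρ := ⟨lt_of_le_of_lt hmass ENNReal.one_lt_top⟩
  have hint_eq : ∫ η in B, a η • k η ∂μ = ∫ η, ph (a η) • k η ∂ρ := by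
    rw [hρ, integral_withDensity_eq_integral_smul hmeas]
    refine integral_congr_ae (Eventually.of_forall fun η => ?_)
    show a η • k η = (‖a η‖₊ : ℝ≥0) • (ph (a η) • k η)
    rw [← norm_smul_ph (a η) (k η)]
    rfl
  rw [hint_eq]
  by_cases hρ0 : ρ = 0
  · simp [hρ0, h0]
  haveI : NeZero ρ := ⟨hρ0⟩
  have hρB : ∀ᵐ η ∂ρ, η ∈ B := by
    have : ∀ᵐ η ∂(μ.restrict B), η ∈ B := ae_restrict_mem hBm
    exact (withDensity_absolutelyContinuous _ _).ae_le this
  have hin : ∀ᵐ η ∂ρ, ph (a η) • k η ∈ K := hρB.mono fun η hη => hK _ (ph_norm_le _) η hη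
  have hkρ : AEStronglyMeasurable k ρ := hkm.mono_ac (withDensity_absolutelyContinuous _ _)
  have hint : Integrable (fun η => ph (a η) • k η) ρ := by
    refine Integrable.mono' (g := fun _ => |C|) (integrable_const _) ?_ ?_
    · exact ((ph_measurable.comp ha.measurable).aestronglyMeasurable).smul hkρ
    · filter_upwards [hρB] with η hη
      rw [norm_smul]
      calc ‖ph (a η)‖ * ‖k η‖ ≤ 1 * ‖k η‖ := by gcongr; exact ph_norm_le _
        _ ≤ |C| := by rw [one_mul]; exact (hC η hη).trans (le_abs_self C)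
  have hav := hKc.average_mem hKcl hin hint
  have : ∫ η, ph (a η) • k η ∂ρ = ρ.real univ • ⨍ η, ph (a η) • k η ∂ρ := by
    rw [measure_smul_average]
  rw [this]
  have h1 : ρ.real univ ≤ 1 := by
    rw [Measure.real]; exact ENNReal.toReal_le_of_le_ofReal zero_le_one (by simpa using hmass)
  have h2 : (0 : ℝ) ≤ ρ.real univ := measureReal_nonneg
  have := hKc h0 hav (a := 1 - ρ.real univ) (b := ρ.real univ) (by linarith) h2 (by ring)
  simpa using this

/-- **Compactness of column operators.** -/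
theorem isCompactOperator_of_columns {μ : Measure Ω} {B : Set Ω} (hB : IsCompact B)
    (hBm : MeasurableSet B) {k : Ω → X} (hk : ContinuousOn k B)
    (hkm : AEStronglyMeasurable k (μ.restrict B))
    (T : Lp ℂ 1 μ →L[ℂ] X) (hT : ∀ a : Lp ℂ 1 μ, T a = ∫ η in B, a η • k η ∂μ) :
    IsCompactOperator T := by
  set K0 : Set X := (fun p : ℂ × Ω => p.1 • k p.2) '' (Metric.closedBall (0 : ℂ) 1 ×ˢ B) with hK0
  have hcont : ContinuousOn (fun p : ℂ × Ω => p.1 • k p.2) (Metric.closedBall (0 : ℂ) 1 ×ˢ B) := by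
    refine ContinuousOn.smul continuousOn_fst ?_
    exact hk.comp continuousOn_snd (fun p hp => hp.2)
  have hK0c : IsCompact K0 := ((isCompact_closedBall (0 : ℂ) 1).prod hB).image_of_continuousOn hcont
  set K : Set X := closedAbsConvexHull ℝ K0 with hK
  have hKc : IsCompact K :=
    isCompact_closedAbsConvexHull_of_totallyBounded hK0c.totallyBounded
  obtain ⟨C, hC⟩ : ∃ C : ℝ, ∀ η ∈ B, ‖k η‖ ≤ C := hB.exists_bound_of_continuousOn hk
  -- enlarge by 0
  by_cases hBe : B = ∅
  · have : (T : Lp ℂ 1 μ → X) = 0 := by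
      funext a; rw [hT, hBe]; simp
    rw [this]
    exact isCompactOperator_zero
  have hne : B.Nonempty := nonempty_iff_ne_empty.2 hBe
  obtain ⟨η0, hη0⟩ := hne
  have hKconv : Convex ℝ K := absConvex_convexClosedHull.2
  have hKcl : IsClosed K := isClosed_closedAbsConvexHull
  have hsub : K0 ⊆ K := subset_closedAbsConvexHull
  have h0 : (0 : X) ∈ K := hsub ⟨(0, η0), ⟨by simp, hη0⟩, by simp⟩
  rw [isCompactOperator_iff_exists_mem_nhds_image_subset_compact]
  refine ⟨Metric.closedBall 0 1, Metric.closedBall_mem_nhds 0 one_pos, K, hKc, ?_⟩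
  rintro _ ⟨a, ha, rfl⟩
  rw [hT]
  have han : ∫ η, ‖a η‖ ∂μ ≤ 1 := by
    rw [← L1.norm_eq_integral_norm]
    simpa using ha
  refine integral_mem_hull hBm hkm hKconv hKcl h0 ?_ hC (Lp.stronglyMeasurable a)
    (L1.integrable_coeFn a) han
  intro c hc η hη
  exact hsub ⟨(c, η), ⟨by simpa using hc, hη⟩, rfl⟩

end Crest.Agent.R086.DE
end

-- ▼ part R086/DEcp
section

/-!
Row 86, Part D, module DE (helper733): convolution with a fixed density, restricted to bounded
frequencies, is compact on `XN N`.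
-/

set_option autoImplicit false
set_option linter.unusedSectionVars false

open MeasureTheory Filter Set Complex
open scoped Topology ENNReal NNReal

namespace Crest.Agent.R086.DE

open Crest.Agent.R086

variable {N M : ℕ}

/-- integral over a measurable set, as a functional -/
noncomputable def setI (N : ℕ) (E : Set R12) : XN N →L[ℂ] ℂ :=
  LinearMap.mkContinuous
    { toFun := fun a => ∫ z in E, a z
      map_add' := fun a b => by
        rw [← integral_add (integrable_XN a).integrableOn (integrable_XN b).integrableOn]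
        exact integral_congr_ae (ae_restrict_of_ae (coe_add a b))
      map_smul' := fun c a => by
        simp only [RingHom.id_apply]
        rw [smul_eq_mul, ← integral_const_mul]
        exact integral_congr_ae (ae_restrict_of_ae (coe_smul c a)) } 1 (fun a => by
    show ‖∫ z in E, a z‖ ≤ 1 * ‖a‖
    rw [one_mul, norm_XN]
    refine (norm_integral_le_integral_norm _).trans ?_
    refine (setIntegral_le_integral (integrable_XN a).norm (Eventually.of_forall fun z =>
      norm_nonneg _)).trans ?_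
    refine integral_mono_of_nonneg (Eventually.of_forall fun z => norm_nonneg _)
      (integrable_wt_XN a) (Eventually.of_forall fun z => ?_)
    show ‖a z‖ ≤ wt N z * ‖a z‖
    nlinarith [one_le_wt N z, norm_nonneg (a z)])

theorem setI_apply (E : Set R12) (a : XN N) : setI N E a = ∫ z in E, a z := rfl

theorem integrable_cv_integrand {v a : R12 → ℂ} (hv : Integrable v) (ha : Integrable a) :
    Integrable (fun p : R12 × R12 => v (p.1 - p.2) * a p.2) (volume.prod volume) := by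
  have := ha.convolution_integrand (ContinuousLinearMap.mul ℝ ℂ) hv
  refine this.congr (Eventually.of_forall fun p => ?_)
  simp [mul_comm]

theorem integrable_cv {v a : R12 → ℂ} (hv : Integrable v) (ha : Integrable a) :
    Integrable (cv v a) := by
  have := (integrable_cv_integrand hv ha).integral_prod_left
  exact this

/-- the cut-off density -/
theorem coe_P (R : ℝ) (a : XN N) : ((mP N R).op a : R12 → ℂ) =ᵐ[volume]
    fun ξ => (Metric.closedBall (0 : R12) R).indicator (fun η => a η) ξ := by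
  refine ((mP N R).coe_op a).trans (Eventually.of_forall fun ξ => ?_)
  by_cases h : ξ ∈ Metric.closedBall (0 : R12) R
  · simp only [mP, indicator_of_mem h, one_mul]
  · simp only [mP, indicator_of_notMem h, zero_mul]

theorem cv_congr_right {v a b : R12 → ℂ} (h : a =ᵐ[volume] b) : cv v a = cv v b := by
  funext z
  unfold cv
  exact integral_congr_ae (h.mono fun ξ hξ => by simp only [hξ])

/-- the column representation -/
theorem cv_P_eq {v : R12 → ℂ} (hv : AllW v) (C : XN N →L[ℂ] XN N)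
    (hC : ∀ a : XN N, (C a : R12 → ℂ) =ᵐ[volume] cv v a) (R : ℝ) (a : XN N) :
    C ((mP N R).op a) = ∫ η in Metric.closedBall (0 : R12) R,
      a η • ((((wt N η)⁻¹ : ℝ) : ℂ) • tr N hv η) ∂(muN N) := by
  set B : Set R12 := Metric.closedBall (0 : R12) R with hB
  have hBm : MeasurableSet B := Metric.isClosed_closedBall.measurableSet
  have hBc : IsCompact B := isCompact_closedBall _ _
  set k : R12 → XN N := fun η => (((wt N η)⁻¹ : ℝ) : ℂ) • tr N hv η with hk
  have hkc : Continuous k := by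
    have h1 : Continuous fun η : R12 => (((wt N η)⁻¹ : ℝ) : ℂ) :=
      Complex.continuous_ofReal.comp ((continuous_wt N).inv₀ fun η => (wt_pos N η).ne')
    exact h1.smul (continuous_tr hv N)
  obtain ⟨D, hD⟩ := hBc.exists_bound_of_continuousOn hkc.continuousOn
  have hki : Integrable (fun η => a η • k η) ((muN N).restrict B) := by
    have ha := (L1.integrable_coeFn a).norm.integrableOn (s := B)
    refine (ha.const_mul D).mono ?_ ?_
    · exact ((Lp.stronglyMeasurable a).aestronglyMeasurable).smul hkc.aestronglyMeasurable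
    · refine (ae_restrict_mem hBm).mono fun η hη => ?_
      have h1 := hD η hη
      have h2 : 0 ≤ D := (norm_nonneg _).trans h1
      rw [norm_smul, norm_mul, norm_norm, Real.norm_of_nonneg h2, mul_comm]
      exact mul_le_mul_of_nonneg_right h1 (norm_nonneg _)
  refine ext_XN ?_
  refine (hC _).trans ?_
  have hPa : Integrable (fun ξ => B.indicator (fun η => a η) ξ) := (integrable_XN a).indicator hBm
  rw [cv_congr_right (coe_P R a)]
  refine Integrable.ae_eq_of_forall_setIntegral_eq _ _ (integrable_cv hv.integrable hPa)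
    (integrable_XN _) ?_
  intro E hE _
  have e1 : ∫ z in E, (∫ η in B, a η • k η ∂(muN N) : XN N) z =
      setI N E (∫ η in B, a η • k η ∂(muN N)) := rfl
  rw [e1, ← ContinuousLinearMap.integral_comp_comm _ hki]
  have e2 : ∫ η in B, setI N E (a η • k η) ∂(muN N) =
      ∫ η, (fun η => B.indicator (fun η => a η) η * ∫ z in E, v (z - η)) η := by
    rw [← integral_indicator hBm, integral_muN]
    refine integral_congr_ae (Eventually.of_forall fun η => ?_)
    by_cases h : η ∈ B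
    · simp only [indicator_of_mem h]
      have e3 : setI N E (tr N hv η) = ∫ z in E, v (z - η) := by
        rw [setI_apply]
        exact integral_congr_ae (ae_restrict_of_ae (coe_tr hv η))
      rw [hk]
      simp only [map_smul, e3, smul_eq_mul, Complex.real_smul]
      have h4 : ((wt N η : ℝ) : ℂ) * (((wt N η)⁻¹ : ℝ) : ℂ) = 1 := by
        rw [← Complex.ofReal_mul, mul_inv_cancel₀ (wt_pos N η).ne', Complex.ofReal_one]
      calc ((wt N η : ℝ) : ℂ) * (a η * ((((wt N η)⁻¹ : ℝ) : ℂ) * ∫ z in E, v (z - η)))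
          = (((wt N η : ℝ) : ℂ) * (((wt N η)⁻¹ : ℝ) : ℂ)) * (a η * ∫ z in E, v (z - η)) := by ring
        _ = _ := by rw [h4, one_mul]
    · simp only [indicator_of_notMem h, smul_zero, zero_mul]
  rw [e2]
  -- Fubini
  have hint : Integrable (fun p : R12 × R12 => v (p.1 - p.2) * B.indicator (fun η => a η) p.2)
      ((volume.restrict E).prod volume) := by
    have := (integrable_cv_integrand hv.integrable hPa)
    have h2 := this.integrableOn (s := E ×ˢ univ)
    rwa [IntegrableOn, ← Measure.prod_restrict, Measure.restrict_univ] at h2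
  have e5 := integral_integral_swap (f := fun z η => v (z - η) * B.indicator (fun η => a η) η)
    (μ := volume.restrict E) (ν := volume) hint
  unfold cv
  rw [e5]
  refine integral_congr_ae (Eventually.of_forall fun η => ?_)
  simp only
  rw [integral_mul_const, mul_comm]

/-- convolution restricted to bounded frequencies is compact -/
theorem isCompact_cv_P {v : R12 → ℂ} (hv : AllW v) (C : XN N →L[ℂ] XN N)
    (hC : ∀ a : XN N, (C a : R12 → ℂ) =ᵐ[volume] cv v a) (R : ℝ) :
    IsCompactOperator (C ∘L (mP N R).op) := by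
  have hkc : Continuous fun η => (((wt N η)⁻¹ : ℝ) : ℂ) • tr N hv η := by
    have h1 : Continuous fun η : R12 => (((wt N η)⁻¹ : ℝ) : ℂ) :=
      Complex.continuous_ofReal.comp ((continuous_wt N).inv₀ fun η => (wt_pos N η).ne')
    exact h1.smul (continuous_tr hv N)
  exact isCompactOperator_of_columns (μ := muN N) (isCompact_closedBall (0 : R12) R)
    Metric.isClosed_closedBall.measurableSet hkc.continuousOn hkc.aestronglyMeasurable
    (C ∘L (mP N R).op) (fun a => cv_P_eq hv C hC R a)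

end Crest.Agent.R086.DE
end

-- ▼ part R086/DEhf
section

/-!
Row 86, Part D, module DE (helper733): integral Gronwall and the two-norm (Lasota–Yorke) estimate for a
perturbed semigroup.
-/

set_option autoImplicit false

open MeasureTheory Filter Set
open scoped Topology

namespace Crest.Agent.R086.DE

/-- Integral Gronwall inequality. -/
theorem gronwall_int {y : ℝ → ℝ} (hy : Continuous y) {a b T : ℝ} (hb : 0 ≤ b)
    (h : ∀ t ∈ Icc (0 : ℝ) T, y t ≤ a + b * ∫ r in (0 : ℝ)..t, y r) :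
    ∀ t ∈ Icc (0 : ℝ) T, y t ≤ a * Real.exp (b * t) := by
  set Y : ℝ → ℝ := fun t => ∫ r in (0 : ℝ)..t, y r with hY
  have hYd : ∀ t, HasDerivAt Y (y t) t := fun t =>
    intervalIntegral.integral_hasDerivAt_right (hy.intervalIntegrable _ _)
      (hy.stronglyMeasurableAtFilter _ _) hy.continuousAt
  set Z : ℝ → ℝ := fun t => Real.exp (-(b * t)) * (a + b * Y t) with hZ
  have hZd : ∀ t, HasDerivAt Z (Real.exp (-(b * t)) * (-(b * 1)) * (a + b * Y t) +
      Real.exp (-(b * t)) * (b * y t)) t := by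
    intro t
    have h1 : HasDerivAt (fun t : ℝ => Real.exp (-(b * t))) (Real.exp (-(b * t)) * (-(b * 1))) t :=
      (((hasDerivAt_id t).const_mul b).neg).exp
    have h2 : HasDerivAt (fun t : ℝ => a + b * Y t) (b * y t) t :=
      ((hYd t).const_mul b).const_add a
    exact h1.mul h2
  have hanti : AntitoneOn Z (Icc 0 T) := by
    refine antitoneOn_of_deriv_nonpos (convex_Icc 0 T)
      (fun t _ => (hZd t).continuousAt.continuousWithinAt)
      (fun t _ => (hZd t).differentiableAt.differentiableWithinAt) ?_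
    intro t ht
    rw [interior_Icc] at ht
    rw [(hZd t).deriv]
    have h3 := h t ⟨ht.1.le, ht.2.le⟩
    have h4 := Real.exp_pos (-(b * t))
    have : Real.exp (-(b * t)) * (-(b * 1)) * (a + b * Y t) + Real.exp (-(b * t)) * (b * y t)
        = Real.exp (-(b * t)) * (b * (y t - (a + b * Y t))) := by ring
    rw [this]
    have h5 : y t - (a + b * Y t) ≤ 0 := by simp only [hY]; linarith
    exact mul_nonpos_of_nonneg_of_nonpos h4.le (mul_nonpos_of_nonneg_of_nonpos hb h5)
  intro t ht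
  have h6 : Z t ≤ Z 0 := hanti ⟨le_refl _, ht.1.trans ht.2⟩ ht ht.1
  have h7 : Z 0 = a := by simp [hZ, hY]
  rw [h7] at h6
  have h8 : a + b * Y t ≤ a * Real.exp (b * t) := by
    have h9 : Z t * Real.exp (b * t) = a + b * Y t := by
      simp only [hZ]
      rw [mul_comm (Real.exp (-(b * t))), mul_assoc, ← Real.exp_add]
      simp
    rw [← h9]
    exact mul_le_mul_of_nonneg_right h6 (Real.exp_pos _).le
  exact (h t ht).trans (by simpa [hY] using h8)

variable {X Y0 Y1 : Type*} [NormedAddCommGroup X] [NormedSpace ℂ X] [CompleteSpace X]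
  [NormedAddCommGroup Y0] [NormedSpace ℂ Y0] [CompleteSpace Y0]
  [NormedAddCommGroup Y1] [NormedSpace ℂ Y1] [CompleteSpace Y1]

/-- Duhamel integrand bound: for a continuous linear `J`. -/
theorem norm_J_duhamel_le {S0 S : ℝ → X →L[ℂ] X} {B : X →L[ℂ] X} {Y : Type*}
    [NormedAddCommGroup Y] [NormedSpace ℂ Y] [CompleteSpace Y] (J : X →L[ℂ] Y) {x : X} {t : ℝ}
    (ht : 0 ≤ t)
    (hduh : S t x = S0 t x + ∫ r in (0 : ℝ)..t, S0 (t - r) (B (S r x)))
    (hint : IntervalIntegrable (fun r => S0 (t - r) (B (S r x))) volume 0 t)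
    {g : ℝ → ℝ} (hg : IntervalIntegrable g volume 0 t)
    (hJg : ∀ r ∈ Icc (0 : ℝ) t, ‖J (S0 (t - r) (B (S r x)))‖ ≤ g r) :
    ‖J (S t x)‖ ≤ ‖J (S0 t x)‖ + ∫ r in (0 : ℝ)..t, g r := by
  rw [hduh, map_add, ← J.intervalIntegral_comp_comm hint]
  refine (norm_add_le _ _).trans ?_
  gcongr
  refine intervalIntegral.norm_integral_le_of_norm_le ht ?_ hg
  refine Eventually.of_forall fun r hr => hJg r ⟨hr.1.le, hr.2⟩

/-- **Two-norm estimate.** -/
theorem two_norm {S0 S : ℝ → X →L[ℂ] X} {B : X →L[ℂ] X}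
    (J0 : X →L[ℂ] Y0) (J1 : X →L[ℂ] Y1) {κ b b1 C : ℝ} (hκ : 0 ≤ κ) (hb : 0 ≤ b) (hb1 : 0 ≤ b1)
    (hC : 0 ≤ C)
    (hduh : ∀ t, 0 ≤ t → ∀ x, S t x = S0 t x + ∫ r in (0 : ℝ)..t, S0 (t - r) (B (S r x)))
    (hint : ∀ t, 0 ≤ t → ∀ x, IntervalIntegrable (fun r => S0 (t - r) (B (S r x))) volume 0 t)
    (hcont : ∀ x, ContinuousOn (fun t => S t x) (Ici 0))
    (h0 : ∀ t, 0 ≤ t → ∀ x, ‖J0 (S0 t x)‖ ≤ ‖J0 x‖)
    (h1 : ∀ t, 0 ≤ t → ∀ x, ‖J1 (S0 t x)‖ ≤ Real.exp (-(κ * t)) * ‖J1 x‖)
    (v0 : ∀ x, ‖J0 (B x)‖ ≤ b * ‖J0 x‖)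
    (v1 : ∀ x, ‖J1 (B x)‖ ≤ b1 * ‖J1 x‖ + C * ‖J0 x‖)
    (T : ℝ) (hT : 0 ≤ T) (x : X) :
    ‖J0 (S T x)‖ ≤ ‖J0 x‖ * Real.exp (b * T) ∧
    ‖J1 (S T x)‖ ≤ Real.exp (-((κ - b1) * T)) *
      (‖J1 x‖ + C * T * Real.exp ((κ + b) * T) * ‖J0 x‖) := by
  -- continuous extensions
  set u : ℝ → X := fun t => S (max t 0) x with hu
  have huc : Continuous u := by
    have := (hcont x).comp_continuous (f := fun t : ℝ => max t 0) (by fun_prop)
      (fun t => le_max_right t 0)
    exact this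
  have hue : ∀ t, 0 ≤ t → u t = S t x := fun t ht => by simp [hu, max_eq_left ht]
  -- first estimate
  have e0 : ∀ t ∈ Icc (0 : ℝ) T, ‖J0 (u t)‖ ≤ ‖J0 x‖ * Real.exp (b * t) := by
    refine gronwall_int (by fun_prop) hb ?_
    intro t ht
    rw [hue t ht.1]
    have := norm_J_duhamel_le J0 (S0 := S0) (S := S) (B := B) ht.1 (hduh t ht.1 x)
      (hint t ht.1 x) (g := fun r => b * ‖J0 (u r)‖) (Continuous.intervalIntegrable (by fun_prop) _ _)
      (fun r hr => by
        rw [hue r hr.1]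
        exact (h0 (t - r) (by linarith [hr.2]) _).trans (v0 _))
    refine this.trans ?_
    rw [intervalIntegral.integral_const_mul]
    gcongr
    exact h0 t ht.1 x
  -- second estimate
  set y : ℝ → ℝ := fun t => Real.exp (κ * t) * ‖J1 (u t)‖ with hy
  have hyc : Continuous y := by fun_prop
  set C' : ℝ := C * T * Real.exp ((κ + b) * T) with hC'
  have e1 : ∀ t ∈ Icc (0 : ℝ) T, y t ≤ (‖J1 x‖ + C' * ‖J0 x‖) * Real.exp (b1 * t) := by
    refine gronwall_int hyc hb1 ?_
    intro t ht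
    have hstep := norm_J_duhamel_le J1 (S0 := S0) (S := S) (B := B) ht.1 (hduh t ht.1 x)
      (hint t ht.1 x)
      (g := fun r => Real.exp (-(κ * (t - r))) * (b1 * ‖J1 (u r)‖ + C * ‖J0 (u r)‖))
      (Continuous.intervalIntegrable (by fun_prop) _ _)
      (fun r hr => by
        rw [hue r hr.1]
        refine (h1 (t - r) (by linarith [hr.2]) _).trans ?_
        gcongr
        exact v1 _)
    have hstep2 : y t ≤ ‖J1 x‖ +
        ∫ r in (0 : ℝ)..t, (b1 * y r + C * (Real.exp (κ * r) * ‖J0 (u r)‖)) := by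
      have h2 : y t ≤ Real.exp (κ * t) * (‖J1 (S0 t x)‖ + ∫ r in (0 : ℝ)..t,
          Real.exp (-(κ * (t - r))) * (b1 * ‖J1 (u r)‖ + C * ‖J0 (u r)‖)) := by
        simp only [hy, hue t ht.1]
        gcongr
      refine h2.trans ?_
      rw [mul_add]
      refine add_le_add ?_ (le_of_eq ?_)
      · calc Real.exp (κ * t) * ‖J1 (S0 t x)‖
            ≤ Real.exp (κ * t) * (Real.exp (-(κ * t)) * ‖J1 x‖) := by
              gcongr; exact h1 t ht.1 x
          _ = ‖J1 x‖ := by rw [← mul_assoc, ← Real.exp_add]; simp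
      · rw [← intervalIntegral.integral_const_mul]
        refine intervalIntegral.integral_congr fun r _ => ?_
        simp only [hy]
        have : Real.exp (κ * t) * (Real.exp (-(κ * (t - r))) *
            (b1 * ‖J1 (u r)‖ + C * ‖J0 (u r)‖)) = (Real.exp (κ * t) * Real.exp (-(κ * (t - r)))) *
            (b1 * ‖J1 (u r)‖ + C * ‖J0 (u r)‖) := by ring
        rw [this, ← Real.exp_add]
        have h3 : κ * t + -(κ * (t - r)) = κ * r := by ring
        rw [h3]; ring
    refine hstep2.trans ?_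
    rw [intervalIntegral.integral_add (Continuous.intervalIntegrable (by fun_prop) _ _)
      (Continuous.intervalIntegrable (by fun_prop) _ _), intervalIntegral.integral_const_mul]
    have h4 : ∫ r in (0 : ℝ)..t, C * (Real.exp (κ * r) * ‖J0 (u r)‖) ≤ C' * ‖J0 x‖ := by
      have h5 : ∀ r ∈ Icc (0 : ℝ) t, C * (Real.exp (κ * r) * ‖J0 (u r)‖) ≤
          C * (Real.exp ((κ + b) * T) * ‖J0 x‖) := by
        intro r hr
        have h6 := e0 r ⟨hr.1, hr.2.trans ht.2⟩
        have h7 : Real.exp (κ * r) * ‖J0 (u r)‖ ≤ Real.exp ((κ + b) * T) * ‖J0 x‖ := by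
          calc Real.exp (κ * r) * ‖J0 (u r)‖ ≤ Real.exp (κ * r) * (‖J0 x‖ * Real.exp (b * r)) := by
                gcongr
            _ = Real.exp ((κ + b) * r) * ‖J0 x‖ := by
                rw [add_mul, Real.exp_add]; ring
            _ ≤ Real.exp ((κ + b) * T) * ‖J0 x‖ := by
                have hrT : r ≤ T := hr.2.trans ht.2
                gcongr
        gcongr
      calc ∫ r in (0 : ℝ)..t, C * (Real.exp (κ * r) * ‖J0 (u r)‖)
          ≤ ∫ r in (0 : ℝ)..t, C * (Real.exp ((κ + b) * T) * ‖J0 x‖) :=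
            intervalIntegral.integral_mono_on ht.1 (Continuous.intervalIntegrable (by fun_prop) _ _)
              intervalIntegrable_const h5
        _ = t * (C * (Real.exp ((κ + b) * T) * ‖J0 x‖)) := by
            rw [intervalIntegral.integral_const]; simp
        _ ≤ T * (C * (Real.exp ((κ + b) * T) * ‖J0 x‖)) := by
            have := ht.2
            gcongr
        _ = C' * ‖J0 x‖ := by simp only [hC']; ring
    linarith
  refine ⟨?_, ?_⟩
  · have := e0 T ⟨hT, le_refl T⟩
    rwa [hue T hT] at this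
  · have := e1 T ⟨hT, le_refl T⟩
    simp only [hy, hue T hT] at this
    have h8 : ‖J1 (S T x)‖ = Real.exp (-(κ * T)) * (Real.exp (κ * T) * ‖J1 (S T x)‖) := by
      rw [← mul_assoc, ← Real.exp_add]; simp
    rw [h8]
    calc Real.exp (-(κ * T)) * (Real.exp (κ * T) * ‖J1 (S T x)‖)
        ≤ Real.exp (-(κ * T)) * ((‖J1 x‖ + C' * ‖J0 x‖) * Real.exp (b1 * T)) := by gcongr
      _ = Real.exp (-((κ - b1) * T)) * (‖J1 x‖ + C' * ‖J0 x‖) := by
          have : Real.exp (-((κ - b1) * T)) = Real.exp (-(κ * T)) * Real.exp (b1 * T) := by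
            rw [← Real.exp_add]; congr 1; ring
          rw [this]; ring

end Crest.Agent.R086.DE
end

-- ▼ part R086/DE
section

/-!
Row 86, Part D, node DE (helper733): for large `N`, `S(t₀) = A + K`, `‖A‖ < 1`, `K` compact.
-/

set_option autoImplicit false
set_option linter.unusedSectionVars false

open MeasureTheory Filter Set Complex
open scoped Topology ENNReal NNReal

namespace Crest.Agent.R086.DE

open Crest.Agent.R086

variable {N M : ℕ}

/-! ### the operators on pairs -/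

noncomputable def JJ0 (N : ℕ) : XX N →L[ℂ] XX 0 := (mJ0 N).op.prodMap (mJ0 N).op
noncomputable def JJ1 (N : ℕ) : XX N →L[ℂ] XX 0 := (mJ1 N).op.prodMap (mJ1 N).op
noncomputable def PP (N : ℕ) (R : ℝ) : XX N →L[ℂ] XX N := (mP N R).op.prodMap (mP N R).op

theorem norm_JJ0 (x : XX N) : ‖JJ0 N x‖ = max (mom 0 x.1) (mom 0 x.2) := by
  rw [← norm_J0 x.1, ← norm_J0 x.2]; rfl

theorem norm_JJ1 (x : XX N) : ‖JJ1 N x‖ = max (mom N x.1) (mom N x.2) := by
  rw [← norm_J1 x.1, ← norm_J1 x.2]; rfl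

theorem norm_le_JJ (x : XX N) : ‖x‖ ≤ 2 ^ N * (‖JJ0 N x‖ + ‖JJ1 N x‖) := by
  have h1 := norm_le_J x.1
  have h2 := norm_le_J x.2
  rw [norm_J0, norm_J1] at h1 h2
  rw [norm_JJ0, norm_JJ1, Prod.norm_def]
  have h3 : (0 : ℝ) ≤ 2 ^ N := by positivity
  refine max_le (h1.trans ?_) (h2.trans ?_)
  · exact mul_le_mul_of_nonneg_left (add_le_add (le_max_left _ _) (le_max_left _ _)) h3
  · exact mul_le_mul_of_nonneg_left (add_le_add (le_max_right _ _) (le_max_right _ _)) h3

theorem norm_JJ1_le (x : XX N) : ‖JJ1 N x‖ ≤ ‖x‖ := by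
  rw [norm_JJ1, ← norm_J1 x.1, ← norm_J1 x.2, Prod.norm_def]
  have h1 := (mJ1 N).norm_op_le x.1
  have h2 := (mJ1 N).norm_op_le x.2
  have hC : (mJ1 N).C = 1 := rfl
  rw [hC, one_mul] at h1 h2
  exact max_le_max h1 h2

theorem norm_PP_le (R : ℝ) (x : XX N) : ‖PP N R x‖ ≤ ‖x‖ := by
  have h1 := (mP N R).norm_op_le x.1
  have h2 := (mP N R).norm_op_le x.2
  have hC : (mP N R).C = 1 := rfl
  rw [hC, one_mul] at h1 h2
  have : ‖PP N R x‖ = max ‖(mP N R).op x.1‖ ‖(mP N R).op x.2‖ := rfl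
  rw [this, Prod.norm_def]
  exact max_le_max h1 h2

/-! ### high frequencies -/

theorem coe_sub_P (R : ℝ) (a : XN N) : ((a - (mP N R).op a : XN N) : R12 → ℂ) =ᵐ[volume]
    fun ξ => (Metric.closedBall (0 : R12) R)ᶜ.indicator (fun η => a η) ξ := by
  filter_upwards [coe_sub a ((mP N R).op a), coe_P R a] with ξ h1 h2
  rw [h1, h2]
  by_cases h : ξ ∈ Metric.closedBall (0 : R12) R
  · rw [indicator_of_mem h, indicator_of_notMem (by simpa using h), sub_self]
  · rw [indicator_of_notMem h, indicator_of_mem (by simpa using h), sub_zero]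

theorem norm_sub_P_le (R : ℝ) (a : XN N) : ‖a - (mP N R).op a‖ ≤ ‖a‖ := by
  rw [norm_XN, norm_XN]
  refine integral_mono_of_nonneg (Eventually.of_forall fun ξ =>
    mul_nonneg (wt_nonneg N ξ) (norm_nonneg _)) (integrable_wt_XN a) ?_
  refine (coe_sub_P R a).mono fun ξ h => ?_
  simp only [h]
  refine mul_le_mul_of_nonneg_left ?_ (wt_nonneg N ξ)
  exact norm_indicator_le_norm_self _ _

theorem mom0_sub_P_le {R : ℝ} (hR : 0 ≤ R) (a : XN N) :
    mom 0 ((a - (mP N R).op a : XN N)) ≤ ((1 + R) ^ N)⁻¹ * ‖a‖ := by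
  rw [norm_XN, ← integral_const_mul]
  unfold mom
  refine integral_mono_of_nonneg (Eventually.of_forall fun ξ =>
    mul_nonneg (pow_nonneg (norm_nonneg _) _) (norm_nonneg _))
    ((integrable_wt_XN a).const_mul _) ?_
  refine (coe_sub_P R a).mono fun ξ h => ?_
  simp only [h, pow_zero, one_mul]
  by_cases hξ : ξ ∈ Metric.closedBall (0 : R12) R
  · rw [indicator_of_notMem (by simpa using hξ)]
    rw [norm_zero]
    have := wt_nonneg N ξ
    positivity
  · rw [indicator_of_mem (by simpa using hξ), ← mul_assoc]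
    have h1 : R < ‖ξ‖ := by simpa using hξ
    have h2 : 1 ≤ ((1 + R) ^ N)⁻¹ * wt N ξ := by
      rw [← div_eq_inv_mul, le_div_iff₀ (by positivity), one_mul]
      unfold wt
      exact pow_le_pow_left₀ (by linarith) (by linarith) N
    nlinarith [norm_nonneg (a ξ)]

theorem norm_sub_PP_le (R : ℝ) (x : XX N) : ‖x - PP N R x‖ ≤ ‖x‖ := by
  have h : ‖x - PP N R x‖ = max ‖x.1 - (mP N R).op x.1‖ ‖x.2 - (mP N R).op x.2‖ := rfl
  rw [h, Prod.norm_def]
  exact max_le_max (norm_sub_P_le R _) (norm_sub_P_le R _)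

theorem norm_JJ0_sub_PP_le {R : ℝ} (hR : 0 ≤ R) (x : XX N) :
    ‖JJ0 N (x - PP N R x)‖ ≤ ((1 + R) ^ N)⁻¹ * ‖x‖ := by
  rw [norm_JJ0]
  have e1 : (x - PP N R x).1 = x.1 - (mP N R).op x.1 := rfl
  have e2 : (x - PP N R x).2 = x.2 - (mP N R).op x.2 := rfl
  rw [e1, e2]
  have hp : (0 : ℝ) ≤ ((1 + R) ^ N)⁻¹ := by positivity
  refine max_le ((mom0_sub_P_le hR _).trans ?_) ((mom0_sub_P_le hR _).trans ?_)
  · exact mul_le_mul_of_nonneg_left (norm_fst_le x) hp
  · exact mul_le_mul_of_nonneg_left (norm_snd_le x) hp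

/-! ### the free flow -/

section flow

variable {n : ℕ} {P : Profile n} {T : Pot P} (D : LinData P T N)

theorem norm_coef (om s q : ℝ) :
    ‖exp ((I * om - 1 / n) * s) * exp (6 * (s : ℂ)) * exp (-I * ((q : ℝ) : ℂ))‖ =
      Real.exp (-s / n) * Real.exp (6 * s) := by
  rw [norm_mul, norm_mul, Complex.norm_exp, Complex.norm_exp, Complex.norm_exp]
  have h1 : ((I * om - 1 / n) * s : ℂ).re = -s / n := by
    have : ((1 : ℂ) / n).re = 1 / n := by
      have : ((1 : ℂ) / n) = ((1 / n : ℝ) : ℂ) := by push_cast; ring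
      rw [this, Complex.ofReal_re]
    have h0 : ((I * om - 1 / n) * s : ℂ).re = (I * om - 1 / n : ℂ).re * s := by
      rw [Complex.re_mul_ofReal]
    rw [h0, Complex.sub_re, this]
    simp; ring
  have h2 : (6 * (s : ℂ)).re = 6 * s := by simp
  have h3 : (-I * ((q : ℝ) : ℂ)).re = 0 := by simp
  rw [h1, h2, h3, Real.exp_zero, mul_one]

theorem norm_S0_fst (s : ℝ) (hs : 0 ≤ s) (x : XX N) :
    ∀ᵐ z ∂(volume : Measure R12), ‖((D.S0 s x).1 : R12 → ℂ) z‖ =
      Real.exp (-s / n) * (Real.exp (6 * s) * ‖(x.1 : R12 → ℂ) (Real.exp (s / 2) • z)‖) := by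
  refine (D.S0_fst s hs x).mono fun z hz => ?_
  rw [hz, norm_mul, norm_coef]; ring

theorem norm_S0_snd (s : ℝ) (hs : 0 ≤ s) (x : XX N) :
    ∀ᵐ z ∂(volume : Measure R12), ‖((D.S0 s x).2 : R12 → ℂ) z‖ =
      Real.exp (-s / n) * (Real.exp (6 * s) * ‖(x.2 : R12 → ℂ) (Real.exp (s / 2) • z)‖) := by
  refine (D.S0_snd s hs x).mono fun z hz => ?_
  have h := norm_coef (n := n) (-P.om) s (-((Real.exp s - 1) * ‖z‖ ^ 2))
  rw [hz, norm_mul]
  have e1 : exp ((-I * P.om - 1 / n) * s) * exp (6 * (s : ℂ)) *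
      exp (I * (((Real.exp s - 1) * ‖z‖ ^ 2 : ℝ) : ℂ)) =
      exp ((I * ((-P.om : ℝ) : ℂ) - 1 / n) * s) * exp (6 * (s : ℂ)) *
        exp (-I * ((-((Real.exp s - 1) * ‖z‖ ^ 2) : ℝ) : ℂ)) := by
    have a1 : ((I * ((-P.om : ℝ) : ℂ) - 1 / n) * s : ℂ) = (-I * P.om - 1 / n) * s := by
      push_cast; ring
    have a2 : (-I * ((-((Real.exp s - 1) * ‖z‖ ^ 2) : ℝ) : ℂ)) =
        I * (((Real.exp s - 1) * ‖z‖ ^ 2 : ℝ) : ℂ) := by push_cast; ring
    rw [a1, a2]
  rw [e1, h]; ring

theorem mom_S0 (k : ℕ) (s : ℝ) (hs : 0 ≤ s) (x : XX N) :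
    mom k (D.S0 s x).1 = Real.exp (-s / n) * (Real.exp (-(k / 2 * s)) * mom k x.1) ∧
    mom k (D.S0 s x).2 = Real.exp (-s / n) * (Real.exp (-(k / 2 * s)) * mom k x.2) :=
  ⟨mom_scale (norm_S0_fst D s hs x), mom_scale (norm_S0_snd D s hs x)⟩

theorem mom_S0_le (k : ℕ) (s : ℝ) (hs : 0 ≤ s) (x : XX N) :
    mom k (D.S0 s x).1 ≤ Real.exp (-(k / 2 * s)) * mom k x.1 ∧
    mom k (D.S0 s x).2 ≤ Real.exp (-(k / 2 * s)) * mom k x.2 := by
  have h1 : Real.exp (-s / n) ≤ 1 := by
    rw [Real.exp_le_one_iff]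
    exact div_nonpos_of_nonpos_of_nonneg (by linarith) (Nat.cast_nonneg n)
  obtain ⟨h2, h3⟩ := mom_S0 D k s hs x
  rw [h2, h3]
  constructor
  · exact mul_le_of_le_one_left (mul_nonneg (Real.exp_pos _).le (mom_nonneg _ _)) h1
  · exact mul_le_of_le_one_left (mul_nonneg (Real.exp_pos _).le (mom_nonneg _ _)) h1

theorem h0_flow (s : ℝ) (hs : 0 ≤ s) (x : XX N) : ‖JJ0 N (D.S0 s x)‖ ≤ ‖JJ0 N x‖ := by
  rw [norm_JJ0, norm_JJ0]
  obtain ⟨h1, h2⟩ := mom_S0_le D 0 s hs x
  simp only [Nat.cast_zero, zero_div, zero_mul, neg_zero, Real.exp_zero, one_mul] at h1 h2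
  exact max_le_max h1 h2

theorem h1_flow (s : ℝ) (hs : 0 ≤ s) (x : XX N) :
    ‖JJ1 N (D.S0 s x)‖ ≤ Real.exp (-((N / 2 : ℝ) * s)) * ‖JJ1 N x‖ := by
  rw [norm_JJ1, norm_JJ1]
  obtain ⟨h1, h2⟩ := mom_S0_le D N s hs x
  have hp := (Real.exp_pos (-((N / 2 : ℝ) * s))).le
  refine max_le (h1.trans ?_) (h2.trans ?_)
  · exact mul_le_mul_of_nonneg_left (le_max_left _ _) hp
  · exact mul_le_mul_of_nonneg_left (le_max_right _ _) hp

theorem norm_S0_le (s : ℝ) (hs : 0 ≤ s) (x : XX N) : ‖D.S0 s x‖ ≤ Real.exp (-s / n) * ‖x‖ :=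
  ((D.S0 s).le_opNorm x).trans (mul_le_mul_of_nonneg_right (D.S0_norm s hs) (norm_nonneg _))

theorem norm_S0_le' (s : ℝ) (hs : 0 ≤ s) (x : XX N) : ‖D.S0 s x‖ ≤ ‖x‖ := by
  refine (norm_S0_le D s hs x).trans (mul_le_of_le_one_left (norm_nonneg _) ?_)
  rw [Real.exp_le_one_iff]
  exact div_nonpos_of_nonpos_of_nonneg (by linarith) (Nat.cast_nonneg n)

/-! ### the potential -/

theorem integrable_mom_cv {v : R12 → ℂ} (hv : AllW v) {k : ℕ} (hk : k ≤ N) (a : XN N) :
    Integrable (fun ξ => ‖ξ‖ ^ k * ‖cv v a ξ‖) := by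
  obtain ⟨C, hC⟩ := exists_cv N v ((hv N).congr (Eventually.of_forall fun ξ => by
    simp only [wt, Complex.real_smul]))
  have h1 : Integrable (fun ξ => wt N ξ • (C a : XN N) ξ) := by
    have := L1.integrable_coeFn (C a)
    exact integrable_muN_iff.1 this
  have h2 := integrable_mom_of_wt hk h1
  exact h2.congr ((hC a).mono fun ξ hξ => by simp only [hξ])

theorem mom_comb_le {v w : R12 → ℂ} (hv : AllW v) (hw : AllW w) {k : ℕ} (hk : k ≤ N)
    (a b y : XN N) {c : ℂ} (hc : ‖c‖ = 1)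
    (hy : (y : R12 → ℂ) =ᵐ[volume] fun z => c * (cv v a z + cv w b z)) :
    mom k y ≤ mom k (cv v a) + mom k (cv w b) := by
  have i1 := integrable_mom_cv (N := N) hv hk a
  have i2 := integrable_mom_cv (N := N) hw hk b
  unfold mom
  rw [← integral_add i1 i2]
  refine integral_mono_of_nonneg (Eventually.of_forall fun ξ =>
    mul_nonneg (pow_nonneg (norm_nonneg _) _) (norm_nonneg _)) (i1.add i2) ?_
  refine hy.mono fun ξ h => ?_
  simp only [h]
  rw [norm_mul, hc, one_mul, ← mul_add]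
  exact mul_le_mul_of_nonneg_left (norm_add_le _ _) (pow_nonneg (norm_nonneg _) _)

theorem AllW_v1 (T : Pot P) : AllW T.v1 := allW_of_rep T.rep_v1
theorem AllW_v2 (T : Pot P) : AllW T.v2 := allW_of_rep T.rep_v2
theorem AllW_v2c (T : Pot P) : AllW T.v2c := allW_of_rep T.rep_v2c

/-- the bound constant -/
noncomputable def bT (T : Pot P) : ℝ := mom 0 T.v1 + mom 0 T.v2 + mom 0 T.v2c

/-- the second constant (without `C_N`) -/
noncomputable def bN (N : ℕ) (T : Pot P) : ℝ := mom N T.v1 + mom N T.v2 + mom N T.v2c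

theorem bT_nonneg (T : Pot P) : 0 ≤ bT T := by
  unfold bT
  have := mom_nonneg 0 T.v1; have := mom_nonneg 0 T.v2; have := mom_nonneg 0 T.v2c
  linarith

theorem bN_nonneg (T : Pot P) : 0 ≤ bN N T := by
  unfold bN
  have := mom_nonneg N T.v1; have := mom_nonneg N T.v2; have := mom_nonneg N T.v2c
  linarith

theorem mom_VV_le {k : ℕ} (hk : k ≤ N) {A B : ℝ} (hA : 0 ≤ A) (hB : 0 ≤ B)
    (hAB : ∀ s t : ℝ, 0 ≤ s → 0 ≤ t → (s + t) ^ k ≤ A * s ^ k + B * t ^ k) (x : XX N) :
    max (mom k (D.VV x).1) (mom k (D.VV x).2) ≤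
      A * bT T * max (mom k x.1) (mom k x.2) +
      B * (mom k T.v1 + mom k T.v2 + mom k T.v2c) * max (mom 0 x.1) (mom 0 x.2) := by
  have w1 : ∀ a : XN N, Integrable (fun ξ => wt N ξ • a ξ) := fun a =>
    integrable_muN_iff.1 (L1.integrable_coeFn a)
  have c1 := fun a : XN N => mom_cv_le hA hB hAB (AllW_v1 T) hk (w1 a)
  have c2 := fun a : XN N => mom_cv_le hA hB hAB (AllW_v2 T) hk (w1 a)
  have c3 := fun a : XN N => mom_cv_le hA hB hAB (AllW_v2c T) hk (w1 a)
  have m1 := mom_nonneg 0 T.v1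
  have m2 := mom_nonneg 0 T.v2
  have m3 := mom_nonneg 0 T.v2c
  have n1 := mom_nonneg k T.v1
  have n2 := mom_nonneg k T.v2
  have n3 := mom_nonneg k T.v2c
  set X : ℝ := max (mom k x.1) (mom k x.2)
  set Y : ℝ := max (mom 0 x.1) (mom 0 x.2)
  have x1 : mom k x.1 ≤ X := le_max_left _ _
  have x2 : mom k x.2 ≤ X := le_max_right _ _
  have y1 : mom 0 x.1 ≤ Y := le_max_left _ _
  have y2 : mom 0 x.2 ≤ Y := le_max_right _ _
  have X0 : 0 ≤ X := (mom_nonneg _ _).trans x1
  have Y0 : 0 ≤ Y := (mom_nonneg _ _).trans y1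
  -- generic step
  have gen : ∀ (u v : ℝ) (u' v' p q p' q' : ℝ), 0 ≤ u → 0 ≤ v → 0 ≤ u' → 0 ≤ v' →
      p ≤ X → q ≤ Y → p' ≤ X → q' ≤ Y →
      (A * (u * p) + B * (u' * q)) + (A * (v * p') + B * (v' * q')) ≤
        A * (u + v) * X + B * (u' + v') * Y := by
    intro u v u' v' p q p' q' hu hv hu' hv' hp hq hp' hq'
    have e1 : A * (u * p) ≤ A * (u * X) := by gcongr
    have e2 : B * (u' * q) ≤ B * (u' * Y) := by gcongr
    have e3 : A * (v * p') ≤ A * (v * X) := by gcongr
    have e4 : B * (v' * q') ≤ B * (v' * Y) := by gcongr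
    nlinarith
  refine max_le ?_ ?_
  · have h := mom_comb_le (AllW_v1 T) (AllW_v2 T) hk x.1 x.2 (D.VV x).1 (c := -I) (by simp)
      (D.VV_fst x)
    have h2 := gen _ _ _ _ _ _ _ _ m1 m2 n1 n2 x1 y1 x2 y2
    have h3 := c1 x.1
    have h4 := c2 x.2
    have h5 : A * (mom 0 T.v1 + mom 0 T.v2) * X ≤ A * bT T * X := by
      have : mom 0 T.v1 + mom 0 T.v2 ≤ bT T := by unfold bT; linarith
      exact mul_le_mul_of_nonneg_right (mul_le_mul_of_nonneg_left this hA) X0
    have h6 : B * (mom k T.v1 + mom k T.v2) * Y ≤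
        B * (mom k T.v1 + mom k T.v2 + mom k T.v2c) * Y := by
      have : mom k T.v1 + mom k T.v2 ≤ mom k T.v1 + mom k T.v2 + mom k T.v2c := by linarith
      exact mul_le_mul_of_nonneg_right (mul_le_mul_of_nonneg_left this hB) Y0
    linarith
  · have h := mom_comb_le (AllW_v1 T) (AllW_v2c T) hk x.2 x.1 (D.VV x).2 (c := I) (by simp)
      (D.VV_snd x)
    have h2 := gen _ _ _ _ _ _ _ _ m1 m3 n1 n3 x2 y2 x1 y1
    have h3 := c1 x.2
    have h4 := c3 x.1
    have h5 : A * (mom 0 T.v1 + mom 0 T.v2c) * X ≤ A * bT T * X := by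
      have : mom 0 T.v1 + mom 0 T.v2c ≤ bT T := by unfold bT; linarith
      exact mul_le_mul_of_nonneg_right (mul_le_mul_of_nonneg_left this hA) X0
    have h6 : B * (mom k T.v1 + mom k T.v2c) * Y ≤
        B * (mom k T.v1 + mom k T.v2 + mom k T.v2c) * Y := by
      have : mom k T.v1 + mom k T.v2c ≤ mom k T.v1 + mom k T.v2 + mom k T.v2c := by linarith
      exact mul_le_mul_of_nonneg_right (mul_le_mul_of_nonneg_left this hB) Y0
    linarith

theorem v0_flow (x : XX N) : ‖JJ0 N (D.VV x)‖ ≤ bT T * ‖JJ0 N x‖ := by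
  rw [norm_JJ0, norm_JJ0]
  have := mom_VV_le D (Nat.zero_le N) (A := 1) (B := 0) zero_le_one le_rfl
    (fun s t _ _ => by simp) x
  simpa using this

theorem v1_flow {C : ℝ} (hC : 0 ≤ C)
    (hCN : ∀ s t : ℝ, 0 ≤ s → 0 ≤ t → (s + t) ^ N ≤ 2 * s ^ N + C * t ^ N) (x : XX N) :
    ‖JJ1 N (D.VV x)‖ ≤ (2 * bT T) * ‖JJ1 N x‖ + (C * bN N T) * ‖JJ0 N x‖ := by
  rw [norm_JJ1, norm_JJ1, norm_JJ0]
  exact mom_VV_le D (le_refl N) (A := 2) (B := C) (by norm_num) hC hCN x

/-! ### compactness -/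

theorem qmp_smul {c : ℝ} (hc : c ≠ 0) :
    Measure.QuasiMeasurePreserving (fun z : R12 => c • z) volume volume := by
  refine ⟨measurable_const_smul c, ?_⟩
  rw [Measure.map_addHaar_smul volume hc]
  exact Measure.smul_absolutelyContinuous

theorem P_idem_of_zero {R : ℝ} {a : XN N}
    (h : ∀ᵐ z ∂(volume : Measure R12), R < ‖z‖ → a z = 0) : (mP N R).op a = a := by
  refine ext_XN ?_
  filter_upwards [coe_P R a, h] with z h1 h2
  rw [h1]
  by_cases hz : z ∈ Metric.closedBall (0 : R12) R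
  · rw [indicator_of_mem hz]
  · rw [indicator_of_notMem hz, h2 (by simpa using hz)]

theorem supp_P {R : ℝ} (a : XN N) :
    ∀ᵐ z ∂(volume : Measure R12), R < ‖z‖ → (mP N R).op a z = 0 := by
  filter_upwards [coe_P R a] with z h1 hz
  rw [h1, indicator_of_notMem (by simpa using hz)]

theorem PP_S0 {R : ℝ} (s : ℝ) (hs : 0 ≤ s) (x : XX N) :
    PP N R (D.S0 s (PP N R x)) = D.S0 s (PP N R x) := by
  have he : Real.exp (s / 2) ≠ 0 := (Real.exp_pos _).ne'
  have h1 : 1 ≤ Real.exp (s / 2) := by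
    rw [Real.one_le_exp_iff]; positivity
  have key : ∀ z : R12, R < ‖z‖ → R < ‖Real.exp (s / 2) • z‖ := by
    intro z hz
    rw [norm_smul, Real.norm_of_nonneg (Real.exp_pos _).le]
    nlinarith [norm_nonneg z]
  refine Prod.ext ?_ ?_
  · refine P_idem_of_zero ?_
    filter_upwards [D.S0_fst s hs (PP N R x), (qmp_smul he).ae (supp_P (R := R) x.1)]
      with z h2 h3 hz
    refine h2.trans ?_
    have : ((PP N R x).1 : R12 → ℂ) (Real.exp (s / 2) • z) = 0 := h3 (key z hz)
    rw [this, mul_zero]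
  · refine P_idem_of_zero ?_
    filter_upwards [D.S0_snd s hs (PP N R x), (qmp_smul he).ae (supp_P (R := R) x.2)]
      with z h2 h3 hz
    refine h2.trans ?_
    have : ((PP N R x).2 : R12 → ℂ) (Real.exp (s / 2) • z) = 0 := h3 (key z hz)
    rw [this, mul_zero]

theorem compact_VV_PP (R : ℝ) : IsCompactOperator (D.VV ∘L PP N R) := by
  have hx : ∀ {v : R12 → ℂ}, AllW v → ∃ C : XN N →L[ℂ] XN N,
      ∀ a : XN N, ((C a : XN N) : R12 → ℂ) =ᵐ[volume] cv v a := fun {v} hv =>
    exists_cv N v ((hv N).congr (Eventually.of_forall fun ξ => by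
      simp only [wt, Complex.real_smul]))
  obtain ⟨C1, h1⟩ := hx (AllW_v1 T)
  obtain ⟨C2, h2⟩ := hx (AllW_v2 T)
  obtain ⟨C3, h3⟩ := hx (AllW_v2c T)
  have k1 := isCompact_cv_P (AllW_v1 T) C1 h1 R
  have k2 := isCompact_cv_P (AllW_v2 T) C2 h2 R
  have k3 := isCompact_cv_P (AllW_v2c T) C3 h3 R
  set f1 : XX N →L[ℂ] XN N := ContinuousLinearMap.fst ℂ (XN N) (XN N)
  set f2 : XX N →L[ℂ] XN N := ContinuousLinearMap.snd ℂ (XN N) (XN N)
  set i1 : XN N →L[ℂ] XX N := ContinuousLinearMap.inl ℂ (XN N) (XN N)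
  set i2 : XN N →L[ℂ] XX N := ContinuousLinearMap.inr ℂ (XN N) (XN N)
  set Q : XN N →L[ℂ] XN N := (mP N R).op
  set u : XX N →L[ℂ] XN N := (C1 ∘L Q) ∘L f1 + (C2 ∘L Q) ∘L f2 with hu
  set w : XX N →L[ℂ] XN N := (C1 ∘L Q) ∘L f2 + (C3 ∘L Q) ∘L f1 with hw
  have cu : IsCompactOperator u := (k1.comp_clm f1).add (k2.comp_clm f2)
  have cw : IsCompactOperator w := (k1.comp_clm f2).add (k3.comp_clm f1)
  have cc : IsCompactOperator (i1 ∘L u) := cu.clm_comp i1
  have cd : IsCompactOperator (i2 ∘L w) := cw.clm_comp i2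
  have ct : IsCompactOperator (⇑((-I : ℂ) • (i1 ∘L u)) + ⇑((I : ℂ) • (i2 ∘L w))) :=
    (cc.smul (-I : ℂ)).add (cd.smul (I : ℂ))
  have he : D.VV ∘L PP N R = (-I : ℂ) • (i1 ∘L u) + (I : ℂ) • (i2 ∘L w) := by
    refine ContinuousLinearMap.ext fun x => ?_
    have e1 : (((-I : ℂ) • (i1 ∘L u) + (I : ℂ) • (i2 ∘L w)) x) = ((-I : ℂ) • u x, (I : ℂ) • w x) := by
      refine Prod.ext ?_ ?_
      · show (-I : ℂ) • u x + (I : ℂ) • (0 : XN N) = _
        rw [smul_zero, add_zero]
      · show (-I : ℂ) • (0 : XN N) + (I : ℂ) • w x = _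
        rw [smul_zero, zero_add]
    rw [e1]
    refine Prod.ext ?_ ?_
    · refine ext_XN ?_
      have a1 : u x = C1 (Q x.1) + C2 (Q x.2) := rfl
      filter_upwards [D.VV_fst (PP N R x), coe_smul (-I : ℂ) (u x),
        coe_add (C1 (Q x.1)) (C2 (Q x.2)), h1 (Q x.1), h2 (Q x.2)] with z b1 b2 b3 b4 b5
      show (D.VV (PP N R x)).1 z = ((-I : ℂ) • u x : XN N) z
      rw [b1, b2, a1, b3, b4, b5]
      rfl
    · refine ext_XN ?_
      have a1 : w x = C1 (Q x.2) + C3 (Q x.1) := rfl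
      filter_upwards [D.VV_snd (PP N R x), coe_smul (I : ℂ) (w x),
        coe_add (C1 (Q x.2)) (C3 (Q x.1)), h1 (Q x.2), h3 (Q x.1)] with z b1 b2 b3 b4 b5
      show (D.VV (PP N R x)).2 z = ((I : ℂ) • w x : XN N) z
      rw [b1, b2, a1, b3, b4, b5]
      rfl
  rw [he]
  exact ct

theorem compact_K (R : ℝ) {t : ℝ} (ht : 0 < t) :
    IsCompactOperator ((D.S t - D.S0 t) ∘L PP N R) := by
  refine isCompact_strong_integral (S := D.S) (G := fun r => D.S0 r ∘L PP N R)
    (C := D.VV ∘L PP N R) (M := 1) ht D.S_cont (fun x => D.S0_cont _) ?_ (compact_VV_PP D R) ?_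
  · intro r hr x
    rw [one_mul]
    exact (norm_S0_le' D r hr _).trans (norm_PP_le R x)
  · intro x
    have h := D.duh' t ht.le (PP N R x)
    have e1 : ((D.S t - D.S0 t) ∘L PP N R) x = D.S t (PP N R x) - D.S0 t (PP N R x) := rfl
    rw [e1, h, add_sub_cancel_left]
    refine intervalIntegral.integral_congr fun r hr => ?_
    rw [uIcc_of_le ht.le] at hr
    show D.S (t - r) (D.VV (D.S0 r (PP N R x))) = D.S (t - r) (D.VV (PP N R (D.S0 r (PP N R x))))
    rw [PP_S0 D r hr.1 x]

/-! ### integrability of the Duhamel integrand -/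

theorem duh_int (t : ℝ) (ht : 0 ≤ t) (x : XX N) :
    IntervalIntegrable (fun r => D.S0 (t - r) (D.VV (D.S r x))) volume 0 t := by
  have hj := DL.joint_cont D.S0_cont
  have h1 : Continuous (fun r : ℝ => D.S0 (max (t - r) 0) (D.VV (D.S (max r 0) x))) := by
    have h2 : Continuous (fun r : ℝ => D.S (max r 0) x) :=
      (D.S_cont x).comp_continuous (by fun_prop) (fun s => mem_Ici.2 (le_max_right _ _))
    have h3 : Continuous (fun r : ℝ => (t - r, D.VV (D.S (max r 0) x))) :=
      (by fun_prop : Continuous fun r : ℝ => t - r).prodMk (D.VV.continuous.comp h2)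
    exact hj.comp h3
  refine (h1.intervalIntegrable 0 t).congr ?_
  intro r hr
  rw [uIoc_of_le ht] at hr
  simp only
  rw [max_eq_left hr.1.le, max_eq_left (by linarith [hr.2])]

end flow

/-- **NODE DE.** -/
theorem deStmt : DEStmt := by
  intro n P T
  obtain ⟨N1, hN1⟩ := exists_nat_ge (2 * (2 * bT T + 1))
  refine ⟨N1, fun N hN D => ?_⟩
  have hn : (0 : ℝ) < n := by
    have := P.two_le
    exact_mod_cast (by omega : 0 < n)
  have hb := bT_nonneg T
  have hNN : 2 * (2 * bT T + 1) ≤ N := hN1.trans (by exact_mod_cast hN)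
  have hκ : 1 ≤ (N / 2 : ℝ) - 2 * bT T := by linarith
  have hN0 : N ≠ 0 := by
    rintro rfl
    simp only [Nat.cast_zero] at hNN
    linarith
  obtain ⟨C, hC, hCN⟩ := exists_pow_add_le N
  -- two-norm estimate
  have htwo := fun (t : ℝ) (ht : 0 ≤ t) (x : XX N) =>
    two_norm (S0 := D.S0) (S := D.S) (B := D.VV) (JJ0 N) (JJ1 N)
      (κ := (N / 2 : ℝ)) (b := bT T) (b1 := 2 * bT T) (C := C * bN N T)
      (by positivity) hb (by linarith) (mul_nonneg hC (bN_nonneg T)) D.duh (duh_int D) D.S_cont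
      (h0_flow D) (h1_flow D) (v0_flow D) (v1_flow D hC hCN) t ht x
  -- choice of the time
  obtain ⟨t, ht0, ht1, ht2⟩ : ∃ t : ℝ, 0 < t ∧ 2 ^ N * Real.exp (-t) ≤ 1 / 4 ∧
      Real.exp (-t / n) ≤ 1 / 4 := by
    have l1 : Tendsto (fun t : ℝ => (2 : ℝ) ^ N * Real.exp (-t)) atTop (𝓝 (2 ^ N * 0)) :=
      (Real.tendsto_exp_neg_atTop_nhds_zero).const_mul _
    rw [mul_zero] at l1
    have l2 : Tendsto (fun t : ℝ => Real.exp (-t / n)) atTop (𝓝 0) := by
      have h3 : Tendsto (fun t : ℝ => t / n) atTop atTop := tendsto_id.atTop_div_const hn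
      have h4 := Real.tendsto_exp_neg_atTop_nhds_zero.comp h3
      refine h4.congr fun t => ?_
      simp only [Function.comp_apply, neg_div]
    have e1 := l1.eventually (gt_mem_nhds (show (0 : ℝ) < 1 / 4 by norm_num))
    have e2 := l2.eventually (gt_mem_nhds (show (0 : ℝ) < 1 / 4 by norm_num))
    obtain ⟨t, h1, h2, h3⟩ := ((eventually_gt_atTop (0 : ℝ)).and (e1.and e2)).exists
    exact ⟨t, h1, h2.le, h3.le⟩
  -- choice of the cut-off
  set E : ℝ := 2 ^ N * (Real.exp (bT T * t) + Real.exp (-(((N / 2 : ℝ) - 2 * bT T) * t)) *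
    ((C * bN N T) * t * Real.exp (((N / 2 : ℝ) + bT T) * t))) with hE
  have hE0 : 0 ≤ E := by
    have := bN_nonneg (N := N) T
    positivity
  obtain ⟨R, hR0, hR⟩ : ∃ R : ℝ, 0 ≤ R ∧ E * ((1 + R) ^ N)⁻¹ ≤ 1 / 4 := by
    have l1 : Tendsto (fun R : ℝ => E * ((1 + R) ^ N)⁻¹) atTop (𝓝 (E * 0)) := by
      refine Tendsto.const_mul _ ?_
      refine tendsto_inv_atTop_zero.comp ?_
      exact (tendsto_pow_atTop hN0).comp (tendsto_atTop_add_const_left _ _ tendsto_id)
    rw [mul_zero] at l1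
    have e1 := l1.eventually (gt_mem_nhds (show (0 : ℝ) < 1 / 4 by norm_num))
    obtain ⟨R, h1, h2⟩ := ((eventually_ge_atTop (0 : ℝ)).and e1).exists
    exact ⟨R, h1, h2.le⟩
  -- the decomposition
  refine ⟨t, ht0, D.S t ∘L (1 - PP N R) + D.S0 t ∘L PP N R, (D.S t - D.S0 t) ∘L PP N R, ?_, ?_,
    compact_K D R ht0⟩
  · refine ContinuousLinearMap.ext fun x => ?_
    have : D.S t x = (D.S t (x - PP N R x) + D.S0 t (PP N R x)) +
        (D.S t (PP N R x) - D.S0 t (PP N R x)) := by
      rw [map_sub]; abel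
    exact this
  · refine lt_of_le_of_lt (ContinuousLinearMap.opNorm_le_bound _ (show (0 : ℝ) ≤ 3 / 4 by norm_num)
      fun x => ?_) (show (3 / 4 : ℝ) < 1 by norm_num)
    have e1 : (D.S t ∘L (1 - PP N R) + D.S0 t ∘L PP N R : XX N →L[ℂ] XX N) x =
        D.S t (x - PP N R x) + D.S0 t (PP N R x) := rfl
    rw [e1]
    refine (norm_add_le _ _).trans ?_
    -- low frequency part
    have f1 : ‖D.S0 t (PP N R x)‖ ≤ 1 / 4 * ‖x‖ :=
      (norm_S0_le D t ht0.le _).trans
        (mul_le_mul ht2 (norm_PP_le R x) (norm_nonneg _) (by norm_num))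
    -- high frequency part
    set y : XX N := x - PP N R x with hy
    obtain ⟨g1, g2⟩ := htwo t ht0.le y
    have g3 := norm_le_JJ (D.S t y)
    have g4 : ‖JJ0 N y‖ ≤ ((1 + R) ^ N)⁻¹ * ‖x‖ := norm_JJ0_sub_PP_le hR0 x
    have g5 : ‖JJ1 N y‖ ≤ ‖x‖ := (norm_JJ1_le y).trans (norm_sub_PP_le R x)
    have g6 : Real.exp (-(((N / 2 : ℝ) - 2 * bT T) * t)) ≤ Real.exp (-t) := by
      apply Real.exp_le_exp.2
      nlinarith
    have h2N : (0 : ℝ) ≤ 2 ^ N := by positivity
    have f2 : ‖D.S t y‖ ≤ 1 / 4 * ‖x‖ + 1 / 4 * ‖x‖ := by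
      calc ‖D.S t y‖ ≤ 2 ^ N * (‖JJ0 N (D.S t y)‖ + ‖JJ1 N (D.S t y)‖) := g3
        _ ≤ 2 ^ N * (‖JJ0 N y‖ * Real.exp (bT T * t) +
              Real.exp (-(((N / 2 : ℝ) - 2 * bT T) * t)) *
              (‖JJ1 N y‖ + C * bN N T * t * Real.exp (((N / 2 : ℝ) + bT T) * t) * ‖JJ0 N y‖)) := by
            gcongr
        _ = 2 ^ N * Real.exp (-(((N / 2 : ℝ) - 2 * bT T) * t)) * ‖JJ1 N y‖ + E * ‖JJ0 N y‖ := by
            rw [hE]; ring
        _ ≤ 2 ^ N * Real.exp (-t) * ‖x‖ + E * (((1 + R) ^ N)⁻¹ * ‖x‖) := by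
            gcongr
        _ = (2 ^ N * Real.exp (-t)) * ‖x‖ + (E * ((1 + R) ^ N)⁻¹) * ‖x‖ := by ring
        _ ≤ 1 / 4 * ‖x‖ + 1 / 4 * ‖x‖ := by
            have := norm_nonneg x
            gcongr
    have := norm_nonneg x
    linarith

end Crest.Agent.R086.DE
end

-- ▼ part R086/DLTop
section

/-! Top of D-LINEAR (helper575): all five Props of `DLIface` are proved.
`DL.lin : LINStmt`, `DL.forced : ForcedStmt`, `DC.linStmt : LinStmt`, `potStmt : PotStmt`. -/

set_option autoImplicit false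

open MeasureTheory Complex Set Filter

namespace Crest.Agent.R086.DL

theorem lin : LINStmt := lin_of DE.deStmt DM.modeStmt DGen.genStmt

end Crest.Agent.R086.DL
end

-- ▼ part R086/TK5

/-!
Row 86, NearLin, unconditional (helper501).
-/

set_option autoImplicit false

namespace Crest.Agent.R086.TK

/-- NEAR part, unconditional: for every large regularity index. -/
theorem nearLin {n : ℕ} (P : Profile n) (hP : P.SpecGood N0) :
    ∃ N1 : ℕ, ∀ N, N1 ≤ N → NearLin P N := by
  obtain ⟨T⟩ := potStmt n P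
  obtain ⟨N1, hN1⟩ := TS.linStep DL.lin DL.forced P T hP
  refine ⟨N1, fun N hN => ?_⟩
  obtain ⟨D⟩ := DC.linStmt n P T N
  exact nearLin_of eId (TNl.tn_of tf1 tf2) P (tp1 P) (TP.tp2c P) T N D (hN1 N hN D)

end Crest.Agent.R086.TK
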