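import Crest.Agent.R086.WieX
import Crest.Agent.R086.TorDefs
import Crest.Agent.R086.TSVar

-- ▼ part R086/TCA
section

/-!
Row 86 (S0114), TC nodes (helper232), file A: the Wiener algebra on `ℤ¹²` (counting measure).
-/

set_option autoImplicit false

open MeasureTheory Complex Set Filter Topology

noncomputable section

namespace Crest.Agent.R086.TC

open Crest.Agent.R086.Wie
open Crest.AnalysisR.PDE.NLS (IsSmoothPeriodic)

/-- counting measure on `ℤ¹²` -/
abbrev cnt : Measure Z12 := Measure.count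

/-- trivial weight -/
def W1 : Wt Z12 where
  toFun := fun _ => 1
  meas := measurable_const
  one_le := fun _ => le_rfl
  add_le := fun _ _ => by norm_num
  neg := fun _ => rfl

/-- the Wiener algebra -/
abbrev A : Type := XG cnt W1

/-- coefficients -/
def co (a : A) (k : Z12) : ℂ := XG.den a k

lemma integrable_iff {E : Type*} [NormedAddCommGroup E] {f : Z12 → E} :
    Integrable f cnt ↔ Summable fun k => ‖f k‖ := integrable_count_iff

lemma integral_eq {E : Type*} [NormedAddCommGroup E] [NormedSpace ℝ E] [CompleteSpace E]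
    {f : Z12 → E} (hf : Summable fun k => ‖f k‖) : ∫ k, f k ∂cnt = ∑' k, f k := by
  rw [integral_countable (integrable_iff.2 hf)]
  simp [Measure.real]

lemma gint_iff' {a : Z12 → ℂ} : GInt cnt W1 a ↔ Summable fun k => ‖a k‖ := by
  unfold GInt
  rw [integrable_iff]
  simp [W1]

/-- element with given coefficients -/
def mkA (a : Z12 → ℂ) (ha : Summable fun k => ‖a k‖) : A := XG.mk a (gint_iff'.2 ha)

lemma co_mk (a : Z12 → ℂ) (ha : Summable fun k => ‖a k‖) (k : Z12) : co (mkA a ha) k = a k :=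
  Measure.ae_count_iff.1 (XG.den_mk (gint_iff'.2 ha)) k

lemma summable_co (a : A) : Summable fun k => ‖co a k‖ := gint_iff'.1 (XG.gint_den a)

lemma ext_co {a b : A} (h : ∀ k, co a k = co b k) : a = b :=
  XG.ext (Measure.ae_count_iff.2 h)

lemma co_add (a b : A) (k : Z12) : co (a + b) k = co a k + co b k :=
  Measure.ae_count_iff.1 (XG.den_add a b) k

lemma co_sub (a b : A) (k : Z12) : co (a - b) k = co a k - co b k :=
  Measure.ae_count_iff.1 (XG.den_sub a b) k


lemma co_smul (c : ℂ) (a : A) (k : Z12) : co (c • a) k = c * co a k :=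
  Measure.ae_count_iff.1 (XG.den_smul c a) k


lemma norm_eq_tsum (a : A) : ‖a‖ = ∑' k, ‖co a k‖ := by
  rw [XG.norm_eq]
  have : (fun x => W1 x * ‖XG.den a x‖) = fun k => ‖co a k‖ := by
    ext k; simp [W1, co]
  rw [this, integral_eq]
  simpa using summable_co a

lemma norm_mkA (a : Z12 → ℂ) (ha : Summable fun k => ‖a k‖) : ‖mkA a ha‖ = ∑' k, ‖a k‖ := by
  rw [norm_eq_tsum]; exact tsum_congr (fun k => by rw [co_mk])

lemma norm_co_le (a : A) (k : Z12) : ‖co a k‖ ≤ ‖a‖ := by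
  rw [norm_eq_tsum]
  exact (summable_co a).le_tsum k (fun _ _ => norm_nonneg _)

/-- coordinate functional -/
def coL (k : Z12) : A →L[ℂ] ℂ :=
  LinearMap.mkContinuous
    { toFun := fun a => co a k
      map_add' := fun a b => co_add a b k
      map_smul' := fun c a => by simpa using co_smul c a k } 1
    (fun a => by simpa using norm_co_le a k)

@[simp] lemma coL_apply (k : Z12) (a : A) : coL k a = co a k := rfl

lemma star_co (a : A) (k : Z12) : co (star a) k = (starRingEnd ℂ) (co a (-k)) :=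
  Measure.ae_count_iff.1 (XG.den_star a) k


/-! ### characters and synthesis -/

/-- the character -/
def ch (k : Z12) (x : R12) : ℂ := exp (I * ((inner ℝ (zv k) x : ℝ) : ℂ))

lemma norm_ch (k : Z12) (x : R12) : ‖ch k x‖ = 1 := by
  rw [ch, mul_comm, Complex.norm_exp_ofReal_mul_I]

lemma zv_add (k l : Z12) : zv (k + l) = zv k + zv l := by
  ext i; simp [zv]

lemma zv_neg (k : Z12) : zv (-k) = - zv k := by
  ext i; simp [zv]

lemma nk_neg (k : Z12) : nk (-k) = nk k := by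
  rw [nk, nk, zv_neg, norm_neg]

lemma nk_nonneg (k : Z12) : 0 ≤ nk k := norm_nonneg _

lemma nk_add_le (k l : Z12) : nk (k + l) ≤ nk k + nk l := by
  rw [nk, nk, nk, zv_add]; exact norm_add_le _ _

lemma ch_add (k l : Z12) (x : R12) : ch (k + l) x = ch k x * ch l x := by
  rw [ch, ch, ch, ← Complex.exp_add, zv_add, inner_add_left]; push_cast; ring_nf

lemma ch_neg (k : Z12) (x : R12) : ch (-k) x = (starRingEnd ℂ) (ch k x) := by
  rw [ch, ch, ← Complex.exp_conj, zv_neg, inner_neg_left]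
  congr 1
  simp

/-- synthesis -/
def syn (a : A) (x : R12) : ℂ := ∑' k, co a k * ch k x



lemma syn_eq_integral (a : A) (x : R12) : syn a x = ∫ k, ch k x * XG.den a k ∂cnt := by
  rw [integral_eq]
  · exact tsum_congr (fun k => mul_comm _ _)
  · refine (summable_co a).congr (fun k => ?_)
    rw [norm_mul, norm_ch, one_mul]; rfl

lemma syn_mul (a b : A) (x : R12) : syn (a * b) x = syn a x * syn b x := by
  rw [syn_eq_integral, XG.integral_mul_den_mul a b (φ := fun k => ch k x)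
    (measurable_of_countable _) (C := 1) (fun k => (norm_ch k x).le)]
  simp only [ch_add]
  have h1 : ∀ ξ : Z12, ∫ η, ch ξ x * ch η x * (XG.den a ξ * XG.den b η) ∂cnt
      = (ch ξ x * XG.den a ξ) * syn b x := by
    intro ξ
    rw [syn_eq_integral, ← integral_const_mul]
    refine integral_congr_ae (Eventually.of_forall fun η => ?_)
    simp only; ring
  simp only [h1]
  rw [integral_mul_const, ← syn_eq_integral]

lemma syn_star (a : A) (x : R12) : syn (star a) x = (starRingEnd ℂ) (syn a x) := by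
  rw [syn, syn, Complex.conj_tsum]
  rw [← (Equiv.neg Z12).tsum_eq (fun k => co (star a) k * ch k x)]
  refine tsum_congr (fun k => ?_)
  simp only [Equiv.neg_apply]
  rw [star_co, neg_neg, ch_neg, map_mul]

/-! ### the nonlinearity -/

/-- `a ↦ |a|^{2m} a` -/
def Nl : ℕ → A → A
  | 0, a => a
  | m + 1, a => (a * star a) * Nl m a

lemma syn_Nl (m : ℕ) (a : A) (x : R12) : syn (Nl m a) x = nl (2 * m) (syn a x) := by
  induction m with
  | zero => simp [Nl, nl]
  | succ m ih =>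
    rw [Nl, syn_mul, syn_mul, syn_star, ih, Complex.mul_conj, nl, nl, Complex.normSq_eq_norm_sq]
    push_cast
    ring

lemma norm_Nl_le (m : ℕ) (a : A) : ‖Nl m a‖ ≤ ‖a‖ ^ (2 * m + 1) := by
  induction m with
  | zero => simp [Nl]
  | succ m ih =>
    rw [Nl]
    calc ‖(a * star a) * Nl m a‖ ≤ ‖a * star a‖ * ‖Nl m a‖ := norm_mul_le _ _
      _ ≤ (‖a‖ * ‖star a‖) * ‖a‖ ^ (2 * m + 1) := by
          gcongr
          exact norm_mul_le _ _
      _ = ‖a‖ ^ (2 * (m + 1) + 1) := by rw [norm_star]; ring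

lemma norm_Nl_sub_le (m : ℕ) {R : ℝ} (a b : A) (ha : ‖a‖ ≤ R) (hb : ‖b‖ ≤ R) :
    ‖Nl m a - Nl m b‖ ≤ (2 * m + 1) * R ^ (2 * m) * ‖a - b‖ := by
  have hR : 0 ≤ R := (norm_nonneg a).trans ha
  induction m with
  | zero => simp [Nl]
  | succ m ih =>
    have h1 : Nl (m + 1) a - Nl (m + 1) b = (a - b) * star a * Nl m a
        + b * (star (a - b)) * Nl m a + (b * star b) * (Nl m a - Nl m b) := by
      rw [Nl, Nl, star_sub]
      simp only [sub_mul, mul_sub]
      abel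
    have h2 : ‖(a - b) * star a * Nl m a‖ ≤ ‖a - b‖ * R * R ^ (2 * m + 1) := by
      calc _ ≤ ‖(a - b) * star a‖ * ‖Nl m a‖ := norm_mul_le _ _
        _ ≤ (‖a - b‖ * ‖star a‖) * ‖a‖ ^ (2 * m + 1) := by
            gcongr
            · exact norm_mul_le _ _
            · exact norm_Nl_le m a
        _ ≤ _ := by rw [norm_star]; gcongr
    have h3 : ‖b * (star (a - b)) * Nl m a‖ ≤ R * ‖a - b‖ * R ^ (2 * m + 1) := by
      calc _ ≤ ‖b * star (a - b)‖ * ‖Nl m a‖ := norm_mul_le _ _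
        _ ≤ (‖b‖ * ‖star (a - b)‖) * ‖a‖ ^ (2 * m + 1) := by
            gcongr
            · exact norm_mul_le _ _
            · exact norm_Nl_le m a
        _ ≤ _ := by rw [norm_star]; gcongr
    have h4 : ‖(b * star b) * (Nl m a - Nl m b)‖ ≤
        R * R * ((2 * m + 1) * R ^ (2 * m) * ‖a - b‖) := by
      calc _ ≤ ‖b * star b‖ * ‖Nl m a - Nl m b‖ := norm_mul_le _ _
        _ ≤ (‖b‖ * ‖star b‖) * ((2 * m + 1) * R ^ (2 * m) * ‖a - b‖) := by
            gcongr
            exact norm_mul_le _ _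
        _ ≤ _ := by rw [norm_star]; gcongr
    rw [h1]
    calc _ ≤ ‖(a - b) * star a * Nl m a‖ + ‖b * (star (a - b)) * Nl m a‖
          + ‖(b * star b) * (Nl m a - Nl m b)‖ := norm_add₃_le
      _ ≤ _ := add_le_add (add_le_add h2 h3) h4
      _ = _ := by push_cast; ring

end Crest.Agent.R086.TC
end
private theorem rz_a6cbce995f : type_of% @_root_.Crest.Agent.R086.TC.Nl.eq_def := @_root_.Crest.Agent.R086.TC.Nl.eq_def -- L177
private theorem rz_5818d2925f : type_of% @_root_.Crest.Agent.R086.TC.Nl.eq_1 := @_root_.Crest.Agent.R086.TC.Nl.eq_1 -- L177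
end

-- ▼ part R086/TCB
section

/-!
Row 86 (S0114), TC nodes (helper232), file B: multipliers, tame estimates, free group.
-/

set_option autoImplicit false

open MeasureTheory Complex Set Filter Topology

noncomputable section

namespace Crest.Agent.R086.TC

open Crest.Agent.R086.Wie
open Crest.AnalysisR.PDE.NLS (IsSmoothPeriodic)

/-- multiplication of coefficients by a bounded function -/
def mult (φ : Z12 → ℂ) (C : ℝ) (hC : ∀ k, ‖φ k‖ ≤ C) : A →L[ℂ] A :=
  XG.fmul φ (measurable_of_countable φ).aestronglyMeasurable C hC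

lemma co_mult (φ : Z12 → ℂ) (C : ℝ) (hC : ∀ k, ‖φ k‖ ≤ C) (a : A) (k : Z12) :
    co (mult φ C hC a) k = φ k * co a k :=
  Measure.ae_count_iff.1 (XG.den_fmul (measurable_of_countable φ).aestronglyMeasurable hC a) k

lemma norm_mult (φ : Z12 → ℂ) (C : ℝ) (hC : ∀ k, ‖φ k‖ ≤ C) (a : A) :
    ‖mult φ C hC a‖ = ∑' k, ‖φ k‖ * ‖co a k‖ := by
  rw [norm_eq_tsum]
  exact tsum_congr (fun k => by rw [co_mult, norm_mul])

/-! ### free group -/

/-- the symbol `e^{-i|k|² t}` -/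
def ph (t : ℝ) (k : Z12) : ℂ := exp (-(I * ((nk k ^ 2 : ℝ) : ℂ)) * (t : ℂ))

lemma norm_ph (t : ℝ) (k : Z12) : ‖ph t k‖ = 1 := by
  have : -(I * ((nk k ^ 2 : ℝ) : ℂ)) * (t : ℂ) = ((-(nk k ^ 2 * t) : ℝ) : ℂ) * I := by
    push_cast; ring
  rw [ph, this, Complex.norm_exp_ofReal_mul_I]

lemma ph_add (s t : ℝ) (k : Z12) : ph (s + t) k = ph s k * ph t k := by
  rw [ph, ph, ph, ← Complex.exp_add]; push_cast; ring_nf

lemma ph_zero (k : Z12) : ph 0 k = 1 := by simp [ph]

/-- the free group -/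
def U (t : ℝ) : A →L[ℂ] A := mult (ph t) 1 (fun k => (norm_ph t k).le)

lemma co_U (t : ℝ) (a : A) (k : Z12) : co (U t a) k = ph t k * co a k := co_mult _ _ _ _ _

lemma norm_U (t : ℝ) (a : A) : ‖U t a‖ = ‖a‖ := by
  rw [U, norm_mult, norm_eq_tsum]
  exact tsum_congr (fun k => by rw [norm_ph, one_mul])

lemma U_add (s t : ℝ) (a : A) : U (s + t) a = U s (U t a) :=
  ext_co fun k => by rw [co_U, co_U, co_U, ph_add, mul_assoc]

lemma U_zero (a : A) : U 0 a = a := ext_co fun k => by rw [co_U, ph_zero, one_mul]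

lemma U_sub (t : ℝ) (a b : A) : U t (a - b) = U t a - U t b :=
  ext_co fun k => by rw [co_U, co_sub, co_sub, co_U, co_U, mul_sub]


lemma U_U_neg (t : ℝ) (a : A) : U t (U (-t) a) = a := by
  rw [← U_add, add_neg_cancel, U_zero]

lemma continuous_ph (k : Z12) : Continuous fun t : ℝ => ph t k := by
  unfold ph
  exact (continuous_const.mul Complex.continuous_ofReal).cexp

lemma continuous_U (a : A) : Continuous fun t : ℝ => U t a := by
  rw [continuous_iff_continuousAt]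
  intro s
  rw [ContinuousAt, tendsto_iff_norm_sub_tendsto_zero]
  have h1 : ∀ t, ‖U t a - U s a‖ = ∑' k, ‖(ph t k - ph s k) * co a k‖ := by
    intro t
    rw [norm_eq_tsum]
    exact tsum_congr (fun k => by rw [co_sub, co_U, co_U, sub_mul])
  simp_rw [h1]
  have h2 : Tendsto (fun t => ∑' k, ‖(ph t k - ph s k) * co a k‖) (𝓝 s) (𝓝 (∑' _k : Z12, (0 : ℝ))) := by
    refine tendsto_tsum_of_dominated_convergence (bound := fun k => 2 * ‖co a k‖)
      ((summable_co a).mul_left 2) (fun k => ?_) (Eventually.of_forall fun t k => ?_)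
    · have h3 : Tendsto (fun t => (ph t k - ph s k) * co a k) (𝓝 s) (𝓝 ((ph s k - ph s k) * co a k)) :=
        (((continuous_ph k).sub continuous_const).mul continuous_const).continuousAt
      have h4 := h3.norm
      simpa using h4
    · rw [norm_norm, norm_mul]
      gcongr
      calc ‖ph t k - ph s k‖ ≤ ‖ph t k‖ + ‖ph s k‖ := norm_sub_le _ _
        _ = 2 := by rw [norm_ph, norm_ph]; norm_num
  simpa using h2

lemma continuousOn_U_comp {s : Set ℝ} {f : ℝ → ℝ} {b : ℝ → A} (hf : Continuous f)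
    (hb : ContinuousOn b s) : ContinuousOn (fun t => U (f t) (b t)) s := by
  intro t ht
  rw [ContinuousWithinAt, tendsto_iff_norm_sub_tendsto_zero]
  have h1 : ∀ r, ‖U (f r) (b r) - U (f t) (b t)‖ ≤
      ‖b r - b t‖ + ‖U (f r) (b t) - U (f t) (b t)‖ := by
    intro r
    calc ‖U (f r) (b r) - U (f t) (b t)‖ = ‖U (f r) (b r - b t) + (U (f r) (b t) - U (f t) (b t))‖ := by
          congr 1; rw [U_sub]; abel
      _ ≤ ‖U (f r) (b r - b t)‖ + ‖U (f r) (b t) - U (f t) (b t)‖ := norm_add_le _ _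
      _ = _ := by rw [norm_U]
  have h2 : Tendsto (fun r => ‖b r - b t‖ + ‖U (f r) (b t) - U (f t) (b t)‖) (𝓝[s] t) (𝓝 0) := by
    have h3 : Tendsto (fun r => ‖b r - b t‖) (𝓝[s] t) (𝓝 0) :=
      tendsto_iff_norm_sub_tendsto_zero.1 (hb t ht)
    have h4 : Tendsto (fun r => ‖U (f r) (b t) - U (f t) (b t)‖) (𝓝[s] t) (𝓝 0) := by
      have h5 : Tendsto (fun r => U (f r) (b t)) (𝓝[s] t) (𝓝 (U (f t) (b t))) :=
        (((continuous_U (b t)).comp hf).continuousAt).mono_left nhdsWithin_le_nhds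
      exact tendsto_iff_norm_sub_tendsto_zero.1 h5
    simpa using h3.add h4
  exact squeeze_zero (fun _ => norm_nonneg _) h1 h2

lemma continuous_Nl (m : ℕ) : Continuous (Nl m) := by
  induction m with
  | zero => exact continuous_id
  | succ m ih =>
    change Continuous fun a : A => (a * star a) * Nl m a
    exact (continuous_id.mul continuous_star).mul ih

/-! ### the vector field in the interaction picture -/

/-- `F t a = -i U(-t) N(U(t) a)` -/
def F (m : ℕ) (t : ℝ) (a : A) : A := (-I : ℂ) • U (-t) (Nl m (U t a))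

lemma norm_F_le (m : ℕ) (t : ℝ) (a : A) : ‖F m t a‖ ≤ ‖a‖ ^ (2 * m + 1) := by
  rw [F, norm_smul, norm_neg, Complex.norm_I, one_mul, norm_U]
  exact (norm_Nl_le m _).trans (by rw [norm_U])

lemma norm_F_sub_le (m : ℕ) (t : ℝ) {R : ℝ} (a b : A) (ha : ‖a‖ ≤ R) (hb : ‖b‖ ≤ R) :
    ‖F m t a - F m t b‖ ≤ (2 * m + 1) * R ^ (2 * m) * ‖a - b‖ := by
  rw [F, F, ← smul_sub, norm_smul, norm_neg, Complex.norm_I, one_mul, ← U_sub, norm_U]
  refine (norm_Nl_sub_le m (R := R) _ _ (by rwa [norm_U]) (by rwa [norm_U])).trans (le_of_eq ?_)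
  rw [← U_sub, norm_U]

lemma continuousOn_F (m : ℕ) {s : Set ℝ} {b : ℝ → A} (hb : ContinuousOn b s) :
    ContinuousOn (fun t => F m t (b t)) s := by
  have h0 : ContinuousOn (fun t => U (-t) (Nl m (U t (b t)))) s := ?_
  · exact h0.const_smul (-I : ℂ)
  refine continuousOn_U_comp continuous_neg ?_
  exact (continuous_Nl m).comp_continuousOn (continuousOn_U_comp continuous_id hb)

/-! ### tame estimates -/

/-- bounded weights with a quasi-subadditivity constant `K` -/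
structure TW (K : ℝ) where
  w : Z12 → ℝ
  B : ℝ
  nonneg : ∀ k, 0 ≤ w k
  le : ∀ k, w k ≤ B
  add_le : ∀ j k, w (j + k) ≤ K * (w j + w k)
  neg : ∀ k, w (-k) = w k

variable {K : ℝ}

lemma TW.norm_le (W : TW K) (k : Z12) : ‖((W.w k : ℝ) : ℂ)‖ ≤ W.B := by
  rw [Complex.norm_real, Real.norm_eq_abs, abs_of_nonneg (W.nonneg k)]; exact W.le k

/-- weight multiplication -/
def TW.P (W : TW K) : A →L[ℂ] A := mult (fun k => ((W.w k : ℝ) : ℂ)) W.B W.norm_le

lemma TW.co_P (W : TW K) (a : A) (k : Z12) : co (W.P a) k = (W.w k : ℂ) * co a k := co_mult _ _ _ _ _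

lemma TW.norm_P (W : TW K) (a : A) : ‖W.P a‖ = ∑' k, W.w k * ‖co a k‖ := by
  rw [TW.P, norm_mult]
  refine tsum_congr (fun k => ?_)
  rw [Complex.norm_real, Real.norm_eq_abs, abs_of_nonneg (W.nonneg k)]

lemma TW.summable_P (W : TW K) (a : A) : Summable fun k => W.w k * ‖co a k‖ := by
  refine (summable_co (W.P a)).congr (fun k => ?_)
  rw [W.co_P, norm_mul, Complex.norm_real, Real.norm_eq_abs, abs_of_nonneg (W.nonneg k)]

lemma TW.norm_P_star (W : TW K) (a : A) : ‖W.P (star a)‖ = ‖W.P a‖ := by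
  rw [W.norm_P, W.norm_P, ← (Equiv.neg Z12).tsum_eq (fun k => W.w k * ‖co a k‖)]
  refine tsum_congr (fun k => ?_)
  simp only [Equiv.neg_apply]
  rw [star_co, RCLike.norm_conj, W.neg]

lemma TW.norm_P_U (W : TW K) (t : ℝ) (a : A) : ‖W.P (U t a)‖ = ‖W.P a‖ := by
  rw [W.norm_P, W.norm_P]
  refine tsum_congr (fun k => ?_)
  rw [co_U, norm_mul, norm_ph, one_mul]

lemma co_mul (a b : A) (k : Z12) : co (a * b) k = ∑' t, co a t * co b (k - t) := by
  have h1 : co (a * b) k = cv cnt (XG.den a) (XG.den b) k :=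
    Measure.ae_count_iff.1 (XG.den_mul a b) k
  rw [h1, cv, integral_eq]
  · rfl
  · refine Summable.of_nonneg_of_le (fun _ => norm_nonneg _) (fun t => ?_)
      ((summable_co a).mul_right ‖b‖)
    rw [norm_mul]
    have := norm_co_le b (k - t)
    gcongr
    · exact le_rfl
    · exact this

lemma TW.tame_mul (W : TW K) (a b : A) :
    ‖W.P (a * b)‖ ≤ K * (‖W.P a‖ * ‖b‖ + ‖a‖ * ‖W.P b‖) := by
  have ia : Integrable (fun t => ‖co a t‖) cnt := integrable_iff.2 (by simpa using summable_co a)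
  have ib : Integrable (fun t => ‖co b t‖) cnt := integrable_iff.2 (by simpa using summable_co b)
  have iwa : Integrable (fun t => W.w t * ‖co a t‖) cnt := integrable_iff.2 (by
    refine (W.summable_P a).congr fun k => ?_
    rw [Real.norm_of_nonneg (mul_nonneg (W.nonneg k) (norm_nonneg _))])
  have iwb : Integrable (fun t => W.w t * ‖co b t‖) cnt := integrable_iff.2 (by
    refine (W.summable_P b).congr fun k => ?_
    rw [Real.norm_of_nonneg (mul_nonneg (W.nonneg k) (norm_nonneg _))])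
  have hR : ∀ (f g : Z12 → ℝ), (∀ k, 0 ≤ f k) → (∀ k, 0 ≤ g k) → Summable f →
      (∃ C, ∀ k, g k ≤ C) → ∀ k, Summable fun t => f t * g (k - t) := by
    intro f g hf hg hs ⟨C, hC⟩ k
    refine Summable.of_nonneg_of_le (fun t => mul_nonneg (hf t) (hg _)) (fun t => ?_)
      (hs.mul_right C)
    exact mul_le_mul_of_nonneg_left (hC _) (hf t)
  have hcv : ∀ (f g : Z12 → ℝ), (∀ k, 0 ≤ f k) → (∀ k, 0 ≤ g k) → Summable f →
      (∃ C, ∀ k, g k ≤ C) → ∀ k, cvR cnt f g k = ∑' t, f t * g (k - t) := by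
    intro f g hf hg hs hC k
    rw [cvR, integral_eq]
    refine (hR f g hf hg hs hC k).congr (fun t => ?_)
    rw [Real.norm_of_nonneg (mul_nonneg (hf t) (hg _))]
  have sa : Summable fun t => ‖co a t‖ := summable_co a
  have sb : Summable fun t => ‖co b t‖ := summable_co b
  have swa := W.summable_P a
  have swb := W.summable_P b
  have bb : ∃ C, ∀ k, ‖co b k‖ ≤ C := ⟨‖b‖, norm_co_le b⟩
  have bwb : ∃ C, ∀ k, W.w k * ‖co b k‖ ≤ C := ⟨W.B * ‖b‖, fun k => by
    have h1 := W.le k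
    have h2 := norm_co_le b k
    have h3 := W.nonneg k
    exact mul_le_mul h1 h2 (norm_nonneg _) (h3.trans h1)⟩
  have na : ∀ k, 0 ≤ ‖co a k‖ := fun k => norm_nonneg _
  have nb : ∀ k, 0 ≤ ‖co b k‖ := fun k => norm_nonneg _
  have nwa : ∀ k, 0 ≤ W.w k * ‖co a k‖ := fun k => mul_nonneg (W.nonneg k) (norm_nonneg _)
  have nwb : ∀ k, 0 ≤ W.w k * ‖co b k‖ := fun k => mul_nonneg (W.nonneg k) (norm_nonneg _)
  -- pointwise bound
  have key : ∀ k, W.w k * ‖co (a * b) k‖ ≤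
      K * (cvR cnt (fun t => W.w t * ‖co a t‖) (fun t => ‖co b t‖) k
        + cvR cnt (fun t => ‖co a t‖) (fun t => W.w t * ‖co b t‖) k) := by
    intro k
    rw [hcv _ _ nwa nb swa bb k, hcv _ _ na nwb sa bwb k, co_mul]
    have s1 := hR _ _ nwa nb swa bb k
    have s2 := hR _ _ na nwb sa bwb k
    have s0 := hR _ _ na nb sa bb k
    have h1 : ‖∑' t, co a t * co b (k - t)‖ ≤ ∑' t, ‖co a t‖ * ‖co b (k - t)‖ := by
      have := norm_tsum_le_tsum_norm (f := fun t => co a t * co b (k - t))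
        (s0.congr fun t => (norm_mul _ _).symm)
      refine this.trans (le_of_eq (tsum_congr fun t => norm_mul _ _))
    calc W.w k * ‖∑' t, co a t * co b (k - t)‖ ≤ W.w k * ∑' t, ‖co a t‖ * ‖co b (k - t)‖ :=
          mul_le_mul_of_nonneg_left h1 (W.nonneg k)
      _ = ∑' t, W.w k * (‖co a t‖ * ‖co b (k - t)‖) := tsum_mul_left.symm
      _ ≤ ∑' t, K * ((W.w t * ‖co a t‖) * ‖co b (k - t)‖ + ‖co a t‖ * (W.w (k - t) * ‖co b (k - t)‖)) := by
          refine (s0.mul_left (W.w k)).tsum_le_tsum (fun t => ?_) ((s1.add s2).mul_left K)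
          have h2 : W.w k ≤ K * (W.w t + W.w (k - t)) := by
            have := W.add_le t (k - t)
            rwa [add_sub_cancel] at this
          have h3 := mul_le_mul_of_nonneg_right h2
            (mul_nonneg (norm_nonneg (co a t)) (norm_nonneg (co b (k - t))))
          calc _ ≤ _ := h3
            _ = _ := by ring
      _ = K * (∑' t, (W.w t * ‖co a t‖) * ‖co b (k - t)‖
          + ∑' t, ‖co a t‖ * (W.w (k - t) * ‖co b (k - t)‖)) := by
          rw [tsum_mul_left, (s1.tsum_add s2)]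
  have hI1 := integral_cvR iwa ib
  have hI2 := integral_cvR ia iwb
  have c1 := integrable_cvR iwa ib
  have c2 := integrable_cvR ia iwb
  have e1 : ‖W.P (a * b)‖ = ∫ k, W.w k * ‖co (a * b) k‖ ∂cnt := by
    rw [W.norm_P, integral_eq]
    refine (W.summable_P (a * b)).congr fun k => ?_
    rw [Real.norm_of_nonneg (mul_nonneg (W.nonneg k) (norm_nonneg _))]
  have ea : ‖W.P a‖ = ∫ k, W.w k * ‖co a k‖ ∂cnt := by
    rw [W.norm_P, integral_eq]
    refine (W.summable_P a).congr fun k => ?_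
    rw [Real.norm_of_nonneg (nwa k)]
  have eb : ‖W.P b‖ = ∫ k, W.w k * ‖co b k‖ ∂cnt := by
    rw [W.norm_P, integral_eq]
    refine (W.summable_P b).congr fun k => ?_
    rw [Real.norm_of_nonneg (nwb k)]
  have fa : ‖a‖ = ∫ k, ‖co a k‖ ∂cnt := by
    rw [norm_eq_tsum, integral_eq]; simpa using sa
  have fb : ‖b‖ = ∫ k, ‖co b k‖ ∂cnt := by
    rw [norm_eq_tsum, integral_eq]; simpa using sb
  rw [e1, ea, eb, fa, fb, ← hI1, ← hI2, ← integral_add c1 c2, ← integral_const_mul]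
  refine integral_mono (integrable_iff.2 ?_) ((c1.add c2).const_mul K) key
  refine (W.summable_P (a * b)).congr fun k => ?_
  rw [Real.norm_of_nonneg (mul_nonneg (W.nonneg k) (norm_nonneg _))]

/-- tame constants -/
def tk (K : ℝ) : ℕ → ℝ
  | 0 => 1
  | m + 1 => K * (2 * K + tk K m)

lemma tk_nonneg (hK : 0 ≤ K) (m : ℕ) : 0 ≤ tk K m := by
  induction m with
  | zero => simp [tk]
  | succ m ih => rw [tk]; positivity

lemma TW.tame_Nl (hK : 0 ≤ K) (W : TW K) (m : ℕ) (a : A) :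
    ‖W.P (Nl m a)‖ ≤ tk K m * ‖a‖ ^ (2 * m) * ‖W.P a‖ := by
  induction m with
  | zero => simp [Nl, tk]
  | succ m ih =>
    have h1 : ‖W.P (a * star a)‖ ≤ K * (2 * ‖a‖ * ‖W.P a‖) := by
      refine (W.tame_mul a (star a)).trans (le_of_eq ?_)
      rw [norm_star, W.norm_P_star]; ring
    have h2 : ‖a * star a‖ ≤ ‖a‖ * ‖a‖ := by
      refine (norm_mul_le _ _).trans (le_of_eq ?_)
      rw [norm_star]
    have h3 := tk_nonneg hK m
    rw [Nl]
    calc ‖W.P ((a * star a) * Nl m a)‖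
        ≤ K * (‖W.P (a * star a)‖ * ‖Nl m a‖ + ‖a * star a‖ * ‖W.P (Nl m a)‖) := W.tame_mul _ _
      _ ≤ K * ((K * (2 * ‖a‖ * ‖W.P a‖)) * ‖a‖ ^ (2 * m + 1)
          + (‖a‖ * ‖a‖) * (tk K m * ‖a‖ ^ (2 * m) * ‖W.P a‖)) := by
          gcongr
          exact norm_Nl_le m a
      _ = tk K (m + 1) * ‖a‖ ^ (2 * (m + 1)) * ‖W.P a‖ := by rw [tk]; ring

/-- truncated polynomial weight -/
def trW (M : ℕ) (R : ℝ) (hR : 0 ≤ R) : TW (2 ^ M) where
  w := fun k => min ((1 + nk k) ^ M) R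
  B := R
  nonneg := fun k => le_min (pow_nonneg (by have := nk_nonneg k; linarith) _) hR
  le := fun k => min_le_right _ _
  add_le := fun j k => by
    have hj := nk_nonneg j
    have hk := nk_nonneg k
    have h1 : (1 + nk (j + k)) ^ M ≤ 2 ^ M * ((1 + nk j) ^ M + (1 + nk k) ^ M) := by
      have h2 : 1 + nk (j + k) ≤ 2 * max (1 + nk j) (1 + nk k) := by
        have := nk_add_le j k
        have := le_max_left (1 + nk j) (1 + nk k)
        have := le_max_right (1 + nk j) (1 + nk k)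
        linarith
      calc (1 + nk (j + k)) ^ M ≤ (2 * max (1 + nk j) (1 + nk k)) ^ M := by
            gcongr
            have := nk_nonneg (j + k); linarith
        _ = 2 ^ M * (max (1 + nk j) (1 + nk k)) ^ M := mul_pow _ _ _
        _ ≤ _ := by
            gcongr
            rcases max_choice (1 + nk j) (1 + nk k) with h | h
            · rw [h]
              have : 0 ≤ (1 + nk k) ^ M := by positivity
              linarith
            · rw [h]
              have : 0 ≤ (1 + nk j) ^ M := by positivity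
              linarith
    have h4 : (1 : ℝ) ≤ 2 ^ M := one_le_pow₀ (by norm_num)
    have a0 : 0 ≤ (1 + nk j) ^ M := by positivity
    have b0 : 0 ≤ (1 + nk k) ^ M := by positivity
    have h5 : min ((1 + nk (j + k)) ^ M) R ≤ min (2 ^ M * ((1 + nk j) ^ M + (1 + nk k) ^ M)) R :=
      min_le_min_right _ h1
    refine h5.trans ?_
    rcases le_total ((1 + nk j) ^ M) R with hj1 | hj1 <;> rcases le_total ((1 + nk k) ^ M) R with hk1 | hk1
    · rw [min_eq_left hj1, min_eq_left hk1]; exact min_le_left _ _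
    · rw [min_eq_left hj1, min_eq_right hk1]
      refine (min_le_right _ _).trans ?_
      nlinarith
    · rw [min_eq_right hj1, min_eq_left hk1]
      refine (min_le_right _ _).trans ?_
      nlinarith
    · rw [min_eq_right hj1, min_eq_right hk1]
      refine (min_le_right _ _).trans ?_
      nlinarith
  neg := fun k => by simp only [nk_neg]

lemma trW_w (M : ℕ) (R : ℝ) (hR : 0 ≤ R) (k : Z12) : (trW M R hR).w k = min ((1 + nk k) ^ M) R := rfl

lemma trW_norm_le (M : ℕ) (R : ℝ) (hR : 0 ≤ R) (a : A)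
    (ha : Summable fun k => (1 + nk k) ^ M * ‖co a k‖) :
    ‖(trW M R hR).P a‖ ≤ ∑' k, (1 + nk k) ^ M * ‖co a k‖ := by
  rw [TW.norm_P]
  refine ((trW M R hR).summable_P a).tsum_le_tsum (fun k => ?_) ha
  rw [trW_w]
  gcongr
  exact min_le_left _ _

lemma summable_of_trW (M : ℕ) (a : A) {C : ℝ} (h : ∀ (R : ℝ) (hR : 0 ≤ R), ‖(trW M R hR).P a‖ ≤ C) :
    (Summable fun k => (1 + nk k) ^ M * ‖co a k‖) ∧ ∑' k, (1 + nk k) ^ M * ‖co a k‖ ≤ C := by
  have hnn : ∀ k, 0 ≤ (1 + nk k) ^ M * ‖co a k‖ := fun k => by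
    have := nk_nonneg k; positivity
  have hfin : ∀ s : Finset Z12, ∑ k ∈ s, (1 + nk k) ^ M * ‖co a k‖ ≤ C := by
    intro s
    let R : ℝ := ∑ k ∈ s, (1 + nk k) ^ M
    have hR : 0 ≤ R := Finset.sum_nonneg fun k _ => by have := nk_nonneg k; positivity
    have h1 : ∑ k ∈ s, (1 + nk k) ^ M * ‖co a k‖ = ∑ k ∈ s, (trW M R hR).w k * ‖co a k‖ := by
      refine Finset.sum_congr rfl fun k hk => ?_
      rw [trW_w, min_eq_left]
      exact Finset.single_le_sum (f := fun k => (1 + nk k) ^ M)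
        (fun k _ => by have := nk_nonneg k; positivity) hk
    rw [h1]
    refine le_trans ?_ (h R hR)
    rw [TW.norm_P]
    exact ((trW M R hR).summable_P a).sum_le_tsum s
      (fun k _ => mul_nonneg ((trW M R hR).nonneg k) (norm_nonneg _))
  have hs : Summable fun k => (1 + nk k) ^ M * ‖co a k‖ := summable_of_sum_le hnn hfin
  exact ⟨hs, hs.tsum_le_of_sum_le hfin⟩

end Crest.Agent.R086.TC
end
private theorem rz_ccba96ff6d : type_of% @_root_.Crest.Agent.R086.TC.tk.eq_def := @_root_.Crest.Agent.R086.TC.tk.eq_def -- L289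
private theorem rz_bbf402d958 : type_of% @_root_.Crest.Agent.R086.TC.tk.eq_1 := @_root_.Crest.Agent.R086.TC.tk.eq_1 -- L289
end

-- ▼ part R086/TCC
section

/-!
Row 86 (S0114), TC nodes (helper232), file C: local existence (TC1).
-/

set_option autoImplicit false

open MeasureTheory Complex Set Filter Topology
open scoped NNReal

noncomputable section

namespace Crest.Agent.R086.TC

open Crest.Agent.R086.Wie
open Crest.AnalysisR.PDE.NLS (IsSmoothPeriodic)

/-! ### Picard in the interaction picture -/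

theorem exists_curve (m : ℕ) {R : ℝ} (hR : 0 < R) (a0 : A) (h0 : ‖a0‖ ≤ R) (t0 ε : ℝ) (hε : 0 ≤ ε)
    (hεR : (2 * R) ^ (2 * m + 1) * ε ≤ R) :
    ∃ a : ℝ → A, a t0 = a0 ∧ (∀ t ∈ Icc t0 (t0 + ε), ‖a t‖ ≤ 2 * R) ∧
      ∀ t ∈ Icc t0 (t0 + ε), HasDerivWithinAt a (F m t (a t)) (Icc t0 (t0 + ε)) t := by
  have ht0 : t0 ∈ Icc t0 (t0 + ε) := ⟨le_rfl, by linarith⟩
  have hball : ∀ x ∈ Metric.closedBall a0 R, ‖x‖ ≤ 2 * R := by
    intro x hx
    rw [mem_closedBall_iff_norm] at hx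
    calc ‖x‖ = ‖(x - a0) + a0‖ := by rw [sub_add_cancel]
      _ ≤ ‖x - a0‖ + ‖a0‖ := norm_add_le _ _
      _ ≤ 2 * R := by linarith
  let Rn : ℝ≥0 := ⟨R, hR.le⟩
  let K : ℝ≥0 := ⟨(2 * m + 1) * (2 * R) ^ (2 * m), by positivity⟩
  let L : ℝ≥0 := ⟨(2 * R) ^ (2 * m + 1), by positivity⟩
  have hf : IsPicardLindelof (F m) (⟨t0, ht0⟩ : Icc t0 (t0 + ε)) a0 Rn 0 L K := by
    refine ⟨?_, ?_, ?_, ?_⟩
    · intro t _
      refine LipschitzOnWith.of_dist_le_mul fun x hx y hy => ?_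
      rw [dist_eq_norm, dist_eq_norm]
      exact norm_F_sub_le m t x y (hball x hx) (hball y hy)
    · intro x _
      exact continuousOn_F m (b := fun _ => x) continuousOn_const
    · intro t _ x hx
      refine (norm_F_le m t x).trans ?_
      change ‖x‖ ^ (2 * m + 1) ≤ (2 * R) ^ (2 * m + 1)
      have := hball x hx
      gcongr
    · have h1 : max (t0 + ε - t0) (t0 - t0) = ε := by
        rw [sub_self, add_sub_cancel_left, max_eq_left hε]
      change (2 * R) ^ (2 * m + 1) * max (t0 + ε - t0) (t0 - t0) ≤ R - 0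
      rw [h1]; linarith
  obtain ⟨α, hα⟩ := ODE.FunSpace.exists_isFixedPt_next hf (Metric.mem_closedBall_self le_rfl)
  have hval : α.compProj t0 = a0 := by
    have := ODE.FunSpace.compProj_val (α := α) (t := ⟨t0, ht0⟩)
    rw [this, ← hα, ODE.FunSpace.next_apply₀]
  refine ⟨α.compProj, hval, ?_, ?_⟩
  · intro t _
    exact hball _ (α.compProj_mem_closedBall hf.mul_max_le)
  · intro t ht
    refine (ODE.hasDerivWithinAt_picard_Icc ht0 hf.continuousOn_uncurry
      α.continuous_compProj.continuousOn (fun _ _ => α.compProj_mem_closedBall hf.mul_max_le)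
      a0 ht).congr_of_mem ?_ ht
    intro t' ht'
    nth_rw 1 [← hα]
    rw [ODE.FunSpace.compProj_of_mem ht', ODE.FunSpace.next_apply]

/-! ### persistence -/

lemma TW.norm_P_F_le {K : ℝ} (hK : 0 ≤ K) (W : TW K) (m : ℕ) (t : ℝ) {ρ : ℝ} (a : A)
    (ha : ‖a‖ ≤ ρ) : ‖W.P (F m t a)‖ ≤ tk K m * ρ ^ (2 * m) * ‖W.P a‖ := by
  have h1 : ‖W.P (F m t a)‖ = ‖W.P (Nl m (U t a))‖ := by
    rw [F, ContinuousLinearMap.map_smul, norm_smul, norm_neg, Complex.norm_I, one_mul, W.norm_P_U]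
  rw [h1]
  refine (W.tame_Nl hK m _).trans ?_
  rw [norm_U, W.norm_P_U]
  have := tk_nonneg hK m
  gcongr

theorem persist {K : ℝ} (hK : 0 ≤ K) (W : TW K) (m : ℕ) {t0 t1 ρ : ℝ} {a : ℝ → A}
    (hρ : ∀ t ∈ Icc t0 t1, ‖a t‖ ≤ ρ)
    (hd : ∀ t ∈ Icc t0 t1, HasDerivWithinAt a (F m t (a t)) (Icc t0 t1) t) :
    ∀ t ∈ Icc t0 t1, ‖W.P (a t)‖ ≤ ‖W.P (a t0)‖ * Real.exp (tk K m * ρ ^ (2 * m) * (t - t0)) := by
  intro t ht
  have hP : ∀ s ∈ Icc t0 t1,
      HasDerivWithinAt (fun s => W.P (a s)) (W.P (F m s (a s))) (Icc t0 t1) s := by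
    intro s hs
    exact ((W.P.restrictScalars ℝ).hasFDerivAt (x := a s)).comp_hasDerivWithinAt s (hd s hs)
  have hc : ContinuousOn (fun s => W.P (a s)) (Icc t0 t1) := fun s hs =>
    (hP s hs).continuousWithinAt
  have := norm_le_gronwallBound_of_norm_deriv_right_le (f := fun s => W.P (a s))
    (f' := fun s => W.P (F m s (a s))) (δ := ‖W.P (a t0)‖) (K := tk K m * ρ ^ (2 * m)) (ε := 0)
    hc (fun x hx => (hP x ⟨hx.1, hx.2.le⟩).mono_of_mem_nhdsWithin (Icc_mem_nhdsGE_of_mem hx))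
    le_rfl (fun x hx => by
      rw [add_zero]
      exact W.norm_P_F_le hK m x _ (hρ x ⟨hx.1, hx.2.le⟩)) t ht
  rwa [gronwallBound_ε0] at this

/-! ### decay and the bridge to functions -/

/-- rapid decay -/
def Dec (a : A) : Prop := ∀ M : ℕ, Summable fun k => (1 + nk k) ^ M * ‖co a k‖

/-- weighted norms -/
def wA (M : ℕ) (a : A) : ℝ := ∑' k, (1 + nk k) ^ M * ‖co a k‖

lemma dec_Nl_aux (m : ℕ) (a : A) (M : ℕ) (ha : Summable fun k => (1 + nk k) ^ M * ‖co a k‖) :
    (Summable fun k => (1 + nk k) ^ M * ‖co (Nl m a) k‖) ∧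
      wA M (Nl m a) ≤ tk (2 ^ M) m * ‖a‖ ^ (2 * m) * wA M a := by
  refine summable_of_trW M (Nl m a) (fun R hR => ?_)
  have hK : (0 : ℝ) ≤ 2 ^ M := by positivity
  refine ((trW M R hR).tame_Nl hK m a).trans ?_
  have h1 := trW_norm_le M R hR a ha
  have := tk_nonneg hK m
  unfold wA
  gcongr

lemma Dec.Nl {a : A} (ha : Dec a) (m : ℕ) : Dec (Nl m a) := fun M => (dec_Nl_aux m a M (ha M)).1

lemma exists_fun (hF2 : TF2) {a : A} (ha : Dec a) :
    ∃ v : R12 → ℂ, IsSmoothPeriodic v ∧ (∀ k, cf v k = co a k) ∧ ∀ x, v x = syn a x :=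
  hF2 (co a) ha

lemma dec_summable {a : Z12 → ℂ} (ha : ∀ M : ℕ, Summable fun k => (1 + nk k) ^ M * ‖a k‖) :
    Summable fun k => ‖a k‖ := by simpa using ha 0

/-- the element of a smooth periodic function -/
def hat (hF1 : TF1) (v : R12 → ℂ) (hv : IsSmoothPeriodic v) : A :=
  mkA (cf v) (dec_summable (hF1 v hv).1)

lemma co_hat (hF1 : TF1) (v : R12 → ℂ) (hv : IsSmoothPeriodic v) (k : Z12) :
    co (hat hF1 v hv) k = cf v k := co_mk _ _ _

lemma dec_hat (hF1 : TF1) (v : R12 → ℂ) (hv : IsSmoothPeriodic v) : Dec (hat hF1 v hv) := fun M => by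
  simpa only [co_hat] using (hF1 v hv).1 M


lemma norm_hat (hF1 : TF1) (v : R12 → ℂ) (hv : IsSmoothPeriodic v) : ‖hat hF1 v hv‖ = l1 v :=
  norm_mkA _ _


lemma cf_nl_syn (hF2 : TF2) (m : ℕ) {a : A} (ha : Dec a) (k : Z12) :
    cf (fun x => nl (2 * m) (syn a x)) k = co (Nl m a) k := by
  obtain ⟨z, -, hz, hz2⟩ := exists_fun hF2 (ha.Nl m)
  rw [← hz k]
  congr 1
  ext x
  rw [hz2, syn_Nl]


lemma eq_of_cf (hF1 : TF1) {v w : R12 → ℂ} (hv : IsSmoothPeriodic v) (hw : IsSmoothPeriodic w)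
    (h : ∀ k, cf v k = cf w k) : v = w := by
  ext x
  rw [(hF1 v hv).2 x, (hF1 w hw).2 x]
  exact tsum_congr (fun k => by rw [h k])

lemma wA_U (M : ℕ) (t : ℝ) (a : A) : wA M (U t a) = wA M a := by
  unfold wA
  exact tsum_congr (fun k => by rw [co_U, norm_mul, norm_ph, one_mul])

lemma Dec.U {a : A} (ha : Dec a) (t : ℝ) : Dec (U t a) := fun M => by
  refine (ha M).congr (fun k => ?_)
  rw [co_U, norm_mul, norm_ph, one_mul]

/-- time derivative of coefficients from the interaction picture -/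
lemma hasDerivWithinAt_co (m : ℕ) {J : Set ℝ} {a : ℝ → A} {t : ℝ}
    (hd : HasDerivWithinAt a (F m t (a t)) J t) (k : Z12) :
    HasDerivWithinAt (fun s => co (U s (a s)) k)
      (-(I * ((nk k ^ 2 : ℝ) : ℂ)) * co (U t (a t)) k - I * co (Nl m (U t (a t))) k) J t := by
  have h1 : HasDerivWithinAt (fun s => co (a s) k) (co (F m t (a t)) k) J t :=
    (((coL k).restrictScalars ℝ).hasFDerivAt (x := a t)).comp_hasDerivWithinAt t hd
  have h2 : HasDerivAt (fun s : ℝ => ph s k) (-(I * ((nk k ^ 2 : ℝ) : ℂ)) * ph t k) t := by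
    unfold ph
    generalize -(I * ((nk k ^ 2 : ℝ) : ℂ)) = z
    have h3 : HasDerivAt (fun s : ℝ => z * (s : ℂ)) z t := by
      simpa using (Complex.ofRealCLM.hasDerivAt (x := t)).const_mul z
    have h4 := h3.cexp
    rw [mul_comm _ z] at h4
    exact h4
  have h5 := h2.hasDerivWithinAt.mul h1
  have h6 : (fun s => co (U s (a s)) k) = fun s => ph s k * co (a s) k := by
    ext s; rw [co_U]
  rw [h6]
  refine h5.congr_deriv ?_
  rw [F, co_smul, co_U, co_U]
  have h7 : ph t k * ph (-t) k = 1 := by rw [← ph_add, add_neg_cancel, ph_zero]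
  linear_combination (-I * co (Nl m (U t (a t))) k) * h7

/-- an `A`-valued curve with decay gives an `IsSol` -/
theorem isSol_of_curve (hF2 : TF2) (m : ℕ) {t0 t1 ρ : ℝ} {a : ℝ → A}
    (hρ : ∀ t ∈ Icc t0 t1, ‖a t‖ ≤ ρ) (h0 : Dec (a t0))
    (hd : ∀ t ∈ Icc t0 t1, HasDerivWithinAt a (F m t (a t)) (Icc t0 t1) t) :
    ∃ u : ℝ → R12 → ℂ, IsSol (2 * m) (Icc t0 t1) u ∧
      ∀ t ∈ Icc t0 t1, ∀ k, cf (u t) k = co (U t (a t)) k := by
  classical
  have hb : ∀ M : ℕ, ∀ t ∈ Icc t0 t1, (Summable fun k => (1 + nk k) ^ M * ‖co (a t) k‖) ∧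
      wA M (a t) ≤ wA M (a t0) * Real.exp (tk (2 ^ M) m * ρ ^ (2 * m) * (t - t0)) := by
    intro M t ht
    refine summable_of_trW M (a t) (fun R hR => ?_)
    refine (persist (by positivity) (trW M R hR) m hρ hd t ht).trans ?_
    have := trW_norm_le M R hR (a t0) (h0 M)
    unfold wA
    gcongr
  have hdec : ∀ t ∈ Icc t0 t1, Dec (a t) := fun t ht M => (hb M t ht).1
  have hex : ∀ t : ℝ, ∃ v : R12 → ℂ, t ∈ Icc t0 t1 → IsSmoothPeriodic v ∧
      (∀ k, cf v k = co (U t (a t)) k) ∧ ∀ x, v x = syn (U t (a t)) x := by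
    intro t
    by_cases ht : t ∈ Icc t0 t1
    · obtain ⟨v, hv⟩ := exists_fun hF2 ((hdec t ht).U t)
      exact ⟨v, fun _ => hv⟩
    · exact ⟨0, fun h => absurd h ht⟩
  choose u hu using hex
  refine ⟨u, ⟨?_, ?_, ?_⟩, ?_⟩
  · intro t ht; exact (hu t ht).1
  · intro N K hKJ _
    refine ⟨wA N (a t0) * Real.exp (tk (2 ^ N) m * |ρ| ^ (2 * m) * (t1 - t0)), fun t ht => ?_⟩
    have ht' := hKJ ht
    have h1 : wn N 1 (u t) = wA N (a t) := by
      rw [← wA_U N t (a t)]
      unfold wn wA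
      exact tsum_congr (fun k => by rw [(hu t ht').2.1 k, one_mul])
    rw [h1]
    refine (hb N t ht').2.trans ?_
    have h2 : 0 ≤ wA N (a t0) := tsum_nonneg fun k => by have := nk_nonneg k; positivity
    have h3 := tk_nonneg (K := (2 : ℝ) ^ N) (by positivity) m
    have h4 : ρ ^ (2 * m) ≤ |ρ| ^ (2 * m) := by
      rw [← abs_pow]; exact le_abs_self _
    have h5 : 0 ≤ t - t0 := by linarith [ht'.1]
    have h6 : t - t0 ≤ t1 - t0 := by linarith [ht'.2]
    gcongr
  · intro t ht k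
    have h1 := hasDerivWithinAt_co m (hd t ht) k
    have h2 : cf (fun x => nl (2 * m) (u t x)) k = co (Nl m (U t (a t))) k := by
      rw [← cf_nl_syn hF2 m ((hdec t ht).U t) k]
      congr 1
      ext x
      rw [(hu t ht).2.2 x]
    rw [h2, (hu t ht).2.1 k]
    refine h1.congr (fun s hs => (hu s hs).2.1 k) ((hu t ht).2.1 k)
  · intro t ht k
    exact (hu t ht).2.1 k

/-- TC1 -/
theorem tc1 (hF1 : TF1) (hF2 : TF2) : TC1 := by
  intro n hn hn2
  obtain ⟨m, hm⟩ := hn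
  have hnm : n = 2 * m := by omega
  subst hnm
  refine ⟨((2 : ℝ) ^ (2 * m + 1))⁻¹, by positivity, ?_⟩
  intro R hR u₀ hu₀ hl t₀
  set ε : ℝ := ((2 : ℝ) ^ (2 * m + 1))⁻¹ / R ^ (2 * m) with hε
  have hε0 : 0 ≤ ε := by positivity
  have hεR : (2 * R) ^ (2 * m + 1) * ε ≤ R := by
    rw [hε, mul_pow]
    have h1 : (2 : ℝ) ^ (2 * m + 1) ≠ 0 := by positivity
    have h2 : R ^ (2 * m) ≠ 0 := by positivity
    refine le_of_eq ?_
    field_simp
    ring
  set v₀ : A := U (-t₀) (hat hF1 u₀ hu₀) with hv₀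
  have hv₀R : ‖v₀‖ ≤ R := by rw [hv₀, norm_U, norm_hat]; exact hl
  obtain ⟨a, ha0, hab, had⟩ := exists_curve m hR v₀ hv₀R t₀ ε hε0 hεR
  have hdec0 : Dec (a t₀) := by
    rw [ha0, hv₀]; exact (dec_hat hF1 u₀ hu₀).U _
  obtain ⟨u, hu, huc⟩ := isSol_of_curve hF2 m hab hdec0 had
  refine ⟨u, hu, ?_⟩
  have ht0 : t₀ ∈ Icc t₀ (t₀ + ε) := ⟨le_rfl, by linarith⟩
  refine eq_of_cf hF1 (hu.smooth t₀ ht0) hu₀ (fun k => ?_)
  rw [huc t₀ ht0 k, ha0, hv₀, U_U_neg, co_hat]

end Crest.Agent.R086.TC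
end
end

-- ▼ part R086/TCGlue
section

/-!
Row 86, PART D-TORUS, flow nodes (helper367): gluing of coefficientwise solutions, and
`TC1 → TC2 → TC3` (continuation under an a-priori bound).
-/

set_option autoImplicit false

open MeasureTheory Complex Set
open scoped ContDiff Topology
open Crest.AnalysisR.PDE.NLS (IsSmoothPeriodic periodCell sobolevDistSq IsClassicalSolution)

namespace Crest.Agent.R086.TCG

variable {n : ℕ}

theorem isSol_mono {J J' : Set ℝ} {u : ℝ → R12 → ℂ} (h : IsSol n J u) (hJ : J' ⊆ J) :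
    IsSol n J' u where
  smooth t ht := h.smooth t (hJ ht)
  bdd N K hK hKc := h.bdd N K (hK.trans hJ) hKc
  ode t ht k := (h.ode t (hJ ht) k).mono hJ

theorem isSol_congr {J : Set ℝ} {u w : ℝ → R12 → ℂ} (h : IsSol n J u) (hw : ∀ t ∈ J, w t = u t) :
    IsSol n J w where
  smooth t ht := by rw [hw t ht]; exact h.smooth t ht
  bdd N K hK hKc := by
    obtain ⟨B, hB⟩ := h.bdd N K hK hKc
    exact ⟨B, fun t ht => by rw [hw t (hK ht)]; exact hB t ht⟩
  ode t ht k := by
    rw [hw t ht]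
    refine (h.ode t ht k).congr (fun s hs => ?_) ?_
    · simp only [hw s hs]
    · simp only [hw t ht]

theorem isSol_singleton {t₀ : ℝ} {u₀ : R12 → ℂ} (h : IsSmoothPeriodic u₀) :
    IsSol n (Icc t₀ t₀) (fun _ => u₀) where
  smooth _ _ := h
  bdd N _ _ _ := ⟨wn N 1 u₀, fun _ _ => le_rfl⟩
  ode t ht k := by
    rw [Icc_self] at ht ⊢
    rw [mem_singleton_iff] at ht
    subst ht
    exact HasFDerivWithinAt.of_subsingleton subsingleton_singleton

/-- the glued curve -/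
noncomputable def glue (b : ℝ) (u w : ℝ → R12 → ℂ) : ℝ → R12 → ℂ := fun t =>
  if t ≤ b then u t else w t

theorem glue_left {b t : ℝ} {u w : ℝ → R12 → ℂ} (h : t ≤ b) : glue b u w t = u t := if_pos h

theorem glue_right {b t : ℝ} {u w : ℝ → R12 → ℂ} (hb : u b = w b) (h : b ≤ t) :
    glue b u w t = w t := by
  rcases eq_or_lt_of_le h with h0 | h0
  · subst h0; rw [glue_left le_rfl, hb]
  · exact if_neg (not_le.2 h0)

/-- a curve which solves on two consecutive closed intervals solves on the union. -/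
theorem isSol_union {a b c : ℝ} (hab : a ≤ b) (hbc : b ≤ c) {v : ℝ → R12 → ℂ}
    (hu' : IsSol n (Icc a b) v) (hw' : IsSol n (Icc b c) v) : IsSol n (Icc a c) v := by
  have hun : Icc a b ∪ Icc b c = Icc a c := Icc_union_Icc_eq_Icc hab hbc
  refine ⟨fun t ht => ?_, fun N K hK hKc => ?_, fun t ht k => ?_⟩
  · rw [← hun] at ht
    rcases ht with h | h
    · exact hu'.smooth t h
    · exact hw'.smooth t h
  · obtain ⟨B1, hB1⟩ := hu'.bdd N (K ∩ Icc a b) inter_subset_right (hKc.inter isCompact_Icc)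
    obtain ⟨B2, hB2⟩ := hw'.bdd N (K ∩ Icc b c) inter_subset_right (hKc.inter isCompact_Icc)
    refine ⟨max B1 B2, fun t ht => ?_⟩
    have h := hK ht
    rw [← hun] at h
    rcases h with h | h
    · exact (hB1 t ⟨ht, h⟩).trans (le_max_left _ _)
    · exact (hB2 t ⟨ht, h⟩).trans (le_max_right _ _)
  · rw [← hun]
    refine HasDerivWithinAt.union ?_ ?_
    · by_cases h : t ∈ Icc a b
      · exact hu'.ode t h k
      · refine HasFDerivWithinAt.of_notMem_closure ?_
        rwa [isClosed_Icc.closure_eq]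
    · by_cases h : t ∈ Icc b c
      · exact hw'.ode t h k
      · refine HasFDerivWithinAt.of_notMem_closure ?_
        rwa [isClosed_Icc.closure_eq]

/-- two solutions on consecutive closed intervals glue to a solution. -/
theorem isSol_glue {a b c : ℝ} (hab : a ≤ b) (hbc : b ≤ c) {u w : ℝ → R12 → ℂ}
    (hu : IsSol n (Icc a b) u) (hw : IsSol n (Icc b c) w) (hb : u b = w b) :
    IsSol n (Icc a c) (glue b u w) :=
  isSol_union hab hbc (isSol_congr hu fun _ ht => glue_left ht.2)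
    (isSol_congr hw fun _ ht => glue_right hb ht.1)

/-- **TC3 from TC1** (uniqueness is not needed). -/
theorem tc3_of' (h1 : TC1) : TC3 := by
  intro n hn h2n t₀ t₁ R u₀ h01 hR hu₀ hap
  obtain ⟨c, hc, h1⟩ := h1 n hn h2n
  set h : ℝ := c / R ^ n with hh
  have hpos : 0 < h := by positivity
  have key : ∀ j : ℕ, ∃ u, IsSol n (Icc t₀ (min (t₀ + j * h) t₁)) u ∧ u t₀ = u₀ := by
    intro j
    induction j with
    | zero =>
      refine ⟨fun _ => u₀, ?_, rfl⟩
      have : min (t₀ + ((0 : ℕ) : ℝ) * h) t₁ = t₀ := by simp [h01]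
      rw [this]
      exact isSol_singleton hu₀
    | succ j ih =>
      obtain ⟨u, hu, hu0⟩ := ih
      set s := min (t₀ + j * h) t₁ with hs
      have hs0 : t₀ ≤ s := le_min (by have : (0:ℝ) ≤ j * h := by positivity
                                      linarith) h01
      have hs1 : s ≤ t₁ := min_le_right _ _
      have hle := hap s ⟨hs0, hs1⟩ u hu hu0
      obtain ⟨w, hw, hw0⟩ := h1 R hR (u s) (hu.smooth s ⟨hs0, le_rfl⟩) hle s
      refine ⟨glue s u w, ?_, ?_⟩
      · refine isSol_mono (isSol_glue hs0 (by linarith : s ≤ s + h) hu hw hw0.symm) ?_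
        refine Icc_subset_Icc_right ?_
        rw [hs]
        push_cast
        rcases le_total (t₀ + j * h) t₁ with h3 | h3
        · rw [min_eq_left h3]
          refine (min_le_left _ _).trans ?_
          linarith
        · rw [min_eq_right h3]
          refine (min_le_right _ _).trans ?_
          linarith
      · rw [glue_left hs0, hu0]
  obtain ⟨j, hj⟩ := exists_nat_gt ((t₁ - t₀) / h)
  obtain ⟨u, hu, hu0⟩ := key j
  have : min (t₀ + j * h) t₁ = t₁ := by
    apply min_eq_right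
    rw [div_lt_iff₀ hpos] at hj
    linarith
  rw [this] at hu
  exact ⟨u, hu, hu0⟩


/-- **TC4** (gluing along an increasing sequence of times). -/
theorem tc4 : TC4 := by
  classical
  intro n _ _ t T u ht0 htm htT hsol hcomp
  have hlt : ∀ x, x < T → ∃ j, x < t j := fun x hx => (htT.eventually (lt_mem_nhds hx)).exists
  have htle : ∀ j, t j < T := fun j =>
    lt_of_lt_of_le (htm (Nat.lt_succ_self j)) (htm.monotone.ge_of_tendsto htT (j + 1))
  set v : ℝ → R12 → ℂ := fun x =>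
    if h : ∃ j, x ≤ t (j + 1) then u (Nat.find h) x else u 0 x with hv
  have hval : ∀ j, ∀ x ∈ Icc (t j) (t (j + 1)), v x = u j x := by
    intro j x hx
    have hex : ∃ j, x ≤ t (j + 1) := ⟨j, hx.2⟩
    simp only [hv, dif_pos hex]
    have hf1 : x ≤ t (Nat.find hex + 1) := Nat.find_spec hex
    have hf2 : Nat.find hex ≤ j := Nat.find_min' hex hx.2
    rcases eq_or_lt_of_le hf2 with h | h
    · rw [h]
    · -- then `x = t j` and `find = j - 1`
      have h1 : t (Nat.find hex + 1) ≤ t j := htm.monotone h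
      have h2 : x = t j := le_antisymm (hf1.trans h1) hx.1
      have h3 : t (Nat.find hex + 1) = t j := le_antisymm h1 (h2 ▸ hf1)
      have h4 : Nat.find hex + 1 = j := htm.injective h3
      have h5 := hcomp (Nat.find hex)
      rw [h4, ← h2] at h5
      exact h5
  have hpos : ∀ j, 0 ≤ t j := fun j => ht0 ▸ htm.monotone (Nat.zero_le j)
  have hJ : ∀ J, IsSol n (Icc 0 (t (J + 1))) v := by
    intro J
    induction J with
    | zero =>
      rw [← ht0]
      exact isSol_congr (hsol 0) (hval 0)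
    | succ J ih =>
      exact isSol_union (hpos (J + 1)) (htm (Nat.lt_succ_self _)).le ih
        (isSol_congr (hsol (J + 1)) (hval (J + 1)))
  have hJ' : ∀ x, x < T → ∃ J, x < t (J + 1) := by
    intro x hx
    obtain ⟨j, hj⟩ := hlt x hx
    exact ⟨j, hj.trans (htm (Nat.lt_succ_self j))⟩
  refine ⟨v, ⟨fun x hx => ?_, fun N K hK hKc => ?_, fun x hx k => ?_⟩, hval⟩
  · obtain ⟨J, hJx⟩ := hJ' x hx.2
    exact (hJ J).smooth x ⟨hx.1, hJx.le⟩
  · rcases K.eq_empty_or_nonempty with h0 | h0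
    · subst h0
      exact ⟨0, fun t ht => absurd ht (notMem_empty t)⟩
    · obtain ⟨m, hm, hmax⟩ := hKc.exists_isMaxOn h0 continuousOn_id
      obtain ⟨J, hJm⟩ := hJ' m (hK hm).2
      refine (hJ J).bdd N K (fun x hx => ⟨(hK hx).1, ?_⟩) hKc
      exact (hmax hx : x ≤ m).trans hJm.le
  · obtain ⟨J, hJx⟩ := hJ' x hx.2
    refine ((hJ J).ode x ⟨hx.1, hJx.le⟩ k).mono_of_mem_nhdsWithin ?_
    have : Iio (t (J + 1)) ∈ 𝓝 x := Iio_mem_nhds hJx
    filter_upwards [nhdsWithin_le_nhds this, self_mem_nhdsWithin] with y hy1 hy2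
    exact ⟨hy2.1, (mem_Iio.1 hy1).le⟩

end Crest.Agent.R086.TCG
end

-- ▼ part R086/TSOne

/-!
Row 86, node TS / OneStep (helper264): `GrowStep` + `NearStep` ⟹ `OneStep`.
-/

set_option autoImplicit false

open MeasureTheory Complex Set
open scoped ContDiff Topology
open Crest.AnalysisR.PDE.NLS (IsSmoothPeriodic periodCell sobolevDistSq IsClassicalSolution)

namespace Crest.Agent.R086.TS

/-! ### norms -/

lemma nk_nonneg (k : Z12) : 0 ≤ nk k := norm_nonneg _

lemma wn_nonneg (N : ℕ) {h : ℝ} (hh : 0 ≤ h) (v : R12 → ℂ) : 0 ≤ wn N h v := by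
  unfold wn
  refine tsum_nonneg fun k => ?_
  have := nk_nonneg k
  positivity

lemma hi_nonneg (s : ℕ) {h : ℝ} (hh : 0 ≤ h) (v : R12 → ℂ) : 0 ≤ hi s h v := by
  unfold hi
  refine tsum_nonneg fun k => ?_
  have := nk_nonneg k
  positivity

lemma hi_le_wn (h1 : TF1) (s : ℕ) {h : ℝ} (hh : 0 ≤ h) (hh1 : h ≤ 1) {v : R12 → ℂ}
    (hv : IsSmoothPeriodic v) : hi s h v ≤ wn s h v := by
  have hs := (h1 v hv).1 s
  have hb : ∀ k : Z12, (1 + h * nk k) ^ s * ‖cf v k‖ ≤ (1 + nk k) ^ s * ‖cf v k‖ := by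
    intro k
    have h0 := nk_nonneg k
    have : h * nk k ≤ nk k := by nlinarith
    gcongr
  have hs1 : Summable fun k : Z12 => (1 + h * nk k) ^ s * ‖cf v k‖ :=
    Summable.of_nonneg_of_le (fun k => by have := nk_nonneg k; positivity) hb hs
  have hb2 : ∀ k : Z12, (h * nk k) ^ s * ‖cf v k‖ ≤ (1 + h * nk k) ^ s * ‖cf v k‖ := by
    intro k
    have h0 := nk_nonneg k
    have h3 : 0 ≤ h * nk k := mul_nonneg hh h0
    gcongr
    linarith
  have hs2 : Summable fun k : Z12 => (h * nk k) ^ s * ‖cf v k‖ :=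
    Summable.of_nonneg_of_le (fun k => by have := nk_nonneg k; positivity) hb2 hs1
  exact hs2.tsum_le_tsum hb2 hs1

lemma hi_sub_le (hN : TN) (s : ℕ) {h : ℝ} (hh : 0 ≤ h) {v w : R12 → ℂ}
    (hv : IsSmoothPeriodic v) (hw : IsSmoothPeriodic w) :
    hi s h (fun x => v x - w x) ≤ hi s h v + hi s h w := by
  have e : (fun x => v x - w x) = fun x => v x + (-1) * w x := by funext x; ring
  have h2 := hN.hi_add v (fun x => (-1) * w x) hv (isp_smul hw _) s h hh
  rw [e]
  refine h2.trans ?_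
  rw [hN.hi_smul]
  simp

lemma hi_zero (s : ℕ) (h : ℝ) : hi s h (fun _ => (0 : ℂ)) = 0 := by
  unfold hi cf
  simp

lemma hi_sum_le (hN : TN) (s : ℕ) {h : ℝ} (hh : 0 ≤ h) {ι : Type*} (t : Finset ι) (c : ι → ℂ)
    {v : ι → R12 → ℂ} (hv : ∀ i, IsSmoothPeriodic (v i)) :
    hi s h (fun x => ∑ i ∈ t, c i * v i x) ≤ ∑ i ∈ t, ‖c i‖ * hi s h (v i) := by
  classical
  induction t using Finset.induction_on with
  | empty => simp [hi_zero]
  | insert i t hi' ih =>
    simp only [Finset.sum_insert hi']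
    have h3 := hN.hi_add (fun x => c i * v i x) (fun x => ∑ i ∈ t, c i * v i x)
      (isp_smul (hv i) _) (isp_sum t fun i => isp_smul (hv i) _) s h hh
    rw [hN.hi_smul] at h3
    linarith

/-! ### OneStep -/

lemma elem_facts {q τ p δ : ℝ} (hqq : q * q = τ) (hq1 : q ≤ 1) (hp0 : 0 < p)
    (hp1 : p ≤ 1) (hτp : τ ≤ p) (hδ1 : δ ≤ 1) (hτ0 : 0 < τ) (hτ1 : τ ≤ 1) :
    τ ≤ δ ^ 2 + p ∧ δ * δ ≤ δ ^ 2 + p ∧ q * δ ≤ δ ^ 2 + p ∧ q * τ ≤ δ ^ 2 + p ∧
      p * δ ≤ δ ^ 2 + p ∧ p * τ ≤ δ ^ 2 + p ∧ δ * τ ≤ δ ^ 2 + p ∧ τ * τ ≤ δ ^ 2 + p := by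
  have h1 := sq_nonneg δ
  have h2 := sq_nonneg (q - δ)
  have h3 := sq_nonneg (p - δ)
  have h4 : p * p ≤ 1 * p := mul_le_mul_of_nonneg_right hp1 hp0.le
  refine ⟨by linarith, by nlinarith, by nlinarith, ?_, by nlinarith, ?_, ?_, ?_⟩
  · have : q * τ ≤ 1 * τ := mul_le_mul_of_nonneg_right hq1 hτ0.le
    linarith
  · have : p * τ ≤ 1 * τ := mul_le_mul_of_nonneg_right hp1 hτ0.le
    linarith
  · have : δ * τ ≤ 1 * τ := mul_le_mul_of_nonneg_right hδ1 hτ0.le
    linarith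
  · have : τ * τ ≤ 1 * τ := mul_le_mul_of_nonneg_right hτ1 hτ0.le
    linarith

set_option maxHeartbeats 1600000 in
theorem oneStep {n : ℕ} (P : Profile n) (N : ℕ) (h1 : TF1) (h2 : TF2) (hN : TN) (hP1 : TP1 P)
    (hG : GrowStep P N) (hNear : NearStep P N) : ∃ s, N + 1 ≤ s ∧ OneStep P N s := by
  have hn2 : 2 ≤ n := P.two_le
  have hn0 : (0 : ℝ) < n := by have : 0 < n := by omega
                               exact_mod_cast this
  obtain ⟨s, hs21, hG⟩ := hG
  obtain ⟨S, hS4, hS1, CN, hCN, hNear⟩ := hNear s hs21 (1 / 32) (by norm_num) 4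
  obtain ⟨CG, rG, τG, hCG, hrG, hτG, hτG1, hG⟩ := hG S hS1
  obtain ⟨CT, hCT0, hCT⟩ := hP1.2 s
  set C' : ℝ := CG + 14 * CT * CN * CG with hC'
  have hC'1 : 1 ≤ C' := by
    have : 0 ≤ 14 * CT * CN * CG := by positivity
    rw [hC']; linarith
  set μ : ℝ := 1 / (16 * C') with hμ
  have hμ0 : 0 < μ := by positivity
  have hμ1 : μ ≤ 1 := by
    rw [hμ, div_le_one (by positivity)]; linarith
  have hμC : μ * C' = 1 / 16 := by rw [hμ]; field_simp
  set K : ℝ := 4 * CG ^ 2 + 6 * CG + 1 / μ + 1 with hK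
  have hμi : 1 ≤ 1 / μ := by rw [le_div_iff₀ hμ0]; linarith
  have hK1 : 1 ≤ K := by
    have : 0 ≤ 4 * CG ^ 2 + 6 * CG + 1 / μ := by positivity
    rw [hK]; linarith
  have hK2' : 2 * CG + 1 / μ + 1 ≤ K := by
    have h3 : 0 ≤ 4 * CG ^ 2 := by positivity
    have h4 : 0 ≤ 4 * CG := by linarith
    rw [hK]; linarith
  set C : ℝ := 1 + 3 * CG + 14 * CT * CN * (2 * K) + 2 * CN * K with hC
  have hCN : 0 < CN := by linarith
  have hCG0 : 0 < CG := by linarith
  have hC1 : 1 ≤ C := by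
    have : 0 ≤ 3 * CG + 14 * CT * CN * (2 * K) + 2 * CN * K := by positivity
    rw [hC]; linarith
  refine ⟨s, hs21, μ, S, C, 1 / (n : ℝ), min rG (1 / (2 * CG)), min τG (1 / (2 * CG)), hμ0, hμ1, hS1,
    hC1, by positivity, by positivity, by positivity, (min_le_left _ _).trans hτG1, ?_⟩
  intro a t₀ hτ₀ hτ₀1 u₀ hu₀ δ hδr hδ
  set τ₀ : ℝ := a.T - t₀ with hτdef
  have hτG' : τ₀ ≤ τG := hτ₀1.trans (min_le_left _ _)
  have hτCG : τ₀ ≤ 1 / (2 * CG) := hτ₀1.trans (min_le_right _ _)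
  have hτ1 : τ₀ ≤ 1 := hτG'.trans hτG1
  -- the initial perturbation
  set A₀ : ℂ := P.amp a t₀ with hA₀
  have hA₀ne : A₀ ≠ 0 := amp_ne_zero P a t₀ hτ₀
  set W₀ : R12 → ℂ := fun y => A₀⁻¹ * u₀ (y + a.x) - P.qt τ₀ y with hW₀
  have hqt : IsSmoothPeriodic (P.qt τ₀) := (hP1.1 τ₀ hτ₀).1
  have hW₀s : IsSmoothPeriodic W₀ := isp_sub (isp_smul (isp_trans hu₀ _) _) hqt
  have hW₀n : nn N s μ (Real.sqrt τ₀) W₀ ≤ δ := by
    refine le_of_eq_of_le ?_ hδ
    rw [← nrm_gauge h1 h2 P hW₀s a hτ₀]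
    congr 1
    funext x
    simp only [hW₀, Profile.prof, ← hA₀, ← hτdef, sub_add_cancel]
    field_simp
  have hsq0 : 0 ≤ Real.sqrt τ₀ := Real.sqrt_nonneg _
  set l0 : ℝ := wn N (Real.sqrt τ₀) W₀ with hl0
  set h0 : ℝ := hi s (Real.sqrt τ₀) W₀ with hh0
  have hl0n : 0 ≤ l0 := wn_nonneg _ hsq0 _
  have hh0n : 0 ≤ h0 := hi_nonneg _ hsq0 _
  have hlh : l0 + μ * h0 ≤ δ := hW₀n
  have hμh0 : 0 ≤ μ * h0 := mul_nonneg hμ0.le hh0n
  have hl0δ : l0 ≤ δ := by linarith
  have hδ0 : 0 ≤ δ := hl0n.trans hl0δ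
  have hδrG : δ ≤ rG := hδr.trans (min_le_left _ _)
  have hδCG : δ ≤ 1 / (2 * CG) := hδr.trans (min_le_right _ _)
  have hδ1 : δ ≤ 1 := by
    refine hδCG.trans ?_
    rw [div_le_one (by positivity)]; linarith
  obtain ⟨U, hU, hU0, hlo, hhi⟩ := hG τ₀ hτ₀ hτG' W₀ hW₀s (hl0δ.trans hδrG)
  set L : ℝ := CG * (l0 + τ₀) with hL
  set H : ℝ := h0 + CG * (l0 + τ₀) with hH
  have hL1 : L ≤ 1 := by
    have : l0 + τ₀ ≤ 1 / CG := by
      have e : 1 / CG = 1 / (2 * CG) + 1 / (2 * CG) := by field_simp; norm_num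
      rw [e]; linarith
    calc L ≤ CG * (1 / CG) := by rw [hL]; gcongr
      _ = 1 := by field_simp
  have hL0 : 0 ≤ L := by positivity
  have hH0 : 0 ≤ H := by positivity
  have hpert0 : P.pert τ₀ U 0 = W₀ := by
    funext x
    simp only [Profile.pert, neg_zero, Real.exp_zero, mul_one]
    rw [hU0 x]; ring
  obtain ⟨b, hb, hlow⟩ := hNear τ₀ hτ₀ hτ1 U hU L H hH0 hL1 (fun σ hσ => (hlo σ hσ).2)
    (fun σ hσ => by
      refine (hhi σ hσ).trans ?_
      have : Real.exp (-σ) ≤ 1 := by rw [Real.exp_le_one_iff]; linarith [hσ.1]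
      rw [hH]
      have := mul_le_mul_of_nonneg_right this hh0n
      linarith)
  rw [hpert0, ← hl0] at hlow
  -- elementary facts
  set q : ℝ := Real.sqrt τ₀ with hq
  have hqq : q * q = τ₀ := Real.mul_self_sqrt hτ₀.le
  have hq1 : q ≤ 1 := by rw [hq]; exact Real.sqrt_le_one.2 hτ1
  set p : ℝ := τ₀ ^ (1 / (n : ℝ)) with hp
  have hp0 : 0 < p := Real.rpow_pos_of_pos hτ₀ _
  have hp1 : p ≤ 1 := Real.rpow_le_one hτ₀.le hτ1 (by positivity)
  have hτp : τ₀ ≤ p := by
    have : τ₀ ^ (1 : ℝ) ≤ τ₀ ^ (1 / (n : ℝ)) := by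
      apply Real.rpow_le_rpow_of_exponent_ge hτ₀ hτ1
      rw [div_le_one hn0]
      exact_mod_cast (by omega : 1 ≤ n)
    rwa [Real.rpow_one] at this
  set E : ℝ := δ ^ 2 + p with hE
  have hE0 : 0 ≤ E := by positivity
  obtain ⟨e_τ, e_δδ, e_qδ, e_qτ, e_pδ, e_pτ, e_δτ, e_ττ⟩ :=
    elem_facts hqq hq1 hp0 hp1 hτp hδ1 hτ₀ hτ1
  rw [← hE] at e_τ e_δδ e_qδ e_qτ e_pδ e_pτ e_δτ e_ττ
  have hh0δ : h0 ≤ (1 / μ) * δ := by
    have : μ * h0 ≤ δ := by linarith
    rw [one_div, ← div_eq_inv_mul, le_div_iff₀ hμ0]; linarith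
  have e_qh : q * h0 ≤ (1 / μ) * E := by
    calc q * h0 ≤ q * ((1 / μ) * δ) := mul_le_mul_of_nonneg_left hh0δ hsq0
      _ = (1 / μ) * (q * δ) := by ring
      _ ≤ (1 / μ) * E := mul_le_mul_of_nonneg_left e_qδ (by positivity)
  have e_LL : L ^ 2 ≤ 4 * CG ^ 2 * E := by
    have h3 : L ≤ CG * (δ + τ₀) := by rw [hL]; gcongr
    calc L ^ 2 ≤ (CG * (δ + τ₀)) ^ 2 := by gcongr
      _ = CG ^ 2 * (δ * δ + 2 * (δ * τ₀) + τ₀ * τ₀) := by ring
      _ ≤ CG ^ 2 * (4 * E) := by gcongr; linarith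
      _ = 4 * CG ^ 2 * E := by ring
  have e_qL : q * L ≤ 2 * CG * E := by
    have h3 : L ≤ CG * (δ + τ₀) := by rw [hL]; gcongr
    calc q * L ≤ q * (CG * (δ + τ₀)) := by gcongr
      _ = CG * (q * δ + q * τ₀) := by ring
      _ ≤ CG * (E + E) := by gcongr
      _ = 2 * CG * E := by ring
  have e_qH : q * H ≤ (2 * CG + 1 / μ) * E := by
    have e : q * H = q * h0 + q * L := by rw [hH, hL]; ring
    rw [e]
    have : (2 * CG + 1 / μ) * E = 2 * CG * E + 1 / μ * E := by ring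
    linarith
  have e_pL : p * L ≤ 2 * CG * E := by
    have h3 : L ≤ CG * (δ + τ₀) := by rw [hL]; gcongr
    calc p * L ≤ p * (CG * (δ + τ₀)) := by gcongr
      _ = CG * (p * δ + p * τ₀) := by ring
      _ ≤ CG * (E + E) := by gcongr
      _ = 2 * CG * E := by ring
  -- the low norm at the end
  have hlow' : wn N (Profile.hs τ₀ S)
      (fun x => P.pert τ₀ U S x - ∑ m, (b m : ℂ) * P.mt m (τ₀ * Real.exp (-S)) x)
      ≤ (1 / 32) * l0 + CN * (K * E) := by
    refine hlow.trans ?_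
    have : L ^ 2 + q * (L + H) + τ₀ + p * L ≤ K * E := by
      have e : K * E = 4 * CG ^ 2 * E + 2 * CG * E + (2 * CG + 1 / μ) * E + E + 2 * CG * E := by
        rw [hK]; ring
      rw [e, mul_add]
      linarith
    have := mul_le_mul_of_nonneg_left this hCN.le
    linarith
  -- smoothness and size of the modes
  have hτS : 0 < τ₀ * Real.exp (-S) := by positivity
  have hexpS : Real.exp (-S) ≤ 1 / 32 := by
    have h4 : Real.exp (-S) ≤ Real.exp (-4) := Real.exp_le_exp.2 (by linarith)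
    have h5 : Real.exp (-4) ≤ 1 / 32 := by
      rw [Real.exp_neg, inv_eq_one_div]
      apply one_div_le_one_div_of_le (by norm_num)
      have h6 : (2.7 : ℝ) ≤ Real.exp 1 := by linarith [Real.exp_one_gt_d9]
      have h7 : Real.exp 4 = Real.exp 1 ^ 4 := by rw [← Real.exp_nat_mul]; norm_num
      rw [h7]
      calc (32 : ℝ) ≤ 2.7 ^ 4 := by norm_num
        _ ≤ Real.exp 1 ^ 4 := by gcongr
    exact h4.trans h5
  have hτS1 : τ₀ * Real.exp (-S) ≤ 1 := by
    have : Real.exp (-S) ≤ 1 := by linarith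
    calc τ₀ * Real.exp (-S) ≤ 1 * 1 := by gcongr
      _ = 1 := one_mul 1
  have hmts : ∀ m, IsSmoothPeriodic (P.mt m (τ₀ * Real.exp (-S))) := (hP1.1 _ hτS).2
  have hhsS0 : 0 ≤ Profile.hs τ₀ S := Real.sqrt_nonneg _
  have hhsS1 : Profile.hs τ₀ S ≤ 1 := by unfold Profile.hs; exact Real.sqrt_le_one.2 hτS1
  have hmth : ∀ m, hi s (Profile.hs τ₀ S) (P.mt m (τ₀ * Real.exp (-S))) ≤ CT := fun m =>
    (hi_le_wn h1 s hhsS0 hhsS1 (hmts m)).trans ((hCT _ hτS hτS1).2 m)
  have hSS : S ∈ Icc 0 S := ⟨by linarith, le_rfl⟩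
  have hqts : ∀ σ : ℝ, IsSmoothPeriodic (P.qt (τ₀ * Real.exp (-σ))) := fun σ =>
    (hP1.1 _ (by positivity)).1
  have hperts : ∀ σ ∈ Icc 0 S, IsSmoothPeriodic (P.pert τ₀ U σ) := fun σ hσ =>
    isp_sub (hU.smooth σ hσ) (hqts σ)
  have hsums : IsSmoothPeriodic (fun x => ∑ m, (b m : ℂ) * P.mt m (τ₀ * Real.exp (-S)) x) :=
    isp_sum _ fun m => isp_smul (hmts m) _
  set β : ℝ := CN * (L + q * H + τ₀) with hβ
  have hβ0 : 0 ≤ β := by positivity
  have hhigh : hi s (Profile.hs τ₀ S)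
      (fun x => P.pert τ₀ U S x - ∑ m, (b m : ℂ) * P.mt m (τ₀ * Real.exp (-S)) x)
      ≤ (1 / 32) * h0 + CG * (l0 + τ₀) + 14 * CT * β := by
    refine (hi_sub_le hN s hhsS0 (hperts S hSS) hsums).trans ?_
    have h3 := hi_sum_le hN s hhsS0 Finset.univ (fun m => (b m : ℂ)) hmts
    have h4 : ∑ m : MIx, ‖(b m : ℂ)‖ * hi s (Profile.hs τ₀ S) (P.mt m (τ₀ * Real.exp (-S))) ≤ 14 * CT * β := by
      calc ∑ m : MIx, ‖(b m : ℂ)‖ * hi s (Profile.hs τ₀ S) (P.mt m (τ₀ * Real.exp (-S)))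
          ≤ ∑ m : MIx, β * CT := by
            apply Finset.sum_le_sum
            intro m _
            apply mul_le_mul _ (hmth m) (hi_nonneg _ hhsS0 _) hβ0
            rw [Complex.norm_real, Real.norm_eq_abs]
            exact hb m
        _ = 14 * CT * β := by
            rw [Finset.sum_const, Finset.card_univ, show Fintype.card MIx = 14 from by
              simp [MIx, Fintype.card_option]]
            simp only [nsmul_eq_mul]
            push_cast
            ring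
    have h5 := hhi S hSS
    have h6 : Real.exp (-S) * h0 ≤ (1 / 32) * h0 := mul_le_mul_of_nonneg_right hexpS hh0n
    linarith
  have hbβ : ∀ m, |b m| ≤ C * (δ + p) := by
    intro m
    refine (hb m).trans ?_
    have h3 : L + q * H + τ₀ ≤ K * (δ + p) := by
      have hX : 0 ≤ δ + p := by positivity
      have i1 : L ≤ CG * (δ + p) := by rw [hL]; gcongr
      have i2 : q * H ≤ H := by
        calc q * H ≤ 1 * H := by gcongr
          _ = H := one_mul H
      have i3 : H ≤ (1 / μ) * (δ + p) + CG * (δ + p) := by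
        rw [hH]
        have i4 : (1 / μ) * δ ≤ (1 / μ) * (δ + p) := by gcongr; linarith
        have i5 : CG * (l0 + τ₀) ≤ CG * (δ + p) := by gcongr
        linarith
      have i6 : τ₀ ≤ δ + p := by linarith
      have i7 : (2 * CG + 1 / μ + 1) * (δ + p) ≤ K * (δ + p) := by
        apply mul_le_mul_of_nonneg_right _ hX
        exact hK2'
      have i8 : (2 * CG + 1 / μ + 1) * (δ + p)
          = CG * (δ + p) + ((1 / μ) * (δ + p) + CG * (δ + p)) + (δ + p) := by ring
      linarith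
    calc CN * (L + q * H + τ₀) ≤ CN * (K * (δ + p)) := by gcongr
      _ = (CN * K) * (δ + p) := by ring
      _ ≤ C * (δ + p) := by
        apply mul_le_mul_of_nonneg_right _ (by positivity)
        have i1 : 0 ≤ CN * K := by positivity
        have i2 : 0 ≤ 14 * CT * CN * (2 * K) := by positivity
        rw [hC]
        linarith
  -- combine
  have hcomb : nn N s μ (Profile.hs τ₀ S)
      (fun x => P.pert τ₀ U S x - ∑ m, (b m : ℂ) * P.mt m (τ₀ * Real.exp (-S)) x)
      ≤ (1 / 8) * δ + C * E := by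
    unfold nn
    have i1 := mul_le_mul_of_nonneg_left hhigh hμ0.le
    -- expand β
    have i2 : μ * ((1 / 32) * h0 + CG * (l0 + τ₀) + 14 * CT * β)
        = (1 / 32) * (μ * h0) + μ * C' * (l0 + τ₀) + 14 * CT * CN * (μ * (q * H) + μ * τ₀) := by
      rw [hβ, hC', hL]; ring
    have i3 : μ * (q * H) ≤ K * E := by
      calc μ * (q * H) ≤ 1 * (q * H) := by gcongr
        _ = q * H := one_mul _
        _ ≤ (2 * CG + 1 / μ) * E := e_qH
        _ ≤ K * E := by
          apply mul_le_mul_of_nonneg_right _ hE0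
          linarith [hK2']
    have i4 : μ * τ₀ ≤ K * E := by
      calc μ * τ₀ ≤ 1 * E := by gcongr
        _ ≤ K * E := by gcongr
    have i5 : 14 * CT * CN * (μ * (q * H) + μ * τ₀) ≤ 14 * CT * CN * (2 * K) * E := by
      have : μ * (q * H) + μ * τ₀ ≤ 2 * K * E := by linarith
      calc 14 * CT * CN * (μ * (q * H) + μ * τ₀) ≤ 14 * CT * CN * (2 * K * E) := by gcongr
        _ = 14 * CT * CN * (2 * K) * E := by ring
    have i6 : CN * (K * E) ≤ 2 * CN * K * E := by
      have i66 : 0 ≤ CN * (K * E) := by positivity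
      have i67 : 2 * CN * K * E = CN * (K * E) + CN * (K * E) := by ring
      linarith
    have i7 : C * E = E + 3 * CG * E + 14 * CT * CN * (2 * K) * E + 2 * CN * K * E := by
      rw [hC]; ring
    have i8 : 0 ≤ 3 * CG * E := by positivity
    rw [i2, hμC] at i1
    rw [i7]
    have i9 : (1 / 16 : ℝ) * (l0 + τ₀) ≤ (1 / 16) * δ + E := by linarith
    linarith
  -- the solution
  have ht1 : a.T - Real.exp (-S) * (a.T - t₀) = a.T - Real.exp (-S) * τ₀ := rfl
  refine ⟨a.T - Real.exp (-S) * (a.T - t₀),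
    fun t x => P.amp a t * U (sg a.T τ₀ t) (x - a.x), rfl,
    isSol_of_resSol P h1 h2 hτ₀ hU a hτdef.symm ht1, ?_, ?_, b, hbβ, ?_⟩
  · funext x
    have : sg a.T τ₀ t₀ = 0 := by
      unfold sg; rw [← hτdef, div_self hτ₀.ne', Real.log_one]
    show P.amp a t₀ * U (sg a.T τ₀ t₀) (x - a.x) = u₀ x
    rw [this, hU0, ← hA₀]
    simp only [hW₀, sub_add_cancel]
    field_simp
    ring
  · intro t ht
    obtain ⟨hT, hσ⟩ := sg_mem hτ₀ hτdef.symm ht1 ht
    have e : (fun x => P.amp a t * U (sg a.T τ₀ t) (x - a.x) - P.prof a t x)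
        = fun x => P.amp a t * P.pert τ₀ U (sg a.T τ₀ t) (x - a.x) := by
      funext x
      simp only [Profile.prof, Profile.pert, exp_neg_sg hτ₀ hT]
      ring
    show nrm n N s μ (a.T - t) (fun x => P.amp a t * U (sg a.T τ₀ t) (x - a.x) - P.prof a t x) ≤ _
    rw [e, nrm_gauge h1 h2 P (hperts _ hσ) a hT]
    have ehs : Real.sqrt (a.T - t) = Profile.hs τ₀ (sg a.T τ₀ t) := by
      unfold Profile.hs; rw [exp_neg_sg hτ₀ hT]
    rw [ehs]
    unfold nn
    have j1 := (hlo _ hσ).2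
    have j2 := hhi _ hσ
    have j3 : Real.exp (-(sg a.T τ₀ t)) ≤ 1 := by
      rw [Real.exp_le_one_iff]; linarith [hσ.1]
    have j4 : Real.exp (-(sg a.T τ₀ t)) * h0 ≤ 1 * h0 := mul_le_mul_of_nonneg_right j3 hh0n
    have j5 : μ * hi s (Profile.hs τ₀ (sg a.T τ₀ t)) (P.pert τ₀ U (sg a.T τ₀ t))
        ≤ μ * (h0 + CG * (l0 + τ₀)) := mul_le_mul_of_nonneg_left (by linarith) hμ0.le
    have j6 : μ * (CG * (l0 + τ₀)) ≤ 1 * (CG * (l0 + τ₀)) :=
      mul_le_mul_of_nonneg_right hμ1 (by positivity)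
    have j7 : CG * (l0 + τ₀) ≤ CG * (δ + p) := by gcongr
    have j8 : C * (δ + p) = (δ + p) + 3 * (CG * (δ + p))
        + 14 * CT * CN * (2 * K) * (δ + p) + 2 * CN * K * (δ + p) := by
      rw [hC]; ring
    have j9 : 0 ≤ 14 * CT * CN * (2 * K) * (δ + p) + 2 * CN * K * (δ + p) := by positivity
    have j10 : 0 ≤ CG * (δ + p) := by positivity
    rw [j8]
    have j11 : μ * (h0 + CG * (l0 + τ₀)) = μ * h0 + μ * (CG * (l0 + τ₀)) := by ring
    linarith
  · set t₁ : ℝ := a.T - Real.exp (-S) * (a.T - t₀) with ht₁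
    have hTt : a.T - t₁ = τ₀ * Real.exp (-S) := by rw [ht₁, ← hτdef]; ring
    have hT : 0 < a.T - t₁ := by rw [hTt]; positivity
    have hsg : sg a.T τ₀ t₁ = S := by
      unfold sg
      rw [hTt, div_mul_eq_div_div, div_self hτ₀.ne', one_div, ← Real.exp_neg, neg_neg, Real.log_exp]
    have e : (fun x => P.amp a t₁ * U (sg a.T τ₀ t₁) (x - a.x) - P.prof a t₁ x
          - ∑ m, (b m : ℂ) * P.pmode a m t₁ x)
        = fun x => P.amp a t₁ * (fun y => P.pert τ₀ U S y
            - ∑ m, (b m : ℂ) * P.mt m (τ₀ * Real.exp (-S)) y) (x - a.x) := by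
      funext x
      simp only [Profile.prof, Profile.pert, Profile.pmode, hTt, hsg]
      rw [mul_sub, mul_sub, Finset.mul_sum]
      congr 1
      refine Finset.sum_congr rfl fun m _ => by ring
    show nrm n N s μ (a.T - t₁) (fun x => P.amp a t₁ * U (sg a.T τ₀ t₁) (x - a.x) - P.prof a t₁ x
          - ∑ m, (b m : ℂ) * P.pmode a m t₁ x) ≤ _
    rw [e, nrm_gauge h1 h2 P (isp_sub (hperts S hSS) hsums) a hT]
    have ehs : Real.sqrt (a.T - t₁) = Profile.hs τ₀ S := by unfold Profile.hs; rw [hTt]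
    rw [ehs]
    exact hcomb

end Crest.Agent.R086.TS
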