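import Crest.Agent.R086.TC5
import Crest.Agent.R086.TK5_Mg
import Crest.Agent.R086.TSOne_Mg
import Crest.Agent.R086.TF
import Crest.Agent.R086.TPOne
import Crest.Agent.R086.TKE_Mg
import Crest.Agent.R086.TP3
import Crest.Agent.R086.NSFin_Mg

-- ▼ part R086/TorFinal

/-! Row 86, PART D: `NonlinearThm`, unconditional (helper277). -/

set_option autoImplicit false

namespace Crest.Agent.R086

theorem growStep {n : ℕ} (P : Profile n) (N : ℕ) : GrowStep P N :=
  Grow.growStep P N tn tf1 tf2 (TCG.tc3_of' (TC.tc1 tf1 tf2)) (tp1 P) (TP.tp2 P)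

theorem exists_nearStep {n : ℕ} (P : Profile n) (hP : P.SpecGood N0) : ∃ N, NearStep P N := by
  obtain ⟨N1, h⟩ := TK.nearLin P hP
  exact ⟨N1, NSF.nearStep P (TP.tp2 P) (h N1 le_rfl)⟩

/-- PART D of row 86. -/
theorem nonlinearThm : NonlinearThm :=
  nonlinear_of (fun _ P hP => exists_nearStep P hP) (fun _ P N => growStep P N)
    (fun _ P N hG hN => TS.oneStep P N tf1 tf2 tn (tp1 P) hG hN)
    (fun _ P N s => modul P N s)
    (fun _ P N s hs hO hM => TI.final P N s hs tn tf1 tf3 TCG.tc4 tc5 (tp1 P) hO hM)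

end Crest.Agent.R086
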