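import Mathlib
import Crest.Agent.R086.A2
import Crest.Agent.R086.ABIface
import Crest.Agent.R086.JW
import Crest.Agent.R086.A4Alg
import Crest.Agent.R086.A4Num
import Crest.Agent.R086.FxL0
import Crest.Agent.R086.FxL1
import Crest.Agent.R086.FxL2
import Crest.Agent.R086.ALower
import Crest.Agent.R086.TopC_Mg
import Crest.Agent.R086.TorFinal
import Crest.Agent.R086.PartBFin
import Crest.Agent.R086.BMain

-- ▼ part R086/A2Data
section

/-!
Row 86, part A, node A2 (helper507): A2 in the form of `AData` (fields `om … nondeg`).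
-/
set_option autoImplicit false
open Complex Filter Topology Metric Set

namespace Crest.Agent.R086.A2

open Crest.Agent.R086.A (fo fo1)
open Crest.Agent.R086.LemP

theorem fo1_eq (x r : ℝ) : fo1 0 (-(I * x)) r = ((r / 2 * x : ℝ) : ℂ) * Phi x (r ^ 2 / 4) := by
  unfold fo1 Phi JCx.W1
  have e1 : -(I * (x : ℂ)) + ((0 : ℕ) : ℂ) / 2 + 1 = 1 - I * x := by push_cast; ring
  have e2 : ((0 : ℕ) : ℂ) + 6 - (-(I * (x : ℂ)) + ((0 : ℕ) : ℂ) / 2) - 1 = 5 + I * x := by push_cast; ring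
  rw [e1, e2]
  have hI : I * I = -1 := I_mul_I
  push_cast
  linear_combination (-(r : ℂ) / 2 * x * JCx.J (1 - I * x) (5 + I * x) (r ^ 2 / 4)) * hI

theorem fo_eq (x r : ℝ) : fo 0 (-(I * x)) r =
    (-(I * x) - 5 - I * ((r ^ 2 / 4 : ℝ) : ℂ)) * J0 x (r ^ 2 / 4)
      + ((r ^ 2 / 4 : ℝ) : ℂ) * JCx.J (2 - I * x) (4 + I * x) ((r ^ 2 / 4 : ℝ) : ℂ) := by
  unfold fo JCx.W J0
  have e0 : -(I * (x : ℂ)) + ((0 : ℕ) : ℂ) / 2 = -(I * x) := by push_cast; ring
  rw [e0]
  have e1 : -(I * (x : ℂ)) + 1 = 1 - I * x := by ring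
  have e3 : -(I * (x : ℂ)) + 2 = 2 - I * x := by ring
  have e2 : ((0 : ℕ) : ℂ) + 6 - (-(I * (x : ℂ))) - 2 = 4 + I * x := by push_cast; ring
  rw [e2, e3, e1]
  push_cast
  ring

/-- A linear injection `ℝ² → ℂ` is an equivalence. -/
theorem exists_equiv (Φ' : ℝ × ℝ →L[ℝ] ℂ) (hinj : Function.Injective Φ') :
    ∃ Λ : (ℝ × ℝ) ≃L[ℝ] ℂ, (Λ : ℝ × ℝ →L[ℝ] ℂ) = Φ' := by
  have hfr : Module.finrank ℝ (ℝ × ℝ) = Module.finrank ℝ ℂ := by
    rw [Module.finrank_prod, Module.finrank_self, Complex.finrank_real_complex]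
  refine ⟨(LinearEquiv.ofInjectiveOfFinrankEq (Φ' : ℝ × ℝ →ₗ[ℝ] ℂ) hinj hfr).toContinuousLinearEquiv, ?_⟩
  exact ContinuousLinearMap.ext fun p => rfl

theorem data : ∃ om R : ℝ, om ∈ Icc (0.3347760 : ℝ) 0.3347762 ∧
    R ^ 2 / 4 ∈ Icc (2.7050680 : ℝ) 2.7050684 ∧ 0 < R ∧
    |om - om0| ≤ 5 / 10 ^ 8 ∧ |R ^ 2 / 4 - rho0| ≤ 5 / 10 ^ 8 ∧
    fo 0 (-(I * om)) R ≠ 0 ∧ fo1 0 (-(I * om)) R = 0 ∧
    JCx.J (1 - I * om) (5 + I * om) ((R ^ 2 / 4 : ℝ) : ℂ) = 0 ∧
    JCx.J (1 - I * om) (4 + I * om) ((R ^ 2 / 4 : ℝ) : ℂ) ≠ 0 ∧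
    G (1 - I * om) 6 (R ^ 2 / 4) = I * ((R ^ 2 / 4 : ℝ) : ℂ) ∧
    ∃ L : (ℝ × ℝ) ≃L[ℝ] ℂ,
      HasStrictFDerivAt (fun p : ℝ × ℝ => fo1 0 (-(I * p.1)) p.2) (L : (ℝ × ℝ) →L[ℝ] ℂ) (om, R) := by
  obtain ⟨om, rho, h1, h2, h3, h4, h5, Λ, hΛ⟩ := main
  have a1 := abs_le.mp h1
  have a2 := abs_le.mp h2
  have hom : om ∈ Icc (0.3347760 : ℝ) 0.3347762 := by
    have : om0 = 33477606871 / 10 ^ 11 := rfl
    rw [this] at a1
    constructor <;> norm_num at a1 ⊢ <;> linarith [a1.1, a1.2]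
  have hrho : rho ∈ Icc (2.7050680 : ℝ) 2.7050684 := by
    have : rho0 = 27050681929 / 10 ^ 10 := rfl
    rw [this] at a2
    constructor <;> norm_num at a2 ⊢ <;> linarith [a2.1, a2.2]
  have hrpos : 0 < rho := by have := hrho.1; norm_num at this; linarith
  have hompos : 0 < om := by have := hom.1; norm_num at this; linarith
  set R : ℝ := 2 * Real.sqrt rho with hR
  have hRpos : 0 < R := by positivity
  have hR2 : R ^ 2 / 4 = rho := by
    rw [hR, mul_pow, Real.sq_sqrt hrpos.le]; ring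
  have hfo : fo 0 (-(I * om)) R ≠ 0 := by
    rw [fo_eq, hR2]
    have hJ : J0 om rho ≠ 0 := h4
    have hG : (rho : ℂ) * JCx.J (2 - I * om) (4 + I * om) (rho : ℂ) = (I * rho) * J0 om rho := by
      have h5' := h5
      unfold G at h5'
      rw [← J0_eq, show (6 : ℂ) - (1 - I * om) - 1 = 4 + I * om by ring,
        show (1 : ℂ) - I * om + 1 = 2 - I * om by ring, div_eq_iff hJ] at h5'
      exact h5'
    rw [hG]
    have e : (-(I * (om : ℂ)) - 5 - I * (rho : ℂ)) * J0 om rho + I * rho * J0 om rho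
        = (-(I * (om : ℂ)) - 5) * J0 om rho := by ring
    rw [e]
    refine mul_ne_zero ?_ hJ
    intro h
    have := congrArg Complex.re h
    simp at this
  refine ⟨om, R, hom, by rw [hR2]; exact hrho, hRpos, h1, by rw [hR2]; exact h2, hfo, ?_,
    by rw [hR2]; exact h3, by rw [hR2]; exact h4, by rw [hR2]; exact h5, ?_⟩
  · rw [fo1_eq, hR2]
    have : Phi om rho = 0 := h3
    rw [this, mul_zero]
  · -- strict derivative
    have hm : HasStrictFDerivAt (fun p : ℝ × ℝ => ((p.1, p.2 ^ 2 / 4) : ℝ × ℝ))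
        ((ContinuousLinearMap.fst ℝ ℝ ℝ).prod ((R / 2) • ContinuousLinearMap.snd ℝ ℝ ℝ)) (om, R) := by
      have k1 : HasStrictFDerivAt (fun p : ℝ × ℝ => p.1) (ContinuousLinearMap.fst ℝ ℝ ℝ) (om, R) :=
        hasStrictFDerivAt_fst
      have k2 : HasStrictFDerivAt (fun p : ℝ × ℝ => p.2) (ContinuousLinearMap.snd ℝ ℝ ℝ) (om, R) :=
        hasStrictFDerivAt_snd
      have k3 : HasStrictDerivAt (fun t : ℝ => t ^ 2 / 4) (R / 2) R := by
        have := (hasStrictDerivAt_pow 2 R).div_const 4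
        refine this.congr_deriv ?_
        simp; ring
      have k4 : HasStrictFDerivAt (fun p : ℝ × ℝ => p.2 ^ 2 / 4)
          ((R / 2) • ContinuousLinearMap.snd ℝ ℝ ℝ) (om, R) :=
        HasStrictDerivAt.comp_hasStrictFDerivAt (h₂ := fun t : ℝ => t ^ 2 / 4) (om, R) k3 k2
      exact k1.prodMk k4
    have hP : HasStrictFDerivAt (fun p : ℝ × ℝ => Phi p.1 (p.2 ^ 2 / 4))
        ((Λ : ℝ × ℝ →L[ℝ] ℂ).comp ((ContinuousLinearMap.fst ℝ ℝ ℝ).prod
          ((R / 2) • ContinuousLinearMap.snd ℝ ℝ ℝ))) (om, R) := by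
      have hΛ' : HasStrictFDerivAt (fun p : ℝ × ℝ => Phi p.1 p.2) (Λ : ℝ × ℝ →L[ℝ] ℂ)
          ((fun p : ℝ × ℝ => ((p.1, p.2 ^ 2 / 4) : ℝ × ℝ)) (om, R)) := by
        simp only [hR2]
        exact hΛ
      exact HasStrictFDerivAt.comp (g := fun p : ℝ × ℝ => Phi p.1 p.2)
        (f := fun p : ℝ × ℝ => ((p.1, p.2 ^ 2 / 4) : ℝ × ℝ)) (om, R) hΛ' hm
    have hs : HasStrictFDerivAt (fun p : ℝ × ℝ => (((p.2 / 2 * p.1 : ℝ)) : ℂ))
        (Complex.ofRealCLM.comp ((R / 2) • (ContinuousLinearMap.fst ℝ ℝ ℝ)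
          + om • ((1 / 2 : ℝ) • ContinuousLinearMap.snd ℝ ℝ ℝ))) (om, R) := by
      have k1 : HasStrictFDerivAt (fun p : ℝ × ℝ => p.1) (ContinuousLinearMap.fst ℝ ℝ ℝ) (om, R) :=
        hasStrictFDerivAt_fst
      have k2 : HasStrictFDerivAt (fun p : ℝ × ℝ => p.2) (ContinuousLinearMap.snd ℝ ℝ ℝ) (om, R) :=
        hasStrictFDerivAt_snd
      have k2' : HasStrictFDerivAt (fun p : ℝ × ℝ => p.2 / 2)
          ((1 / 2 : ℝ) • ContinuousLinearMap.snd ℝ ℝ ℝ) (om, R) := by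
        have := k2.const_mul (1 / 2 : ℝ)
        refine this.congr_of_eventuallyEq (Eventually.of_forall fun q => ?_)
        simp only
        ring
      have k3 := k2'.mul k1
      exact Complex.ofRealCLM.hasStrictFDerivAt.comp (om, R) k3
    have hprod := hs.mul hP
    have hz : Phi om (R ^ 2 / 4) = 0 := by rw [hR2]; exact h3
    have hfun : (fun p : ℝ × ℝ => fo1 0 (-(I * p.1)) p.2)
        = (fun p : ℝ × ℝ => (((p.2 / 2 * p.1 : ℝ)) : ℂ) * Phi p.1 (p.2 ^ 2 / 4)) := by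
      funext p
      exact fo1_eq p.1 p.2
    set T : ℝ × ℝ →L[ℝ] ℂ := (((R / 2 * om : ℝ)) : ℂ) •
      ((Λ : ℝ × ℝ →L[ℝ] ℂ).comp ((ContinuousLinearMap.fst ℝ ℝ ℝ).prod
          ((R / 2) • ContinuousLinearMap.snd ℝ ℝ ℝ))) with hT
    have hTd : HasStrictFDerivAt (fun p : ℝ × ℝ => fo1 0 (-(I * p.1)) p.2) T (om, R) := by
      rw [hfun]
      refine hprod.congr_fderiv ?_
      refine ContinuousLinearMap.ext fun p => ?_
      simp [hT, hz]
    have hinj : Function.Injective T := by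
      rw [injective_iff_map_eq_zero]
      intro p hp
      have hs0 : (((R / 2 * om : ℝ)) : ℂ) ≠ 0 := by
        have : (R / 2 * om : ℝ) ≠ 0 := by positivity
        exact_mod_cast this
      have e1 : T p = (((R / 2 * om : ℝ)) : ℂ) * Λ (p.1, R / 2 * p.2) := by
        simp [hT]
      rw [e1] at hp
      have h0 := (mul_eq_zero.mp hp).resolve_left hs0
      have h0' : ((p.1, R / 2 * p.2) : ℝ × ℝ) = 0 := by
        have := Λ.injective (h0.trans (map_zero Λ).symm)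
        exact this
      have q1 : p.1 = 0 := congrArg Prod.fst h0'
      have q2 : R / 2 * p.2 = 0 := congrArg Prod.snd h0'
      have q3 : p.2 = 0 := (mul_eq_zero.mp q2).resolve_left (by positivity)
      exact Prod.ext q1 q3
    obtain ⟨L, hL⟩ := exists_equiv T hinj
    exact ⟨L, by rw [hL]; exact hTd⟩

end Crest.Agent.R086.A2
end

-- ▼ part R086/A4HP
section

/-!
Row 86, part A4 (helper11): LEMMA HP (value half planes along a straight line in `Re ρ > 0`)
for the outgoing solution `W` of `ρ W'' + (b + i ρ) W' + i a W = 0`.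
-/
set_option autoImplicit false
open MeasureTheory Complex Set Filter Topology
open scoped ComplexConjugate

namespace Crest.Agent.R086.A4HP

/-- 2x2 quadratic form inequality. -/
theorem form_nonneg {A D c u v t : ℝ} (hA : 0 ≤ A) (hD : 0 ≤ D) (hc : c ^ 2 ≤ A * D)
    (ht : |t| ≤ u * v) :
    0 ≤ A * u ^ 2 + 2 * c * t + D * v ^ 2 := by
  have h1 : |c| * (u * v) * 2 ≤ A * u ^ 2 + D * v ^ 2 := by
    apply abs_le_of_sq_le_sq' _ (by positivity) |>.2
    have h2 : (|c| * (u * v) * 2) ^ 2 = 4 * c ^ 2 * (u * v) ^ 2 := by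
      rw [mul_pow, mul_pow, sq_abs]; ring
    rw [h2]
    nlinarith [sq_nonneg (A * u ^ 2 - D * v ^ 2), mul_nonneg (sub_nonneg.2 hc) (sq_nonneg (u * v))]
  have h3 : |c * t| ≤ |c| * (u * v) := by
    rw [abs_mul]; exact mul_le_mul_of_nonneg_left ht (abs_nonneg c)
  have h4 := neg_abs_le (c * t)
  nlinarith

theorem form_pos {A D c u v t : ℝ} (hA : 0 < A) (hc : c ^ 2 < A * D)
    (hu : 0 ≤ u) (ht : |t| ≤ u * v)
    (h : A * u ^ 2 + 2 * c * t + D * v ^ 2 ≤ 0) : u = 0 ∧ v = 0 := by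
  have hD : 0 < D := by
    by_contra hD
    have : A * D ≤ 0 := mul_nonpos_of_nonneg_of_nonpos hA.le (not_lt.1 hD)
    nlinarith [sq_nonneg c]
  have h3 : |c * t| ≤ |c| * (u * v) := by
    rw [abs_mul]; exact mul_le_mul_of_nonneg_left ht (abs_nonneg c)
  have h4 := neg_abs_le (c * t)
  have h5 : A * u ^ 2 - 2 * |c| * (u * v) + D * v ^ 2 ≤ 0 := by nlinarith
  have h6 : (A * u - |c| * v) ^ 2 + (A * D - c ^ 2) * v ^ 2 ≤ 0 := by
    have : (A * u - |c| * v) ^ 2 + (A * D - c ^ 2) * v ^ 2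
        = A * (A * u ^ 2 - 2 * |c| * (u * v) + D * v ^ 2) := by
      have := sq_abs c
      ring_nf
      rw [this]
      ring
    rw [this]
    exact mul_nonpos_of_nonneg_of_nonpos hA.le h5
  have h7 : 0 ≤ (A * D - c ^ 2) * v ^ 2 := mul_nonneg (by linarith) (sq_nonneg v)
  have h8 : (A * D - c ^ 2) * v ^ 2 = 0 := by nlinarith [sq_nonneg (A * u - |c| * v)]
  have hv0 : v = 0 := by
    rcases mul_eq_zero.1 h8 with h9 | h9
    · linarith
    · exact pow_eq_zero_iff (by norm_num) |>.1 h9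
  refine ⟨?_, hv0⟩
  rw [hv0] at h6
  have h10 : (A * u) ^ 2 ≤ 0 := by nlinarith
  have h11 : A * u = 0 := by nlinarith [sq_nonneg (A * u)]
  rcases mul_eq_zero.1 h11 with h12 | h12
  · linarith
  · exact h12

section abstract

variable (W Y : ℝ → ℂ) (B rho0 : ℝ) (a e g : ℂ) (c c' : ℝ → ℝ)

/-- the line -/
noncomputable def rr (rho0 : ℝ) (e : ℂ) (x : ℝ) : ℂ := (rho0 : ℂ) + e * x

/-- `A(x)` -/
noncomputable def AA (rho0 : ℝ) (e g : ℂ) (x : ℝ) : ℝ := (g * conj e * rr rho0 e x).re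

/-- `P(x)` -/
noncomputable def PPx (B rho0 : ℝ) (a e g : ℂ) (x : ℝ) : ℝ :=
  (g * e * ((B : ℂ) ^ 2 / rr rho0 e x - rr rho0 e x / 4 + I * ((B : ℂ) + 1 / 2 - a))).re

/-- weight -/
noncomputable def wt (B rho0 : ℝ) (e : ℂ) (x : ℝ) : ℝ :=
  (normSq (rr rho0 e x)) ^ B * Real.exp (-(e.im * x))

/-- the quadratic functional -/
noncomputable def QQ (x : ℝ) : ℝ :=
  wt B rho0 e x * ((g * conj (W x) * Y x).re + c x * normSq (W x))

theorem rr_re (x : ℝ) : (rr rho0 e x).re = rho0 + e.re * x := by simp [rr]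

theorem rr_re_pos {rho0 : ℝ} {e : ℂ} (h0 : 0 < rho0) (he1 : 0 ≤ e.re) {x : ℝ} (hx : 0 ≤ x) :
    0 < (rr rho0 e x).re := by
  rw [rr_re]; have := mul_nonneg he1 hx; linarith

theorem normSq_rr_pos {rho0 : ℝ} {e : ℂ} (h0 : 0 < rho0) (he1 : 0 ≤ e.re) {x : ℝ} (hx : 0 ≤ x) :
    0 < normSq (rr rho0 e x) := by
  have := rr_re_pos h0 he1 hx
  rw [normSq_apply]
  nlinarith [mul_self_nonneg (rr rho0 e x).im, mul_pos this this]

theorem rr_hasDerivAt (x : ℝ) : HasDerivAt (rr rho0 e) e x := by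
  unfold rr
  have h := (Complex.ofRealCLM.hasDerivAt (x := x)).const_mul e
  simpa using h.const_add (rho0 : ℂ)

theorem hasDerivAt_re {f : ℝ → ℂ} {f' : ℂ} {x : ℝ} (h : HasDerivAt f f' x) :
    HasDerivAt (fun y => (f y).re) f'.re x :=
  (Complex.reCLM.hasFDerivAt (x := f x)).comp_hasDerivAt x h

theorem hasDerivAt_im {f : ℝ → ℂ} {f' : ℂ} {x : ℝ} (h : HasDerivAt f f' x) :
    HasDerivAt (fun y => (f y).im) f'.im x :=
  (Complex.imCLM.hasFDerivAt (x := f x)).comp_hasDerivAt x h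

theorem normSq_rr_hasDerivAt (x : ℝ) :
    HasDerivAt (fun y => normSq (rr rho0 e y)) (2 * (rr rho0 e x * conj e).re) x := by
  have h := rr_hasDerivAt rho0 e x
  have h1 := hasDerivAt_re h
  have h2 := hasDerivAt_im h
  have h3 := (h1.mul h1).add (h2.mul h2)
  refine (h3.congr_deriv ?_)
  simp only [mul_re, conj_re, conj_im]
  ring

theorem wt_hasDerivAt {rho0 : ℝ} {e : ℂ} (h0 : 0 < rho0) (he1 : 0 ≤ e.re) {x : ℝ} (hx : 0 ≤ x) :
    HasDerivAt (wt B rho0 e)
      (wt B rho0 e x * (2 * B * ((rr rho0 e x * conj e).re / normSq (rr rho0 e x)) - e.im)) x := by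
  have hN := normSq_rr_pos h0 he1 hx
  have h1 := (normSq_rr_hasDerivAt rho0 e x).rpow_const (p := B) (Or.inl hN.ne')
  have h2 : HasDerivAt (fun y : ℝ => Real.exp (-(e.im * y))) (Real.exp (-(e.im * x)) * (-(e.im * 1))) x :=
    (((hasDerivAt_id x).const_mul e.im).neg).exp
  have h3 := h1.mul h2
  refine h3.congr_deriv ?_
  unfold wt
  rw [Real.rpow_sub_one hN.ne']
  field_simp
  ring

/-- the algebraic identity behind HP -/
theorem alg (ε ρ w y g a : ℂ) (B c c' : ℝ) :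
    (2 * B * ε.re - (ε * ρ).im) * ((g * conj w * y).re + c * normSq w)
      + ((g * (conj (ε * (y - ((B : ℂ) + I * ρ / 2) * w)) * y + conj w *
          (ε * ((((B : ℂ) + I * ρ / 2) ^ 2 + I * ρ / 2 - I * a * ρ) * w
            - ((B : ℂ) + I * ρ / 2) * y)))).re
        + c' * normSq w + c * (2 * (conj w * (ε * (y - ((B : ℂ) + I * ρ / 2) * w))).re))
    = (g * conj ε).re * normSq y + 2 * c * (ε * y * conj w).re
      + ((g * ε * ((B : ℂ) ^ 2 - ρ ^ 2 / 4 + I * ρ * ((B : ℂ) + 1 / 2 - a))).re + c') * normSq w := by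
  obtain ⟨e1, e2⟩ := ε
  obtain ⟨r1, r2⟩ := ρ
  obtain ⟨w1, w2⟩ := w
  obtain ⟨y1, y2⟩ := y
  obtain ⟨g1, g2⟩ := g
  obtain ⟨a1, a2⟩ := a
  simp only [normSq_apply, Complex.mul_re, Complex.mul_im, Complex.add_re, Complex.add_im,
    Complex.sub_re, Complex.sub_im, Complex.conj_re, Complex.conj_im, Complex.I_re, Complex.I_im,
    Complex.ofReal_re, Complex.ofReal_im, pow_two, Complex.div_ofNat_re, Complex.div_ofNat_im,
    Complex.one_re, Complex.one_im]
  ring

theorem hasDerivAt_conj' {f : ℝ → ℂ} {f' : ℂ} {x : ℝ} (h : HasDerivAt f f' x) :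
    HasDerivAt (fun y => conj (f y)) (conj f') x :=
  (Complex.conjCLE.toContinuousLinearMap.hasFDerivAt (x := f x)).comp_hasDerivAt x h

theorem hasDerivAt_normSq {f : ℝ → ℂ} {f' : ℂ} {x : ℝ} (h : HasDerivAt f f' x) :
    HasDerivAt (fun y => normSq (f y)) (2 * (conj (f x) * f').re) x := by
  have h1 := hasDerivAt_re h
  have h2 := hasDerivAt_im h
  have h3 := (h1.mul h1).add (h2.mul h2)
  refine (h3.congr_deriv ?_)
  simp only [mul_re, conj_re, conj_im]
  ring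

variable {W Y B rho0 a e g c c'}

/-- system satisfied on the line -/
structure Sys (W Y : ℝ → ℂ) (B rho0 : ℝ) (a e : ℂ) : Prop where
  dW : ∀ x : ℝ, 0 ≤ x → HasDerivAt W
    (e / rr rho0 e x * (Y x - ((B : ℂ) + I * rr rho0 e x / 2) * W x)) x
  dY : ∀ x : ℝ, 0 ≤ x → HasDerivAt Y
    (e / rr rho0 e x * ((((B : ℂ) + I * rr rho0 e x / 2) ^ 2 + I * rr rho0 e x / 2
      - I * a * rr rho0 e x) * W x - ((B : ℂ) + I * rr rho0 e x / 2) * Y x)) x

theorem QQ_hasDerivWithinAt (hs : Sys W Y B rho0 a e) (h0 : 0 < rho0) (he1 : 0 ≤ e.re)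
    {x : ℝ} (hx : 0 ≤ x) (hc' : HasDerivWithinAt c (c' x) (Ici x) x) :
    HasDerivWithinAt (QQ W Y B rho0 e g c)
      (wt B rho0 e x * (AA rho0 e g x * (normSq (Y x) / normSq (rr rho0 e x))
        + 2 * c x * (e / rr rho0 e x * Y x * conj (W x)).re
        + (PPx B rho0 a e g x + c' x) * normSq (W x))) (Ici x) x := by
  have hN := normSq_rr_pos h0 he1 hx
  have hrne : rr rho0 e x ≠ 0 := by
    intro h; rw [h] at hN; simp at hN
  have hw := (wt_hasDerivAt B h0 he1 hx).hasDerivWithinAt (s := Ici x)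
  have hW := hs.dW x hx
  have hY := hs.dY x hx
  have hq1 : HasDerivAt (fun y => (g * conj (W y) * Y y).re) _ x :=
    hasDerivAt_re (((hasDerivAt_conj' hW).const_mul g).mul hY)
  have hn := (hasDerivAt_normSq hW).hasDerivWithinAt (s := Ici x)
  have h := hw.mul (hq1.hasDerivWithinAt.add (hc'.mul hn))
  refine h.congr_deriv ?_
  have key := alg (e / rr rho0 e x) (rr rho0 e x) (W x) (Y x) g a B (c x) (c' x)
  have e1 : e / rr rho0 e x * rr rho0 e x = e := div_mul_cancel₀ _ hrne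
  rw [e1] at key
  have e2 : (rr rho0 e x * conj e).re / normSq (rr rho0 e x) = (e / rr rho0 e x).re := by
    rw [Complex.div_re]; simp only [mul_re, conj_re, conj_im]; ring
  have e3 : AA rho0 e g x * (normSq (Y x) / normSq (rr rho0 e x))
      = (g * conj (e / rr rho0 e x)).re * normSq (Y x) := by
    have : g * conj (e / rr rho0 e x) = (g * conj e * rr rho0 e x) * ((normSq (rr rho0 e x) : ℝ) : ℂ)⁻¹ := by
      rw [map_div₀]
      have h1 : conj (rr rho0 e x) ≠ 0 := by simpa using hrne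
      rw [← Complex.mul_conj]
      field_simp
    rw [this, ← Complex.ofReal_inv, Complex.re_mul_ofReal]
    unfold AA
    field_simp
  have e4 : PPx B rho0 a e g x = (g * (e / rr rho0 e x) * ((B : ℂ) ^ 2 - (rr rho0 e x) ^ 2 / 4
      + I * rr rho0 e x * ((B : ℂ) + 1 / 2 - a))).re := by
    unfold PPx
    congr 1
    field_simp
  rw [e3, e4, ← key, ← e2]
  simp only [Pi.add_apply, Pi.mul_apply]
  rw [mul_add g, ← mul_assoc g, ← mul_assoc g]
  ring

/-- hypotheses on the multiplier data -/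
structure Dat (B rho0 : ℝ) (a e g : ℂ) (c c' : ℝ → ℝ) : Prop where
  hB : 0 ≤ B
  h0 : 0 < rho0
  he : ‖e‖ = 1
  he1 : 0 ≤ e.re
  he2 : 0 < e.im
  hc : ContinuousOn c (Ici 0)
  hc' : ∀ x : ℝ, 0 ≤ x → HasDerivWithinAt c (c' x) (Ici x) x
  gr : ∃ (K : ℝ) (k : ℕ), ∀ x : ℝ, 0 ≤ x → |c x| ≤ K * (1 + x) ^ k
  hA : ∀ x : ℝ, 0 ≤ x → 0 ≤ AA rho0 e g x
  hP : ∀ x : ℝ, 0 ≤ x → 0 ≤ PPx B rho0 a e g x + c' x
  hAP : ∀ x : ℝ, 0 ≤ x → c x ^ 2 ≤ AA rho0 e g x * (PPx B rho0 a e g x + c' x)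

theorem wt_pos {B rho0 : ℝ} {e : ℂ} (h0 : 0 < rho0) (he1 : 0 ≤ e.re) {x : ℝ} (hx : 0 ≤ x) :
    0 < wt B rho0 e x :=
  mul_pos (Real.rpow_pos_of_pos (normSq_rr_pos h0 he1 hx) _) (Real.exp_pos _)

theorem cross_le (he : ‖e‖ = 1) (x : ℝ) :
    |(e / rr rho0 e x * Y x * conj (W x)).re| ≤ (‖Y x‖ / ‖rr rho0 e x‖) * ‖W x‖ := by
  refine (Complex.abs_re_le_norm _).trans ?_
  rw [norm_mul, norm_mul, norm_div, he, Complex.norm_conj]
  apply le_of_eq; ring

theorem form_eq (x : ℝ) :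
    normSq (Y x) / normSq (rr rho0 e x) = (‖Y x‖ / ‖rr rho0 e x‖) ^ 2 := by
  rw [Complex.normSq_eq_norm_sq, Complex.normSq_eq_norm_sq, div_pow]

theorem deriv_nonneg (hd : Dat B rho0 a e g c c') {x : ℝ} (hx : 0 ≤ x) :
    0 ≤ wt B rho0 e x * (AA rho0 e g x * (normSq (Y x) / normSq (rr rho0 e x))
        + 2 * c x * (e / rr rho0 e x * Y x * conj (W x)).re
        + (PPx B rho0 a e g x + c' x) * normSq (W x)) := by
  refine mul_nonneg (wt_pos hd.h0 hd.he1 hx).le ?_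
  rw [form_eq x, Complex.normSq_eq_norm_sq (W x)]
  exact form_nonneg (hd.hA x hx) (hd.hP x hx) (hd.hAP x hx) (cross_le hd.he x)

theorem QQ_continuousOn (hs : Sys W Y B rho0 a e) (hd : Dat B rho0 a e g c c') :
    ContinuousOn (QQ W Y B rho0 e g c) (Ici 0) := by
  intro x hx
  have hx' : (0 : ℝ) ≤ x := hx
  have h1 := (wt_hasDerivAt B hd.h0 hd.he1 hx').continuousAt.continuousWithinAt (s := Ici 0)
  have h2 := (hs.dW x hx').continuousAt.continuousWithinAt (s := Ici 0)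
  have h3 := (hs.dY x hx').continuousAt.continuousWithinAt (s := Ici 0)
  have h4 := hd.hc x hx
  have h5 : ContinuousWithinAt (fun y => (g * conj (W y) * Y y).re) (Ici 0) x :=
    Complex.continuous_re.continuousAt.comp_continuousWithinAt
      ((continuousWithinAt_const.mul
        (Complex.continuous_conj.continuousAt.comp_continuousWithinAt h2)).mul h3)
  have h6 : ContinuousWithinAt (fun y => normSq (W y)) (Ici 0) x :=
    Complex.continuous_normSq.continuousAt.comp_continuousWithinAt h2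
  exact h1.mul (h5.add (h4.mul h6))

theorem QQ_mono (hs : Sys W Y B rho0 a e) (hd : Dat B rho0 a e g c c') {x y : ℝ} (hx : 0 ≤ x)
    (hxy : x ≤ y) : QQ W Y B rho0 e g c x ≤ QQ W Y B rho0 e g c y := by
  have hsub : Icc x y ⊆ Ici (0 : ℝ) := fun z hz => le_trans hx hz.1
  have hcont := (QQ_continuousOn (g := g) hs hd).mono hsub
  have hd1 : ∀ z ∈ Ico x y, HasDerivWithinAt (QQ W Y B rho0 e g c)
      (wt B rho0 e z * (AA rho0 e g z * (normSq (Y z) / normSq (rr rho0 e z))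
        + 2 * c z * (e / rr rho0 e z * Y z * conj (W z)).re
        + (PPx B rho0 a e g z + c' z) * normSq (W z))) (Ici z) z := by
    intro z hz
    have hz0 : 0 ≤ z := le_trans hx hz.1
    exact QQ_hasDerivWithinAt hs hd.h0 hd.he1 hz0 (hd.hc' z hz0)
  have hd2 : ∀ z ∈ Ico x y, (0 : ℝ) ≤
      (wt B rho0 e z * (AA rho0 e g z * (normSq (Y z) / normSq (rr rho0 e z))
        + 2 * c z * (e / rr rho0 e z * Y z * conj (W z)).re
        + (PPx B rho0 a e g z + c' z) * normSq (W z))) := by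
    intro z hz
    have hz0 : 0 ≤ z := le_trans hx hz.1
    exact deriv_nonneg hd hz0
  have := image_le_of_deriv_right_le_deriv_boundary (f := fun _ => QQ W Y B rho0 e g c x)
    (f' := fun _ => 0) (a := x) (b := y) continuousOn_const
    (fun z _ => hasDerivWithinAt_const _ _ _) (B := QQ W Y B rho0 e g c) le_rfl hcont
    hd1 hd2
  exact this ⟨hxy, le_rfl⟩

/-- polynomial growth on the half line -/
def Gr (W : ℝ → ℂ) : Prop := ∃ (C : ℝ) (k : ℕ), ∀ x : ℝ, 0 ≤ x → ‖W x‖ ≤ C * (1 + x) ^ k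

theorem norm_rr_le (he : ‖e‖ = 1) (h0 : 0 < rho0) {x : ℝ} (hx : 0 ≤ x) :
    ‖rr rho0 e x‖ ≤ (1 + rho0) * (1 + x) := by
  unfold rr
  refine (norm_add_le _ _).trans ?_
  rw [norm_mul, he, Complex.norm_real, Complex.norm_real, Real.norm_of_nonneg h0.le,
    Real.norm_of_nonneg hx]
  nlinarith [mul_nonneg h0.le hx]

theorem tendsto_poly_exp {b : ℝ} (hb : 0 < b) (C : ℝ) (n : ℕ) :
    Tendsto (fun x : ℝ => C * (1 + x) ^ n * Real.exp (-(b * x))) atTop (𝓝 0) := by
  have h1 : Tendsto (fun x : ℝ => x ^ n / Real.exp (b * x)) atTop (𝓝 0) :=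
    (isLittleO_pow_exp_pos_mul_atTop n hb).tendsto_div_nhds_zero
  have h2 : Tendsto (fun x : ℝ => (1 + x) ^ n / Real.exp (b * (1 + x))) atTop (𝓝 0) :=
    h1.comp (tendsto_atTop_add_const_left _ 1 tendsto_id)
  have h3 := h2.const_mul (C * Real.exp b)
  rw [mul_zero] at h3
  refine h3.congr (fun x => ?_)
  rw [mul_add, mul_one, Real.exp_add, Real.exp_neg]
  have := (Real.exp_pos b).ne'
  have := (Real.exp_pos (b * x)).ne'
  field_simp

theorem QQ_tendsto (hd : Dat B rho0 a e g c c') (hW : Gr W) (hY : Gr Y) :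
    Tendsto (QQ W Y B rho0 e g c) atTop (𝓝 0) := by
  obtain ⟨C1, k1, h1⟩ := hW
  obtain ⟨C2, k2, h2⟩ := hY
  obtain ⟨C3, k3, h3⟩ := hd.gr
  obtain ⟨m, hm⟩ := exists_nat_ge B
  have hC1 : 0 ≤ C1 := by
    have := (norm_nonneg _).trans (h1 0 le_rfl); simpa using this
  have hC2 : 0 ≤ C2 := by
    have := (norm_nonneg _).trans (h2 0 le_rfl); simpa using this
  have hC3 : 0 ≤ C3 := by
    have := (abs_nonneg _).trans (h3 0 le_rfl); simpa using this
  have h0 := hd.h0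
  set K : ℝ := (1 + rho0) ^ (2 * m) * (‖g‖ * C1 * C2 + C3 * C1 ^ 2) with hK
  set n : ℕ := 2 * m + (k1 + k2 + (k3 + 2 * k1)) with hn
  have hlim := tendsto_poly_exp hd.he2 K n
  refine squeeze_zero_norm' ?_ hlim
  filter_upwards [eventually_ge_atTop (0 : ℝ)] with x hx
  have hx1 : 1 ≤ 1 + x := by linarith
  have hN := normSq_rr_pos h0 hd.he1 hx
  have b1 : (normSq (rr rho0 e x)) ^ B ≤ (1 + rho0) ^ (2 * m) * (1 + x) ^ (2 * m) := by
    have e1 : normSq (rr rho0 e x) ≤ ((1 + rho0) * (1 + x)) ^ 2 := by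
      rw [Complex.normSq_eq_norm_sq]
      exact pow_le_pow_left₀ (norm_nonneg _) (norm_rr_le hd.he h0 hx) 2
    have e2 : 1 ≤ ((1 + rho0) * (1 + x)) ^ 2 := by
      apply one_le_pow₀
      nlinarith [mul_nonneg h0.le hx]
    calc (normSq (rr rho0 e x)) ^ B ≤ (((1 + rho0) * (1 + x)) ^ 2) ^ B :=
          Real.rpow_le_rpow hN.le e1 hd.hB
      _ ≤ (((1 + rho0) * (1 + x)) ^ 2) ^ (m : ℝ) := Real.rpow_le_rpow_of_exponent_le e2 hm
      _ = _ := by rw [Real.rpow_natCast, ← pow_mul, mul_pow]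
  have b2 : ‖(g * conj (W x) * Y x).re + c x * normSq (W x)‖
      ≤ (‖g‖ * C1 * C2 + C3 * C1 ^ 2) * (1 + x) ^ (k1 + k2 + (k3 + 2 * k1)) := by
    have f1 : |(g * conj (W x) * Y x).re| ≤ ‖g‖ * (C1 * (1 + x) ^ k1) * (C2 * (1 + x) ^ k2) := by
      refine (Complex.abs_re_le_norm _).trans ?_
      rw [norm_mul, norm_mul, Complex.norm_conj]
      have := h1 x hx; have := h2 x hx
      gcongr
    have f2 : |c x * normSq (W x)| ≤ (C3 * (1 + x) ^ k3) * (C1 * (1 + x) ^ k1) ^ 2 := by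
      rw [abs_mul, Complex.normSq_eq_norm_sq, abs_of_nonneg (by positivity : 0 ≤ ‖W x‖ ^ 2)]
      have := h1 x hx; have := h3 x hx
      gcongr
    have g1 : (1 + x) ^ (k1 + k2) ≤ (1 + x) ^ (k1 + k2 + (k3 + 2 * k1)) :=
      pow_le_pow_right₀ hx1 (by omega)
    have g2 : (1 + x) ^ (k3 + 2 * k1) ≤ (1 + x) ^ (k1 + k2 + (k3 + 2 * k1)) :=
      pow_le_pow_right₀ hx1 (by omega)
    have hg := norm_nonneg g
    rw [Real.norm_eq_abs]
    calc |(g * conj (W x) * Y x).re + c x * normSq (W x)|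
        ≤ |(g * conj (W x) * Y x).re| + |c x * normSq (W x)| := abs_add_le _ _
      _ ≤ ‖g‖ * (C1 * (1 + x) ^ k1) * (C2 * (1 + x) ^ k2)
          + (C3 * (1 + x) ^ k3) * (C1 * (1 + x) ^ k1) ^ 2 := add_le_add f1 f2
      _ = ‖g‖ * C1 * C2 * (1 + x) ^ (k1 + k2) + C3 * C1 ^ 2 * (1 + x) ^ (k3 + 2 * k1) := by ring
      _ ≤ ‖g‖ * C1 * C2 * (1 + x) ^ (k1 + k2 + (k3 + 2 * k1))
          + C3 * C1 ^ 2 * (1 + x) ^ (k1 + k2 + (k3 + 2 * k1)) := by gcongr
      _ = _ := by ring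
  unfold QQ
  rw [norm_mul, Real.norm_of_nonneg (wt_pos h0 hd.he1 hx).le]
  unfold wt
  have hE := Real.exp_pos (-(e.im * x))
  have hg := norm_nonneg g
  calc normSq (rr rho0 e x) ^ B * Real.exp (-(e.im * x))
        * ‖(g * conj (W x) * Y x).re + c x * normSq (W x)‖
      ≤ ((1 + rho0) ^ (2 * m) * (1 + x) ^ (2 * m)) * Real.exp (-(e.im * x))
        * ((‖g‖ * C1 * C2 + C3 * C1 ^ 2) * (1 + x) ^ (k1 + k2 + (k3 + 2 * k1))) := by
        gcongr
    _ = K * (1 + x) ^ n * Real.exp (-(e.im * x)) := by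
        rw [hK, hn, pow_add (1 + x) (2 * m)]; ring

theorem QQ_nonpos (hs : Sys W Y B rho0 a e) (hd : Dat B rho0 a e g c c') (hW : Gr W) (hY : Gr Y)
    {x : ℝ} (hx : 0 ≤ x) : QQ W Y B rho0 e g c x ≤ 0 := by
  refine ge_of_tendsto (QQ_tendsto hd hW hY) ?_
  filter_upwards [eventually_ge_atTop x] with y hy
  exact QQ_mono hs hd hx hy

theorem hp_le (hs : Sys W Y B rho0 a e) (hd : Dat B rho0 a e g c c') (hW : Gr W) (hY : Gr Y) :
    (g * conj (W 0) * Y 0).re ≤ -c 0 * normSq (W 0) := by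
  have h := QQ_nonpos hs hd hW hY (x := 0) le_rfl
  unfold QQ at h
  have hw := wt_pos (B := B) hd.h0 hd.he1 (x := 0) le_rfl
  have : (g * conj (W 0) * Y 0).re + c 0 * normSq (W 0) ≤ 0 := by
    by_contra hcon
    exact absurd h (not_le.2 (mul_pos hw (not_le.1 hcon)))
  linarith

/-- if `W 0 = 0` the functional vanishes identically -/
theorem QQ_zero (hs : Sys W Y B rho0 a e) (hd : Dat B rho0 a e g c c') (hW : Gr W) (hY : Gr Y)
    (h : W 0 = 0) {x : ℝ} (hx : 0 ≤ x) : QQ W Y B rho0 e g c x = 0 := by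
  apply le_antisymm (QQ_nonpos hs hd hW hY hx)
  have h1 := QQ_mono hs hd le_rfl hx
  have h2 : QQ W Y B rho0 e g c 0 = 0 := by unfold QQ; simp [h]
  linarith

theorem form_zero (hs : Sys W Y B rho0 a e) (hd : Dat B rho0 a e g c c') (hW : Gr W) (hY : Gr Y)
    (h : W 0 = 0) {x : ℝ} (hx : 0 ≤ x) :
    AA rho0 e g x * (‖Y x‖ / ‖rr rho0 e x‖) ^ 2
        + 2 * c x * (e / rr rho0 e x * Y x * conj (W x)).re
        + (PPx B rho0 a e g x + c' x) * ‖W x‖ ^ 2 = 0 := by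
  have h1 := QQ_hasDerivWithinAt (g := g) hs hd.h0 hd.he1 hx (hd.hc' x hx)
  have h2 : HasDerivWithinAt (QQ W Y B rho0 e g c) 0 (Ici x) x := by
    refine (hasDerivWithinAt_const x (Ici x) (0 : ℝ)).congr_of_mem ?_ (mem_Ici.2 le_rfl)
    intro y hy
    exact QQ_zero hs hd hW hY h (le_trans hx hy)
  have h3 := (uniqueDiffOn_Ici x x (mem_Ici.2 le_rfl)).eq_deriv _ h1 h2
  have hw := wt_pos (B := B) hd.h0 hd.he1 hx
  have h4 := (mul_eq_zero.1 h3).resolve_left hw.ne'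
  rw [form_eq, Complex.normSq_eq_norm_sq (W x)] at h4
  exact h4

/-- nonvanishing, version 1 : `A(0) > 0`. -/
theorem hp_ne (hs : Sys W Y B rho0 a e) (hd : Dat B rho0 a e g c c') (hW : Gr W) (hY : Gr Y)
    (hnt : ¬ (W 0 = 0 ∧ Y 0 = 0)) (hA0 : 0 < AA rho0 e g 0) : W 0 ≠ 0 := by
  intro h
  have h1 := form_zero hs hd hW hY h le_rfl
  rw [h] at h1
  simp only [map_zero, mul_zero, Complex.zero_re, norm_zero, add_zero] at h1
  have hN := normSq_rr_pos hd.h0 hd.he1 (x := 0) le_rfl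
  have hr : ‖rr rho0 e 0‖ ≠ 0 := by
    intro h2
    rw [Complex.normSq_eq_norm_sq, h2] at hN
    simp at hN
  have h2 : (‖Y 0‖ / ‖rr rho0 e 0‖) ^ 2 = 0 := by
    have : AA rho0 e g 0 * (‖Y 0‖ / ‖rr rho0 e 0‖) ^ 2 = 0 := by
      simpa using h1
    exact (mul_eq_zero.1 this).resolve_left hA0.ne'
  have h3 : ‖Y 0‖ / ‖rr rho0 e 0‖ = 0 := pow_eq_zero_iff (by norm_num) |>.1 h2
  have h4 : ‖Y 0‖ = 0 := by
    rcases div_eq_zero_iff.1 h3 with h5 | h5
    · exact h5
    · exact absurd h5 hr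
  exact hnt ⟨h, norm_eq_zero.1 h4⟩

theorem QQ_zero' (hs : Sys W Y B rho0 a e) (hd : Dat B rho0 a e g c c') (hW : Gr W) (hY : Gr Y)
    (h : QQ W Y B rho0 e g c 0 = 0) {x : ℝ} (hx : 0 ≤ x) : QQ W Y B rho0 e g c x = 0 := by
  apply le_antisymm (QQ_nonpos hs hd hW hY hx)
  have h1 := QQ_mono hs hd le_rfl hx
  linarith

theorem form_zero' (hs : Sys W Y B rho0 a e) (hd : Dat B rho0 a e g c c') (hW : Gr W) (hY : Gr Y)
    (h : QQ W Y B rho0 e g c 0 = 0) {x : ℝ} (hx : 0 ≤ x) :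
    AA rho0 e g x * (‖Y x‖ / ‖rr rho0 e x‖) ^ 2
        + 2 * c x * (e / rr rho0 e x * Y x * conj (W x)).re
        + (PPx B rho0 a e g x + c' x) * ‖W x‖ ^ 2 = 0 := by
  have h1 := QQ_hasDerivWithinAt (g := g) hs hd.h0 hd.he1 hx (hd.hc' x hx)
  have h2 : HasDerivWithinAt (QQ W Y B rho0 e g c) 0 (Ici x) x := by
    refine (hasDerivWithinAt_const x (Ici x) (0 : ℝ)).congr_of_mem ?_ (mem_Ici.2 le_rfl)
    intro y hy
    exact QQ_zero' hs hd hW hY h (le_trans hx hy)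
  have h3 := (uniqueDiffOn_Ici x x (mem_Ici.2 le_rfl)).eq_deriv _ h1 h2
  have hw := wt_pos (B := B) hd.h0 hd.he1 hx
  have h4 := (mul_eq_zero.1 h3).resolve_left hw.ne'
  rw [form_eq, Complex.normSq_eq_norm_sq (W x)] at h4
  exact h4

/-- strict version : strict inequality for `x > 0`. -/
theorem QQ_neg (hs : Sys W Y B rho0 a e) (hd : Dat B rho0 a e g c c') (hW : Gr W) (hY : Gr Y)
    (hnt : ¬ (W 0 = 0 ∧ Y 0 = 0)) (hst : ∀ x : ℝ, 0 < x → 0 < AA rho0 e g x ∧
      c x ^ 2 < AA rho0 e g x * (PPx B rho0 a e g x + c' x)) : QQ W Y B rho0 e g c 0 < 0 := by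
  rcases (QQ_nonpos (g := g) hs hd hW hY le_rfl).lt_or_eq with h | h
  · exact h
  exfalso
  have hz : ∀ x : ℝ, 0 < x → W x = 0 ∧ Y x = 0 := by
    intro x hx
    have h1 := form_zero' hs hd hW hY h hx.le
    obtain ⟨h2, h3⟩ := hst x hx
    obtain ⟨h4, h5⟩ := form_pos (u := ‖Y x‖ / ‖rr rho0 e x‖) (v := ‖W x‖) h2 h3
      (by positivity) (cross_le hd.he x) h1.le
    have hN := normSq_rr_pos hd.h0 hd.he1 hx.le
    have hr : ‖rr rho0 e x‖ ≠ 0 := by
      intro h2
      rw [Complex.normSq_eq_norm_sq, h2] at hN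
      simp at hN
    refine ⟨norm_eq_zero.1 h5, ?_⟩
    rcases div_eq_zero_iff.1 h4 with h6 | h6
    · exact norm_eq_zero.1 h6
    · exact absurd h6 hr
  have hlim : ∀ f : ℝ → ℂ, ContinuousAt f 0 → (∀ x : ℝ, 0 < x → f x = 0) → f 0 = 0 := by
    intro f hf hf0
    have hc1 : Tendsto f (𝓝[>] 0) (𝓝 (f 0)) := hf.continuousWithinAt (s := Ioi 0)
    have hc2 : Tendsto f (𝓝[>] 0) (𝓝 0) := by
      refine tendsto_const_nhds.congr' ?_
      filter_upwards [self_mem_nhdsWithin] with x hx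
      exact (hf0 x hx).symm
    exact tendsto_nhds_unique hc1 hc2
  exact hnt ⟨hlim W (hs.dW 0 le_rfl).continuousAt (fun x hx => (hz x hx).1),
    hlim Y (hs.dY 0 le_rfl).continuousAt (fun x hx => (hz x hx).2)⟩

/-- nonvanishing, version 2 : strict inequality near `0+`. -/
theorem hp_ne' (hs : Sys W Y B rho0 a e) (hd : Dat B rho0 a e g c c') (hW : Gr W) (hY : Gr Y)
    (hnt : ¬ (W 0 = 0 ∧ Y 0 = 0)) (hst : ∀ x : ℝ, 0 < x → 0 < AA rho0 e g x ∧
      c x ^ 2 < AA rho0 e g x * (PPx B rho0 a e g x + c' x)) : W 0 ≠ 0 := by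
  intro h
  have hz : ∀ x : ℝ, 0 < x → W x = 0 ∧ Y x = 0 := by
    intro x hx
    have h1 := form_zero hs hd hW hY h hx.le
    obtain ⟨h2, h3⟩ := hst x hx
    obtain ⟨h4, h5⟩ := form_pos (u := ‖Y x‖ / ‖rr rho0 e x‖) (v := ‖W x‖) h2 h3
      (by positivity) (cross_le hd.he x) h1.le
    have hN := normSq_rr_pos hd.h0 hd.he1 hx.le
    have hr : ‖rr rho0 e x‖ ≠ 0 := by
      intro h2
      rw [Complex.normSq_eq_norm_sq, h2] at hN
      simp at hN
    refine ⟨norm_eq_zero.1 h5, ?_⟩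
    rcases div_eq_zero_iff.1 h4 with h6 | h6
    · exact norm_eq_zero.1 h6
    · exact absurd h6 hr
  have hY0 : Y 0 = 0 := by
    have hc1 : Tendsto Y (𝓝[>] 0) (𝓝 (Y 0)) :=
      (hs.dY 0 le_rfl).continuousAt.continuousWithinAt (s := Ioi 0)
    have hc2 : Tendsto Y (𝓝[>] 0) (𝓝 0) := by
      refine tendsto_const_nhds.congr' ?_
      filter_upwards [self_mem_nhdsWithin] with x hx
      exact (hz x hx).2.symm
    exact tendsto_nhds_unique hc1 hc2
  exact hnt ⟨h, hY0⟩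


end abstract

end Crest.Agent.R086.A4HP
end

-- ▼ part R086/A4HPW
section

/-!
Row 86, part A4 (helper11): LEMMA HP for the outgoing solution `JCx.W`.
-/
set_option autoImplicit false
open MeasureTheory Complex Set Filter Topology
open scoped ComplexConjugate

namespace Crest.Agent.R086.A4HP

open Crest.Agent.R086.JCx

/-- `W` on the line -/
noncomputable def WL (a b : ℂ) (rho0 : ℝ) (e : ℂ) (x : ℝ) : ℂ := W a b (rr rho0 e x)

/-- `Y = (B + iρ/2) W + ρ W'` on the line -/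
noncomputable def YL (B : ℝ) (a b : ℂ) (rho0 : ℝ) (e : ℂ) (x : ℝ) : ℂ :=
  ((B : ℂ) + I * rr rho0 e x / 2) * W a b (rr rho0 e x) + rr rho0 e x * W1 a b (rr rho0 e x)

variable {B rho0 : ℝ} {a b e : ℂ}

theorem sysL (ha : -1 < a.re) (hb : b = 2 * (B : ℂ) + 1) (h0 : 0 < rho0) (he1 : 0 ≤ e.re) :
    Sys (WL a b rho0 e) (YL B a b rho0 e) B rho0 a e := by
  constructor
  · intro x hx
    have hr := rr_re_pos h0 he1 hx
    have hne : rr rho0 e x ≠ 0 := by intro h; rw [h] at hr; simp at hr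
    have h1 := (W_hasDerivAt (b := b) ha hr).comp x (rr_hasDerivAt rho0 e x)
    refine h1.congr_deriv ?_
    unfold WL YL
    field_simp
    ring
  · intro x hx
    have hr := rr_re_pos h0 he1 hx
    have hne : rr rho0 e x ≠ 0 := by intro h; rw [h] at hr; simp at hr
    have hW := (W_hasDerivAt (b := b) ha hr).comp x (rr_hasDerivAt rho0 e x)
    have hW1 := (W1_hasDerivAt (b := b) ha hr).comp x (rr_hasDerivAt rho0 e x)
    have hR := rr_hasDerivAt rho0 e x
    have ode := W_ode (b := b) ha hr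
    have hbeta : HasDerivAt (fun y : ℝ => (B : ℂ) + I * rr rho0 e y / 2) (I * e / 2) x :=
      ((hR.const_mul I).div_const 2).const_add (B : ℂ)
    have h := (hbeta.mul hW).add (hR.mul hW1)
    refine h.congr_deriv ?_
    unfold WL YL
    simp only [Function.comp_apply]
    rw [hb] at ode ⊢
    have hI : I * I = -1 := Complex.I_mul_I
    field_simp
    linear_combination (4 * e * rr rho0 e x) * ode

theorem J_bd (c : ℂ) (ha : 0 < a.re) (h0 : 0 < rho0) :
    ∃ C : ℝ, 0 ≤ C ∧ ∀ z : ℂ, rho0 ≤ z.re → ‖J a c z‖ ≤ C := by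
  obtain ⟨M, hM⟩ := exists_nat_ge c.re
  have hK := KM_nonneg a.re a.re M (r0 := rho0) h0
  refine ⟨Real.exp (Real.pi * |c.im|) * KM a.re a.re M rho0 * rho0 ^ (-a.re), by positivity, ?_⟩
  intro z hz
  refine (J_bound_re (x0 := a.re) (x1 := a.re) (r0 := rho0) (y := |c.im|) M ha le_rfl le_rfl h0 hz
    hM le_rfl).trans ?_
  have : z.re ^ (-a.re) ≤ rho0 ^ (-a.re) := Real.rpow_le_rpow_of_nonpos h0 hz (by linarith)
  gcongr

theorem rr_re_ge (he1 : 0 ≤ e.re) {x : ℝ} (hx : 0 ≤ x) :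
    rho0 ≤ (rr rho0 e x).re := by
  rw [rr_re]; have := mul_nonneg he1 hx; linarith

theorem gr_bd {f : ℝ → ℂ} (h : ∃ C : ℝ, 0 ≤ C ∧ ∀ x : ℝ, 0 ≤ x → ‖f x‖ ≤ C) : Gr f := by
  obtain ⟨C, _, h⟩ := h
  exact ⟨C, 0, fun x hx => by simpa using h x hx⟩

theorem Gr.add {f g : ℝ → ℂ} (hf : Gr f) (hg : Gr g) : Gr (fun x => f x + g x) := by
  obtain ⟨C1, k1, h1⟩ := hf
  obtain ⟨C2, k2, h2⟩ := hg
  have hC1 : 0 ≤ C1 := by
    have := (norm_nonneg _).trans (h1 0 le_rfl); simpa using this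
  have hC2 : 0 ≤ C2 := by
    have := (norm_nonneg _).trans (h2 0 le_rfl); simpa using this
  refine ⟨C1 + C2, k1 + k2, fun x hx => ?_⟩
  have hx1 : 1 ≤ 1 + x := by linarith
  have g1 : (1 + x) ^ k1 ≤ (1 + x) ^ (k1 + k2) := pow_le_pow_right₀ hx1 (by omega)
  have g2 : (1 + x) ^ k2 ≤ (1 + x) ^ (k1 + k2) := pow_le_pow_right₀ hx1 (by omega)
  calc ‖f x + g x‖ ≤ ‖f x‖ + ‖g x‖ := norm_add_le _ _
    _ ≤ C1 * (1 + x) ^ k1 + C2 * (1 + x) ^ k2 := add_le_add (h1 x hx) (h2 x hx)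
    _ ≤ C1 * (1 + x) ^ (k1 + k2) + C2 * (1 + x) ^ (k1 + k2) := by gcongr
    _ = _ := by ring

theorem Gr.mul {f g : ℝ → ℂ} (hf : Gr f) (hg : Gr g) : Gr (fun x => f x * g x) := by
  obtain ⟨C1, k1, h1⟩ := hf
  obtain ⟨C2, k2, h2⟩ := hg
  have hC1 : 0 ≤ C1 := by
    have := (norm_nonneg _).trans (h1 0 le_rfl); simpa using this
  refine ⟨C1 * C2, k1 + k2, fun x hx => ?_⟩
  rw [norm_mul]
  calc ‖f x‖ * ‖g x‖ ≤ (C1 * (1 + x) ^ k1) * (C2 * (1 + x) ^ k2) := by
        have := h1 x hx; have := h2 x hx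
        gcongr
    _ = _ := by rw [pow_add]; ring

theorem gr_rr (he : ‖e‖ = 1) (h0 : 0 < rho0) : Gr (fun x => rr rho0 e x) :=
  ⟨1 + rho0, 1, fun x hx => by simpa using norm_rr_le he h0 hx⟩

theorem gr_const (k : ℂ) : Gr (fun _ => k) := ⟨‖k‖, 0, fun x _ => by simp⟩

theorem gr_J (c : ℂ) (ha : 0 < a.re) (h0 : 0 < rho0) (he1 : 0 ≤ e.re) :
    Gr (fun x => J a c (rr rho0 e x)) := by
  obtain ⟨C, hC, h⟩ := J_bd c ha h0
  exact gr_bd ⟨C, hC, fun x hx => h _ (rr_re_ge he1 hx)⟩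

theorem gr_WL (ha : -1 < a.re) (h0 : 0 < rho0) (he : ‖e‖ = 1) (he1 : 0 ≤ e.re) :
    Gr (WL a b rho0 e) := by
  have h1 : 0 < (a + 1).re := by simp; linarith
  have h2 : 0 < (a + 2).re := by simp; linarith
  have hr := gr_rr (e := e) he h0
  have h3 : Gr (fun x => (a + 1 - b + (-I) * rr rho0 e x)) :=
    (gr_const (a + 1 - b)).add ((gr_const (-I)).mul hr)
  have h4 := (h3.mul (gr_J (e := e) (b - a - 2) h1 h0 he1)).add (hr.mul (gr_J (e := e) (b - a - 2) h2 h0 he1))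
  convert h4 using 2 with x
  unfold WL W
  ring

theorem gr_W1 (ha : -1 < a.re) (h0 : 0 < rho0) (he1 : 0 ≤ e.re) :
    Gr (fun x => W1 a b (rr rho0 e x)) := by
  have h1 : 0 < (a + 1).re := by simp; linarith
  exact (gr_const (I * a)).mul (gr_J (e := e) (b - a - 1) h1 h0 he1)

theorem gr_YL (ha : -1 < a.re) (h0 : 0 < rho0) (he : ‖e‖ = 1) (he1 : 0 ≤ e.re) :
    Gr (YL B a b rho0 e) := by
  have hr := gr_rr (e := e) he h0
  have h3 : Gr (fun x => ((B : ℂ) + (I / 2) * rr rho0 e x)) :=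
    (gr_const (B : ℂ)).add ((gr_const (I / 2)).mul hr)
  have h4 := (h3.mul (gr_WL (b := b) ha h0 he he1)).add (hr.mul (gr_W1 (b := b) ha h0 he1))
  convert h4 using 2 with x
  unfold YL WL
  ring

/-- the outgoing solution is nontrivial at every point of the real half line. -/
theorem W_nontrivial (ha : -1 < a.re) (h0 : 0 < rho0) :
    ¬ (W a b (rho0 : ℂ) = 0 ∧ W1 a b (rho0 : ℂ) = 0) := by
  rintro ⟨hz0, hz1⟩
  have hne : ∀ t : ℝ, 0 ≤ t → 0 < ((rho0 + t : ℝ) : ℂ).re := by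
    intro t ht; rw [Complex.ofReal_re]; linarith
  -- vanishing on the half line
  have hzero : ∀ T : ℝ, 0 ≤ T → W a b ((rho0 + T : ℝ) : ℂ) = 0 := by
    intro T hT
    set f : ℝ → ℂ × ℂ := fun t => (W a b ((rho0 + t : ℝ) : ℂ), W1 a b ((rho0 + t : ℝ) : ℂ)) with hf
    set f' : ℝ → ℂ × ℂ := fun t => (W1 a b ((rho0 + t : ℝ) : ℂ), W2 a b ((rho0 + t : ℝ) : ℂ)) with hf'
    have hline : ∀ t : ℝ, HasDerivAt (fun t : ℝ => ((rho0 + t : ℝ) : ℂ)) 1 t := by
      intro t
      have := ((hasDerivAt_id t).const_add rho0).ofReal_comp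
      simpa using this
    have hd : ∀ t : ℝ, 0 ≤ t → HasDerivAt f (f' t) t := by
      intro t ht
      have h1 := (W_hasDerivAt (b := b) ha (hne t ht)).comp t (hline t)
      have h2 := (W1_hasDerivAt (b := b) ha (hne t ht)).comp t (hline t)
      rw [mul_one] at h1 h2
      exact h1.prodMk h2
    have hcont : ContinuousOn f (Icc 0 T) := fun t ht => (hd t ht.1).continuousAt.continuousWithinAt
    set K : ℝ := 1 + (‖b‖ + (rho0 + T) + ‖a‖) / rho0 with hK
    have hKpos : 0 ≤ K := by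
      have := norm_nonneg a; have := norm_nonneg b
      positivity
    have hbound : ∀ t ∈ Ico (0 : ℝ) T, ‖f' t‖ ≤ K * ‖f t‖ := by
      intro t ht
      have ode := W_ode (b := b) ha (hne t ht.1)
      set z : ℂ := ((rho0 + t : ℝ) : ℂ) with hz
      have hzn : ‖z‖ = rho0 + t := by
        rw [hz, Complex.norm_real, Real.norm_of_nonneg (by linarith [ht.1])]
      have hzne : z ≠ 0 := by
        rw [← norm_pos_iff, hzn]; linarith [ht.1]
      have hW2 : W2 a b z = -((b + I * z) * W1 a b z + I * a * W a b z) / z := by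
        field_simp
        linear_combination ode
      have hfn : ‖f t‖ = max ‖W a b z‖ ‖W1 a b z‖ := rfl
      have hf'n : ‖f' t‖ = max ‖W1 a b z‖ ‖W2 a b z‖ := rfl
      have hm1 : ‖W a b z‖ ≤ ‖f t‖ := by rw [hfn]; exact le_max_left _ _
      have hm2 : ‖W1 a b z‖ ≤ ‖f t‖ := by rw [hfn]; exact le_max_right _ _
      have hft := norm_nonneg (f t)
      rw [hf'n]
      apply max_le
      · have h3 : 0 ≤ (‖b‖ + (rho0 + T) + ‖a‖) / rho0 := by
          have := norm_nonneg a; have := norm_nonneg b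
          positivity
        have : ‖f t‖ ≤ K * ‖f t‖ := by
          rw [hK]; nlinarith
        linarith
      · rw [hW2, norm_div, norm_neg, hzn, div_le_iff₀ (by linarith [ht.1])]
        have e1 : ‖(b + I * z) * W1 a b z + I * a * W a b z‖
            ≤ (‖b‖ + (rho0 + T)) * ‖f t‖ + ‖a‖ * ‖f t‖ := by
          refine (norm_add_le _ _).trans ?_
          rw [norm_mul, norm_mul, norm_mul, Complex.norm_I, one_mul]
          have e2 : ‖b + I * z‖ ≤ ‖b‖ + (rho0 + T) := by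
            refine (norm_add_le _ _).trans ?_
            rw [norm_mul, Complex.norm_I, one_mul, hzn]
            linarith [ht.2]
          gcongr
        refine e1.trans ?_
        have e3 : (‖b‖ + (rho0 + T) + ‖a‖) ≤ (‖b‖ + (rho0 + T) + ‖a‖) / rho0 * (rho0 + t) := by
          rw [div_mul_eq_mul_div, le_div_iff₀ h0]
          have := norm_nonneg a; have := norm_nonneg b
          have h4 : 0 ≤ ‖b‖ + (rho0 + T) + ‖a‖ := by positivity
          nlinarith [ht.1, mul_nonneg h4 ht.1]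
        calc (‖b‖ + (rho0 + T)) * ‖f t‖ + ‖a‖ * ‖f t‖
            = (‖b‖ + (rho0 + T) + ‖a‖) * ‖f t‖ := by ring
          _ ≤ ((‖b‖ + (rho0 + T) + ‖a‖) / rho0 * (rho0 + t)) * ‖f t‖ := by gcongr
          _ ≤ K * ‖f t‖ * (rho0 + t) := by
              rw [hK]
              have : 0 ≤ ‖f t‖ * (rho0 + t) := mul_nonneg hft (by linarith [ht.1])
              nlinarith
    have h0f : f 0 = 0 := by
      simp only [hf, add_zero]
      rw [hz0, hz1]; rfl
    have := eq_zero_of_abs_deriv_le_mul_abs_self_of_eq_zero_right hcont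
      (fun t ht => (hd t ht.1).hasDerivWithinAt) h0f hbound T ⟨hT, le_rfl⟩
    exact congrArg Prod.fst this
  -- contradiction with the asymptotics
  obtain ⟨K, hK, hasy⟩ := W_asymp (x0 := a.re) (x1 := a.re) (r0 := 1) (y := |a.im| + ‖b‖) (cth := 1)
    ha one_pos one_pos le_rfl
  have hG : Gamma (a + 1) ≠ 0 := by
    apply Complex.Gamma_ne_zero
    intro m hm
    have := congrArg Complex.re hm
    simp at this
    have hm0 : (0 : ℝ) ≤ m := Nat.cast_nonneg m
    linarith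
  have hGpos : 0 < ‖Gamma (a + 1)‖ := norm_pos_iff.2 hG
  set X : ℝ := 1 + rho0 + (K + 1) / ‖Gamma (a + 1)‖ with hX
  have hXpos : 0 < X := by positivity
  have hX1 : rho0 ≤ X := by
    have : 0 ≤ (K + 1) / ‖Gamma (a + 1)‖ := by positivity
    linarith
  have h1 := hzero (X - rho0) (by linarith)
  rw [show rho0 + (X - rho0) = X by ring] at h1
  have hn : ‖(X : ℂ)‖ = X := by rw [Complex.norm_real, Real.norm_of_nonneg hXpos.le]
  have h2 := hasy a b (X : ℂ) le_rfl le_rfl (by linarith [norm_nonneg b])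
    (by linarith [abs_nonneg a.im]) (by
      rw [hn]
      have : 0 ≤ (K + 1) / ‖Gamma (a + 1)‖ := by positivity
      linarith) (by rw [hn]; simp)
  rw [h1, mul_zero, zero_add, norm_mul, Complex.norm_I, one_mul, hn, le_div_iff₀ hXpos] at h2
  have h3 : ‖Gamma (a + 1)‖ * X = ‖Gamma (a + 1)‖ * (1 + rho0) + (K + 1) := by
    rw [hX]; field_simp
  rw [h3] at h2
  nlinarith [mul_pos hGpos (by linarith : 0 < 1 + rho0)]

theorem rr_zero (rho0 : ℝ) (e : ℂ) : rr rho0 e 0 = (rho0 : ℂ) := by simp [rr]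

theorem nt_L (ha : -1 < a.re) (h0 : 0 < rho0) :
    ¬ (WL a b rho0 e 0 = 0 ∧ YL B a b rho0 e 0 = 0) := by
  rintro ⟨h1, h2⟩
  unfold WL at h1
  unfold YL at h2
  rw [rr_zero] at h1 h2
  rw [h1, mul_zero, zero_add] at h2
  have hne : (rho0 : ℂ) ≠ 0 := by exact_mod_cast h0.ne'
  exact W_nontrivial ha h0 ⟨h1, (mul_eq_zero.1 h2).resolve_left hne⟩

variable {g : ℂ} {c c' : ℝ → ℝ}

/-- **LEMMA HP**, inequality. `b = 2B+1` (`B = (l+5)/2`, `b = l+6`). -/
theorem hp (ha : -1 < a.re) (hb : b = 2 * (B : ℂ) + 1) (hd : Dat B rho0 a e g c c') :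
    (g * conj (W a b rho0) * (((B : ℂ) + I * rho0 / 2) * W a b rho0
      + rho0 * W1 a b rho0)).re ≤ -c 0 * ‖W a b rho0‖ ^ 2 := by
  have h := hp_le (sysL ha hb hd.h0 hd.he1) hd (gr_WL ha hd.h0 hd.he hd.he1)
    (gr_YL ha hd.h0 hd.he hd.he1)
  unfold WL YL at h
  rw [rr_zero, Complex.normSq_eq_norm_sq] at h
  exact h

/-- **LEMMA HP**, nonvanishing, `A(0) > 0`. -/
theorem hp_W_ne (ha : -1 < a.re) (hb : b = 2 * (B : ℂ) + 1) (hd : Dat B rho0 a e g c c')
    (hA0 : 0 < AA rho0 e g 0) : W a b rho0 ≠ 0 := by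
  have h := hp_ne (sysL ha hb hd.h0 hd.he1) hd (gr_WL ha hd.h0 hd.he hd.he1)
    (gr_YL ha hd.h0 hd.he hd.he1) (nt_L ha hd.h0) hA0
  unfold WL at h
  rwa [rr_zero] at h

/-- **LEMMA HP**, nonvanishing, strict version for `x > 0`. -/
theorem hp_W_ne' (ha : -1 < a.re) (hb : b = 2 * (B : ℂ) + 1) (hd : Dat B rho0 a e g c c')
    (hst : ∀ x : ℝ, 0 < x → 0 < AA rho0 e g x ∧
      c x ^ 2 < AA rho0 e g x * (PPx B rho0 a e g x + c' x)) : W a b rho0 ≠ 0 := by
  have h := hp_ne' (sysL ha hb hd.h0 hd.he1) hd (gr_WL ha hd.h0 hd.he hd.he1)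
    (gr_YL ha hd.h0 hd.he hd.he1) (nt_L ha hd.h0) hst
  unfold WL at h
  rwa [rr_zero] at h

/-- **LEMMA HP**, strict version. -/
theorem hp_lt (ha : -1 < a.re) (hb : b = 2 * (B : ℂ) + 1) (hd : Dat B rho0 a e g c c')
    (hst : ∀ x : ℝ, 0 < x → 0 < AA rho0 e g x ∧
      c x ^ 2 < AA rho0 e g x * (PPx B rho0 a e g x + c' x)) :
    (g * conj (W a b rho0) * (((B : ℂ) + I * rho0 / 2) * W a b rho0
      + rho0 * W1 a b rho0)).re < -c 0 * ‖W a b rho0‖ ^ 2 := by
  have h := QQ_neg (sysL ha hb hd.h0 hd.he1) hd (gr_WL ha hd.h0 hd.he hd.he1)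
    (gr_YL ha hd.h0 hd.he hd.he1) (nt_L ha hd.h0) hst
  unfold QQ WL YL at h
  have hw := wt_pos (B := B) hd.h0 hd.he1 (x := 0) le_rfl
  rw [rr_zero, Complex.normSq_eq_norm_sq] at h
  have h2 : (g * conj (W a b rho0) * (((B : ℂ) + I * rho0 / 2) * W a b rho0
      + rho0 * W1 a b rho0)).re + c 0 * ‖W a b rho0‖ ^ 2 < 0 := by
    by_contra hcon
    exact absurd h (not_lt.2 (mul_nonneg hw.le (not_lt.1 hcon)))
  linarith

/-- the logarithmic derivative `G = -ρ W'/W` -/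
noncomputable def GW (a b : ℂ) (rho : ℝ) : ℂ := -(rho * W1 a b rho) / W a b rho

/-- **LEMMA HP** in quotient form. -/
theorem hp_G (ha : -1 < a.re) (hb : b = 2 * (B : ℂ) + 1) (hd : Dat B rho0 a e g c c')
    (hne : W a b rho0 ≠ 0) :
    (g * ((B : ℂ) + I * rho0 / 2 - GW a b rho0)).re ≤ -c 0 := by
  have h := hp ha hb hd
  have hn : 0 < ‖W a b rho0‖ ^ 2 := by positivity
  have e1 : g * conj (W a b rho0) * (((B : ℂ) + I * rho0 / 2) * W a b rho0 + rho0 * W1 a b rho0)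
      = (g * ((B : ℂ) + I * rho0 / 2 - GW a b rho0)) * ((‖W a b rho0‖ ^ 2 : ℝ) : ℂ) := by
    have : ((‖W a b rho0‖ ^ 2 : ℝ) : ℂ) = W a b rho0 * conj (W a b rho0) := by
      rw [Complex.mul_conj, Complex.normSq_eq_norm_sq]
    rw [this]
    unfold GW
    field_simp
    ring
  rw [e1, Complex.re_mul_ofReal] at h
  exact le_of_mul_le_mul_right h hn

theorem hp_G_lt (ha : -1 < a.re) (hb : b = 2 * (B : ℂ) + 1) (hd : Dat B rho0 a e g c c')
    (hst : ∀ x : ℝ, 0 < x → 0 < AA rho0 e g x ∧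
      c x ^ 2 < AA rho0 e g x * (PPx B rho0 a e g x + c' x)) :
    (g * ((B : ℂ) + I * rho0 / 2 - GW a b rho0)).re < -c 0 := by
  have hne := hp_W_ne' ha hb hd hst
  have h := hp_lt ha hb hd hst
  have hn : 0 < ‖W a b rho0‖ ^ 2 := by positivity
  have e1 : g * conj (W a b rho0) * (((B : ℂ) + I * rho0 / 2) * W a b rho0 + rho0 * W1 a b rho0)
      = (g * ((B : ℂ) + I * rho0 / 2 - GW a b rho0)) * ((‖W a b rho0‖ ^ 2 : ℝ) : ℂ) := by
    have : ((‖W a b rho0‖ ^ 2 : ℝ) : ℂ) = W a b rho0 * conj (W a b rho0) := by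
      rw [Complex.mul_conj, Complex.normSq_eq_norm_sq]
    rw [this]
    unfold GW
    field_simp
    ring
  rw [e1, Complex.re_mul_ofReal] at h
  exact lt_of_mul_lt_mul_right h hn.le

/-! ### Theorem V -/

theorem datV {B rho0 : ℝ} {a : ℂ} (hB : 0 < B) (h0 : 0 < rho0) (ha : B ≤ a.re) :
    Dat B rho0 a I 1 (fun x => x / 2) (fun _ => 1 / 2) ∧ (∀ x : ℝ, 0 < x → 0 < AA rho0 I 1 x ∧
      (x / 2) ^ 2 < AA rho0 I 1 x * (PPx B rho0 a I 1 x + 1 / 2)) := by
  have hN : ∀ x : ℝ, 0 < rho0 ^ 2 + x ^ 2 := fun x => by positivity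
  have hAA : ∀ x : ℝ, AA rho0 I 1 x = x := by
    intro x; simp [AA, rr]
  have hPP : ∀ x : ℝ, PPx B rho0 a I 1 x
      = B ^ 2 * x / (rho0 ^ 2 + x ^ 2) + x / 4 - (B + 1 / 2 - a.re) := by
    intro x
    have h1 := (hN x).ne'
    have hr : rr rho0 I x = ⟨rho0, x⟩ := by
      apply Complex.ext <;> simp [rr]
    have h2 : ((B : ℂ) ^ 2 / rr rho0 I x) = ⟨B ^ 2 * rho0 / (rho0 ^ 2 + x ^ 2),
        -(B ^ 2 * x) / (rho0 ^ 2 + x ^ 2)⟩ := by
      rw [hr]
      rw [div_eq_iff (by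
        intro h; have := congrArg Complex.re h; simp at this; exact h0.ne' this)]
      apply Complex.ext
      · simp only [Complex.mul_re, pow_two, Complex.ofReal_re, Complex.ofReal_im]
        field_simp
        ring
      · simp only [Complex.mul_im, pow_two, Complex.ofReal_re, Complex.ofReal_im]
        field_simp
        ring
    unfold PPx
    rw [h2, hr]
    simp only [one_mul, Complex.mul_re, Complex.mul_im, Complex.add_re, Complex.add_im,
      Complex.sub_re, Complex.sub_im, Complex.I_re, Complex.I_im, Complex.ofReal_re,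
      Complex.ofReal_im, Complex.div_ofNat_re, Complex.div_ofNat_im, Complex.one_re, Complex.one_im]
    ring
  have hst : ∀ x : ℝ, 0 ≤ x → (x / 2) ^ 2 ≤ AA rho0 I 1 x * (PPx B rho0 a I 1 x + 1 / 2) := by
    intro x hx
    rw [hAA, hPP]
    have h1 : 0 ≤ B ^ 2 * x / (rho0 ^ 2 + x ^ 2) := by positivity
    nlinarith [mul_nonneg hx h1, mul_nonneg hx (sub_nonneg.2 ha)]
  refine ⟨⟨hB.le, h0, by simp, by simp, by simp, ?_, ?_, ⟨1, 1, ?_⟩, ?_, ?_, ?_⟩, ?_⟩
  · exact (continuous_id.div_const 2).continuousOn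
  · intro x _
    exact ((hasDerivAt_id x).div_const 2).hasDerivWithinAt
  · intro x hx
    rw [abs_of_nonneg (by positivity)]
    linarith
  · intro x hx; rw [hAA]; exact hx
  · intro x hx
    rw [hPP]
    have h1 : 0 ≤ B ^ 2 * x / (rho0 ^ 2 + x ^ 2) := by positivity
    linarith
  · exact hst
  · intro x hx
    rw [hAA, hPP]
    refine ⟨hx, ?_⟩
    have h1 : 0 < B ^ 2 * x / (rho0 ^ 2 + x ^ 2) := by positivity
    nlinarith [mul_pos hx h1, mul_nonneg hx.le (sub_nonneg.2 ha)]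

/-- **THEOREM V** : `Re a ≥ B` (`⟺ Re λ ≥ 5/2`) implies `W(ρ0) ≠ 0` and `Re G > B`. -/
theorem thmV_W {B rho0 : ℝ} {a b : ℂ} (hB : 0 < B) (h0 : 0 < rho0) (ha : B ≤ a.re)
    (hb : b = 2 * (B : ℂ) + 1) : W a b rho0 ≠ 0 ∧ B < (GW a b rho0).re := by
  obtain ⟨hd, hst⟩ := datV hB h0 ha
  have ha' : -1 < a.re := by linarith
  refine ⟨hp_W_ne' ha' hb hd hst, ?_⟩
  have h := hp_G_lt ha' hb hd hst
  simp only [one_mul, Complex.sub_re, Complex.add_re, Complex.ofReal_re, zero_div, neg_zero] at h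
  have e1 : (I * (rho0 : ℂ) / 2).re = 0 := by
    rw [Complex.div_ofNat_re]; simp
  rw [e1] at h
  linarith

/-- **THEOREM V** in terms of `J` (371's form). -/
theorem thmV (l : ℕ) {rho : ℝ} (h0 : 0 < rho) {a : ℂ} (ha : ((l : ℝ) + 5) / 2 ≤ a.re) :
    J a ((l : ℂ) + 5 - a) rho ≠ 0 ∧
      ((l : ℝ) + 5) / 2 < (rho * J (a + 1) ((l : ℂ) + 5 - a) rho / J a ((l : ℂ) + 5 - a) rho).re := by
  have hl : (0 : ℝ) ≤ l := Nat.cast_nonneg l
  have hB : (0 : ℝ) < ((l : ℝ) + 5) / 2 := by positivity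
  have ha0 : 0 < a.re := lt_of_lt_of_le hB ha
  have hz : 0 < ((rho : ℝ) : ℂ).re := by simpa using h0
  have hane : a ≠ 0 := by intro h; rw [h] at ha0; simp at ha0
  obtain ⟨h1, h2⟩ := thmV_W (a := a) (b := (l : ℂ) + 6) hB h0 ha (by push_cast; ring)
  have hW := W_eq (b := (l : ℂ) + 6) ha0 hz
  rw [show (l : ℂ) + 6 - a - 1 = (l : ℂ) + 5 - a by ring] at hW
  have hJ : J a ((l : ℂ) + 5 - a) rho ≠ 0 := by
    intro h; rw [hW, h, mul_zero] at h1; exact h1 rfl
  refine ⟨hJ, ?_⟩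
  have e1 : GW a ((l : ℂ) + 6) rho
      = rho * J (a + 1) ((l : ℂ) + 5 - a) rho / J a ((l : ℂ) + 5 - a) rho := by
    unfold GW
    rw [hW]
    unfold W1
    rw [show (l : ℂ) + 6 - a - 1 = (l : ℂ) + 5 - a by ring]
    have := Complex.I_ne_zero
    field_simp
  rw [← e1]
  exact h2

end Crest.Agent.R086.A4HP
end

-- ▼ part R086/PL
section

/-!
Row 86, Part A4 (helper371): positivity on a vertical line implies positivity in the half plane
(Phragmen-Lindelof), and the resulting statement about zeros of an analytic function.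
-/

set_option autoImplicit false

open Complex Filter Set Topology Bornology Asymptotics

namespace Crest.Agent.R086.PL

/-- If `E` is analytic in `Re z > 0`, continuous up to the boundary, of growth `(1+|z|)^c`, `c < 2`,
`Re E > 0` on the imaginary axis and `Re E` bounded below at `+∞` on the real axis,
then `Re E > 0` on the closed right half plane. -/
theorem re_pos_zero {E : ℂ → ℂ} (hd : DiffContOnCl ℂ E {z : ℂ | 0 < z.re})
    (hg : ∃ C c : ℝ, 0 ≤ C ∧ 0 < c ∧ c < 2 ∧ ∀ z : ℂ, 0 < z.re → ‖E z‖ ≤ C * (1 + ‖z‖ ^ c))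
    (hax : ∀ t : ℝ, 0 < (E (t * I)).re)
    (hreal : ∃ B X : ℝ, ∀ x : ℝ, X ≤ x → -B ≤ (E x).re) :
    ∀ z : ℂ, 0 ≤ z.re → 0 < (E z).re := by
  obtain ⟨C, c, hC, hc0, hc2, hgr⟩ := hg
  obtain ⟨B, X, hBX⟩ := hreal
  set f : ℂ → ℂ := fun z => cexp (-E z) with hf
  have hfn : ∀ z, ‖f z‖ = Real.exp (-(E z).re) := by
    intro z; rw [hf, norm_exp, neg_re]
  have hfd : DiffContOnCl ℂ f {z : ℂ | 0 < z.re} := by
    refine ⟨(hd.differentiableOn.neg).cexp, (hd.continuousOn.neg).cexp⟩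
  have hle : ∀ z : ℂ, 0 ≤ z.re → ‖f z‖ ≤ 1 := by
    intro z hz
    refine PhragmenLindelof.right_half_plane_of_bounded_on_real hfd ⟨c, hc2, C, ?_⟩ ?_ ?_ hz
    · refine IsBigO.of_bound (Real.exp C) ?_
      refine Filter.eventually_of_mem (Filter.inter_mem_inf univ_mem (mem_principal_self _)) ?_
      rintro w ⟨-, hw⟩
      rw [hfn, Real.norm_of_nonneg (Real.exp_pos _).le, ← Real.exp_add]
      apply Real.exp_le_exp.2
      have h1 : -(E w).re ≤ ‖E w‖ := (neg_le_abs _).trans (abs_re_le_norm _)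
      have h2 := hgr w hw
      nlinarith
    · refine ⟨Real.exp B, ?_⟩
      rw [eventually_map]
      filter_upwards [eventually_ge_atTop X] with x hx
      rw [hfn]
      exact Real.exp_le_exp.2 (by linarith [hBX x hx])
    · intro x
      rw [hfn]
      exact Real.exp_le_one_iff.2 (by linarith [hax x])
  have hge : ∀ z : ℂ, 0 ≤ z.re → 0 ≤ (E z).re := by
    intro z hz
    have := hle z hz
    rw [hfn, Real.exp_le_one_iff] at this
    linarith
  intro z hz
  rcases hz.eq_or_lt with h0 | hpos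
  · have : z = (z.im : ℂ) * I := by
      apply Complex.ext <;> simp [← h0]
    rw [this]; exact hax _
  · rcases (hge z hz).eq_or_lt with h | h
    swap
    · exact h
    exfalso
    have hpre : IsPreconnected {z : ℂ | 0 < z.re} := (convex_halfSpace_re_gt 0).isPreconnected
    have hopen : IsOpen {z : ℂ | 0 < z.re} := isOpen_lt continuous_const continuous_re
    have hmax : IsMaxOn (norm ∘ f) {z : ℂ | 0 < z.re} z := by
      intro w hw
      simp only [Function.comp, mem_ofPred_eq]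
      have h1 : ‖f z‖ = 1 := by rw [hfn, ← h]; simp
      rw [h1]
      exact hle w (le_of_lt hw)
    have hcl := Complex.eqOn_closure_of_isPreconnected_of_isMaxOn_norm hpre hopen hfd hpos hmax
    have h0mem : (0 : ℂ) ∈ closure {z : ℂ | 0 < z.re} := by
      rw [Complex.closure_setOfPred_lt_re]; simp
    have h1 := hcl h0mem
    simp only [Function.const] at h1
    have h2 : ‖f 0‖ = ‖f z‖ := by rw [h1]
    rw [hfn, hfn, ← h, Real.exp_eq_exp] at h2
    have h3 := hax 0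
    simp at h3
    linarith

/-- Same on the half plane `Re z ≥ x0`. -/
theorem re_pos {E : ℂ → ℂ} {x0 : ℝ} (hd : DiffContOnCl ℂ E {z : ℂ | x0 < z.re})
    (hg : ∃ C c : ℝ, 0 ≤ C ∧ 0 < c ∧ c < 2 ∧ ∀ z : ℂ, x0 < z.re → ‖E z‖ ≤ C * (1 + ‖z‖ ^ c))
    (hax : ∀ t : ℝ, 0 < (E (x0 + t * I)).re)
    (hreal : ∃ B X : ℝ, ∀ x : ℝ, X ≤ x → -B ≤ (E x).re) :
    ∀ z : ℂ, x0 ≤ z.re → 0 < (E z).re := by
  obtain ⟨C, c, hC, hc0, hc2, hgr⟩ := hg
  obtain ⟨B, X, hBX⟩ := hreal
  have key := re_pos_zero (E := fun z => E (z + x0)) ?_ ?_ ?_ ?_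
  · intro z hz
    have := key (z - x0) (by simp; linarith)
    simpa using this
  · refine hd.comp (g := fun z : ℂ => z + x0) ?_ ?_
    · exact (differentiable_id.add_const _).diffContOnCl
    · intro z hz
      simp only [mem_ofPred_eq, add_re, ofReal_re] at *
      linarith
  · refine ⟨C * (1 + (2:ℝ) ^ c * (1 + |x0| ^ c)), c, ?_, hc0, hc2, ?_⟩
    · positivity
    · intro z hz
      have h1 := hgr (z + x0) (by simp; linarith)
      refine h1.trans ?_
      rw [mul_assoc]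
      apply mul_le_mul_of_nonneg_left _ hC
      have hn : ‖z + (x0 : ℂ)‖ ≤ ‖z‖ + |x0| := by
        refine (norm_add_le _ _).trans ?_
        simp
      have h2 : ‖z + (x0 : ℂ)‖ ^ c ≤ (2 * max ‖z‖ |x0|) ^ c := by
        apply Real.rpow_le_rpow (norm_nonneg _) _ hc0.le
        have := le_max_left ‖z‖ |x0|
        have := le_max_right ‖z‖ |x0|
        linarith
      rw [Real.mul_rpow (by norm_num) (by positivity)] at h2
      have h3 : (max ‖z‖ |x0|) ^ c ≤ ‖z‖ ^ c + |x0| ^ c := by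
        rcases max_cases ‖z‖ |x0| with ⟨h, -⟩ | ⟨h, -⟩
        · rw [h]; have : 0 ≤ |x0| ^ c := by positivity
          linarith
        · rw [h]; have : 0 ≤ ‖z‖ ^ c := by positivity
          linarith
      have h4 : (0:ℝ) < 2 ^ c := by positivity
      have h5 : 0 ≤ ‖z‖ ^ c := by positivity
      have h6 : 0 ≤ |x0| ^ c := by positivity
      have h7 := mul_le_mul_of_nonneg_left h3 h4.le
      nlinarith [mul_nonneg h4.le (mul_nonneg h5 h6), mul_nonneg h4.le h6]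
  · intro t
    have := hax t
    rwa [add_comm] at this
  · refine ⟨B, X - x0, fun x hx => ?_⟩
    have := hBX (x + x0) (by linarith)
    push_cast at this
    exact this

/-- Removing finitely many zeros. -/
theorem exists_factor {U : Set ℂ} (hU : IsOpen U) (Z : Finset ℂ) :
    ∀ W : ℂ → ℂ, DifferentiableOn ℂ W U → (∀ ζ ∈ Z, ζ ∈ U) → (∀ ζ ∈ Z, W ζ = 0) →
    ∃ V : ℂ → ℂ, DifferentiableOn ℂ V U ∧ ∀ z, W z = (∏ ζ ∈ Z, (z - ζ)) * V z := by
  classical
  induction Z using Finset.induction_on with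
  | empty =>
    intro W hW _ _
    exact ⟨W, hW, by simp⟩
  | insert ζ Z hζ ih =>
    intro W hW hZU hZ
    have hζU : ζ ∈ U := hZU ζ (Finset.mem_insert_self _ _)
    have hd : DifferentiableOn ℂ (dslope W ζ) U :=
      (Complex.differentiableOn_dslope (hU.mem_nhds hζU)).2 hW
    have hfac : ∀ z, W z = (z - ζ) * dslope W ζ z := by
      intro z
      have := sub_smul_dslope W ζ z
      rw [hZ ζ (Finset.mem_insert_self _ _), sub_zero, smul_eq_mul] at this
      exact this.symm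
    obtain ⟨V, hV, hVeq⟩ := ih (dslope W ζ) hd (fun w hw => hZU w (Finset.mem_insert_of_mem hw)) (by
      intro w hw
      have hne : w - ζ ≠ 0 := sub_ne_zero.2 (fun h => hζ (h ▸ hw))
      have h1 := hfac w
      rw [hZ w (Finset.mem_insert_of_mem hw)] at h1
      exact (mul_eq_zero.1 h1.symm).resolve_left hne)
    refine ⟨V, hV, fun z => ?_⟩
    rw [hfac z, hVeq z, Finset.prod_insert hζ, mul_assoc]

/-- **Zeros in a half plane from positivity on the boundary line.** `W` analytic near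
`Re z ≥ x0` with the known zeros `Z`; `p` a zero-free comparison function; if
`Re (W / (p * ∏ (z - ζ))) > 0` on the line `Re z = x0`, then in `Re z ≥ x0` the only zeros of `W` are
the points of `Z`, and they are simple. -/
theorem zeros {W p : ℂ → ℂ} {x0 : ℝ} {U : Set ℂ} (hU : IsOpen U)
    (hsub : {z : ℂ | x0 ≤ z.re} ⊆ U) (hW : DifferentiableOn ℂ W U) (hp : DifferentiableOn ℂ p U)
    (hp0 : ∀ z : ℂ, x0 ≤ z.re → p z ≠ 0)
    (Z : Finset ℂ) (hZre : ∀ ζ ∈ Z, x0 < ζ.re) (hZ : ∀ ζ ∈ Z, W ζ = 0)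
    (hg : ∃ C c r : ℝ, 0 ≤ C ∧ 0 < c ∧ c < 2 ∧ ∀ z : ℂ, x0 ≤ z.re → r ≤ ‖z‖ →
      ‖W z / (p z * ∏ ζ ∈ Z, (z - ζ))‖ ≤ C * (1 + ‖z‖ ^ c))
    (hax : ∀ t : ℝ, 0 < (W (x0 + t * I) / (p (x0 + t * I) * ∏ ζ ∈ Z, ((x0 + t * I) - ζ))).re)
    (hreal : ∃ B X : ℝ, ∀ x : ℝ, X ≤ x → -B ≤ (W x / (p x * ∏ ζ ∈ Z, ((x : ℂ) - ζ))).re) :
    (∀ z : ℂ, x0 ≤ z.re → z ∉ Z → W z ≠ 0 ∧ 0 < (W z / (p z * ∏ ζ ∈ Z, (z - ζ))).re) ∧
      ∀ ζ ∈ Z, deriv W ζ ≠ 0 := by
  classical
  obtain ⟨V, hV, hWV⟩ := exists_factor hU Z W hW (fun ζ hζ => hsub (hZre ζ hζ).le) hZ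
  have hE : ∀ z : ℂ, x0 ≤ z.re → z ∉ Z → W z / (p z * ∏ ζ ∈ Z, (z - ζ)) = V z / p z := by
    intro z hz hzZ
    have h1 : ∏ ζ ∈ Z, (z - ζ) ≠ 0 := by
      rw [Finset.prod_ne_zero_iff]
      intro ζ hζ h
      rw [sub_eq_zero] at h
      exact hzZ (h ▸ hζ)
    rw [hWV z, mul_comm (p z), mul_div_mul_left _ _ h1]
  obtain ⟨C, c, r, hC, hc0, hc2, hgr⟩ := hg
  obtain ⟨B, X, hBX⟩ := hreal
  have hsub' : {z : ℂ | x0 < z.re} ⊆ U := fun z hz => hsub (show x0 ≤ z.re from le_of_lt (show x0 < z.re from hz))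
  have hcl : closure {z : ℂ | x0 < z.re} = {z : ℂ | x0 ≤ z.re} := Complex.closure_setOfPred_lt_re x0
  have hEd : DiffContOnCl ℂ (fun z => V z / p z) {z : ℂ | x0 < z.re} := by
    constructor
    · exact (hV.mono hsub').div (hp.mono hsub') (fun z hz => hp0 z (le_of_lt hz))
    · rw [hcl]
      exact (hV.continuousOn.mono hsub).div (hp.continuousOn.mono hsub) (fun z hz => hp0 z hz)
  have key := re_pos (E := fun z => V z / p z) hEd ?_ ?_ ?_
  · constructor
    · intro z hz hzZ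
      have h1 := key z hz
      have h2 := hE z hz hzZ
      refine ⟨fun h0 => ?_, by rw [h2]; exact h1⟩
      rw [h0, zero_div] at h2
      simp only [← h2, zero_re, lt_irrefl] at h1
    · intro ζ hζ
      have hζU : ζ ∈ U := hsub (hZre ζ hζ).le
      have hVd : DifferentiableAt ℂ V ζ := (hV ζ hζU).differentiableAt (hU.mem_nhds hζU)
      have hWeq : W = fun z => (z - ζ) * ((∏ w ∈ Z.erase ζ, (z - w)) * V z) := by
        funext z
        rw [hWV z, ← Finset.mul_prod_erase Z _ hζ, mul_assoc]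
      have hPd : DifferentiableAt ℂ (fun z => (∏ w ∈ Z.erase ζ, (z - w)) * V z) ζ := by
        refine DifferentiableAt.mul ?_ hVd
        fun_prop
      have hder : deriv W ζ = (∏ w ∈ Z.erase ζ, (ζ - w)) * V ζ := by
        rw [hWeq]
        have h1 : HasDerivAt (fun z : ℂ => z - ζ) 1 ζ := (hasDerivAt_id ζ).sub_const ζ
        have h2 := (h1.mul hPd.hasDerivAt).deriv
        have h3 : ((fun z : ℂ => z - ζ) * fun z => (∏ w ∈ Z.erase ζ, (z - w)) * V z)
            = fun z => (z - ζ) * ((∏ w ∈ Z.erase ζ, (z - w)) * V z) := rfl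
        rw [h3] at h2
        rw [h2]; simp
      rw [hder]
      refine mul_ne_zero ?_ ?_
      · rw [Finset.prod_ne_zero_iff]
        intro w hw h
        rw [sub_eq_zero] at h
        exact (Finset.ne_of_mem_erase hw) h.symm
      · intro h0
        have := key ζ (hZre ζ hζ).le
        simp [h0] at this
  · -- growth: outside a ball use hgr, inside compactness
    have hcont : ContinuousOn (fun z => ‖V z / p z‖) ({z : ℂ | x0 ≤ z.re} ∩ Metric.closedBall 0
        (max r (1 + ∑ ζ ∈ Z, ‖ζ‖))) := by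
      refine ContinuousOn.norm ?_
      exact ((hV.continuousOn.mono hsub).div (hp.continuousOn.mono hsub) (fun z hz => hp0 z hz)).mono
        inter_subset_left
    have hcomp : IsCompact ({z : ℂ | x0 ≤ z.re} ∩ Metric.closedBall 0
        (max r (1 + ∑ ζ ∈ Z, ‖ζ‖))) := by
      refine IsCompact.inter_left (isCompact_closedBall _ _) ?_
      exact isClosed_le continuous_const continuous_re
    obtain ⟨M, hM⟩ := hcomp.bddAbove_image hcont
    refine ⟨max C (max M 0), c, by positivity, hc0, hc2, ?_⟩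
    intro z hz
    have hpow : 0 ≤ ‖z‖ ^ c := by positivity
    by_cases hzb : z ∈ Metric.closedBall (0:ℂ) (max r (1 + ∑ ζ ∈ Z, ‖ζ‖))
    · have h1 : ‖V z / p z‖ ≤ M := hM ⟨z, ⟨le_of_lt hz, hzb⟩, rfl⟩
      have h2 : M ≤ max C (max M 0) := (le_max_left _ _).trans (le_max_right _ _)
      have h3 : 0 ≤ max C (max M 0) := by positivity
      nlinarith
    · rw [mem_closedBall_zero_iff, not_le] at hzb
      have hzr : r ≤ ‖z‖ := (le_max_left _ _).trans hzb.le
      have hzZ : z ∉ Z := by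
        intro h
        have h1 : ‖z‖ ≤ ∑ ζ ∈ Z, ‖ζ‖ := Finset.single_le_sum (f := fun ζ => ‖ζ‖)
          (fun _ _ => norm_nonneg _) h
        have h2 := (le_max_right r (1 + ∑ ζ ∈ Z, ‖ζ‖)).trans hzb.le
        linarith
      have h1 := hgr z (le_of_lt hz) hzr
      rw [hE z (le_of_lt hz) hzZ] at h1
      refine h1.trans ?_
      apply mul_le_mul_of_nonneg_right (le_max_left _ _)
      positivity
  · intro t
    have h1 := hax t
    rw [hE _ (by simp) ?_] at h1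
    · exact h1
    · intro h
      have := hZre _ h
      simp at this
  · refine ⟨B, max X (max x0 (1 + ∑ ζ ∈ Z, ‖ζ‖)), fun x hx => ?_⟩
    have hxX : X ≤ x := (le_max_left _ _).trans hx
    have hx0 : x0 ≤ x := (le_max_left _ _).trans ((le_max_right _ _).trans hx)
    have hx1 : 1 + ∑ ζ ∈ Z, ‖ζ‖ ≤ x := (le_max_right _ _).trans ((le_max_right _ _).trans hx)
    have h1 := hBX x hxX
    rw [hE _ (by simpa using hx0) ?_] at h1
    · exact h1
    · intro h
      have h2 : ‖(x : ℂ)‖ ≤ ∑ ζ ∈ Z, ‖ζ‖ := Finset.single_le_sum (f := fun ζ => ‖ζ‖)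
        (fun _ _ => norm_nonneg _) h
      rw [Complex.norm_real, Real.norm_eq_abs] at h2
      have := le_abs_self x
      linarith

end Crest.Agent.R086.PL
end

-- ▼ part R086/A4Rect
section

/-!
Row 86, Part A4 (helper371): positivity of `Re (W/(p ∏(z-ζ)))` on the boundary of a rectangle
implies that in the closed rectangle the only zeros of `W` are the points of `Z`, and they are simple.
-/

set_option autoImplicit false

open Complex Filter Set Topology Bornology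

namespace Crest.Agent.R086.A4Rect

/-- the open rectangle `(x0,x1) × (-T,T)` -/
def Rc (x0 x1 T : ℝ) : Set ℂ := Ioo x0 x1 ×ℂ Ioo (-T) T

theorem rc_closure {x0 x1 T : ℝ} (hx : x0 < x1) (hT : 0 < T) :
    closure (Rc x0 x1 T) = Icc x0 x1 ×ℂ Icc (-T) T := by
  unfold Rc
  rw [Complex.closure_reProdIm, closure_Ioo hx.ne, closure_Ioo (by linarith : (-T) ≠ T)]

theorem rc_bdd (x0 x1 T : ℝ) : IsBounded (Rc x0 x1 T) :=
  (Metric.isBounded_Ioo x0 x1).reProdIm (Metric.isBounded_Ioo (-T) T)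

theorem rc_open (x0 x1 T : ℝ) : IsOpen (Rc x0 x1 T) := isOpen_Ioo.reProdIm isOpen_Ioo

/-- points of the frontier -/
theorem mem_frontier {x0 x1 T : ℝ} (hx : x0 < x1) (hT : 0 < T) {z : ℂ}
    (hz : z ∈ frontier (Rc x0 x1 T)) :
    z ∈ Icc x0 x1 ×ℂ Icc (-T) T ∧ (z.re = x0 ∨ z.re = x1 ∨ z.im = -T ∨ z.im = T) := by
  rw [(rc_open x0 x1 T).frontier_eq] at hz
  obtain ⟨h1, h2⟩ := hz
  rw [rc_closure hx hT] at h1
  refine ⟨h1, ?_⟩
  by_contra hcon
  push Not at hcon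
  apply h2
  rw [mem_reProdIm, mem_Icc, mem_Icc] at h1
  obtain ⟨⟨a1, a2⟩, b1, b2⟩ := h1
  obtain ⟨c1, c2, c3, c4⟩ := hcon
  unfold Rc
  rw [mem_reProdIm, mem_Ioo, mem_Ioo]
  exact ⟨⟨lt_of_le_of_ne a1 (Ne.symm c1), lt_of_le_of_ne a2 c2⟩,
    lt_of_le_of_ne b1 (Ne.symm c3), lt_of_le_of_ne b2 c4⟩

/-- **Rectangle version of the positivity principle.** -/
theorem re_pos {E : ℂ → ℂ} {x0 x1 T : ℝ} (hx : x0 < x1) (hT : 0 < T)
    (hd : DiffContOnCl ℂ E (Rc x0 x1 T))
    (hbd : ∀ z ∈ frontier (Rc x0 x1 T), 0 < (E z).re) :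
    ∀ z ∈ Icc x0 x1 ×ℂ Icc (-T) T, 0 < (E z).re := by
  set f : ℂ → ℂ := fun z => cexp (-E z) with hf
  have hfn : ∀ z, ‖f z‖ = Real.exp (-(E z).re) := by
    intro z; rw [hf, norm_exp, neg_re]
  have hfd : DiffContOnCl ℂ f (Rc x0 x1 T) :=
    ⟨(hd.differentiableOn.neg).cexp, (hd.continuousOn.neg).cexp⟩
  have hne : (Rc x0 x1 T).Nonempty := by
    refine ⟨⟨(x0 + x1) / 2, 0⟩, ?_⟩
    unfold Rc
    rw [mem_reProdIm, mem_Ioo, mem_Ioo]
    exact ⟨⟨by simp; linarith, by simp; linarith⟩, by simp; linarith, by simp; linarith⟩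
  obtain ⟨w, hw, hmax⟩ := Complex.exists_mem_frontier_isMaxOn_norm (rc_bdd x0 x1 T) hne hfd
  intro z hz
  rw [← rc_closure hx hT] at hz
  have h1 : ‖f z‖ ≤ ‖f w‖ := hmax hz
  rw [hfn, hfn, Real.exp_le_exp] at h1
  have := hbd w hw
  linarith

/-- **Zeros in a closed rectangle from positivity on its boundary.** -/
theorem zeros {W p : ℂ → ℂ} {x0 x1 T : ℝ} (hx : x0 < x1) (hT : 0 < T) {U : Set ℂ} (hU : IsOpen U)
    (hsub : Icc x0 x1 ×ℂ Icc (-T) T ⊆ U) (hW : DifferentiableOn ℂ W U) (hp : DifferentiableOn ℂ p U)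
    (hp0 : ∀ z ∈ Icc x0 x1 ×ℂ Icc (-T) T, p z ≠ 0)
    (Z : Finset ℂ) (hZre : ∀ ζ ∈ Z, ζ ∈ Rc x0 x1 T) (hZ : ∀ ζ ∈ Z, W ζ = 0)
    (hbd : ∀ z ∈ frontier (Rc x0 x1 T), 0 < (W z * (starRingEnd ℂ) (p z * ∏ ζ ∈ Z, (z - ζ))).re) :
    (∀ z ∈ Icc x0 x1 ×ℂ Icc (-T) T, z ∉ Z → W z ≠ 0) ∧ ∀ ζ ∈ Z, deriv W ζ ≠ 0 := by
  classical
  have hRU : Rc x0 x1 T ⊆ U := by
    refine Subset.trans ?_ hsub
    rw [← rc_closure hx hT]; exact subset_closure
  obtain ⟨V, hV, hWV⟩ := PL.exists_factor hU Z W hW (fun ζ hζ => hRU (hZre ζ hζ)) hZ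
  have hEd : DiffContOnCl ℂ (fun z => V z / p z) (Rc x0 x1 T) := by
    constructor
    · refine (hV.mono hRU).div (hp.mono hRU) (fun z hz => hp0 z ?_)
      rw [← rc_closure hx hT]; exact subset_closure hz
    · rw [rc_closure hx hT]
      exact (hV.continuousOn.mono hsub).div (hp.continuousOn.mono hsub) (fun z hz => hp0 z hz)
  have key := re_pos (E := fun z => V z / p z) hx hT hEd ?_
  · constructor
    · intro z hz hzZ h0
      have h1 := key z hz
      have h2 : ∏ ζ ∈ Z, (z - ζ) ≠ 0 := by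
        rw [Finset.prod_ne_zero_iff]
        intro ζ hζ h
        rw [sub_eq_zero] at h
        exact hzZ (h ▸ hζ)
      rw [hWV z, mul_eq_zero] at h0
      rw [h0.resolve_left h2, zero_div, zero_re] at h1
      exact lt_irrefl _ h1
    · intro ζ hζ
      have hζU : ζ ∈ U := hRU (hZre ζ hζ)
      have hζc : ζ ∈ Icc x0 x1 ×ℂ Icc (-T) T := by
        rw [← rc_closure hx hT]; exact subset_closure (hZre ζ hζ)
      have hVd : DifferentiableAt ℂ V ζ := (hV ζ hζU).differentiableAt (hU.mem_nhds hζU)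
      have hWeq : W = fun z => (z - ζ) * ((∏ w ∈ Z.erase ζ, (z - w)) * V z) := by
        funext z
        rw [hWV z, ← Finset.mul_prod_erase Z _ hζ, mul_assoc]
      have hPd : DifferentiableAt ℂ (fun z => (∏ w ∈ Z.erase ζ, (z - w)) * V z) ζ := by
        refine DifferentiableAt.mul ?_ hVd
        fun_prop
      have hder : deriv W ζ = (∏ w ∈ Z.erase ζ, (ζ - w)) * V ζ := by
        rw [hWeq]
        have h1 : HasDerivAt (fun z : ℂ => z - ζ) 1 ζ := (hasDerivAt_id ζ).sub_const ζ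
        have h2 := (h1.mul hPd.hasDerivAt).deriv
        have h3 : ((fun z : ℂ => z - ζ) * fun z => (∏ w ∈ Z.erase ζ, (z - w)) * V z)
            = fun z => (z - ζ) * ((∏ w ∈ Z.erase ζ, (z - w)) * V z) := rfl
        rw [h3] at h2
        rw [h2]; simp
      rw [hder]
      refine mul_ne_zero ?_ ?_
      · rw [Finset.prod_ne_zero_iff]
        intro w hw h
        rw [sub_eq_zero] at h
        exact (Finset.ne_of_mem_erase hw) h.symm
      · intro h0
        have := key ζ hζc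
        simp [h0] at this
  · intro z hz
    have hb := hbd z hz
    have hzc : z ∈ Icc x0 x1 ×ℂ Icc (-T) T := (mem_frontier hx hT hz).1
    have hP : p z * ∏ ζ ∈ Z, (z - ζ) ≠ 0 := by
      intro h
      rw [h, map_zero, mul_zero, zero_re] at hb
      exact lt_irrefl _ hb
    have hPn : ∏ ζ ∈ Z, (z - ζ) ≠ 0 := right_ne_zero_of_mul hP
    have hpn : p z ≠ 0 := left_ne_zero_of_mul hP
    have e1 : V z / p z = W z / (p z * ∏ ζ ∈ Z, (z - ζ)) := by
      rw [hWV z, mul_comm (p z), mul_div_mul_left _ _ hPn]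
    show 0 < (V z / p z).re
    rw [e1]
    have hns : 0 < normSq (p z * ∏ ζ ∈ Z, (z - ζ)) := normSq_pos.2 hP
    have e2 : W z / (p z * ∏ ζ ∈ Z, (z - ζ)) =
        W z * (starRingEnd ℂ) (p z * ∏ ζ ∈ Z, (z - ζ)) *
          ((normSq (p z * ∏ ζ ∈ Z, (z - ζ)))⁻¹ : ℝ) := by
      rw [div_eq_mul_inv, Complex.inv_def, mul_assoc, ofReal_inv]
    rw [e2, re_mul_ofReal]
    positivity

end Crest.Agent.R086.A4Rect
end

-- ▼ part R086/A4Main
section

/-!
Row 86, Part A4 (helper371): the Wronskian `W1 conj W~ + conj W1~ W` of the outgoing solutions has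
no zeros in `Re lam ≥ 0` except the symmetry ones, from
* Theorem V (`ThmV`), * the numeric certificate `Cert`, * the large `|Im lam|` statement `LT`.
-/

set_option autoImplicit false

open Complex Filter Set Topology

namespace Crest.Agent.R086.A4

open JCx

local notation "cj" => (starRingEnd ℂ)

noncomputable section

/-- outgoing value at level `k` -/
def Lf (l : ℕ) (om rho : ℝ) (k : ℕ) (lam : ℂ) : ℂ := W (ak l om lam k) ((l : ℂ) + 6) rho

/-- `-rho` times the outgoing derivative at level `k` -/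
def Ly (l : ℕ) (om rho : ℝ) (k : ℕ) (lam : ℂ) : ℂ := -rho * W1 (ak l om lam k) ((l : ℂ) + 6) rho

/-- `G` at level `k` -/
def Gk (l : ℕ) (om rho : ℝ) (k : ℕ) (lam : ℂ) : ℂ := Ly l om rho k lam / Lf l om rho k lam

/-- the Wronskian `-rho (f1 f~ + f~1 f)` -/
def Dw (l : ℕ) (om rho : ℝ) (lam : ℂ) : ℂ :=
  Ly l om rho 0 lam * cj (Lf l om rho 0 (cj lam)) + cj (Ly l om rho 0 (cj lam)) * Lf l om rho 0 lam

/-- **Theorem V** (helper11). -/
def ThmV (l : ℕ) (om rho : ℝ) : Prop :=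
  ∀ lam : ℂ, 5 / 2 ≤ lam.re → Lf l om rho 0 lam ≠ 0 ∧ ((l : ℝ) + 5) / 2 < (Gk l om rho 0 lam).re


theorem ak_add (l : ℕ) (om : ℝ) (lam : ℂ) (j k : ℕ) :
    ak l om (lam + j) k = ak l om lam (j + k) := by
  unfold ak; push_cast; ring

theorem ak_succ (l : ℕ) (om : ℝ) (lam : ℂ) (k : ℕ) :
    ak l om lam (k + 1) = ak l om lam k + 1 := by
  unfold ak; push_cast; ring

theorem ak_re (l : ℕ) (om : ℝ) (lam : ℂ) (k : ℕ) :
    (ak l om lam k).re = lam.re + l / 2 + k := by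
  unfold ak
  simp

theorem Lf_add (l : ℕ) (om rho : ℝ) (lam : ℂ) (k : ℕ) :
    Lf l om rho 0 (lam + k) = Lf l om rho k lam := by
  unfold Lf; rw [ak_add, add_zero]

theorem Ly_add (l : ℕ) (om rho : ℝ) (lam : ℂ) (k : ℕ) :
    Ly l om rho 0 (lam + k) = Ly l om rho k lam := by
  unfold Ly; rw [ak_add, add_zero]

theorem Gk_add (l : ℕ) (om rho : ℝ) (lam : ℂ) (k : ℕ) :
    Gk l om rho 0 (lam + k) = Gk l om rho k lam := by
  unfold Gk; rw [Lf_add, Ly_add]

/-- contiguous relations for the outgoing solution. -/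
theorem W_down {a b z : ℂ} (ha : -1 < a.re) (hz : 0 < z.re) :
    W a b z = I / (a + 1) * ((a + 1 - b + -I * z) * W (a + 1) b z + -z * W1 (a + 1) b z) := by
  have h1 : 0 < (a + 1).re := by simp; linarith
  have hne : a + 1 ≠ 0 := by intro h; rw [h] at h1; simp at h1
  have e1 := W_eq (b := b) h1 hz
  have e2 : W1 (a + 1) b z = I * (a + 1) * J (a + 2) (b - a - 2) z := by
    unfold W1; rw [show a + 1 + 1 = a + 2 by ring, show b - (a + 1) - 1 = b - a - 2 by ring]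
  rw [show b - (a + 1) - 1 = b - a - 2 by ring] at e1
  rw [e1, e2]
  unfold W
  field_simp
  linear_combination ((a + 1 - b - I * z) * J (a + 1) (b - a - 2) z
    + z * J (a + 2) (b - a - 2) z) * I_sq

theorem W1_down {a b z : ℂ} (ha : -1 < a.re) (hz : 0 < z.re) :
    -z * W1 a b z =
      I / (a + 1) * (a * (-z * W1 (a + 1) b z + (-I * z) * W (a + 1) b z)) := by
  have h1 : 0 < (a + 1).re := by simp; linarith
  have hne : a + 1 ≠ 0 := by intro h; rw [h] at h1; simp at h1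
  have e1 := W_eq (b := b) h1 hz
  have e2 : W1 (a + 1) b z = I * (a + 1) * J (a + 2) (b - a - 2) z := by
    unfold W1; rw [show a + 1 + 1 = a + 2 by ring, show b - (a + 1) - 1 = b - a - 2 by ring]
  rw [show b - (a + 1) - 1 = b - a - 2 by ring] at e1
  have e3 : J (a + 1) (b - a - 1) z = J (a + 1) (b - a - 2) z + I * J (a + 2) (b - a - 2) z := by
    have := J_shift (a := a + 1) (c := b - a - 2) (z := z) h1 hz
    rw [show b - a - 2 + 1 = b - a - 1 by ring, show a + 1 + 1 = a + 2 by ring] at this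
    exact this
  rw [e1, e2]
  unfold W1
  rw [e3]
  field_simp
  linear_combination (-(z * a * J (a + 1) (b - a - 2) z)) * I_sq

/-- the downward step on `(Lf, Ly)` -/
theorem step_eq {l : ℕ} {om rho : ℝ} (hr : 0 < rho) {lam : ℂ} {k : ℕ}
    (ha : -1 < (ak l om lam k).re) :
    (Lf l om rho k lam, Ly l om rho k lam) =
      (I / ak l om lam (k + 1)) •
        stp l (zz rho) (ak l om lam (k + 1)) (Lf l om rho (k + 1) lam, Ly l om rho (k + 1) lam) := by
  have hz : 0 < ((rho : ℝ) : ℂ).re := by simpa using hr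
  have e1 := W_down (b := (l : ℂ) + 6) ha hz
  have e2 := W1_down (b := (l : ℂ) + 6) ha hz
  unfold stp Lf Ly zz
  rw [ak_succ]
  ext
  · simp only [Prod.smul_mk, smul_eq_mul]
    rw [e1]
  · simp only [Prod.smul_mk, smul_eq_mul]
    rw [e2]
    ring

theorem stp_smul (l : ℕ) (z a c : ℂ) (p : ℂ × ℂ) : stp l z a (c • p) = c • stp l z a p := by
  unfold stp
  ext
  · simp only [Prod.smul_mk, smul_eq_mul, Prod.smul_fst, Prod.smul_snd]; ring
  · simp only [Prod.smul_mk, smul_eq_mul, Prod.smul_fst, Prod.smul_snd]; ring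

/-- the common factor -/
def Cf (l : ℕ) (om rho : ℝ) (lam : ℂ) : ℂ :=
  (I / ak l om lam 1) * (I / ak l om lam 2) * (I / ak l om lam 3) * Lf l om rho 3 lam

theorem pair0_eq {l : ℕ} {om rho : ℝ} (hr : 0 < rho) {lam : ℂ}
    (ha : -1 < lam.re + l / 2) (h3 : Lf l om rho 3 lam ≠ 0) :
    (Lf l om rho 0 lam, Ly l om rho 0 lam) =
      Cf l om rho lam • uy l om rho lam (Gk l om rho 3 lam) := by
  have k0 : -1 < (ak l om lam 0).re := by rw [ak_re]; simpa using ha
  have k1 : -1 < (ak l om lam 1).re := by rw [ak_re]; push_cast; linarith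
  have k2 : -1 < (ak l om lam 2).re := by rw [ak_re]; push_cast; linarith
  have e3 : (Lf l om rho 3 lam, Ly l om rho 3 lam) =
      Lf l om rho 3 lam • ((1 : ℂ), Gk l om rho 3 lam) := by
    unfold Gk
    ext
    · simp
    · simp only [Prod.smul_mk, smul_eq_mul]
      field_simp
  rw [step_eq hr k0, step_eq hr k1, step_eq hr k2, e3]
  unfold uy Cf
  simp only [stp_smul, smul_smul, Nat.reduceAdd, zero_add]
  congr 1
  ring

theorem Dw_eq {l : ℕ} {om rho : ℝ} (hr : 0 < rho) {lam : ℂ}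
    (ha : -1 < lam.re + l / 2) (h3 : Lf l om rho 3 lam ≠ 0) (h3' : Lf l om rho 3 (cj lam) ≠ 0) :
    Dw l om rho lam = Cf l om rho lam * cj (Cf l om rho (cj lam)) *
      Wr l om rho lam (Gk l om rho 3 lam) (Gk l om rho 3 (cj lam)) := by
  have e1 := pair0_eq (om := om) hr ha h3
  have e2 := pair0_eq (om := om) (lam := cj lam) hr (by simpa using ha) h3'
  rw [Prod.ext_iff] at e1 e2
  obtain ⟨a1, a2⟩ := e1
  obtain ⟨b1, b2⟩ := e2
  simp only [Prod.smul_fst, Prod.smul_snd, smul_eq_mul] at a1 a2 b1 b2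
  unfold Dw Wr
  rw [a1, a2, b1, b2]
  simp only [map_mul]
  ring


theorem Lf_diff {l : ℕ} {om rho : ℝ} (hr : 0 < rho) {k : ℕ} {lam : ℂ}
    (ha : -1 < (ak l om lam k).re) : DifferentiableAt ℂ (Lf l om rho k) lam := by
  have hz : 0 < ((rho : ℝ) : ℂ).re := by simpa using hr
  unfold Lf
  refine W_differentiableAt (f := fun w => ak l om w k) (g := fun _ => (l : ℂ) + 6)
    (h := fun _ => (rho : ℂ)) ?_ (by fun_prop) (by fun_prop) ha hz
  unfold ak; fun_prop

theorem Ly_diff {l : ℕ} {om rho : ℝ} (hr : 0 < rho) {k : ℕ} {lam : ℂ}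
    (ha : -1 < (ak l om lam k).re) : DifferentiableAt ℂ (Ly l om rho k) lam := by
  have hz : 0 < ((rho : ℝ) : ℂ).re := by simpa using hr
  unfold Ly
  refine DifferentiableAt.const_mul ?_ _
  refine W1_differentiableAt (f := fun w => ak l om w k) (g := fun _ => (l : ℂ) + 6)
    (h := fun _ => (rho : ℂ)) ?_ (by fun_prop) (by fun_prop) ha hz
  unfold ak; fun_prop

theorem conj_diff {f : ℂ → ℂ} {z : ℂ} (h : DifferentiableAt ℂ f (cj z)) :
    DifferentiableAt ℂ (fun w => cj (f (cj w))) z := by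
  have := h.conj_conj
  rw [Complex.conj_conj] at this
  exact this

/-- the chain of `G`'s -/
theorem chain {l : ℕ} {om rho : ℝ} (hr : 0 < rho) (hV : ThmV l om rho) {lam : ℂ}
    (hlam : -1 / 2 ≤ lam.re) {M : ℕ} (hM : 3 ≤ M) :
    Chain l om rho lam M (fun k => Gk l om rho k lam) := by
  have hne : ∀ k : ℕ, 3 ≤ k → Lf l om rho k lam ≠ 0 ∧
      ((l : ℝ) + 5) / 2 < (Gk l om rho k lam).re := by
    intro k hk
    have h1 : (5 : ℝ) / 2 ≤ (lam + k).re := by
      simp only [add_re, natCast_re]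
      have : (3 : ℝ) ≤ k := by exact_mod_cast hk
      linarith
    have := hV (lam + k) h1
    rwa [Lf_add, Gk_add] at this
  refine ⟨(hne M hM).2.le, fun k hk hkM => ?_⟩
  have hk1 := (hne (k + 1) (by omega)).1
  have hk0 := (hne k hk).1
  have ha : -1 < (ak l om lam k).re := by
    rw [ak_re]
    have : (3 : ℝ) ≤ k := by exact_mod_cast hk
    have : (0 : ℝ) ≤ l := Nat.cast_nonneg l
    linarith
  have e := step_eq (l := l) (om := om) hr ha
  rw [Prod.ext_iff] at e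
  obtain ⟨e1, e2⟩ := e
  simp only [stp, Prod.smul_mk, smul_eq_mul] at e1 e2
  show Ly l om rho k lam / Lf l om rho k lam = _
  have hak : ak l om lam (k + 1) ≠ 0 := by
    intro h
    rw [h, div_zero, zero_mul] at e1
    exact hk0 e1
  have hK : (ak l om lam (k + 1) - (l + 6) + zz rho) * Lf l om rho (k + 1) lam
      + Ly l om rho (k + 1) lam ≠ 0 := by
    intro h
    rw [h, mul_zero] at e1
    exact hk0 e1
  have hI : I / ak l om lam (k + 1) ≠ 0 := div_ne_zero I_ne_zero hak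
  rw [e1, e2, mul_div_mul_left _ _ hI]
  have hG : Gk l om rho (k + 1) lam = Ly l om rho (k + 1) lam / Lf l om rho (k + 1) lam := rfl
  show _ = (ak l om lam (k + 1) - 1) * (Gk l om rho (k + 1) lam + zz rho) /
      (Gk l om rho (k + 1) lam + zz rho + ak l om lam (k + 1) - (l + 6))
  rw [hG]
  have hd : Ly l om rho (k + 1) lam / Lf l om rho (k + 1) lam + zz rho + ak l om lam (k + 1) -
      ((l : ℂ) + 6) = ((ak l om lam (k + 1) - (l + 6) + zz rho) * Lf l om rho (k + 1) lam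
      + Ly l om rho (k + 1) lam) / Lf l om rho (k + 1) lam := by
    field_simp; ring
  have hn : Ly l om rho (k + 1) lam / Lf l om rho (k + 1) lam + zz rho =
      (Ly l om rho (k + 1) lam + zz rho * Lf l om rho (k + 1) lam) / Lf l om rho (k + 1) lam := by
    field_simp
  rw [hd, hn]
  field_simp

/-- exact zeros from the profile equation `J (1 - i om, 5 + i om, rho) = 0`. -/
theorem Dw_zero {l : ℕ} {om rho : ℝ} (hr : 0 < rho) (hom : om ≠ 0)
    (hJ : J (1 - I * om) (5 + I * om) rho = 0) : ∀ ζ ∈ Zs l, Dw l om rho ζ = 0 := by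
  have hz : 0 < ((rho : ℝ) : ℂ).re := by simpa using hr
  match l with
  | 0 =>
    intro ζ hζ
    have hζ' : ζ = 0 ∨ ζ = 1 := by simpa [Zs] using hζ
    rcases hζ' with rfl | rfl
    · -- Ly 0 = 0
      have h0 : Ly 0 om rho 0 0 = 0 := by
        unfold Ly W1 ak
        simp only [Nat.cast_zero, zero_div, add_zero, zero_sub, zero_add]
        rw [show -(I * (om : ℂ)) + 1 = 1 - I * om by ring,
          show (6 : ℂ) - -(I * om) - 1 = 5 + I * om by ring, hJ]
        simp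
      unfold Dw
      rw [map_zero, h0]; simp
    · have e : Lf 0 om rho 0 1 = Lf 0 om rho 1 0 := by
        have := Lf_add 0 om rho 0 1
        simpa using this
      have e' : Ly 0 om rho 0 1 = Ly 0 om rho 1 0 := by
        have := Ly_add 0 om rho 0 1
        simpa using this
      have h0 : Ly 0 om rho 0 0 = 0 := by
        unfold Ly W1 ak
        simp only [Nat.cast_zero, zero_div, add_zero, zero_sub, zero_add]
        rw [show -(I * (om : ℂ)) + 1 = 1 - I * om by ring,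
          show (6 : ℂ) - -(I * om) - 1 = 5 + I * om by ring, hJ]
        simp
      unfold Dw
      rw [map_one, e, e']
      have ha : -1 < (ak 0 om 0 0).re := by rw [ak_re]; simp
      have e2 := step_eq (l := 0) (om := om) hr ha
      rw [Prod.ext_iff] at e2
      obtain ⟨-, e2⟩ := e2
      simp only [stp, Prod.smul_mk, smul_eq_mul, zero_add] at e2
      rw [h0] at e2
      have hak : ak 0 om 0 1 ≠ 0 := by
        intro h
        have := congrArg Complex.re h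
        rw [ak_re] at this
        simp at this
      have hak1 : ak 0 om 0 1 - 1 ≠ 0 := by
        intro h
        have := congrArg Complex.im h
        unfold ak at this
        simp at this
        exact hom this
      have h1 : Ly 0 om rho 1 0 + zz rho * Lf 0 om rho 1 0 = 0 := by
        rcases mul_eq_zero.1 e2.symm with h | h
        · exact absurd h (div_ne_zero I_ne_zero hak)
        · exact (mul_eq_zero.1 h).resolve_left hak1
      have h2 : Ly 0 om rho 1 0 = -(zz rho * Lf 0 om rho 1 0) := by linear_combination h1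
      rw [h2]
      unfold zz
      simp only [map_neg, map_mul, conj_I, conj_ofReal]
      ring
  | 1 =>
    intro ζ hζ
    have hζ' : ζ = 1 / 2 := by simpa [Zs] using hζ
    subst hζ'
    have h0 : Lf 1 om rho 0 (1 / 2) = 0 := by
      unfold Lf
      have ha : 0 < (ak 1 om (1 / 2) 0).re := by rw [ak_re]; norm_num
      rw [W_eq ha hz]
      have : ak 1 om (1 / 2) 0 = 1 - I * om := by unfold ak; push_cast; ring
      rw [this, show ((1 : ℕ) : ℂ) + 6 - (1 - I * (om : ℂ)) - 1 = 5 + I * om by push_cast; ring, hJ]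
      simp
    unfold Dw
    rw [show cj (1 / 2 : ℂ) = 1 / 2 by rw [map_div₀, map_one, map_ofNat], h0]; simp
  | (n + 2) => intro ζ hζ; simp [Zs] at hζ

theorem pp_diff (l : ℕ) : Differentiable ℂ (pp l) := by
  match l with
  | 0 => unfold pp; fun_prop
  | 1 => unfold pp; fun_prop
  | 2 => unfold pp; fun_prop
  | (n + 3) => unfold pp; fun_prop

theorem pp_ne (l : ℕ) {lam : ℂ} (h : -1 < lam.re) : pp l lam ≠ 0 := by
  have h1 : lam + 1 ≠ 0 := by
    intro h0
    have := congrArg Complex.re h0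
    simp at this; linarith
  have h2 : lam + 3 / 2 ≠ 0 := by
    intro h0
    have := congrArg Complex.re h0
    simp at this; linarith
  match l with
  | 0 => exact pow_ne_zero _ h1
  | 1 => exact pow_ne_zero _ h1
  | 2 => exact mul_ne_zero (pow_ne_zero _ h1) (pow_ne_zero _ h2)
  | (n + 3) =>
    refine mul_ne_zero (pow_ne_zero _ h1) (pow_ne_zero _ ?_)
    intro h0
    have := congrArg Complex.re h0
    simp at this
    have hn : (0 : ℝ) ≤ n := Nat.cast_nonneg n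
    linarith




end

end Crest.Agent.R086.A4
end

-- ▼ part R086/A4ThmV
section

/-!
Row 86, part A4 (helper11): Theorem V in the form of `A4Main.lean`, and Lemma HP in terms of
`Lf`, `Gk`.
-/
set_option autoImplicit false
open Complex Set

namespace Crest.Agent.R086.A4

open Crest.Agent.R086.JCx Crest.Agent.R086.A4HP

theorem GW_eq (l : ℕ) (om rho : ℝ) (lam : ℂ) :
    GW (ak l om lam 0) ((l : ℂ) + 6) rho = Gk l om rho 0 lam := by
  unfold GW Gk Ly Lf
  rw [neg_mul]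

/-- **THEOREM V** (all `l`, all `om`). -/
theorem thmV (l : ℕ) (om : ℝ) {rho : ℝ} (h0 : 0 < rho) : ThmV l om rho := by
  intro lam hlam
  have hl : (0 : ℝ) ≤ l := Nat.cast_nonneg l
  have hB : (0 : ℝ) < ((l : ℝ) + 5) / 2 := by positivity
  have hre : (ak l om lam 0).re = lam.re + (l : ℝ) / 2 := by
    unfold ak
    simp
  have ha : ((l : ℝ) + 5) / 2 ≤ (ak l om lam 0).re := by rw [hre]; linarith
  obtain ⟨h1, h2⟩ := thmV_W (a := ak l om lam 0) (b := (l : ℂ) + 6) hB h0 ha (by push_cast; ring)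
  refine ⟨h1, ?_⟩
  rw [← GW_eq]
  exact h2

/-- **LEMMA HP** for the outgoing solution of degree `l` at `lam`: nonvanishing and half plane. -/
theorem hp_form (l : ℕ) (om : ℝ) {rho : ℝ} (lam : ℂ) {e g : ℂ} {c c' : ℝ → ℝ}
    (hlam : -1 < lam.re + (l : ℝ) / 2)
    (hd : Dat (((l : ℝ) + 5) / 2) rho (ak l om lam 0) e g c c') (hA0 : 0 < AA rho e g 0) :
    Lf l om rho 0 lam ≠ 0 ∧
      (g * ((((l : ℝ) + 5) / 2 : ℝ) + I * rho / 2 - Gk l om rho 0 lam)).re ≤ -c 0 := by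
  have hre : (ak l om lam 0).re = lam.re + (l : ℝ) / 2 := by
    unfold ak
    simp
  have ha : -1 < (ak l om lam 0).re := by rw [hre]; exact hlam
  have hb : (l : ℂ) + 6 = 2 * ((((l : ℝ) + 5) / 2 : ℝ) : ℂ) + 1 := by push_cast; ring
  have h1 := hp_W_ne ha hb hd hA0
  refine ⟨h1, ?_⟩
  have h2 := hp_G ha hb hd h1
  rw [GW_eq] at h2
  exact h2


end Crest.Agent.R086.A4
end

-- ▼ part R086/A4Sum
section

/-!
Row 86, Part A4 (helper371): the sum criterion (helper522, 12712) as a lemma on `Dw`.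
-/

set_option autoImplicit false

open Complex

namespace Crest.Agent.R086.A4

open JCx

local notation "cj" => (starRingEnd ℂ)

/-- conjugation symmetry -/
theorem Dw_conj (l : ℕ) (om rho : ℝ) (lam : ℂ) :
    Dw l om rho (cj lam) = cj (Dw l om rho lam) := by
  unfold Dw
  rw [Complex.conj_conj]
  simp only [map_add, map_mul, Complex.conj_conj]
  ring

/-- it is enough to treat `Im lam ≥ 0`. -/
theorem Dw_ne_of_upper {l : ℕ} {om rho : ℝ} {P : ℝ → ℝ → Prop}
    (h : ∀ lam : ℂ, 0 ≤ lam.im → P lam.re |lam.im| → Dw l om rho lam ≠ 0) :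
    ∀ lam : ℂ, P lam.re |lam.im| → Dw l om rho lam ≠ 0 := by
  intro lam hP
  rcases le_total 0 lam.im with h0 | h0
  · exact h lam h0 hP
  · have := h (cj lam) (by rw [conj_im]; linarith) (by rw [conj_re, conj_im, abs_neg]; exact hP)
    rw [Dw_conj] at this
    intro h1
    rw [h1] at this
    exact this (map_zero _)

/-- **Sum criterion.** `M(lam) = B + i rho/2 - G(lam)`, `B = (l+5)/2`. -/
theorem dw_ne_of_forms {l : ℕ} {om rho : ℝ} {lam : ℂ} (g : ℂ) (cf cn : ℝ)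
    (hWf : Lf l om rho 0 lam ≠ 0) (hWn : Lf l om rho 0 (cj lam) ≠ 0)
    (hf : (cj g * ((((l : ℝ) + 5) / 2 : ℝ) + I * rho / 2 - Gk l om rho 0 lam)).re ≤ -cf)
    (hn : (g * ((((l : ℝ) + 5) / 2 : ℝ) + I * rho / 2 - Gk l om rho 0 (cj lam))).re ≤ -cn)
    (hsum : -cf - cn < ((l : ℝ) + 5) * g.re) : Dw l om rho lam ≠ 0 := by
  have e1 : Ly l om rho 0 lam = Gk l om rho 0 lam * Lf l om rho 0 lam := by
    unfold Gk; field_simp
  have e2 : Ly l om rho 0 (cj lam) = Gk l om rho 0 (cj lam) * Lf l om rho 0 (cj lam) := by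
    unfold Gk; field_simp
  have e3 : Dw l om rho lam =
      Lf l om rho 0 lam * cj (Lf l om rho 0 (cj lam)) *
        (Gk l om rho 0 lam + cj (Gk l om rho 0 (cj lam))) := by
    unfold Dw
    rw [e1, e2, map_mul]; ring
  rw [e3]
  refine mul_ne_zero (mul_ne_zero hWf ?_) ?_
  · simpa using hWn
  · intro h
    have e4 : Gk l om rho 0 lam = -cj (Gk l om rho 0 (cj lam)) := by linear_combination h
    rw [e4] at hf
    set x := (Gk l om rho 0 (cj lam)).re
    set y := (Gk l om rho 0 (cj lam)).im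
    simp only [mul_re, sub_re, add_re, ofReal_re, conj_re, conj_im, neg_re, neg_im, sub_im, add_im,
      ofReal_im, div_ofNat_re, div_ofNat_im, I_re, I_im, mul_im] at hf hn
    nlinarith


end Crest.Agent.R086.A4
end

-- ▼ part R086/A4Form
section

/-!
Row 86, Part A4 (helper522): from the numeric inequalities `NumIneq` to 11's Lemma HP.
-/

set_option autoImplicit false

open Complex Set

namespace Crest.Agent.R086.A4

open Crest.Agent.R086.JCx Crest.Agent.R086.A4HP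

theorem AA_eq {rho g1 g2 e1 e2 : ℝ} (he : e1 ^ 2 + e2 ^ 2 = 1) (x : ℝ) :
    AA rho ⟨e1, e2⟩ ⟨g1, g2⟩ x = rho * (g1 * e1 + g2 * e2) + g1 * x := by
  unfold AA rr
  simp only [mul_re, mul_im, add_re, add_im, conj_re, conj_im, ofReal_re, ofReal_im]
  linear_combination (g1 * x) * he

theorem PPx_eq {l : ℕ} {om rho : ℝ} {lam : ℂ} (h0 : 0 < rho) {g1 g2 e1 e2 : ℝ}
    (he : e1 ^ 2 + e2 ^ 2 = 1) (he1 : 0 ≤ e1) {t : ℝ} (ht : 0 ≤ t) :
    rho * PPx (((l : ℝ) + 5) / 2) rho (ak l om lam 0) ⟨e1, e2⟩ ⟨g1, g2⟩ (rho * t) =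
      (((l : ℝ) + 5) / 2) ^ 2 * ((g1 * e1 - g2 * e2) + g1 * t) / (1 + 2 * e1 * t + t ^ 2) +
      (-(rho ^ 2 / 4) * ((g1 * e1 - g2 * e2) +
        t * ((g1 * e1 - g2 * e2) * e1 - (g1 * e2 + g2 * e1) * e2)) +
        rho * (-(g1 * e2 + g2 * e1) * (3 - lam.re) + (lam.im - om) * (g1 * e1 - g2 * e2))) := by
  have hd : 0 < 1 + 2 * e1 * t + t ^ 2 := by positivity
  have hn : normSq (rr rho ⟨e1, e2⟩ (rho * t)) = rho ^ 2 * (1 + 2 * e1 * t + t ^ 2) := by
    unfold rr
    rw [normSq_apply]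
    simp only [add_re, add_im, mul_re, mul_im, ofReal_re, ofReal_im]
    linear_combination (rho ^ 2 * t ^ 2) * he
  set B : ℝ := ((l : ℝ) + 5) / 2 with hB
  have e0 : I * ((B : ℂ) + 1 / 2 - ak l om lam 0) = (⟨lam.im - om, 3 - lam.re⟩ : ℂ) := by
    unfold ak
    apply Complex.ext
    · simp [hB]
    · simp [hB]; ring
  have e1' : ((⟨g1, g2⟩ : ℂ) * (⟨e1, e2⟩ : ℂ) * ((B : ℂ) ^ 2 / rr rho ⟨e1, e2⟩ (rho * t))).re =
      B ^ 2 * (((g1 * e1 - g2 * e2) + g1 * t) / (rho * (1 + 2 * e1 * t + t ^ 2))) := by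
    rw [div_eq_mul_inv, Complex.inv_def, hn]
    have : ((B : ℂ) ^ 2) = ((B ^ 2 : ℝ) : ℂ) := by push_cast; rfl
    rw [this]
    unfold rr
    simp only [mul_re, mul_im, add_re, add_im, conj_re, conj_im, ofReal_re, ofReal_im]
    clear_value B
    have hrho : rho ≠ 0 := h0.ne'
    have hd' := hd.ne'
    field_simp
    linear_combination (g1 * t * B ^ 2 * rho) * he
  unfold PPx
  rw [e0, mul_add, mul_sub, add_re, sub_re, e1']
  have e2' : ((⟨g1, g2⟩ : ℂ) * (⟨e1, e2⟩ : ℂ) * (rr rho ⟨e1, e2⟩ (rho * t) / 4)).re =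
      rho / 4 * ((g1 * e1 - g2 * e2) + t * ((g1 * e1 - g2 * e2) * e1 - (g1 * e2 + g2 * e1) * e2)) := by
    unfold rr
    simp only [mul_re, mul_im, add_re, add_im, ofReal_re, ofReal_im, div_ofNat_re, div_ofNat_im]
    ring
  have e3' : ((⟨g1, g2⟩ : ℂ) * (⟨e1, e2⟩ : ℂ) * (⟨lam.im - om, 3 - lam.re⟩ : ℂ)).re =
      -(g1 * e2 + g2 * e1) * (3 - lam.re) + (lam.im - om) * (g1 * e1 - g2 * e2) := by
    simp only [mul_re, mul_im]
    ring
  rw [e2', e3']
  field_simp
  ring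

/-- **HP from a numeric inequality.** -/
theorem form {l : ℕ} {om rho : ℝ} {lam : ℂ} (h0 : 0 < rho) (hlam : 0 ≤ lam.re)
    {g1 g2 e1 e2 : ℝ} (he : e1 ^ 2 + e2 ^ 2 = 1) (he1 : 0 ≤ e1) (he2 : 0 < e2)
    {B2 al ur p0 p1 k n m s q r : ℝ} (hs : 0 < s) (hr : 0 < r)
    (hal : al = g1 * e1 + g2 * e2) (hur : ur = g1 * e1 - g2 * e2)
    (hal0 : 0 < al) (hbe : 0 ≤ g1)
    (hnum : NumIneq B2 al g1 ur e1 p0 p1 k n m s q r)
    (hB : ∀ t : ℝ, 0 ≤ t → B2 * (ur + g1 * t) ≤ (((l : ℝ) + 5) / 2) ^ 2 * (ur + g1 * t))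
    (hp : ∀ t : ℝ, 0 ≤ t → p0 + p1 * t ≤ -(rho ^ 2 / 4) * (ur +
        t * (ur * e1 - (g1 * e2 + g2 * e1) * e2)) +
        rho * (-(g1 * e2 + g2 * e1) * (3 - lam.re) + (lam.im - om) * ur)) :
    Lf l om rho 0 lam ≠ 0 ∧
      ((⟨g1, g2⟩ : ℂ) * ((((l : ℝ) + 5) / 2 : ℝ) + I * rho / 2 - Gk l om rho 0 lam)).re ≤
        -(k - m / s - q / r) := by
  have key : ∀ t : ℝ, 0 ≤ t → (k + n * t - m / (t + s) - q / (t + r)) ^ 2 ≤
      (al + g1 * t) * (rho * PPx (((l : ℝ) + 5) / 2) rho (ak l om lam 0) ⟨e1, e2⟩ ⟨g1, g2⟩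
        (rho * t) + (n + m / (t + s) ^ 2 + q / (t + r) ^ 2)) := by
    intro t ht
    rw [PPx_eq h0 he he1 ht, ← hur]
    have hd : 0 < 1 + 2 * e1 * t + t ^ 2 := by positivity
    refine (hnum t ht).trans ?_
    have h1 : 0 ≤ al + g1 * t := by positivity
    refine mul_le_mul_of_nonneg_left ?_ h1
    have h2 := hp t ht
    have h3 : B2 * (ur + g1 * t) / (1 + 2 * e1 * t + t ^ 2) ≤
        (((l : ℝ) + 5) / 2) ^ 2 * (ur + g1 * t) / (1 + 2 * e1 * t + t ^ 2) :=
      div_le_div_of_nonneg_right (hB t ht) hd.le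
    linarith
  -- the functions of the variable `x`
  set c : ℝ → ℝ := fun x => k + n * (x / rho) - m / (x / rho + s) - q / (x / rho + r) with hc
  set c' : ℝ → ℝ := fun x => (n + m / (x / rho + s) ^ 2 + q / (x / rho + r) ^ 2) / rho with hc'
  have hder : ∀ x : ℝ, 0 ≤ x → HasDerivAt c (c' x) x := by
    intro x hx
    have hx0 : 0 ≤ x / rho := by positivity
    have a1 : HasDerivAt (fun x : ℝ => x / rho) (1 / rho) x := (hasDerivAt_id x).div_const rho
    have a2 := (a1.add_const s)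
    have a3 := (a1.add_const r)
    have hs1 : x / rho + s ≠ 0 := by positivity
    have hr1 : x / rho + r ≠ 0 := by positivity
    have b1 := (hasDerivAt_const x m).div a2 hs1
    have b2 := (hasDerivAt_const x q).div a3 hr1
    have b3 := (((a1.const_mul n).const_add k).sub b1).sub b2
    refine b3.congr_deriv ?_
    simp only [hc']
    field_simp
    ring
  have hconv : ∀ x : ℝ, rho * (x / rho) = x := fun x => by field_simp
  have kx : ∀ x : ℝ, 0 ≤ x → c x ^ 2 ≤ AA rho ⟨e1, e2⟩ ⟨g1, g2⟩ x *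
      (PPx (((l : ℝ) + 5) / 2) rho (ak l om lam 0) ⟨e1, e2⟩ ⟨g1, g2⟩ x + c' x) := by
    intro x hx
    have h1 := key (x / rho) (by positivity)
    rw [hconv] at h1
    rw [AA_eq he, ← hal]
    refine h1.trans (le_of_eq ?_)
    simp only [hc']
    field_simp
  have hApos : ∀ x : ℝ, 0 ≤ x → 0 < AA rho ⟨e1, e2⟩ ⟨g1, g2⟩ x := by
    intro x hx
    rw [AA_eq he, ← hal]; positivity
  have hD : Dat (((l : ℝ) + 5) / 2) rho (ak l om lam 0) ⟨e1, e2⟩ ⟨g1, g2⟩ c c' := by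
    refine ⟨by positivity, h0, ?_, he1, he2, ?_, ?_, ?_, ?_, ?_, kx⟩
    · rw [Complex.norm_def, normSq_apply]
      simp only
      rw [show e1 * e1 + e2 * e2 = 1 by linarith [he]]; simp
    · intro x hx
      exact (hder x hx).continuousAt.continuousWithinAt
    · intro x hx
      exact (hder x hx).hasDerivWithinAt
    · refine ⟨|k| + |n| / rho + |m| / s + |q| / r, 1, fun x hx => ?_⟩
      have hx0 : 0 ≤ x / rho := by positivity
      have t1 : |m / (x / rho + s)| ≤ |m| / s := by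
        rw [abs_div, abs_of_pos (show 0 < x / rho + s by positivity)]
        exact div_le_div_of_nonneg_left (abs_nonneg m) hs (by linarith)
      have t2 : |q / (x / rho + r)| ≤ |q| / r := by
        rw [abs_div, abs_of_pos (show 0 < x / rho + r by positivity)]
        exact div_le_div_of_nonneg_left (abs_nonneg q) hr (by linarith)
      have t3 : |n * (x / rho)| = |n| / rho * x := by
        rw [abs_mul, abs_of_nonneg hx0]; ring
      have t4 : |c x| ≤ |k| + |n * (x / rho)| + |m / (x / rho + s)| + |q / (x / rho + r)| := by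
        simp only [hc]
        refine (abs_sub _ _).trans ?_
        refine add_le_add ((abs_sub _ _).trans ?_) le_rfl
        exact add_le_add (abs_add_le _ _) le_rfl
      rw [t3] at t4
      have u1 : 0 ≤ |k| := abs_nonneg k
      have u2 : 0 ≤ |n| / rho := by positivity
      have u3 : 0 ≤ |m| / s := by positivity
      have u4 : 0 ≤ |q| / r := by positivity
      rw [pow_one]
      nlinarith [mul_nonneg u1 hx, mul_nonneg u3 hx, mul_nonneg u4 hx]
    · intro x hx; exact (hApos x hx).le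
    · intro x hx
      have h1 := kx x hx
      have h2 := hApos x hx
      by_contra hcon
      push Not at hcon
      have h3 := mul_neg_of_pos_of_neg h2 hcon
      have h4 := sq_nonneg (c x)
      linarith
  obtain ⟨r1, r2⟩ := hp_form l om lam (by have : (0 : ℝ) ≤ l := Nat.cast_nonneg l; linarith) hD
    (hApos 0 le_rfl)
  refine ⟨r1, r2.trans (le_of_eq ?_)⟩
  simp [hc]

end Crest.Agent.R086.A4
end

-- ▼ part R086/A4Main2
section

/-!
Row 86, Part A4 (helper371), final form: small rectangles (helper522's plan 12712) and the export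
`wr_ne`, `zero*`, `simple*` of `ABIface.AData`.
-/

set_option autoImplicit false

open Complex Filter Set Topology

namespace Crest.Agent.R086.A4

open JCx

local notation "cj" => (starRingEnd ℂ)

noncomputable section

/-- zero-freeness in a general rectangle from Theorem V and the certificate. -/
theorem rectR {l : ℕ} {om rho x0 x1 T : ℝ} {M : ℕ} (hr : 0 < rho) (hom : om ≠ 0)
    (hJ : J (1 - I * om) (5 + I * om) rho = 0) (hV : ThmV l om rho) (hM : 3 ≤ M)
    (hx0 : -1 / 2 < x0) (hx1 : x0 ≤ 0) (hx15 : x0 < x1) (hx2 : l = 0 → x0 < 0 ∧ 1 < x1)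
    (hx3 : l = 1 → 1 / 2 < x1) (hT : 0 < T) (hC : CertR l om rho x0 x1 T M) :
    (∀ lam : ℂ, x0 ≤ lam.re → lam.re ≤ x1 → |lam.im| ≤ T → lam ∉ Zs l → Dw l om rho lam ≠ 0) ∧
      ∀ ζ ∈ Zs l, deriv (Dw l om rho) ζ ≠ 0 := by
  classical
  set U : Set ℂ := {lam : ℂ | -1 / 2 < lam.re} with hUd
  have hU : IsOpen U := isOpen_lt continuous_const continuous_re
  set w : ℂ → ℂ := fun lam =>
    Wr l om rho lam (Gk l om rho 3 lam) (Gk l om rho 3 (cj lam)) with hwd
  have hl0 : (0 : ℝ) ≤ l := Nat.cast_nonneg l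
  have hne3 : ∀ lam : ℂ, -1 / 2 ≤ lam.re → Lf l om rho 3 lam ≠ 0 := by
    intro lam hlam
    have := (hV (lam + 3) (by simp; linarith)).1
    have e := Lf_add l om rho lam 3
    push_cast at e
    rwa [e] at this
  have hk : ∀ (k : ℕ) (lam : ℂ), lam ∈ U → -1 < (ak l om lam k).re := by
    intro k lam hlam
    rw [ak_re]
    have h1 : -1 / 2 < lam.re := hlam
    have hk0 : (0 : ℝ) ≤ k := Nat.cast_nonneg k
    linarith
  have hG : ∀ lam ∈ U, DifferentiableAt ℂ (Gk l om rho 3) lam := by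
    intro lam hlam
    unfold Gk
    exact (Ly_diff hr (hk 3 lam hlam)).div (Lf_diff hr (hk 3 lam hlam))
      (hne3 lam (le_of_lt hlam))
  have hakd : ∀ (k : ℕ) (lam : ℂ), DifferentiableAt ℂ (fun lam => ak l om lam k) lam := by
    intro k lam; unfold ak; fun_prop
  have huy : ∀ lam ∈ U, DifferentiableAt ℂ (fun lam => uy l om rho lam (Gk l om rho 3 lam)) lam := by
    intro lam hlam
    have hg := hG lam hlam
    have d1 := hakd 1 lam
    have d2 := hakd 2 lam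
    have d3 := hakd 3 lam
    unfold uy stp
    fun_prop
  have hcU : ∀ lam ∈ U, cj lam ∈ U := by
    intro lam hlam
    show -1 / 2 < (cj lam).re
    rw [conj_re]; exact hlam
  have hw : DifferentiableOn ℂ w U := by
    intro lam hlam
    refine DifferentiableAt.differentiableWithinAt ?_
    have h1 := huy lam hlam
    have h2 := huy (cj lam) (hcU lam hlam)
    have a1 : DifferentiableAt ℂ (fun lam => (uy l om rho lam (Gk l om rho 3 lam)).1) lam :=
      h1.fst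
    have a2 : DifferentiableAt ℂ (fun lam => (uy l om rho lam (Gk l om rho 3 lam)).2) lam :=
      h1.snd
    have b1 : DifferentiableAt ℂ
        (fun lam => cj ((uy l om rho (cj lam) (Gk l om rho 3 (cj lam))).1)) lam :=
      conj_diff (f := fun lam => (uy l om rho lam (Gk l om rho 3 lam)).1) h2.fst
    have b2 : DifferentiableAt ℂ
        (fun lam => cj ((uy l om rho (cj lam) (Gk l om rho 3 (cj lam))).2)) lam :=
      conj_diff (f := fun lam => (uy l om rho lam (Gk l om rho 3 lam)).2) h2.snd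
    exact (a2.mul b1).add (b2.mul a1)
  -- the factor
  set K : ℂ → ℂ := fun lam => Cf l om rho lam * cj (Cf l om rho (cj lam)) with hKd
  have hDw : ∀ lam ∈ U, Dw l om rho lam = K lam * w lam := by
    intro lam hlam
    have h1 : -1 / 2 < lam.re := hlam
    exact Dw_eq hr (by linarith) (hne3 lam h1.le) (hne3 (cj lam) (by rw [conj_re]; exact h1.le))
  have hak0 : ∀ (k : ℕ) (lam : ℂ), lam ∈ U → ak l om lam (k + 1) ≠ 0 := by
    intro k lam hlam h0
    have h1 := congrArg Complex.re h0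
    rw [ak_re] at h1
    have h2 : -1 / 2 < lam.re := hlam
    have hk0 : (0 : ℝ) ≤ k := Nat.cast_nonneg k
    push_cast at h1
    simp only [zero_re] at h1
    linarith
  have hCne : ∀ lam ∈ U, Cf l om rho lam ≠ 0 := by
    intro lam hlam
    unfold Cf
    exact mul_ne_zero (mul_ne_zero (mul_ne_zero (div_ne_zero I_ne_zero (hak0 0 lam hlam))
      (div_ne_zero I_ne_zero (hak0 1 lam hlam))) (div_ne_zero I_ne_zero (hak0 2 lam hlam)))
      (hne3 lam (le_of_lt hlam))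
  have hKne : ∀ lam ∈ U, K lam ≠ 0 := by
    intro lam hlam
    refine mul_ne_zero (hCne lam hlam) ?_
    simpa using hCne (cj lam) (hcU lam hlam)
  have hCd : ∀ lam ∈ U, DifferentiableAt ℂ (Cf l om rho) lam := by
    intro lam hlam
    have d1 := hakd 1 lam
    have d2 := hakd 2 lam
    have d3 := hakd 3 lam
    have n1 := hak0 0 lam hlam
    have n2 := hak0 1 lam hlam
    have n3 := hak0 2 lam hlam
    have hL := Lf_diff (l := l) (om := om) hr (hk 3 lam hlam)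
    unfold Cf
    exact ((((differentiableAt_const _).div d1 n1).mul ((differentiableAt_const _).div d2 n2)).mul
      ((differentiableAt_const _).div d3 n3)).mul hL
  have hKdiff : ∀ lam ∈ U, DifferentiableAt ℂ K lam := fun lam hlam =>
    (hCd lam hlam).mul (conj_diff (hCd (cj lam) (hcU lam hlam)))
  have hRsub : Icc x0 x1 ×ℂ Icc (-T) T ⊆ U := by
    intro lam hlam
    rw [mem_reProdIm] at hlam
    show -1 / 2 < lam.re
    linarith [hlam.1.1]
  have hZR : ∀ ζ ∈ Zs l, ζ ∈ A4Rect.Rc x0 x1 T := by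
    intro ζ hζ
    unfold A4Rect.Rc
    rw [mem_reProdIm, mem_Ioo, mem_Ioo]
    match l, hx2, hx3, hζ with
    | 0, hx2, _, hζ =>
      have hζ' : ζ = 0 ∨ ζ = 1 := by simpa [Zs] using hζ
      have := hx2 rfl
      rcases hζ' with rfl | rfl
      · simp only [zero_re, zero_im]; exact ⟨⟨this.1, by linarith [this.2]⟩, by linarith, hT⟩
      · simp only [one_re, one_im]; exact ⟨⟨by linarith, this.2⟩, by linarith, hT⟩
    | 1, _, hx3, hζ =>
      have hζ' : ζ = 1 / 2 := by simpa [Zs] using hζ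
      subst hζ'
      have e1 : (1 / 2 : ℂ).re = 1 / 2 := by norm_num
      have e2 : (1 / 2 : ℂ).im = 0 := by norm_num
      rw [e1, e2]
      exact ⟨⟨by linarith, hx3 rfl⟩, by linarith, hT⟩
    | (n + 2), _, _, hζ => simp [Zs] at hζ
  have hwz : ∀ ζ ∈ Zs l, w ζ = 0 := by
    intro ζ hζ
    have h1 := Dw_zero (l := l) hr hom hJ ζ hζ
    have hζU : ζ ∈ U := by
      have := hZR ζ hζ
      unfold A4Rect.Rc at this
      rw [mem_reProdIm] at this
      show -1 / 2 < ζ.re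
      linarith [this.1.1]
    rw [hDw ζ hζU] at h1
    exact (mul_eq_zero.1 h1).resolve_left (hKne ζ hζU)
  obtain ⟨r1, r2⟩ := A4Rect.zeros (W := w) (p := pp l) hx15 hT hU hRsub hw
    (pp_diff l).differentiableOn
    (fun lam hlam => pp_ne l (by
      rw [mem_reProdIm] at hlam
      linarith [hlam.1.1])) (Zs l) hZR hwz (by
      intro lam hlam
      obtain ⟨hm, hcase⟩ := A4Rect.mem_frontier hx15 hT hlam
      rw [mem_reProdIm, mem_Icc, mem_Icc] at hm
      have hBd : lam ∈ BdR x0 x1 T := by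
        have hab : |lam.im| ≤ T := abs_le.2 hm.2
        rcases hcase with h | h | h | h
        · exact Or.inl ⟨h, hab⟩
        · exact Or.inr (Or.inr ⟨h, hab⟩)
        · refine Or.inr (Or.inl ⟨?_, hm.1.1, hm.1.2⟩)
          rw [h, abs_neg, abs_of_pos hT]
        · refine Or.inr (Or.inl ⟨?_, hm.1.1, hm.1.2⟩)
          rw [h, abs_of_pos hT]
      have hre : -1 / 2 ≤ lam.re := by linarith [hm.1.1]
      have key := hC lam hBd _ _ (chain hr hV hre hM) (chain hr hV (lam := cj lam)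
        (by rw [conj_re]; exact hre) hM)
      rw [PP_eq] at key
      exact key)
  constructor
  · intro lam h1 h2 h3 h4
    have hmem : lam ∈ Icc x0 x1 ×ℂ Icc (-T) T := by
      rw [mem_reProdIm]
      exact ⟨⟨h1, h2⟩, abs_le.1 h3⟩
    rw [hDw lam (hRsub hmem)]
    exact mul_ne_zero (hKne lam (hRsub hmem)) (r1 lam hmem h4)
  · intro ζ hζ
    have hζU : ζ ∈ U := by
      have := hZR ζ hζ
      unfold A4Rect.Rc at this
      rw [mem_reProdIm] at this
      show -1 / 2 < ζ.re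
      linarith [this.1.1]
    have hev : Dw l om rho =ᶠ[𝓝 ζ] fun lam => K lam * w lam := by
      filter_upwards [hU.mem_nhds hζU] with lam hlam
      exact hDw lam hlam
    rw [hev.deriv_eq]
    have hwd' : DifferentiableAt ℂ w ζ := (hw ζ hζU).differentiableAt (hU.mem_nhds hζU)
    have hd := ((hKdiff ζ hζU).hasDerivAt.mul hwd'.hasDerivAt).deriv
    have e3 : (K * w) = fun lam => K lam * w lam := rfl
    rw [e3] at hd
    rw [hd, hwz ζ hζ, mul_zero, zero_add]
    exact mul_ne_zero (hKne ζ hζU) (r2 ζ hζ)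


/-- What is known outside the small rectangles (helper522/11/523, sum criterion). -/
structure Outside (om rho : ℝ) : Prop where
  o0 : ∀ lam : ℂ, 0 ≤ lam.re → (3 / 2 ≤ lam.re ∨ 3 ≤ |lam.im|) → Dw 0 om rho lam ≠ 0
  o1 : ∀ lam : ℂ, 0 ≤ lam.re → (1 ≤ lam.re ∨ 5 / 2 ≤ |lam.im|) → Dw 1 om rho lam ≠ 0
  o2 : ∀ lam : ℂ, 0 ≤ lam.re → (1 / 2 ≤ lam.re ∨ 2 ≤ |lam.im|) → Dw 2 om rho lam ≠ 0
  o3 : ∀ l : ℕ, 3 ≤ l → ∀ lam : ℂ, 0 ≤ lam.re → Dw l om rho lam ≠ 0

/-- The three certificates. -/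
structure Certs (om rho : ℝ) : Prop where
  c0 : ∃ M : ℕ, 3 ≤ M ∧ CertR 0 om rho (-1 / 20) (3 / 2) 3 M
  c1 : ∃ M : ℕ, 3 ≤ M ∧ CertR 1 om rho 0 1 (5 / 2) M
  c2 : ∃ M : ℕ, 3 ≤ M ∧ CertR 2 om rho 0 (1 / 2) 2 M

/-- **A4**: all zeros of `Dw` in the closed right half plane. -/
theorem all {om rho : ℝ} (hr : 0 < rho) (hom : om ≠ 0)
    (hJ : J (1 - I * om) (5 + I * om) rho = 0) (hV : ∀ l, l ≤ 2 → ThmV l om rho)
    (hC : Certs om rho) (hO : Outside om rho) :
    (∀ (l : ℕ) (lam : ℂ), 0 ≤ lam.re → lam ∉ Zs l → Dw l om rho lam ≠ 0) ∧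
      ∀ (l : ℕ), ∀ ζ ∈ Zs l, Dw l om rho ζ = 0 ∧ deriv (Dw l om rho) ζ ≠ 0 := by
  obtain ⟨M0, hM0, hC0⟩ := hC.c0
  obtain ⟨M1, hM1, hC1⟩ := hC.c1
  obtain ⟨M2, hM2, hC2⟩ := hC.c2
  have r0 := rectR hr hom hJ (hV 0 (by norm_num)) hM0 (by norm_num) (by norm_num) (by norm_num)
    (fun _ => ⟨by norm_num, by norm_num⟩) (fun h => absurd h (by norm_num)) (by norm_num) hC0
  have r1 := rectR hr hom hJ (hV 1 (by norm_num)) hM1 (by norm_num) (by norm_num) (by norm_num)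
    (fun h => absurd h (by norm_num)) (fun _ => by norm_num) (by norm_num) hC1
  have r2 := rectR hr hom hJ (hV 2 (by norm_num)) hM2 (by norm_num) (by norm_num) (by norm_num)
    (fun h => absurd h (by norm_num)) (fun h => absurd h (by norm_num)) (by norm_num) hC2
  constructor
  · intro l lam h1 h2
    match l, h2 with
    | 0, h2 =>
      by_cases hcase : 3 / 2 ≤ lam.re ∨ 3 ≤ |lam.im|
      · exact hO.o0 lam h1 hcase
      · push Not at hcase
        exact r0.1 lam (by linarith) hcase.1.le hcase.2.le h2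
    | 1, h2 =>
      by_cases hcase : 1 ≤ lam.re ∨ 5 / 2 ≤ |lam.im|
      · exact hO.o1 lam h1 hcase
      · push Not at hcase
        exact r1.1 lam (by linarith) hcase.1.le hcase.2.le h2
    | 2, h2 =>
      by_cases hcase : 1 / 2 ≤ lam.re ∨ 2 ≤ |lam.im|
      · exact hO.o2 lam h1 hcase
      · push Not at hcase
        exact r2.1 lam (by linarith) hcase.1.le hcase.2.le h2
    | (n + 3), _ => exact hO.o3 (n + 3) (by omega) lam h1
  · intro l ζ hζ
    refine ⟨Dw_zero hr hom hJ ζ hζ, ?_⟩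
    match l, hζ with
    | 0, hζ => exact r0.2 ζ hζ
    | 1, hζ => exact r1.2 ζ hζ
    | (n + 2), hζ => simp [Zs] at hζ

theorem Wr_eq_Dw (l : ℕ) (om R : ℝ) (hR : 0 < R) (lam : ℂ) :
    A.Wr l om R lam = -(R : ℂ) ^ (2 * l) * (2 / R) * Dw l om (R ^ 2 / 4) lam := by
  rw [A.Wr_eq]
  unfold Dw Lf Ly ak
  have hR' : (R : ℂ) ≠ 0 := by exact_mod_cast hR.ne'
  simp only [Nat.cast_zero, add_zero, map_neg, map_mul, conj_ofReal]
  rw [show lam + (l : ℂ) / 2 - I * om = lam + l / 2 - I * om from rfl]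
  push_cast
  field_simp
  ring

/-- the profile equation in terms of `fo1`. -/
theorem J_zero_of_fo1 {om R : ℝ} (hR : 0 < R) (hom : om ≠ 0)
    (h : A.fo1 0 (-(I * om)) R = 0) :
    J (1 - I * om) (5 + I * om) ((R ^ 2 / 4 : ℝ) : ℂ) = 0 := by
  unfold A.fo1 W1 at h
  have hR' : (R : ℂ) ≠ 0 := by exact_mod_cast hR.ne'
  have hom' : (om : ℂ) ≠ 0 := by exact_mod_cast hom
  simp only [Nat.cast_zero, zero_div, zero_mul, pow_zero, one_mul, add_zero, zero_add] at h
  rw [show -(I * (om : ℂ)) + 1 = 1 - I * om by ring,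
    show (6 : ℂ) - -(I * om) - 1 = 5 + I * om by ring] at h
  rcases mul_eq_zero.1 h with h1 | h1
  · exact absurd h1 (div_ne_zero hR' (by norm_num))
  · rcases mul_eq_zero.1 h1 with h2 | h2
    · exfalso
      have : I * -(I * (om : ℂ)) = om := by linear_combination (-(om : ℂ)) * I_sq
      rw [this] at h2
      exact hom' h2
    · exact h2

/-- **Export to `ABIface.AData`.** -/
theorem export_wr {om R : ℝ} (hR : 0 < R) (hom : om ≠ 0)
    (hf : A.fo1 0 (-(I * om)) R = 0) (hV : ∀ l, l ≤ 2 → ThmV l om (R ^ 2 / 4))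
    (hC : Certs om (R ^ 2 / 4)) (hO : Outside om (R ^ 2 / 4)) :
    (∀ (l : ℕ) (lam : ℂ), 0 ≤ lam.re → A.Wr l om R lam = 0 →
      (l = 0 ∧ (lam = 0 ∨ lam = 1)) ∨ (l = 1 ∧ lam = 1 / 2)) ∧
    A.Wr 0 om R 0 = 0 ∧ A.Wr 0 om R 1 = 0 ∧ A.Wr 1 om R (1 / 2) = 0 ∧
    (∃ w : ℂ, w ≠ 0 ∧ HasDerivAt (A.Wr 0 om R) w 0) ∧
    (∃ w : ℂ, w ≠ 0 ∧ HasDerivAt (A.Wr 0 om R) w 1) ∧
    (∃ w : ℂ, w ≠ 0 ∧ HasDerivAt (A.Wr 1 om R) w (1 / 2)) := by
  have hr : 0 < R ^ 2 / 4 := by positivity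
  obtain ⟨h1, h2⟩ := all hr hom (J_zero_of_fo1 hR hom hf) hV hC hO
  have hR' : (R : ℂ) ≠ 0 := by exact_mod_cast hR.ne'
  have hc : ∀ l : ℕ, -(R : ℂ) ^ (2 * l) * (2 / R) ≠ 0 := by
    intro l
    exact mul_ne_zero (neg_ne_zero.2 (pow_ne_zero _ hR')) (div_ne_zero (by norm_num) hR')
  have hz : ∀ (l : ℕ), ∀ ζ ∈ Zs l, A.Wr l om R ζ = 0 := by
    intro l ζ hζ
    rw [Wr_eq_Dw l om R hR, (h2 l ζ hζ).1, mul_zero]
  have hd : ∀ (l : ℕ), ∀ ζ ∈ Zs l, ∃ w : ℂ, w ≠ 0 ∧ HasDerivAt (A.Wr l om R) w ζ := by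
    intro l ζ hζ
    have hne := (h2 l ζ hζ).2
    have hda : DifferentiableAt ℂ (Dw l om (R ^ 2 / 4)) ζ :=
      differentiableAt_of_deriv_ne_zero hne
    refine ⟨-(R : ℂ) ^ (2 * l) * (2 / R) * deriv (Dw l om (R ^ 2 / 4)) ζ,
      mul_ne_zero (hc l) hne, ?_⟩
    have := hda.hasDerivAt.const_mul (-(R : ℂ) ^ (2 * l) * (2 / R))
    have e : A.Wr l om R = fun lam => -(R : ℂ) ^ (2 * l) * (2 / R) * Dw l om (R ^ 2 / 4) lam :=
      funext fun lam => Wr_eq_Dw l om R hR lam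
    rw [e]; exact this
  refine ⟨?_, hz 0 0 (by simp [Zs]), hz 0 1 (by simp [Zs]), hz 1 (1 / 2) (by simp [Zs]),
    hd 0 0 (by simp [Zs]), hd 0 1 (by simp [Zs]), hd 1 (1 / 2) (by simp [Zs])⟩
  intro l lam hlam h0
  by_contra hcon
  push Not at hcon
  have hnot : lam ∉ Zs l := by
    intro hmem
    match l, hcon, hmem with
    | 0, hcon, hmem =>
      have : lam = 0 ∨ lam = 1 := by simpa [Zs] using hmem
      have h3 := hcon.1 rfl
      rcases this with h | h
      · exact h3.1 h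
      · exact h3.2 h
    | 1, hcon, hmem =>
      have : lam = 1 / 2 := by simpa [Zs] using hmem
      exact hcon.2 rfl this
    | (n + 2), _, hmem => simp [Zs] at hmem
  rw [Wr_eq_Dw l om R hR] at h0
  exact (h1 l lam hlam hnot) ((mul_eq_zero.1 h0).resolve_left (hc l))

end

end Crest.Agent.R086.A4
end

-- ▼ part R086/A4Out
section

/-!
Row 86, Part A4 (helper522): `Outside om rho` (371's `A4Main2`) from Lemma HP (helper11) and the 14
numeric inequalities of `A4Num`.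
-/

set_option autoImplicit false

open Complex Set

namespace Crest.Agent.R086.A4

open Crest.Agent.R086.JCx Crest.Agent.R086.A4HP

local notation "cj" => (starRingEnd ℂ)

theorem hp_f {rho om sg mu sg0 mu0 ur ui v p0 p1 : ℝ} (hrL : 2.705068 ≤ rho) (hrH : rho ≤ 2.7050684)
    (hom : om ≤ 0.3347762) (hsg : sg0 ≤ sg) (hmu : mu0 ≤ mu) (hur : 0 ≤ ur) (hui : 0 ≤ ui)
    (hv : v ≤ 0)
    (h0 : p0 ≤ -(2.7050684 ^ 2 / 4) * ur + 2.705068 * (-ui * (3 - sg0) + (mu0 - 0.3347762) * ur))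
    (h0' : p0 ≤ -(2.7050684 ^ 2 / 4) * ur + 2.7050684 * (-ui * (3 - sg0) + (mu0 - 0.3347762) * ur))
    (h1 : p1 ≤ -(2.705068 ^ 2 / 4) * v) :
    ∀ t : ℝ, 0 ≤ t → p0 + p1 * t ≤ -(rho ^ 2 / 4) * (ur + t * v) +
      rho * (-ui * (3 - sg) + (mu - om) * ur) := by
  intro t ht
  have hr0 : 0 ≤ rho := by linarith
  have a1 : -ui * (3 - sg0) + (mu0 - 0.3347762) * ur ≤ -ui * (3 - sg) + (mu - om) * ur := by
    nlinarith [mul_nonneg hui (sub_nonneg.2 hsg), mul_nonneg hur (sub_nonneg.2 hmu),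
      mul_nonneg hur (sub_nonneg.2 hom)]
  have a2 := mul_le_mul_of_nonneg_left a1 hr0
  have a3 : 2.705068 ^ 2 ≤ rho ^ 2 := by nlinarith
  have a4 : rho ^ 2 ≤ 2.7050684 ^ 2 := by nlinarith
  have a5 : p0 ≤ -(2.7050684 ^ 2 / 4) * ur + rho * (-ui * (3 - sg0) + (mu0 - 0.3347762) * ur) := by
    rcases le_total 0 (-ui * (3 - sg0) + (mu0 - 0.3347762) * ur) with h | h
    · have := mul_le_mul_of_nonneg_right hrL h
      linarith
    · have := mul_le_mul_of_nonpos_right hrH h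
      linarith
  have a6 : -(2.7050684 ^ 2 / 4) * ur ≤ -(rho ^ 2 / 4) * ur := by
    have := mul_le_mul_of_nonneg_right a4 hur
    linarith
  have a7 : p1 * t ≤ -(rho ^ 2 / 4) * (t * v) := by
    have b1 : p1 ≤ -(rho ^ 2 / 4) * v := by
      have := mul_le_mul_of_nonpos_right a3 hv
      linarith
    have := mul_le_mul_of_nonneg_right b1 ht
    calc p1 * t ≤ -(rho ^ 2 / 4) * v * t := this
      _ = -(rho ^ 2 / 4) * (t * v) := by ring
  have a8 : -(rho ^ 2 / 4) * (ur + t * v) = -(rho ^ 2 / 4) * ur + -(rho ^ 2 / 4) * (t * v) := by ring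
  rw [a8]
  linarith

theorem hp_n {rho om sg mu sg0 mu0 ur ui v p0 p1 : ℝ} (hrL : 2.705068 ≤ rho) (hrH : rho ≤ 2.7050684)
    (hom : 0.3347760 ≤ om) (hsg : sg0 ≤ sg) (hmu : mu ≤ -mu0) (hur : ur ≤ 0) (hui : 0 ≤ ui)
    (hv : v ≤ 0)
    (h0 : p0 ≤ -(2.705068 ^ 2 / 4) * ur + 2.705068 * (-ui * (3 - sg0) + (-mu0 - 0.3347760) * ur))
    (h0' : p0 ≤ -(2.705068 ^ 2 / 4) * ur + 2.7050684 * (-ui * (3 - sg0) + (-mu0 - 0.3347760) * ur))
    (h1 : p1 ≤ -(2.705068 ^ 2 / 4) * v) :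
    ∀ t : ℝ, 0 ≤ t → p0 + p1 * t ≤ -(rho ^ 2 / 4) * (ur + t * v) +
      rho * (-ui * (3 - sg) + (mu - om) * ur) := by
  intro t ht
  have hr0 : 0 ≤ rho := by linarith
  have hur' : 0 ≤ -ur := by linarith
  have a1 : -ui * (3 - sg0) + (-mu0 - 0.3347760) * ur ≤ -ui * (3 - sg) + (mu - om) * ur := by
    nlinarith [mul_nonneg hui (sub_nonneg.2 hsg), mul_nonneg hur' (sub_nonneg.2 hmu),
      mul_nonneg hur' (sub_nonneg.2 hom)]
  have a2 := mul_le_mul_of_nonneg_left a1 hr0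
  have a3 : 2.705068 ^ 2 ≤ rho ^ 2 := by nlinarith
  have a5 : p0 ≤ -(2.705068 ^ 2 / 4) * ur + rho * (-ui * (3 - sg0) + (-mu0 - 0.3347760) * ur) := by
    rcases le_total 0 (-ui * (3 - sg0) + (-mu0 - 0.3347760) * ur) with h | h
    · have := mul_le_mul_of_nonneg_right hrL h
      linarith
    · have := mul_le_mul_of_nonpos_right hrH h
      linarith
  have a6 : -(2.705068 ^ 2 / 4) * ur ≤ -(rho ^ 2 / 4) * ur := by
    have := mul_le_mul_of_nonpos_right a3 hur
    linarith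
  have a7 : p1 * t ≤ -(rho ^ 2 / 4) * (t * v) := by
    have b1 : p1 ≤ -(rho ^ 2 / 4) * v := by
      have := mul_le_mul_of_nonpos_right a3 hv
      linarith
    have := mul_le_mul_of_nonneg_right b1 ht
    calc p1 * t ≤ -(rho ^ 2 / 4) * v * t := this
      _ = -(rho ^ 2 / 4) * (t * v) := by ring
  have a8 : -(rho ^ 2 / 4) * (ur + t * v) = -(rho ^ 2 / 4) * ur + -(rho ^ 2 / 4) * (t * v) := by ring
  rw [a8]
  linarith

theorem pair_P1 {l : ℕ} (hl : 3 ≤ l) {om rho : ℝ} (ho1 : 0.3347760 ≤ om) (ho2 : om ≤ 0.3347762)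
    (hr1 : 2.705068 ≤ rho) (hr2 : rho ≤ 2.7050684) {lam : ℂ} (hre : 0 ≤ lam.re)
    (him : 0 ≤ lam.im) : Dw l om rho lam ≠ 0 := by
  have h0 : 0 < rho := by linarith
  have hre0 : 0 ≤ lam.re := by linarith
  obtain ⟨f1, f2⟩ := form (l := l) (om := om) (lam := lam) h0 hre0
    (g1 := (40/41)) (g2 := -(9/41)) (e1 := (16/65)) (e2 := (63/65))
    (by norm_num) (by norm_num) (by norm_num) (by norm_num) (by norm_num)
    (al := (73/2665)) (ur := (1207/2665)) (by norm_num) (by norm_num)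
    (by norm_num) (by norm_num) num_P1f (by
      intro t ht
      have h3 : (3 : ℝ) ≤ l := by exact_mod_cast hl
      have h4 : (16 : ℝ) ≤ (((l : ℝ) + 5) / 2) ^ 2 := by nlinarith
      exact mul_le_mul_of_nonneg_right h4 (by positivity))
    (hp_f hr1 hr2 ho2 hre him (by norm_num) (by norm_num) (by norm_num) (by norm_num)
      (by norm_num) (by norm_num))
  obtain ⟨n1, n2⟩ := form (l := l) (om := om) (lam := cj lam) h0 (by rw [conj_re]; exact hre0)
    (g1 := (40/41)) (g2 := (9/41)) (e1 := (9/41)) (e2 := (40/41))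
    (by norm_num) (by norm_num) (by norm_num) (by norm_num) (by norm_num)
    (al := (720/1681)) (ur := 0) (by norm_num) (by norm_num)
    (by norm_num) (by norm_num) num_P1n (by
      intro t ht
      have h3 : (3 : ℝ) ≤ l := by exact_mod_cast hl
      have h4 : (16 : ℝ) ≤ (((l : ℝ) + 5) / 2) ^ 2 := by nlinarith
      exact mul_le_mul_of_nonneg_right h4 (by positivity))
    (by
      rw [conj_re, conj_im]
      exact hp_n hr1 hr2 ho1 hre (neg_le_neg him) (by norm_num) (by norm_num) (by norm_num)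
        (by norm_num) (by norm_num) (by norm_num))
  have hcj : cj (⟨(40/41), (9/41)⟩ : ℂ) = (⟨(40/41), -(9/41)⟩ : ℂ) := by
    apply Complex.ext <;> simp
  refine dw_ne_of_forms (⟨(40/41), (9/41)⟩ : ℂ) _ _ f1 n1 (by rw [hcj]; exact f2) n2 ?_

  have h3 : (3 : ℝ) ≤ l := by exact_mod_cast hl
  norm_num
  linarith

theorem pair_P2 {om rho : ℝ} (ho1 : 0.3347760 ≤ om) (ho2 : om ≤ 0.3347762)
    (hr1 : 2.705068 ≤ rho) (hr2 : rho ≤ 2.7050684) {lam : ℂ} (hre : (1/2) ≤ lam.re)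
    (him : 0 ≤ lam.im) : Dw 2 om rho lam ≠ 0 := by
  have h0 : 0 < rho := by linarith
  have hre0 : 0 ≤ lam.re := by linarith
  obtain ⟨f1, f2⟩ := form (l := 2) (om := om) (lam := lam) h0 hre0
    (g1 := (60/61)) (g2 := -(11/61)) (e1 := (16/65)) (e2 := (63/65))
    (by norm_num) (by norm_num) (by norm_num) (by norm_num) (by norm_num)
    (al := (267/3965)) (ur := (1653/3965)) (by norm_num) (by norm_num)
    (by norm_num) (by norm_num) num_P2f (fun t ht => le_of_eq (by norm_num))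
    (hp_f hr1 hr2 ho2 hre him (by norm_num) (by norm_num) (by norm_num) (by norm_num)
      (by norm_num) (by norm_num))
  obtain ⟨n1, n2⟩ := form (l := 2) (om := om) (lam := cj lam) h0 (by rw [conj_re]; exact hre0)
    (g1 := (60/61)) (g2 := (11/61)) (e1 := (11/61)) (e2 := (60/61))
    (by norm_num) (by norm_num) (by norm_num) (by norm_num) (by norm_num)
    (al := (1320/3721)) (ur := 0) (by norm_num) (by norm_num)
    (by norm_num) (by norm_num) num_P2n (fun t ht => le_of_eq (by norm_num))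
    (by
      rw [conj_re, conj_im]
      exact hp_n hr1 hr2 ho1 hre (neg_le_neg him) (by norm_num) (by norm_num) (by norm_num)
        (by norm_num) (by norm_num) (by norm_num))
  have hcj : cj (⟨(60/61), (11/61)⟩ : ℂ) = (⟨(60/61), -(11/61)⟩ : ℂ) := by
    apply Complex.ext <;> simp
  refine dw_ne_of_forms (⟨(60/61), (11/61)⟩ : ℂ) _ _ f1 n1 (by rw [hcj]; exact f2) n2 ?_

  norm_num

theorem pair_P3 {om rho : ℝ} (ho1 : 0.3347760 ≤ om) (ho2 : om ≤ 0.3347762)
    (hr1 : 2.705068 ≤ rho) (hr2 : rho ≤ 2.7050684) {lam : ℂ} (hre : 0 ≤ lam.re)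
    (him : 2 ≤ lam.im) : Dw 2 om rho lam ≠ 0 := by
  have h0 : 0 < rho := by linarith
  have hre0 : 0 ≤ lam.re := by linarith
  obtain ⟨f1, f2⟩ := form (l := 2) (om := om) (lam := lam) h0 hre0
    (g1 := (77/85)) (g2 := -(36/85)) (e1 := (8/17)) (e2 := (15/17))
    (by norm_num) (by norm_num) (by norm_num) (by norm_num) (by norm_num)
    (al := (76/1445)) (ur := (4/5)) (by norm_num) (by norm_num)
    (by norm_num) (by norm_num) num_P3f (fun t ht => le_of_eq (by norm_num))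
    (hp_f hr1 hr2 ho2 hre him (by norm_num) (by norm_num) (by norm_num) (by norm_num)
      (by norm_num) (by norm_num))
  obtain ⟨n1, n2⟩ := form (l := 2) (om := om) (lam := cj lam) h0 (by rw [conj_re]; exact hre0)
    (g1 := (77/85)) (g2 := (36/85)) (e1 := 0) (e2 := 1)
    (by norm_num) (by norm_num) (by norm_num) (by norm_num) (by norm_num)
    (al := (36/85)) (ur := (-36/85)) (by norm_num) (by norm_num)
    (by norm_num) (by norm_num) num_P3n (fun t ht => le_of_eq (by norm_num))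
    (by
      rw [conj_re, conj_im]
      exact hp_n hr1 hr2 ho1 hre (neg_le_neg him) (by norm_num) (by norm_num) (by norm_num)
        (by norm_num) (by norm_num) (by norm_num))
  have hcj : cj (⟨(77/85), (36/85)⟩ : ℂ) = (⟨(77/85), -(36/85)⟩ : ℂ) := by
    apply Complex.ext <;> simp
  refine dw_ne_of_forms (⟨(77/85), (36/85)⟩ : ℂ) _ _ f1 n1 (by rw [hcj]; exact f2) n2 ?_

  norm_num

theorem pair_P4 {om rho : ℝ} (ho1 : 0.3347760 ≤ om) (ho2 : om ≤ 0.3347762)
    (hr1 : 2.705068 ≤ rho) (hr2 : rho ≤ 2.7050684) {lam : ℂ} (hre : 1 ≤ lam.re)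
    (him : 0 ≤ lam.im) : Dw 1 om rho lam ≠ 0 := by
  have h0 : 0 < rho := by linarith
  have hre0 : 0 ≤ lam.re := by linarith
  obtain ⟨f1, f2⟩ := form (l := 1) (om := om) (lam := lam) h0 hre0
    (g1 := (84/85)) (g2 := -(13/85)) (e1 := (16/65)) (e2 := (63/65))
    (by norm_num) (by norm_num) (by norm_num) (by norm_num) (by norm_num)
    (al := (21/221)) (ur := (2163/5525)) (by norm_num) (by norm_num)
    (by norm_num) (by norm_num) num_P4f (fun t ht => le_of_eq (by norm_num))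
    (hp_f hr1 hr2 ho2 hre him (by norm_num) (by norm_num) (by norm_num) (by norm_num)
      (by norm_num) (by norm_num))
  obtain ⟨n1, n2⟩ := form (l := 1) (om := om) (lam := cj lam) h0 (by rw [conj_re]; exact hre0)
    (g1 := (84/85)) (g2 := (13/85)) (e1 := (13/85)) (e2 := (84/85))
    (by norm_num) (by norm_num) (by norm_num) (by norm_num) (by norm_num)
    (al := (2184/7225)) (ur := 0) (by norm_num) (by norm_num)
    (by norm_num) (by norm_num) num_P4n (fun t ht => le_of_eq (by norm_num))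
    (by
      rw [conj_re, conj_im]
      exact hp_n hr1 hr2 ho1 hre (neg_le_neg him) (by norm_num) (by norm_num) (by norm_num)
        (by norm_num) (by norm_num) (by norm_num))
  have hcj : cj (⟨(84/85), (13/85)⟩ : ℂ) = (⟨(84/85), -(13/85)⟩ : ℂ) := by
    apply Complex.ext <;> simp
  refine dw_ne_of_forms (⟨(84/85), (13/85)⟩ : ℂ) _ _ f1 n1 (by rw [hcj]; exact f2) n2 ?_

  norm_num

theorem pair_P5 {om rho : ℝ} (ho1 : 0.3347760 ≤ om) (ho2 : om ≤ 0.3347762)
    (hr1 : 2.705068 ≤ rho) (hr2 : rho ≤ 2.7050684) {lam : ℂ} (hre : 0 ≤ lam.re)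
    (him : (5/2) ≤ lam.im) : Dw 1 om rho lam ≠ 0 := by
  have h0 : 0 < rho := by linarith
  have hre0 : 0 ≤ lam.re := by linarith
  obtain ⟨f1, f2⟩ := form (l := 1) (om := om) (lam := lam) h0 hre0
    (g1 := (77/85)) (g2 := -(36/85)) (e1 := (8/17)) (e2 := (15/17))
    (by norm_num) (by norm_num) (by norm_num) (by norm_num) (by norm_num)
    (al := (76/1445)) (ur := (4/5)) (by norm_num) (by norm_num)
    (by norm_num) (by norm_num) num_P5f (fun t ht => le_of_eq (by norm_num))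
    (hp_f hr1 hr2 ho2 hre him (by norm_num) (by norm_num) (by norm_num) (by norm_num)
      (by norm_num) (by norm_num))
  obtain ⟨n1, n2⟩ := form (l := 1) (om := om) (lam := cj lam) h0 (by rw [conj_re]; exact hre0)
    (g1 := (77/85)) (g2 := (36/85)) (e1 := 0) (e2 := 1)
    (by norm_num) (by norm_num) (by norm_num) (by norm_num) (by norm_num)
    (al := (36/85)) (ur := (-36/85)) (by norm_num) (by norm_num)
    (by norm_num) (by norm_num) num_P5n (fun t ht => le_of_eq (by norm_num))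
    (by
      rw [conj_re, conj_im]
      exact hp_n hr1 hr2 ho1 hre (neg_le_neg him) (by norm_num) (by norm_num) (by norm_num)
        (by norm_num) (by norm_num) (by norm_num))
  have hcj : cj (⟨(77/85), (36/85)⟩ : ℂ) = (⟨(77/85), -(36/85)⟩ : ℂ) := by
    apply Complex.ext <;> simp
  refine dw_ne_of_forms (⟨(77/85), (36/85)⟩ : ℂ) _ _ f1 n1 (by rw [hcj]; exact f2) n2 ?_

  norm_num

theorem pair_P6 {om rho : ℝ} (ho1 : 0.3347760 ≤ om) (ho2 : om ≤ 0.3347762)
    (hr1 : 2.705068 ≤ rho) (hr2 : rho ≤ 2.7050684) {lam : ℂ} (hre : (3/2) ≤ lam.re)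
    (him : 0 ≤ lam.im) : Dw 0 om rho lam ≠ 0 := by
  have h0 : 0 < rho := by linarith
  have hre0 : 0 ≤ lam.re := by linarith
  obtain ⟨f1, f2⟩ := form (l := 0) (om := om) (lam := lam) h0 hre0
    (g1 := (84/85)) (g2 := -(13/85)) (e1 := (7/25)) (e2 := (24/25))
    (by norm_num) (by norm_num) (by norm_num) (by norm_num) (by norm_num)
    (al := (276/2125)) (ur := (36/85)) (by norm_num) (by norm_num)
    (by norm_num) (by norm_num) num_P6f (fun t ht => le_of_eq (by norm_num))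
    (hp_f hr1 hr2 ho2 hre him (by norm_num) (by norm_num) (by norm_num) (by norm_num)
      (by norm_num) (by norm_num))
  obtain ⟨n1, n2⟩ := form (l := 0) (om := om) (lam := cj lam) h0 (by rw [conj_re]; exact hre0)
    (g1 := (84/85)) (g2 := (13/85)) (e1 := (13/85)) (e2 := (84/85))
    (by norm_num) (by norm_num) (by norm_num) (by norm_num) (by norm_num)
    (al := (2184/7225)) (ur := 0) (by norm_num) (by norm_num)
    (by norm_num) (by norm_num) num_P6n (fun t ht => le_of_eq (by norm_num))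
    (by
      rw [conj_re, conj_im]
      exact hp_n hr1 hr2 ho1 hre (neg_le_neg him) (by norm_num) (by norm_num) (by norm_num)
        (by norm_num) (by norm_num) (by norm_num))
  have hcj : cj (⟨(84/85), (13/85)⟩ : ℂ) = (⟨(84/85), -(13/85)⟩ : ℂ) := by
    apply Complex.ext <;> simp
  refine dw_ne_of_forms (⟨(84/85), (13/85)⟩ : ℂ) _ _ f1 n1 (by rw [hcj]; exact f2) n2 ?_

  norm_num

theorem pair_P7 {om rho : ℝ} (ho1 : 0.3347760 ≤ om) (ho2 : om ≤ 0.3347762)
    (hr1 : 2.705068 ≤ rho) (hr2 : rho ≤ 2.7050684) {lam : ℂ} (hre : 0 ≤ lam.re)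
    (him : 3 ≤ lam.im) : Dw 0 om rho lam ≠ 0 := by
  have h0 : 0 < rho := by linarith
  have hre0 : 0 ≤ lam.re := by linarith
  obtain ⟨f1, f2⟩ := form (l := 0) (om := om) (lam := lam) h0 hre0
    (g1 := (77/85)) (g2 := -(36/85)) (e1 := (8/17)) (e2 := (15/17))
    (by norm_num) (by norm_num) (by norm_num) (by norm_num) (by norm_num)
    (al := (76/1445)) (ur := (4/5)) (by norm_num) (by norm_num)
    (by norm_num) (by norm_num) num_P7f (fun t ht => le_of_eq (by norm_num))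
    (hp_f hr1 hr2 ho2 hre him (by norm_num) (by norm_num) (by norm_num) (by norm_num)
      (by norm_num) (by norm_num))
  obtain ⟨n1, n2⟩ := form (l := 0) (om := om) (lam := cj lam) h0 (by rw [conj_re]; exact hre0)
    (g1 := (77/85)) (g2 := (36/85)) (e1 := 0) (e2 := 1)
    (by norm_num) (by norm_num) (by norm_num) (by norm_num) (by norm_num)
    (al := (36/85)) (ur := (-36/85)) (by norm_num) (by norm_num)
    (by norm_num) (by norm_num) num_P7n (fun t ht => le_of_eq (by norm_num))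
    (by
      rw [conj_re, conj_im]
      exact hp_n hr1 hr2 ho1 hre (neg_le_neg him) (by norm_num) (by norm_num) (by norm_num)
        (by norm_num) (by norm_num) (by norm_num))
  have hcj : cj (⟨(77/85), (36/85)⟩ : ℂ) = (⟨(77/85), -(36/85)⟩ : ℂ) := by
    apply Complex.ext <;> simp
  refine dw_ne_of_forms (⟨(77/85), (36/85)⟩ : ℂ) _ _ f1 n1 (by rw [hcj]; exact f2) n2 ?_

  norm_num

/-- **371's `Outside`**. -/
theorem outside {om rho : ℝ} (ho1 : 0.3347760 ≤ om) (ho2 : om ≤ 0.3347762)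
    (hr1 : 2.705068 ≤ rho) (hr2 : rho ≤ 2.7050684) : Outside om rho := by
  have key : ∀ (l : ℕ) (Q : ℝ → ℝ → Prop),
      (∀ lam : ℂ, 0 ≤ lam.im → 0 ≤ lam.re ∧ Q lam.re |lam.im| → Dw l om rho lam ≠ 0) →
      ∀ lam : ℂ, 0 ≤ lam.re → Q lam.re |lam.im| → Dw l om rho lam ≠ 0 := by
    intro l Q h lam h1 h2
    exact Dw_ne_of_upper (P := fun a b => 0 ≤ a ∧ Q a b) h lam ⟨h1, h2⟩
  refine ⟨key 0 (fun a b => 3 / 2 ≤ a ∨ 3 ≤ b) ?_, key 1 (fun a b => 1 ≤ a ∨ 5 / 2 ≤ b) ?_,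
    key 2 (fun a b => 1 / 2 ≤ a ∨ 2 ≤ b) ?_, ?_⟩
  · rintro lam h0 ⟨h1, h2 | h2⟩
    · exact pair_P6 ho1 ho2 hr1 hr2 h2 h0
    · exact pair_P7 ho1 ho2 hr1 hr2 h1 (by rwa [abs_of_nonneg h0] at h2)
  · rintro lam h0 ⟨h1, h2 | h2⟩
    · exact pair_P4 ho1 ho2 hr1 hr2 h2 h0
    · exact pair_P5 ho1 ho2 hr1 hr2 h1 (by rwa [abs_of_nonneg h0] at h2)
  · rintro lam h0 ⟨h1, h2 | h2⟩
    · exact pair_P2 ho1 ho2 hr1 hr2 h2 h0
    · exact pair_P3 ho1 ho2 hr1 hr2 h1 (by rwa [abs_of_nonneg h0] at h2)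
  · intro l hl lam h1
    exact key l (fun _ _ => True) (fun lam h0 h => pair_P1 hl ho1 ho2 hr1 hr2 h.1 h0) lam h1 trivial

end Crest.Agent.R086.A4
end

-- ▼ part R086/FxAll
section

/-!
Row 86, Part A4 (helper444): the three numeric certificates of 371's `A4.Certs`.
-/

set_option autoImplicit false

namespace Crest.Agent.R086.Fx

theorem certs {om rho : ℝ} (ho1 : (0.3347760 : ℝ) ≤ om) (ho2 : om ≤ 0.3347762)
    (hr1 : (2.7050680 : ℝ) ≤ rho) (hr2 : rho ≤ 2.7050684) : A4.Certs om rho where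
  c0 := ⟨10, by norm_num, cert0 ho1 ho2 hr1 hr2⟩
  c1 := ⟨10, by norm_num, cert1 ho1 ho2 hr1 hr2⟩
  c2 := ⟨10, by norm_num, cert2 ho1 ho2 hr1 hr2⟩

end Crest.Agent.R086.Fx
end

-- ▼ part R086/PartA
section

/-!
Row 86, Part A (helper522): final assembly `partA : PartA`.
-/

set_option autoImplicit false

open Complex Set

namespace Crest.Agent.R086.A

/-- 444's `W` at `a = -i om`, `b = 6` is 592's `W om`. -/
theorem fo_eq_Ur {om r : ℝ} (hr : 0 < r) : fo 0 (-(I * om)) r = A3.Ur om r := by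
  have h0 : (0 : ℝ) < r ^ 2 / 4 := by positivity
  unfold A3.Ur
  rw [A3.W_eq om h0]
  unfold fo JCx.W
  simp only [JInt.J, JCx.J]
  have e1 : -(I * (om : ℂ)) + ((0 : ℕ) : ℂ) / 2 = -(I * om) := by push_cast; ring
  have e2 : ((0 : ℕ) : ℂ) + 6 - (-(I * (om : ℂ)) + ((0 : ℕ) : ℂ) / 2) - 2 = 4 + I * om := by
    push_cast; ring
  have e3 : -(I * (om : ℂ)) + ((0 : ℕ) : ℂ) / 2 + 1 = 1 - I * om := by push_cast; ring
  have e4 : -(I * (om : ℂ)) + ((0 : ℕ) : ℂ) / 2 + 2 = 2 - I * om := by push_cast; ring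
  have e5 : -(I * (om : ℂ)) + ((0 : ℕ) : ℂ) / 2 + 1 - (((0 : ℕ) : ℂ) + 6) = -5 - I * om := by
    push_cast; ring
  rw [e5, e2, e3, e4, pow_zero, one_mul]
  rfl

theorem partA : PartA := by
  obtain ⟨om, R, hom, hrho, hR, -, -, hfo, hfo1, hJ, -, -, hnd⟩ := A2.data
  have h1 := hom.1
  have h2 := hom.2
  have h3 := hrho.1
  have h4 := hrho.2
  have hj5 : A3.j5 om (R ^ 2 / 4) = 0 := hJ
  have hW := A4.export_wr hR (by linarith : om ≠ 0) hfo1
    (fun l _ => A4.thmV l om (by positivity)) (Fx.certs h1 h2 h3 h4) (A4.outside (by linarith) (by linarith) (by linarith) (by linarith))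
  obtain ⟨w1, w2, w3, w4, w5, w6, w7⟩ := hW
  exact ⟨{
    om := om
    R := R
    om_mem := hom
    rho_mem := hrho
    R_pos := hR
    fo_ne := hfo
    fo1_zero := hfo1
    nondeg := hnd
    anti := by
      have h := A3.norm_strictAnti (by linarith) (by linarith) hR hj5
      intro x hx y hy hxy
      have := h hx hy hxy
      simp only at this ⊢
      rw [fo_eq_Ur (hR.trans_le hx), fo_eq_Ur (hR.trans_le hy)]
      exact this
    lower := by
      intro r hr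
      rw [fo_eq_Ur hR, fo_eq_Ur (hR.trans_le hr)]
      exact A3.lower h1 h2 hR h3 h4 hj5 hr
    wr_ne := w1
    zero0 := w2
    zero1 := w3
    zero2 := w4
    simple0 := w5
    simple1 := w6
    simple2 := w7 }⟩

end Crest.Agent.R086.A
end

-- ▼ part R086/Main

/-! Row 86: FINAL ASSEMBLY: Part A, Part B, Part C, Part D give S0114. -/

set_option autoImplicit false

open MeasureTheory Complex Set Filter Topology
open scoped ContDiff

namespace Crest.Agent.R086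

theorem main (p₀ : ℕ) : ∃ p : ℕ, p₀ ≤ p ∧ Odd p ∧ 3 ≤ p ∧ BlowupConcl p := by
  obtain ⟨D⟩ := A.partA
  obtain ⟨B⟩ := B.partB D
  exact S0114_of B (partC D _ (BLim.limitProfile D) B) nonlinearThm p₀

end Crest.Agent.R086
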