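import Mathlib
import Crest.Agent.R086.JInt
import Crest.Agent.R086.JAs
import Crest.Agent.R086.Disk

-- ▼ part R086/CQ
section

/-!
Row 86, part A (helper507): complex rationals with kernel-checkable norm bounds.
-/
set_option autoImplicit false
open Complex
open scoped ComplexConjugate

namespace Crest.Agent.R086

/-- complex rational number -/
structure CQ where
  x : ℚ
  y : ℚ

namespace CQ

def add (a b : CQ) : CQ := ⟨a.x + b.x, a.y + b.y⟩
def sub (a b : CQ) : CQ := ⟨a.x - b.x, a.y - b.y⟩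
def mul (a b : CQ) : CQ := ⟨a.x * b.x - a.y * b.y, a.x * b.y + a.y * b.x⟩
def cj (a : CQ) : CQ := ⟨a.x, -a.y⟩
def sm (r : ℚ) (a : CQ) : CQ := ⟨r * a.x, r * a.y⟩
def one : CQ := ⟨1, 0⟩
def re (r : ℚ) : CQ := ⟨r, 0⟩
def n2 (a : CQ) : ℚ := a.x * a.x + a.y * a.y
/-- `‖a‖ ≤ n` checked by squares -/
def le (a : CQ) (n : ℚ) : Bool := decide (0 ≤ n) && decide (a.n2 ≤ n * n)

noncomputable def toC (a : CQ) : ℂ := ⟨(a.x : ℝ), (a.y : ℝ)⟩

@[simp] theorem toC_re (a : CQ) : a.toC.re = a.x := rfl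
@[simp] theorem toC_im (a : CQ) : a.toC.im = a.y := rfl

theorem toC_add (a b : CQ) : (a.add b).toC = a.toC + b.toC := by
  apply Complex.ext <;> simp [add]
theorem toC_sub (a b : CQ) : (a.sub b).toC = a.toC - b.toC := by
  apply Complex.ext <;> simp [sub]
theorem toC_mul (a b : CQ) : (a.mul b).toC = a.toC * b.toC := by
  apply Complex.ext <;> simp [mul]
theorem toC_cj (a : CQ) : (a.cj).toC = conj a.toC := by
  apply Complex.ext <;> simp [cj]
theorem toC_sm (r : ℚ) (a : CQ) : (sm r a).toC = ((r : ℝ) : ℂ) * a.toC := by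
  apply Complex.ext <;> simp [sm]
theorem toC_one : one.toC = 1 := by
  apply Complex.ext <;> simp [one]
theorem toC_rea (r : ℚ) : (re r).toC = ((r : ℝ) : ℂ) := by
  apply Complex.ext <;> simp [re]

theorem normSq_toC (a : CQ) : ‖a.toC‖ ^ 2 = (a.n2 : ℝ) := by
  rw [← Complex.normSq_eq_norm_sq, normSq_apply]
  simp [n2]

theorem norm_le {a : CQ} {n : ℚ} (h : a.le n = true) : ‖a.toC‖ ≤ (n : ℝ) := by
  simp only [le, Bool.and_eq_true, decide_eq_true_eq] at h
  have h1 : (0 : ℝ) ≤ n := by exact_mod_cast h.1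
  apply le_of_sq_le_sq _ h1
  rw [normSq_toC]
  have := h.2
  rw [sq]
  exact_mod_cast this

end CQ

end Crest.Agent.R086
end

-- ▼ part R086/LemP
section

/-!
Row 86, part A (helper507): Lemma P, Moebius recursion and Riccati equation for
`G a b rho = rho * J (a+1) (b-a-1) rho / J a (b-a-1) rho`.
-/
set_option autoImplicit false
open MeasureTheory Complex Set Filter Topology
open scoped ComplexConjugate

namespace Crest.Agent.R086.LemP

open Crest.Agent.R086.JInt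

/-- real form of the sector bound -/
theorem J_bound (a c : ℂ) (rho0 : ℝ) (ha : 0 < a.re) (hr : 0 < rho0) :
    ∃ K : ℝ, ∀ rho : ℝ, rho0 ≤ rho → ‖J a c rho‖ ≤ K * rho ^ (-a.re) := by
  obtain ⟨M, hM⟩ := exists_nat_ge c.re
  obtain ⟨K, hK0, hK⟩ := JCx.J_bound (x0 := a.re) (x1 := a.re) (r0 := rho0) (y := |c.im|)
    (cth := 1) M ha hr one_pos le_rfl
  refine ⟨K, fun rho hrho => ?_⟩
  have hpos : 0 < rho := by linarith
  have hn : ‖(rho : ℂ)‖ = rho := by rw [Complex.norm_real, Real.norm_of_nonneg hpos.le]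
  have := hK a c (rho : ℂ) le_rfl le_rfl hM le_rfl (by rw [hn]; exact hrho)
    (by rw [hn]; simp)
  rw [hn] at this
  exact this

theorem J_asymp (a c : ℂ) (ha : 0 < a.re) :
    Tendsto (fun rho : ℝ => (rho : ℂ) ^ a * J a c rho) atTop (𝓝 (Gamma a)) := by
  obtain ⟨M, hM⟩ := exists_nat_ge c.re
  obtain ⟨K, hK0, hK⟩ := JCx.J_asymp (x0 := a.re) (x1 := a.re) (r0 := 1) (y := |a.im| + ‖c‖)
    (cth := 1) M ha one_pos one_pos le_rfl
  rw [tendsto_iff_norm_sub_tendsto_zero]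
  have hlim : Tendsto (fun rho : ℝ => K / rho) atTop (𝓝 0) := tendsto_const_nhds.div_atTop tendsto_id
  refine squeeze_zero' (Eventually.of_forall fun _ => norm_nonneg _) ?_ hlim
  filter_upwards [eventually_ge_atTop (1 : ℝ)] with rho hrho
  have hpos : 0 < rho := by linarith
  have hn : ‖(rho : ℂ)‖ = rho := by rw [Complex.norm_real, Real.norm_of_nonneg hpos.le]
  have := hK a c (rho : ℂ) le_rfl le_rfl (by linarith [norm_nonneg c]) hM
    (by linarith [abs_nonneg a.im]) (by rw [hn]; exact hrho) (by rw [hn]; simp)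
  rw [hn] at this
  exact this

/-- `G_a(b, rho) = rho J(a+1,c)/J(a,c)`, `c = b-a-1` (equals `-z U'/U` at `z = -i rho`). -/
noncomputable def G (a b : ℂ) (ρ : ℝ) : ℂ := ρ * J (a + 1) (b - a - 1) ρ / J a (b - a - 1) ρ

theorem hasDerivAt_re {f : ℝ → ℂ} {f' : ℂ} {x : ℝ} (h : HasDerivAt f f' x) :
    HasDerivAt (fun y => (f y).re) f'.re x := by
  exact (Complex.reCLM.hasFDerivAt (x := f x)).comp_hasDerivAt x h

theorem hasDerivAt_im {f : ℝ → ℂ} {f' : ℂ} {x : ℝ} (h : HasDerivAt f f' x) :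
    HasDerivAt (fun y => (f y).im) f'.im x := by
  exact (Complex.imCLM.hasFDerivAt (x := f x)).comp_hasDerivAt x h

/-- the energy functional -/
noncomputable def S (a c : ℂ) (b x : ℝ) : ℝ :=
  x ^ b * (normSq (J a c x) / 2 - (J (a + 1) c x * conj (J a c x)).im)

theorem S_hasDerivAt (a c : ℂ) (b : ℝ) (hc : c = b - a - 1) (ha : 0 < a.re) {x : ℝ} (hx : 0 < x) :
    HasDerivAt (S a c b) (x ^ (b - 1) * ((b / 2 - a.re) * normSq (J a c x))) x := by
  have h0 := J_hasDerivAt (c := c) ha hx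
  have ha1 : 0 < (a + 1).re := by simp; linarith
  have h1 := J_hasDerivAt (c := c) ha1 hx
  rw [show a + 1 + 1 = a + 2 by ring] at h1
  have hib := J_ibp (c := c) ha hx
  have hcb : a + c + 1 = b := by rw [hc]; ring
  rw [hcb] at hib
  have hx' : (x : ℂ) ≠ 0 := by exact_mod_cast hx.ne'
  -- derivative of normSq and of the product
  have hre0 := hasDerivAt_re h0
  have him0 := hasDerivAt_im h0
  have hre1 := hasDerivAt_re h1
  have him1 := hasDerivAt_im h1
  have hpow := Real.hasDerivAt_rpow_const (x := x) (p := b) (Or.inl hx.ne')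
  have hE : (fun y : ℝ => normSq (J a c y) / 2 - (J (a + 1) c y * conj (J a c y)).im)
      = fun y : ℝ => ((J a c y).re * (J a c y).re + (J a c y).im * (J a c y).im) / 2
        - ((J (a+1) c y).im * (J a c y).re - (J (a+1) c y).re * (J a c y).im) := by
    funext y
    simp [normSq_apply, Complex.mul_im]
    ring
  have hD : HasDerivAt (fun y : ℝ => normSq (J a c y) / 2 - (J (a + 1) c y * conj (J a c y)).im)
      (((-(J (a+1) c x)).re * (J a c x).re + (J a c x).re * (-(J (a+1) c x)).re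
        + ((-(J (a+1) c x)).im * (J a c x).im + (J a c x).im * (-(J (a+1) c x)).im)) / 2
        - ((-(J (a+2) c x)).im * (J a c x).re + (J (a+1) c x).im * (-(J (a+1) c x)).re
          - ((-(J (a+2) c x)).re * (J a c x).im + (J (a+1) c x).re * (-(J (a+1) c x)).im))) x := by
    rw [hE]
    exact (((hre0.mul hre0).add (him0.mul him0)).div_const 2).sub
      ((him1.mul hre0).sub (hre1.mul him0))
  have hS := hpow.mul hD
  have hfun : S a c b = fun y : ℝ => y ^ b *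
      (normSq (J a c y) / 2 - (J (a + 1) c y * conj (J a c y)).im) := rfl
  rw [hfun]
  refine HasDerivAt.congr_deriv hS ?_
  -- algebra
  have hb : x ^ b = x ^ (b - 1) * x := by
    rw [← Real.rpow_add_one hx.ne']; ring_nf
  rw [hb]
  -- real and imaginary parts of the recursion
  have hre := congrArg Complex.re hib
  have him := congrArg Complex.im hib
  simp only [Complex.mul_re, Complex.mul_im, Complex.add_re, Complex.add_im, Complex.neg_re,
    Complex.neg_im, Complex.I_re, Complex.I_im, Complex.ofReal_re, Complex.ofReal_im] at hre him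
  simp only [normSq_apply, Complex.mul_im, Complex.conj_re, Complex.conj_im, Complex.neg_re,
    Complex.neg_im]
  linear_combination (x ^ (b-1)) * ((J a c x).re) * him - (x ^ (b-1)) * ((J a c x).im) * hre

theorem S_tendsto (a c : ℂ) (b : ℝ) (ha : 0 < a.re) (hab : b / 2 < a.re) :
    Tendsto (S a c b) atTop (𝓝 0) := by
  obtain ⟨K0, hK0⟩ := J_bound a c 1 ha one_pos
  have ha1 : 0 < (a + 1).re := by simp; linarith
  obtain ⟨K1, hK1⟩ := J_bound (a + 1) c 1 ha1 one_pos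
  have hlim : Tendsto (fun x : ℝ => (K0 ^ 2 / 2 + K1 * K0) * x ^ (-(2 * a.re - b))) atTop (𝓝 0) := by
    have := (tendsto_rpow_neg_atTop (y := 2 * a.re - b) (by linarith)).const_mul (K0 ^ 2 / 2 + K1 * K0)
    simpa using this
  refine squeeze_zero_norm' ?_ hlim
  filter_upwards [eventually_ge_atTop (1 : ℝ)] with x hx
  have hx0 : 0 < x := by linarith
  have h0 := hK0 x hx
  have h1 := hK1 x hx
  have hp0 : 0 < x ^ (-a.re) := Real.rpow_pos_of_pos hx0 _
  have hp1 : 0 < x ^ (-(a+1).re) := Real.rpow_pos_of_pos hx0 _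
  have hle : x ^ (-(a+1).re) ≤ x ^ (-a.re) := by
    apply Real.rpow_le_rpow_of_exponent_le hx
    simp
  have hK0' : 0 ≤ K0 := by
    have := (norm_nonneg _).trans h0
    exact nonneg_of_mul_nonneg_left this hp0
  have hK1' : 0 ≤ K1 := by
    have := (norm_nonneg _).trans h1
    exact nonneg_of_mul_nonneg_left this hp1
  have h1' : ‖J (a + 1) c x‖ ≤ K1 * x ^ (-a.re) := h1.trans (mul_le_mul_of_nonneg_left hle hK1')
  have hsq : normSq (J a c x) ≤ K0 ^ 2 * (x ^ (-a.re)) ^ 2 := by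
    rw [Complex.normSq_eq_norm_sq, ← mul_pow]
    exact pow_le_pow_left₀ (norm_nonneg _) h0 2
  have him : |(J (a + 1) c x * conj (J a c x)).im| ≤ K1 * K0 * (x ^ (-a.re)) ^ 2 := by
    calc |(J (a + 1) c x * conj (J a c x)).im| ≤ ‖J (a + 1) c x * conj (J a c x)‖ := Complex.abs_im_le_norm _
      _ = ‖J (a + 1) c x‖ * ‖J a c x‖ := by rw [norm_mul, Complex.norm_conj]
      _ ≤ (K1 * x ^ (-a.re)) * (K0 * x ^ (-a.re)) :=
          mul_le_mul h1' h0 (norm_nonneg _) ((norm_nonneg _).trans h1')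
      _ = K1 * K0 * (x ^ (-a.re)) ^ 2 := by ring
  have hpow : x ^ b * (x ^ (-a.re)) ^ 2 = x ^ (-(2 * a.re - b)) := by
    rw [← Real.rpow_natCast, ← Real.rpow_mul hx0.le, ← Real.rpow_add hx0]
    congr 1
    push_cast
    ring
  have hxb : 0 < x ^ b := Real.rpow_pos_of_pos hx0 _
  rw [Real.norm_eq_abs]
  unfold S
  rw [abs_mul, abs_of_pos hxb, ← hpow]
  have hn0 : 0 ≤ normSq (J a c x) := normSq_nonneg _
  have habs : |normSq (J a c x) / 2 - (J (a + 1) c x * conj (J a c x)).im|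
      ≤ (K0 ^ 2 / 2 + K1 * K0) * (x ^ (-a.re)) ^ 2 := by
    calc _ ≤ |normSq (J a c x) / 2| + |(J (a + 1) c x * conj (J a c x)).im| := abs_sub _ _
      _ ≤ _ := by
        rw [abs_of_nonneg (by positivity)]
        nlinarith
  calc x ^ b * |normSq (J a c x) / 2 - (J (a + 1) c x * conj (J a c x)).im|
      ≤ x ^ b * ((K0 ^ 2 / 2 + K1 * K0) * (x ^ (-a.re)) ^ 2) :=
        mul_le_mul_of_nonneg_left habs hxb.le
    _ = (K0 ^ 2 / 2 + K1 * K0) * (x ^ b * (x ^ (-a.re)) ^ 2) := by ring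

theorem eventually_ne_zero (a c : ℂ) (ha : 0 < a.re) : ∀ᶠ x : ℝ in atTop, J a c x ≠ 0 := by
  have h := J_asymp a c ha
  have hG : Gamma a ≠ 0 := Complex.Gamma_ne_zero_of_re_pos ha
  filter_upwards [h.eventually_ne hG] with x hx h0
  exact hx (by rw [h0, mul_zero])

theorem S_pos (a c : ℂ) (b : ℝ) (hc : c = b - a - 1) (ha : 0 < a.re) (hab : b / 2 < a.re)
    {ρ : ℝ} (hρ : 0 < ρ) : 0 < S a c b ρ := by
  have hder : ∀ x : ℝ, 0 < x →
      HasDerivAt (S a c b) (x ^ (b - 1) * ((b / 2 - a.re) * normSq (J a c x))) x :=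
    fun x hx => S_hasDerivAt a c b hc ha hx
  have hanti : AntitoneOn (S a c b) (Ici ρ) := by
    apply antitoneOn_of_deriv_nonpos (convex_Ici ρ)
    · intro x hx
      exact (hder x (lt_of_lt_of_le hρ hx)).continuousAt.continuousWithinAt
    · intro x hx
      rw [interior_Ici] at hx
      exact (hder x (hρ.trans hx)).differentiableAt.differentiableWithinAt
    · intro x hx
      rw [interior_Ici] at hx
      rw [(hder x (hρ.trans hx)).deriv]
      have h1 : 0 < x ^ (b - 1) := Real.rpow_pos_of_pos (hρ.trans hx) _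
      have h2 : 0 ≤ normSq (J a c x) := normSq_nonneg _
      have h3 : b / 2 - a.re < 0 := by linarith
      exact mul_nonpos_of_nonneg_of_nonpos h1.le (mul_nonpos_of_nonpos_of_nonneg h3.le h2)
  have hnn : ∀ x, ρ ≤ x → 0 ≤ S a c b x := by
    intro x hx
    refine le_of_tendsto (S_tendsto a c b ha hab) ?_
    filter_upwards [eventually_ge_atTop x] with y hy
    exact hanti hx (hx.trans hy) hy
  by_contra hcon
  push Not at hcon
  have hzero : ∀ x, ρ ≤ x → S a c b x = 0 := fun x hx =>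
    le_antisymm ((hanti (le_refl ρ) hx hx).trans hcon) (hnn x hx)
  obtain ⟨x0, hx0J, hx0⟩ := ((eventually_ne_zero a c ha).and (eventually_gt_atTop ρ)).exists
  have hd := hder x0 (hρ.trans hx0)
  have hd0 : HasDerivAt (S a c b) 0 x0 := by
    refine (hasDerivAt_const x0 (0 : ℝ)).congr_of_eventuallyEq ?_
    filter_upwards [Ioi_mem_nhds hx0] with y hy
    exact hzero y (le_of_lt hy)
  have := hd.unique hd0
  have h1 : 0 < x0 ^ (b - 1) := Real.rpow_pos_of_pos (hρ.trans hx0) _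
  have h2 : 0 < normSq (J a c x0) := normSq_pos.mpr hx0J
  have h3 : b / 2 - a.re < 0 := by linarith
  nlinarith [mul_neg_of_neg_of_pos h3 h2, mul_pos h1 (neg_pos.mpr (mul_neg_of_neg_of_pos h3 h2))]

/-- **LEMMA P**, nonvanishing. -/
theorem J_ne_zero (a : ℂ) (b : ℝ) (ha : 0 < a.re) (hab : b / 2 < a.re) {ρ : ℝ} (hρ : 0 < ρ) :
    J a (b - a - 1) ρ ≠ 0 := by
  intro h
  have := S_pos a (b - a - 1) b rfl ha hab hρ
  unfold S at this
  rw [h] at this
  simp at this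

/-- **LEMMA P**: for `b` real, `Re a > b/2`, `Re a > 0`: `Im G_a < ρ/2`. -/
theorem G_im_lt (a : ℂ) (b : ℝ) (ha : 0 < a.re) (hab : b / 2 < a.re) {ρ : ℝ} (hρ : 0 < ρ) :
    (G a b ρ).im < ρ / 2 := by
  have h0 := J_ne_zero a b ha hab hρ
  have hS := S_pos a (b - a - 1) b rfl ha hab hρ
  unfold S at hS
  have hp : 0 < ρ ^ b := Real.rpow_pos_of_pos hρ _
  have hn : 0 < normSq (J a (b - a - 1) ρ) := normSq_pos.mpr h0
  have hS' := (mul_pos_iff_of_pos_left hp).mp hS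
  have hG : G a b ρ = ((ρ / normSq (J a (b - a - 1) ρ) : ℝ) : ℂ) *
      (J (a + 1) (b - a - 1) ρ * conj (J a (b - a - 1) ρ)) := by
    unfold G
    rw [div_eq_mul_inv, Complex.inv_def]
    push_cast
    ring
  rw [hG, Complex.im_ofReal_mul, div_mul_eq_mul_div, div_lt_iff₀ hn]
  nlinarith

/-- contiguous relation from integration by parts. -/
theorem J_rec (a c : ℂ) {ρ : ℝ} (ha : 1 < a.re) (hρ : 0 < ρ) :
    (a - 1) * J (a - 1) (c + 1) ρ = ρ * J a (c + 1) ρ - I * (c + 1) * J a c ρ := by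
  have ha1 : 0 < (a - 1).re := by simp; linarith
  have h1 := J_ibp (c := c) ha1 hρ
  have h2 := J_shift (c := c) ha1 hρ
  have h3 := J_shift (a := a) (c := c) (by linarith) hρ
  rw [show a - 1 + 2 = a + 1 by ring, show a - 1 + 1 = a by ring] at h1
  rw [show a - 1 + 1 = a by ring] at h2
  have hI : I * I = -1 := I_mul_I
  linear_combination (a - 1) * h2 - (ρ : ℂ) * h3 - I * h1 + ((a - 1) * J (a - 1) c ρ - ρ * J a c ρ) * hI

/-- nonvanishing is propagated by the recursion. -/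
theorem J_step (a b : ℂ) {ρ : ℝ} (ha : 1 < a.re) (hρ : 0 < ρ) (h0 : J a (b - a - 1) ρ ≠ 0) :
    (a - 1) * J (a - 1) (b - (a - 1) - 1) ρ
      = I * J a (b - a - 1) ρ * (G a b ρ - I * ρ + a - b) := by
  have h1 := J_rec a (b - a - 1) ha hρ
  have h3 := J_shift (a := a) (c := b - a - 1) (by linarith) hρ
  rw [show b - (a - 1) - 1 = b - a - 1 + 1 by ring]
  have hG : G a b ρ * J a (b - a - 1) ρ = ρ * J (a + 1) (b - a - 1) ρ := by
    unfold G; field_simp
  have hI : I * I = -1 := I_mul_I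
  rw [h1]
  linear_combination (ρ : ℂ) * h3 - I * hG + (ρ * J a (b - a - 1) ρ) * hI

theorem G_step (a b : ℂ) {ρ : ℝ} (ha : 1 < a.re) (hρ : 0 < ρ) (h0 : J a (b - a - 1) ρ ≠ 0)
    (hw : G a b ρ - I * ρ + a - b ≠ 0) :
    J (a - 1) (b - (a - 1) - 1) ρ ≠ 0 ∧
    G (a - 1) b ρ = (a - 1) * (G a b ρ - I * ρ) / (G a b ρ - I * ρ + a - b) := by
  have h1 := J_step a b ha hρ h0
  have ha1 : a - 1 ≠ 0 := by
    intro h
    have := congrArg Complex.re h
    simp at this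
    linarith
  have hne : J (a - 1) (b - (a - 1) - 1) ρ ≠ 0 := by
    intro h
    rw [h, mul_zero] at h1
    exact mul_ne_zero (mul_ne_zero I_ne_zero h0) hw h1.symm
  refine ⟨hne, ?_⟩
  have hI : I * I = -1 := I_mul_I
  have h3 := J_shift (a := a) (c := b - a - 1) (by linarith) hρ
  have hG : G a b ρ * J a (b - a - 1) ρ = ρ * J (a + 1) (b - a - 1) ρ := by
    unfold G; field_simp
  have hnum : (ρ : ℂ) * J a (b - a - 1 + 1) ρ = I * J a (b - a - 1) ρ * (G a b ρ - I * ρ) := by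
    linear_combination (ρ : ℂ) * h3 - I * hG + (ρ * J a (b - a - 1) ρ) * hI
  have hdef : G (a - 1) b ρ * J (a - 1) (b - (a - 1) - 1) ρ = ρ * J a (b - a - 1 + 1) ρ := by
    unfold G
    rw [show a - 1 + 1 = a by ring, show b - (a - 1) - 1 = b - a - 1 + 1 by ring] at *
    field_simp
  rw [eq_div_iff hw]
  have hA : I * J a (b - a - 1) ρ ≠ 0 := mul_ne_zero I_ne_zero h0
  apply mul_left_cancel₀ hA
  linear_combination (-G (a - 1) b ρ) * h1 + (a - 1) * hdef + (a - 1) * hnum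

/-- Riccati equation. -/
theorem G_riccati (a b : ℂ) {ρ : ℝ} (ha : 0 < a.re) (hρ : 0 < ρ) (h0 : J a (b - a - 1) ρ ≠ 0) :
    HasDerivAt (fun x : ℝ => G a b x)
      ((G a b ρ ^ 2 + (1 - b - I * ρ) * G a b ρ + I * a * ρ) / ρ) ρ := by
  have hJ0 := J_hasDerivAt (c := b - a - 1) ha hρ
  have hJ1 := J_hasDerivAt (a := a + 1) (c := b - a - 1) (by simp; linarith) hρ
  rw [show a + 1 + 1 = a + 2 by ring] at hJ1
  have hib := J_ibp (c := b - a - 1) ha hρ
  have hid : HasDerivAt (fun x : ℝ => (x : ℂ)) 1 ρ := Complex.ofRealCLM.hasDerivAt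
  have h := (hid.mul hJ1).div hJ0 h0
  refine HasDerivAt.congr_deriv h ?_
  have hρ' : (ρ : ℂ) ≠ 0 := by exact_mod_cast hρ.ne'
  simp only [Pi.mul_apply]
  unfold G
  field_simp
  linear_combination (-J a (b - a - 1) ρ) * hib

end Crest.Agent.R086.LemP
end

-- ▼ part R086/Chain
section

/-!
Row 86, part A (helper507): certified backward recursion for `G (a+k) b ρ`,
values and derivative in `a`.
-/
set_option autoImplicit false
open Complex Filter Topology
open scoped ComplexConjugate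

namespace Crest.Agent.R086.Chain

open Crest.Agent.R086.JInt Crest.Agent.R086.LemP Crest.Agent.R086.Disk

/-- parameters: centre of `a`, the real number `b`, centre of `ρ`, radii. -/
structure Par where
  a0 : CQ
  b : ℚ
  r0 : ℚ
  ha : ℚ
  hr : ℚ

structure St where
  c : CQ
  r : ℚ
  d : CQ
  s : ℚ

structure Ct where
  p : CQ
  n0 : ℚ
  rp : ℚ
  np : ℚ
  na : ℚ
  nb : ℚ
  n1 : ℚ
  n2 : ℚ
  n4 : ℚ
  nd : ℚ
  n3 : ℚ
  new : St

def alq (P : Par) (k : ℕ) : CQ := (P.a0.add (CQ.re k)).sub CQ.one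
def beq (P : Par) (k : ℕ) : CQ := (P.a0.add (CQ.re k)).sub (CQ.re P.b)
def qq (P : Par) (k : ℕ) (o : St) : CQ := (o.c.sub ⟨0, P.r0⟩).add (beq P k)
def t0 (P : Par) (o : St) : ℚ := o.r + P.ha + P.hr
def DD (P : Par) (k : ℕ) (o : St) : ℚ := (qq P k o).n2 - t0 P o * t0 P o
def e1 (P : Par) (t : Ct) : ℚ := P.ha * (t.np + t.rp) + t.nb * t.rp
def e2 (P : Par) (t : Ct) : ℚ := P.ha * (t.np + t.rp) + t.na * t.rp

/-- one step, values -/
def checkV (P : Par) (k : ℕ) (o : St) (t : Ct) : Bool :=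
  decide (0 < DD P k o) && decide (0 ≤ o.r) && decide (0 ≤ P.ha) && decide (0 ≤ P.hr)
  && decide (1 + P.ha < P.a0.x + k)
  && ((CQ.sm (DD P k o) t.p).sub (qq P k o).cj).le t.n0
  && decide (t.n0 + t0 P o ≤ t.rp * DD P k o)
  && t.p.le t.np && (alq P k).le t.na && (beq P k).le t.nb
  && (CQ.one.sub ((beq P k).mul t.p)).le t.n1
  && (((alq P k).mul (CQ.one.sub ((beq P k).mul t.p))).sub t.new.c).le t.n4
  && decide (t.n4 + P.ha * (t.n1 + e1 P t) + t.na * e1 P t ≤ t.new.r)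

/-- one step, derivative -/
def checkD (P : Par) (k : ℕ) (o : St) (t : Ct) : Bool :=
  (CQ.one.sub ((alq P k).mul t.p)).le t.n2 && o.d.le t.nd
  && (((((alq P k).mul ((beq P k).mul (t.p.mul t.p))).mul o.d).add
      ((CQ.one.sub ((beq P k).mul t.p)).mul (CQ.one.sub ((alq P k).mul t.p)))).sub t.new.d).le t.n3
  && decide (t.n3 + (e1 P t * (t.na * t.np + e2 P t) + t.nb * t.np * e2 P t) * (t.nd + o.s)
      + t.na * t.nb * t.np * t.np * o.s
      + (e1 P t * (t.n2 + e2 P t) + t.n1 * e2 P t) ≤ t.new.s)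

def EncV (P : Par) (k : ℕ) (o : St) : Prop :=
  ∀ a : ℂ, ‖a - P.a0.toC‖ ≤ P.ha → ∀ ρ : ℝ, 0 < ρ → |ρ - P.r0| ≤ P.hr →
    J (a + k) (P.b - (a + k) - 1) ρ ≠ 0 ∧ ‖G (a + k) P.b ρ - o.c.toC‖ ≤ o.r

def EncD (P : Par) (k : ℕ) (o : St) : Prop :=
  ∀ a : ℂ, ‖a - P.a0.toC‖ < P.ha → ∀ ρ : ℝ, 0 < ρ → |ρ - P.r0| ≤ P.hr →
    ∃ d : ℂ, HasDerivAt (fun a' : ℂ => G (a' + k) P.b ρ) d a ∧ ‖d - o.d.toC‖ ≤ o.s

section
variable {P : Par} {k : ℕ} {o : St} {t : Ct}

/-- consequences of the rational check at a point -/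
theorem check_geom (h : checkV P (k+1) o t = true) {a : ℂ} (ha : ‖a - P.a0.toC‖ ≤ P.ha) {ρ : ℝ}
    (hρ : |ρ - P.r0| ≤ P.hr) {g : ℂ} (hg : ‖g - o.c.toC‖ ≤ o.r) :
    g - I * ρ + (a + (k+1 : ℕ)) - P.b ≠ 0 ∧
    ‖(g - I * ρ + (a + (k+1 : ℕ)) - P.b)⁻¹ - t.p.toC‖ ≤ t.rp ∧
    ‖(a + (k+1 : ℕ) - 1) - (alq P (k+1)).toC‖ ≤ P.ha ∧
    ‖(a + (k+1 : ℕ) - P.b) - (beq P (k+1)).toC‖ ≤ P.ha := by
  simp only [checkV, Bool.and_eq_true, decide_eq_true_eq] at h
  obtain ⟨⟨⟨⟨⟨⟨⟨⟨⟨⟨⟨⟨hD, hr⟩, hha⟩, hhr⟩, ha1⟩, hn0⟩, hrp⟩, hnp⟩, hna⟩, hnb⟩, hn1⟩, hn4⟩, hnew⟩ := h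
  have hal : (a + (k+1 : ℕ) - 1) - (alq P (k+1)).toC = a - P.a0.toC := by
    simp only [alq, CQ.toC_sub, CQ.toC_add, CQ.toC_rea, CQ.toC_one]
    push_cast
    ring
  have hbe : (a + (k+1 : ℕ) - P.b) - (beq P (k+1)).toC = a - P.a0.toC := by
    simp only [beq, CQ.toC_sub, CQ.toC_add, CQ.toC_rea]
    push_cast
    ring
  have hz : (CQ.toC ⟨0, P.r0⟩) = I * (P.r0 : ℝ) := by
    apply Complex.ext <;> simp [CQ.toC]
  have hq : ‖(g - I * ρ + (a + (k+1 : ℕ)) - P.b) - (qq P (k+1) o).toC‖ ≤ (t0 P o : ℝ) := by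
    have e : (g - I * ρ + (a + (k+1 : ℕ)) - P.b) - (qq P (k+1) o).toC
        = (g - o.c.toC) + (a - P.a0.toC) - I * ((ρ - P.r0 : ℝ) : ℂ) := by
      simp only [qq, CQ.toC_add, CQ.toC_sub, hz, beq, CQ.toC_rea]
      push_cast
      ring
    rw [e]
    have hI : ‖I * ((ρ - P.r0 : ℝ) : ℂ)‖ ≤ P.hr := by
      rw [norm_mul, Complex.norm_I, one_mul, Complex.norm_real]; exact hρ
    have := (norm_sub_le _ _).trans (add_le_add ((norm_add_le (g - o.c.toC) (a - P.a0.toC)).trans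
      (add_le_add hg ha)) hI)
    simpa [t0] using this
  have hDR : (DD P (k+1) o : ℝ) = ‖(qq P (k+1) o).toC‖ ^ 2 - ((t0 P o : ℚ) : ℝ) ^ 2 := by
    rw [CQ.normSq_toC]
    simp only [DD]
    push_cast
    ring
  have h0 := CQ.norm_le hn0
  rw [CQ.toC_sub, CQ.toC_sm, CQ.toC_cj] at h0
  have ht0 : (0 : ℝ) ≤ (t0 P o : ℝ) := by
    have : (0 : ℚ) ≤ t0 P o := by simp only [t0]; linarith
    exact_mod_cast this
  have hinv := inv_disk' (p := t.p.toC) (n0 := (t.n0 : ℝ)) (rp := (t.rp : ℝ)) (D := (DD P (k+1) o : ℝ))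
    ht0 hq hDR (by exact_mod_cast hD) (by rw [mul_comm]; exact h0) (by exact_mod_cast hrp)
  exact ⟨hinv.1, hinv.2, by rw [hal]; exact ha, by rw [hbe]; exact ha⟩

theorem stepV (h : checkV P (k+1) o t = true) (hE : EncV P (k+1) o) : EncV P k t.new := by
  intro a ha ρ hρ0 hρ
  obtain ⟨hJ, hg⟩ := hE a ha ρ hρ0 hρ
  obtain ⟨hq, hiq, hal, hbe⟩ := check_geom h ha hρ hg
  simp only [checkV, Bool.and_eq_true, decide_eq_true_eq] at h
  obtain ⟨⟨⟨⟨⟨⟨⟨⟨⟨⟨⟨⟨hD, hr⟩, hha⟩, hhr⟩, ha1⟩, hn0⟩, hrp⟩, hnp⟩, hna⟩, hnb⟩, hn1⟩, hn4⟩, hnew⟩ := h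
  have hre : 1 < (a + (k+1 : ℕ)).re := by
    have h1 : |(a - P.a0.toC).re| ≤ P.ha := (Complex.abs_re_le_norm _).trans ha
    have h2 := (abs_le.mp h1).1
    have h3 : ((1 : ℝ) + P.ha < P.a0.x + (k+1 : ℕ)) := by exact_mod_cast ha1
    simp only [Complex.sub_re, CQ.toC_re] at h2
    simp only [Complex.add_re, Complex.natCast_re]
    linarith
  have hstep := G_step (a + (k+1 : ℕ)) P.b hre hρ0 hJ (by
    simpa [sub_eq_add_neg, add_assoc] using hq)
  have hk : a + (k+1 : ℕ) - 1 = a + k := by push_cast; ring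
  rw [hk] at hstep
  refine ⟨hstep.1, ?_⟩
  rw [hstep.2]
  have hX := step_val (c' := t.new.c.toC) (n4 := (t.n4 : ℝ)) (by exact_mod_cast hha) hal hbe hiq
    (CQ.norm_le hnp) (CQ.norm_le hna) (CQ.norm_le hnb)
    (n1 := (t.n1 : ℝ)) (by have := CQ.norm_le hn1; rwa [CQ.toC_sub, CQ.toC_mul, CQ.toC_one] at this)
    (by have := CQ.norm_le hn4
        rwa [CQ.toC_sub, CQ.toC_mul, CQ.toC_sub, CQ.toC_mul, CQ.toC_one] at this)
  have hnew' : (t.n4 : ℝ) + P.ha * (t.n1 + (P.ha * (t.np + t.rp) + t.nb * t.rp))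
      + t.na * (P.ha * (t.np + t.rp) + t.nb * t.rp) ≤ t.new.r := by
    simp only [e1] at hnew
    exact_mod_cast hnew
  refine le_trans (le_of_eq ?_) (hX.trans hnew')
  congr 1
  rw [hk]
  have hq' : G (a + (k+1 : ℕ)) P.b ρ - I * ρ + (a + (k+1 : ℕ)) - P.b ≠ 0 := hq
  field_simp
  ring

/-- pointwise form of one step (value formula with the inverse). -/
theorem step_formula (h : checkV P (k+1) o t = true) (hE : EncV P (k+1) o) {a : ℂ}
    (ha : ‖a - P.a0.toC‖ ≤ P.ha) {ρ : ℝ} (hρ0 : 0 < ρ) (hρ : |ρ - P.r0| ≤ P.hr) :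
    G (a + k) P.b ρ = (a + (k+1 : ℕ) - 1) * (1 - (a + (k+1 : ℕ) - P.b) *
      (G (a + (k+1 : ℕ)) P.b ρ - I * ρ + (a + (k+1 : ℕ)) - P.b)⁻¹) := by
  obtain ⟨hJ, hg⟩ := hE a ha ρ hρ0 hρ
  obtain ⟨hq, hiq, hal, hbe⟩ := check_geom h ha hρ hg
  simp only [checkV, Bool.and_eq_true, decide_eq_true_eq] at h
  obtain ⟨⟨⟨⟨⟨⟨⟨⟨⟨⟨⟨⟨hD, hr⟩, hha⟩, hhr⟩, ha1⟩, hn0⟩, hrp⟩, hnp⟩, hna⟩, hnb⟩, hn1⟩, hn4⟩, hnew⟩ := h
  have hre : 1 < (a + (k+1 : ℕ)).re := by
    have h1 : |(a - P.a0.toC).re| ≤ P.ha := (Complex.abs_re_le_norm _).trans ha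
    have h2 := (abs_le.mp h1).1
    have h3 : ((1 : ℝ) + P.ha < P.a0.x + (k+1 : ℕ)) := by exact_mod_cast ha1
    simp only [Complex.sub_re, CQ.toC_re] at h2
    simp only [Complex.add_re, Complex.natCast_re]
    linarith
  have hstep := (G_step (a + (k+1 : ℕ)) P.b hre hρ0 hJ (by
    simpa [sub_eq_add_neg, add_assoc] using hq)).2
  have hk : a + (k+1 : ℕ) - 1 = a + k := by push_cast; ring
  rw [hk] at hstep
  rw [hstep, hk]
  field_simp
  ring

theorem stepD (h : checkV P (k+1) o t = true) (h' : checkD P (k+1) o t = true)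
    (hE : EncV P (k+1) o) (hED : EncD P (k+1) o) : EncD P k t.new := by
  intro a ha ρ hρ0 hρ
  obtain ⟨hJ, hg⟩ := hE a ha.le ρ hρ0 hρ
  obtain ⟨hq, hiq, hal, hbe⟩ := check_geom h ha.le hρ hg
  obtain ⟨d, hd, hds⟩ := hED a ha ρ hρ0 hρ
  have hV := h
  simp only [checkV, Bool.and_eq_true, decide_eq_true_eq] at h
  obtain ⟨⟨⟨⟨⟨⟨⟨⟨⟨⟨⟨⟨hD, hr⟩, hha⟩, hhr⟩, ha1⟩, hn0⟩, hrp⟩, hnp⟩, hna⟩, hnb⟩, hn1⟩, hn4⟩, hnew⟩ := h
  simp only [checkD, Bool.and_eq_true, decide_eq_true_eq] at h'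
  obtain ⟨⟨⟨hn2, hnd⟩, hn3⟩, hnewd⟩ := h'
  set Q : ℂ → ℂ := fun a' => G (a' + (k+1 : ℕ)) P.b ρ - I * ρ + (a' + (k+1 : ℕ)) - P.b with hQ
  have hQd : HasDerivAt Q (d + 1) a := by
    have h1 := ((hd.sub_const (I * (ρ : ℂ))).add ((hasDerivAt_id a).add_const ((k+1 : ℕ) : ℂ))).sub_const (P.b : ℂ)
    exact h1
  have hQa : Q a ≠ 0 := hq
  have hF : HasDerivAt (fun a' : ℂ => (a' + (k+1 : ℕ) - 1) * (1 - (a' + (k+1 : ℕ) - P.b) * (Q a')⁻¹))
      ((((a + (k+1 : ℕ) - P.b) * (Q a)⁻¹) * ((a + (k+1 : ℕ) - 1) * (Q a)⁻¹)) * d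
        + (1 - (a + (k+1 : ℕ) - P.b) * (Q a)⁻¹) * (1 - (a + (k+1 : ℕ) - 1) * (Q a)⁻¹)) a := by
    have hal' : HasDerivAt (fun a' : ℂ => a' + ((k+1 : ℕ) : ℂ) - 1) 1 a :=
      ((hasDerivAt_id a).add_const _).sub_const _
    have hbe' : HasDerivAt (fun a' : ℂ => a' + ((k+1 : ℕ) : ℂ) - P.b) 1 a :=
      ((hasDerivAt_id a).add_const _).sub_const _
    have hinv := hQd.inv hQa
    have h1 := hal'.mul ((hbe'.mul hinv).const_sub 1)
    refine HasDerivAt.congr_deriv h1 ?_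
    simp only [Pi.mul_apply, Pi.inv_apply]
    field_simp
    ring
  have hopen : ∀ᶠ a' in 𝓝 a, ‖a' - P.a0.toC‖ < P.ha := by
    have hc : Continuous (fun a' : ℂ => ‖a' - P.a0.toC‖) := by fun_prop
    exact hc.continuousAt.eventually_lt continuousAt_const ha
  have hG : HasDerivAt (fun a' : ℂ => G (a' + k) P.b ρ)
      ((((a + (k+1 : ℕ) - P.b) * (Q a)⁻¹) * ((a + (k+1 : ℕ) - 1) * (Q a)⁻¹)) * d
        + (1 - (a + (k+1 : ℕ) - P.b) * (Q a)⁻¹) * (1 - (a + (k+1 : ℕ) - 1) * (Q a)⁻¹)) a := by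
    refine hF.congr_of_eventuallyEq ?_
    filter_upwards [hopen] with a' ha'
    exact step_formula hV hE ha'.le hρ0 hρ
  refine ⟨_, hG, ?_⟩
  have hX := step_der (dc := o.d.toC) (dc' := t.new.d.toC) (n3 := (t.n3 : ℝ)) (nd := (t.nd : ℝ))
    (by exact_mod_cast hha) hal hbe hiq
    (CQ.norm_le hnp) (CQ.norm_le hna) (CQ.norm_le hnb)
    (n1 := (t.n1 : ℝ)) (by have := CQ.norm_le hn1; rwa [CQ.toC_sub, CQ.toC_mul, CQ.toC_one] at this)
    (n2 := (t.n2 : ℝ)) (by have := CQ.norm_le hn2; rwa [CQ.toC_sub, CQ.toC_mul, CQ.toC_one] at this)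
    hds (CQ.norm_le hnd)
    (by have := CQ.norm_le hn3
        simp only [CQ.toC_sub, CQ.toC_mul, CQ.toC_add, CQ.toC_one] at this
        convert this using 2
        ring)
  refine hX.trans ?_
  simp only [e1, e2] at hnewd
  exact_mod_cast hnewd

end

end Crest.Agent.R086.Chain
end

-- ▼ part R086/Start

/-!
Row 86, part A (helper507): rigorous start of the recursion from Lemma P (values: first step from
the half plane `Im G < ρ/2`; derivative: Schwarz-Pick), and the list form of the chain.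
-/
set_option autoImplicit false
open Complex Filter Topology Metric Set
open scoped ComplexConjugate

namespace Crest.Agent.R086.Chain

open Crest.Agent.R086.JInt Crest.Agent.R086.LemP Crest.Agent.R086.Disk

/-- `Im q ≤ -h` : `1/q` lies in the disk of centre `i/(2h)` and radius `1/(2h)`. -/
theorem inv_half {q : ℂ} {h : ℝ} (hh : 0 < h) (hq : q.im ≤ -h) :
    q ≠ 0 ∧ ‖q⁻¹ - (⟨0, 1 / (2 * h)⟩ : ℂ)‖ ≤ 1 / (2 * h) := by
  have hq0 : q ≠ 0 := by
    rintro rfl
    simp at hq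
    linarith
  refine ⟨hq0, ?_⟩
  have hp : (⟨0, 1 / (2 * h)⟩ : ℂ) = I / ((2 * h : ℝ) : ℂ) := by
    rw [Complex.ext_iff]
    constructor
    · rw [Complex.div_ofReal_re]; simp
    · rw [Complex.div_ofReal_im]; simp
  have h2 : ((2 * h : ℝ) : ℂ) ≠ 0 := by
    have : (2 * h : ℝ) ≠ 0 := by positivity
    exact_mod_cast this
  have e : q⁻¹ - I / ((2 * h : ℝ) : ℂ) = (((2 * h : ℝ) : ℂ) - I * q) / (q * ((2 * h : ℝ) : ℂ)) := by
    field_simp
  rw [hp, e, norm_div, norm_mul, Complex.norm_real, Real.norm_of_nonneg (by positivity : (0:ℝ) ≤ 2 * h)]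
  have key : ‖(((2 * h : ℝ) : ℂ) - I * q)‖ ≤ ‖q‖ := by
    apply le_of_sq_le_sq _ (norm_nonneg _)
    rw [← Complex.normSq_eq_norm_sq, ← Complex.normSq_eq_norm_sq, normSq_apply, normSq_apply]
    simp only [Complex.sub_re, Complex.sub_im, Complex.mul_re, Complex.mul_im, Complex.I_re,
      Complex.I_im, Complex.ofReal_re, Complex.ofReal_im]
    nlinarith
  have hqn : 0 < ‖q‖ := norm_pos_iff.mpr hq0
  rw [div_le_div_iff₀ (by positivity) (by positivity)]
  nlinarith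

/-- start data -/
structure Sd where
  hh : ℚ   -- lower bound of `ρ/2 - Im a`
  R : ℚ    -- radius for the Schwarz-Pick bound

/-- check of the first step `M+1 → M` -/
def checkS (P : Par) (M : ℕ) (w : Sd) (t : Ct) : Bool :=
  decide (0 < w.hh) && decide (0 ≤ P.ha) && decide (0 ≤ P.hr) && decide (0 ≤ P.b)
  && decide (w.hh ≤ (P.r0 - P.hr) / 2 - (P.a0.y + P.ha))
  && decide (1 + P.ha < P.a0.x + (M + 1 : ℕ)) && decide (P.b / 2 + P.ha < P.a0.x + (M + 1 : ℕ))
  && decide (t.p.x = 0) && decide (t.p.y * (2 * w.hh) = 1) && decide (t.rp * (2 * w.hh) = 1)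
  && t.p.le t.np && (alq P (M+1)).le t.na && (beq P (M+1)).le t.nb
  && (CQ.one.sub ((beq P (M+1)).mul t.p)).le t.n1
  && (((alq P (M+1)).mul (CQ.one.sub ((beq P (M+1)).mul t.p))).sub t.new.c).le t.n4
  && decide (t.n4 + P.ha * (t.n1 + e1 P t) + t.na * e1 P t ≤ t.new.r)

/-- check of the derivative bound at level `M` -/
def checkSD (P : Par) (M : ℕ) (w : Sd) (t : Ct) : Bool :=
  decide (0 < w.R) && decide (0 ≤ P.b) && decide (w.R + P.ha + P.b / 2 ≤ P.a0.x + M)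
  && decide (t.new.d.x = 0) && decide (t.new.d.y = 0)
  && decide (2 * ((P.r0 + P.hr) / 2 - t.new.c.y + t.new.r) ≤ t.new.s * w.R)

variable {P : Par} {M : ℕ} {w : Sd} {t : Ct}

theorem startV (h : checkS P M w t = true) : EncV P M t.new := by
  simp only [checkS, Bool.and_eq_true, decide_eq_true_eq] at h
  obtain ⟨⟨⟨⟨⟨⟨⟨⟨⟨⟨⟨⟨⟨⟨⟨hhh, hha⟩, hhr⟩, hb⟩, hhle⟩, ha1⟩, ha2⟩, hpx⟩, hpy⟩, hrp⟩, hnp⟩, hna⟩, hnb⟩, hn1⟩,
    hn4⟩, hnew⟩ := h
  intro a ha ρ hρ0 hρ
  have h1 : |(a - P.a0.toC).re| ≤ P.ha := (Complex.abs_re_le_norm _).trans ha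
  have h2 := (abs_le.mp h1).1
  have h1' : |(a - P.a0.toC).im| ≤ P.ha := (Complex.abs_im_le_norm _).trans ha
  have h2' := (abs_le.mp h1').2
  simp only [Complex.sub_re, Complex.sub_im, CQ.toC_re, CQ.toC_im] at h2 h2'
  have hre1 : 1 < (a + (M+1 : ℕ)).re := by
    have h3 : ((1 : ℝ) + P.ha < P.a0.x + (M+1 : ℕ)) := by exact_mod_cast ha1
    simp only [Complex.add_re, Complex.natCast_re]
    linarith
  have hre2 : ((P.b : ℝ)) / 2 < (a + (M+1 : ℕ)).re := by
    have h3 : ((P.b : ℝ) / 2 + P.ha < P.a0.x + (M+1 : ℕ)) := by exact_mod_cast ha2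
    simp only [Complex.add_re, Complex.natCast_re]
    linarith
  have hJ := J_ne_zero (a + (M+1 : ℕ)) (P.b : ℝ) (by linarith) hre2 hρ0
  have hG := G_im_lt (a + (M+1 : ℕ)) (P.b : ℝ) (by linarith) hre2 hρ0
  have hbc : (((P.b : ℝ) : ℂ)) = (P.b : ℂ) := by push_cast; rfl
  rw [hbc] at hJ hG
  have hρ' := abs_le.mp hρ
  have hqim : (G (a + (M+1 : ℕ)) P.b ρ - I * ρ + (a + (M+1 : ℕ)) - P.b).im ≤ -(w.hh : ℝ) := by
    have h3 : (w.hh : ℝ) ≤ (P.r0 - P.hr) / 2 - (P.a0.y + P.ha) := by exact_mod_cast hhle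
    have h4 : ((P.b : ℂ)).im = 0 := by rw [← hbc]; exact Complex.ofReal_im _
    simp only [Complex.sub_im, Complex.add_im, Complex.mul_im, Complex.I_re, Complex.I_im,
      Complex.ofReal_re, Complex.ofReal_im, Complex.natCast_im, h4]
    linarith
  obtain ⟨hq, hiq⟩ := inv_half (by exact_mod_cast hhh) hqim
  have hhR : (0 : ℝ) < w.hh := by exact_mod_cast hhh
  have hpR : (⟨0, 1 / (2 * (w.hh : ℝ))⟩ : ℂ) = t.p.toC := by
    apply Complex.ext
    · simp [hpx]
    · have : (t.p.y : ℝ) * (2 * w.hh) = 1 := by exact_mod_cast hpy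
      simp only [CQ.toC_im]
      rw [eq_comm, eq_div_iff (by positivity)]; exact this
  have hrR : 1 / (2 * (w.hh : ℝ)) = (t.rp : ℝ) := by
    have : (t.rp : ℝ) * (2 * w.hh) = 1 := by exact_mod_cast hrp
    rw [eq_comm, eq_div_iff (by positivity)]; exact this
  rw [hpR, hrR] at hiq
  have hal : (a + (M+1 : ℕ) - 1) - (alq P (M+1)).toC = a - P.a0.toC := by
    simp only [alq, CQ.toC_sub, CQ.toC_add, CQ.toC_rea, CQ.toC_one]
    push_cast
    ring
  have hbe : (a + (M+1 : ℕ) - P.b) - (beq P (M+1)).toC = a - P.a0.toC := by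
    simp only [beq, CQ.toC_sub, CQ.toC_add, CQ.toC_rea]
    push_cast
    ring
  have hal' : ‖(a + (M+1 : ℕ) - 1) - (alq P (M+1)).toC‖ ≤ P.ha := by rw [hal]; exact ha
  have hbe' : ‖(a + (M+1 : ℕ) - P.b) - (beq P (M+1)).toC‖ ≤ P.ha := by rw [hbe]; exact ha
  have hstep := G_step (a + (M+1 : ℕ)) P.b hre1 hρ0 hJ (by
    simpa [sub_eq_add_neg, add_assoc] using hq)
  have hk : a + (M+1 : ℕ) - 1 = a + M := by push_cast; ring
  rw [hk] at hstep
  refine ⟨hstep.1, ?_⟩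
  rw [hstep.2]
  have hX := step_val (c' := t.new.c.toC) (n4 := (t.n4 : ℝ)) (by exact_mod_cast hha) hal' hbe' hiq
    (CQ.norm_le hnp) (CQ.norm_le hna) (CQ.norm_le hnb)
    (n1 := (t.n1 : ℝ)) (by have := CQ.norm_le hn1; rwa [CQ.toC_sub, CQ.toC_mul, CQ.toC_one] at this)
    (by have := CQ.norm_le hn4
        rwa [CQ.toC_sub, CQ.toC_mul, CQ.toC_sub, CQ.toC_mul, CQ.toC_one] at this)
  have hnew' : (t.n4 : ℝ) + P.ha * (t.n1 + (P.ha * (t.np + t.rp) + t.nb * t.rp))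
      + t.na * (P.ha * (t.np + t.rp) + t.nb * t.rp) ≤ t.new.r := by
    simp only [e1] at hnew
    exact_mod_cast hnew
  refine le_trans (le_of_eq ?_) (hX.trans hnew')
  congr 1
  rw [hk]
  have hq' : G (a + (M+1 : ℕ)) P.b ρ - I * ρ + (a + (M+1 : ℕ)) - P.b ≠ 0 := hq
  field_simp
  ring

/-- Schwarz-Pick for maps into the right half plane (derivative at the centre). -/
theorem deriv_le_of_re_pos {f : ℂ → ℂ} {a : ℂ} {R : ℝ} (hR : 0 < R)
    (hf : DifferentiableOn ℂ f (ball a R)) (hpos : ∀ w ∈ ball a R, 0 < (f w).re) :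
    ‖deriv f a‖ ≤ 2 * (f a).re / R := by
  have haR : a ∈ ball a R := mem_ball_self hR
  have h0 := hpos a haR
  set h : ℂ → ℂ := fun w => (f w - f a) / (f w + conj (f a)) with hh
  have hden : ∀ w ∈ ball a R, f w + conj (f a) ≠ 0 := by
    intro w hw h
    have := congrArg Complex.re h
    simp at this
    have := hpos w hw
    linarith
  have hd : DifferentiableOn ℂ h (ball a R) :=
    (hf.sub_const _).div (hf.add_const _) hden
  have hha : h a = 0 := by simp [hh]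
  have hmaps : MapsTo h (ball a R) (ball (h a) 1) := by
    intro w hw
    rw [hha, mem_ball_zero_iff]
    simp only [hh]
    rw [norm_div, div_lt_one (norm_pos_iff.mpr (hden w hw))]
    apply lt_of_pow_lt_pow_left₀ 2 (norm_nonneg _)
    rw [← Complex.normSq_eq_norm_sq, ← Complex.normSq_eq_norm_sq, normSq_apply, normSq_apply]
    simp only [Complex.sub_re, Complex.sub_im, Complex.add_re, Complex.add_im, Complex.conj_re,
      Complex.conj_im]
    nlinarith [hpos w hw, mul_pos (hpos w hw) h0]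
  have hS := Complex.norm_deriv_le_div_of_mapsTo_ball hd (hmaps.mono_right ball_subset_closedBall) hR
  have hfd : DifferentiableAt ℂ f a := hf.differentiableAt (ball_mem_nhds a hR)
  have hder : deriv h a = deriv f a / ((2 * (f a).re : ℝ) : ℂ) := by
    have h1 := (hfd.hasDerivAt.sub_const (f a)).div (hfd.hasDerivAt.add_const (conj (f a))) (hden a haR)
    have h1' : deriv h a = (deriv f a * (f a + (starRingEnd ℂ) (f a)) - (f a - f a) * deriv f a) / (f a + (starRingEnd ℂ) (f a)) ^ 2 := h1.deriv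
    rw [h1']
    have e : f a + conj (f a) = ((2 * (f a).re : ℝ) : ℂ) := by
      rw [Complex.add_conj]
    have hne := hden a haR
    rw [e] at hne ⊢
    simp only [sub_self, zero_mul, sub_zero]
    field_simp
  rw [hder, norm_div, Complex.norm_real, Real.norm_of_nonneg (by positivity)] at hS
  rw [div_le_div_iff₀ (by positivity) hR] at hS
  rw [le_div_iff₀ hR]
  linarith

theorem startD (h : checkS P M w t = true) (h' : checkSD P M w t = true) : EncD P M t.new := by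
  have hV := startV h
  simp only [checkSD, Bool.and_eq_true, decide_eq_true_eq] at h'
  obtain ⟨⟨⟨⟨⟨hR, hb⟩, hRle⟩, hdx⟩, hdy⟩, hs⟩ := h'
  intro a ha ρ hρ0 hρ
  have hbc : (((P.b : ℝ) : ℂ)) = (P.b : ℂ) := by push_cast; rfl
  have hRR : (0 : ℝ) < w.R := by exact_mod_cast hR
  have hb0 : (0 : ℝ) ≤ P.b := by exact_mod_cast hb
  have hRle' : (w.R : ℝ) + P.ha + P.b / 2 ≤ P.a0.x + M := by exact_mod_cast hRle
  have hre : ∀ a' ∈ ball a (w.R : ℝ), (P.b : ℝ) / 2 < (a' + (M : ℕ)).re := by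
    intro a' ha'
    rw [mem_ball, dist_eq_norm] at ha'
    have h1 : |(a' - a).re| < w.R := lt_of_le_of_lt (Complex.abs_re_le_norm _) ha'
    have h2 : |(a - P.a0.toC).re| < P.ha := lt_of_le_of_lt (Complex.abs_re_le_norm _) ha
    have h3 := (abs_lt.mp h1).1
    have h4 := (abs_lt.mp h2).1
    simp only [Complex.sub_re, CQ.toC_re] at h3 h4
    simp only [Complex.add_re, Complex.natCast_re]
    linarith
  set f : ℂ → ℂ := fun a' => G (a' + (M : ℕ)) P.b ρ with hf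
  have hfd : DifferentiableOn ℂ f (ball a (w.R : ℝ)) := by
    intro a' ha'
    have h1 := hre a' ha'
    have h0 : 0 < (a' + (M : ℕ)).re := by linarith
    have hJ := J_ne_zero (a' + (M : ℕ)) (P.b : ℝ) h0 h1 hρ0
    rw [hbc] at hJ
    have hJ0 : DifferentiableAt ℂ (fun w : ℂ => JCx.J (w + (M : ℕ)) (P.b - (w + (M : ℕ)) - 1) (ρ : ℂ)) a' :=
      JCx.J_differentiableAt (by fun_prop) (by fun_prop) (by fun_prop) h0 (by simpa using hρ0)
    have hJ1 : DifferentiableAt ℂ (fun w : ℂ => JCx.J (w + (M : ℕ) + 1) (P.b - (w + (M : ℕ)) - 1) (ρ : ℂ)) a' :=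
      JCx.J_differentiableAt (by fun_prop) (by fun_prop) (by fun_prop) (by simp at h0 ⊢; linarith)
        (by simpa using hρ0)
    have : DifferentiableAt ℂ f a' := by
      simp only [hf, G]
      exact (hJ1.const_mul (ρ : ℂ)).div hJ0 hJ
    exact this.differentiableWithinAt
  have hPd : DifferentiableOn ℂ (fun a' => ((ρ / 2 : ℝ) : ℂ) + I * f a') (ball a (w.R : ℝ)) :=
    (hfd.const_mul I).const_add _
  have hpos : ∀ a' ∈ ball a (w.R : ℝ), 0 < (((ρ / 2 : ℝ) : ℂ) + I * f a').re := by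
    intro a' ha'
    have h1 := hre a' ha'
    have h0 : 0 < (a' + (M : ℕ)).re := by linarith
    have hG := G_im_lt (a' + (M : ℕ)) (P.b : ℝ) h0 h1 hρ0
    rw [hbc] at hG
    simp only [Complex.add_re, Complex.ofReal_re, Complex.mul_re, Complex.I_re, Complex.I_im, hf]
    linarith
  have hbound := deriv_le_of_re_pos hRR hPd hpos
  have hfa : DifferentiableAt ℂ f a := hfd.differentiableAt (ball_mem_nhds a hRR)
  have hder : deriv (fun a' => ((ρ / 2 : ℝ) : ℂ) + I * f a') a = I * deriv f a := by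
    rw [((hfa.hasDerivAt.const_mul I).const_add _).deriv]
  rw [hder, norm_mul, Complex.norm_I, one_mul] at hbound
  refine ⟨deriv f a, hfa.hasDerivAt, ?_⟩
  have hd0 : t.new.d.toC = 0 := by
    apply Complex.ext <;> simp [hdx, hdy]
  rw [hd0, sub_zero]
  refine hbound.trans ?_
  obtain ⟨-, hc⟩ := hV a ha.le ρ hρ0 hρ
  have h3 : |(f a - t.new.c.toC).im| ≤ t.new.r := (Complex.abs_im_le_norm _).trans hc
  have h4 := (abs_le.mp h3).1
  simp only [Complex.sub_im, CQ.toC_im] at h4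
  have hre' : (((ρ / 2 : ℝ) : ℂ) + I * f a).re = ρ / 2 - (f a).im := by
    simp
    ring
  rw [hre', div_le_iff₀ hRR]
  have hs' : 2 * (((P.r0 : ℝ) + P.hr) / 2 - t.new.c.y + t.new.r) ≤ t.new.s * w.R := by
    exact_mod_cast hs
  have := (abs_le.mp hρ).2
  linarith

/-- list form -/
def chainOK (P : Par) : ℕ → St → List Ct → Bool
  | 0, _, [] => true
  | k+1, o, t :: ts => checkV P (k+1) o t && chainOK P k t.new ts
  | _, _, _ => false

def chainOKD (P : Par) : ℕ → St → List Ct → Bool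
  | 0, _, [] => true
  | k+1, o, t :: ts => checkV P (k+1) o t && checkD P (k+1) o t && chainOKD P k t.new ts
  | _, _, _ => false

def last (o : St) : List Ct → St
  | [] => o
  | t :: ts => last t.new ts

theorem chainV : ∀ (k : ℕ) (o : St) (ts : List Ct), chainOK P k o ts = true → EncV P k o →
    EncV P 0 (last o ts)
  | 0, _, [], _, h => h
  | k+1, o, t :: ts, hc, h => by
      simp only [chainOK, Bool.and_eq_true] at hc
      exact chainV k t.new ts hc.2 (stepV hc.1 h)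
  | 0, _, _ :: _, hc, _ => by simp [chainOK] at hc
  | _+1, _, [], hc, _ => by simp [chainOK] at hc

theorem chainD : ∀ (k : ℕ) (o : St) (ts : List Ct), chainOKD P k o ts = true → EncV P k o →
    EncD P k o → EncV P 0 (last o ts) ∧ EncD P 0 (last o ts)
  | 0, _, [], _, h, h' => ⟨h, h'⟩
  | k+1, o, t :: ts, hc, h, h' => by
      simp only [chainOKD, Bool.and_eq_true] at hc
      exact chainD k t.new ts hc.2 (stepV hc.1.1 h) (stepD hc.1.1 hc.1.2 h h')
  | 0, _, _ :: _, hc, _, _ => by simp [chainOKD] at hc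
  | _+1, _, [], hc, _, _ => by simp [chainOKD] at hc

end Crest.Agent.R086.Chain
private theorem rz_4d20814d6c : type_of% @_root_.Crest.Agent.R086.Chain.chainOK.eq_def := @_root_.Crest.Agent.R086.Chain.chainOK.eq_def -- L254
private theorem rz_310700ebcb : type_of% @_root_.Crest.Agent.R086.Chain.chainOK.eq_1 := @_root_.Crest.Agent.R086.Chain.chainOK.eq_1 -- L254
private theorem rz_a58d57a036 : type_of% @_root_.Crest.Agent.R086.Chain.chainOKD.eq_def := @_root_.Crest.Agent.R086.Chain.chainOKD.eq_def -- L259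
private theorem rz_cb2300a4ea : type_of% @_root_.Crest.Agent.R086.Chain.chainOKD.eq_1 := @_root_.Crest.Agent.R086.Chain.chainOKD.eq_1 -- L259
private theorem rz_46e064ceb7 : type_of% @_root_.Crest.Agent.R086.Chain.last.eq_def := @_root_.Crest.Agent.R086.Chain.last.eq_def -- L264
private theorem rz_c78457f805 : type_of% @_root_.Crest.Agent.R086.Chain.last.eq_1 := @_root_.Crest.Agent.R086.Chain.last.eq_1 -- L264
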