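import Mathlib

-- ▼ part R086/WieG
section

/-!
# Row 86, node DA: weighted `L¹` convolution algebra on a general abelian group (helper384)

`G` = abelian group with an invariant measure `μ` (`R12` with Lebesgue measure, `ℤ¹²` with the
counting measure), `W : Wt G` = measurable even submultiplicative weight `≥ 1`.
`XG μ W` = `L¹(W dμ)`, a commutative (non unital) Banach `*`-algebra under convolution.
-/

set_option autoImplicit false
set_option linter.unusedSectionVars false

open MeasureTheory Complex Filter Set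
open scoped ContDiff ENNReal NNReal Topology Convolution

noncomputable section

namespace Crest.Agent.R086.Wie

/-- an even submultiplicative weight `≥ 1` -/
structure Wt (G : Type*) [AddGroup G] [MeasurableSpace G] where
  toFun : G → ℝ
  meas : Measurable toFun
  one_le : ∀ x, 1 ≤ toFun x
  add_le : ∀ x y, toFun (x + y) ≤ toFun x * toFun y
  neg : ∀ x, toFun (-x) = toFun x

instance (G : Type*) [AddGroup G] [MeasurableSpace G] : CoeFun (Wt G) fun _ => G → ℝ :=
  ⟨Wt.toFun⟩

variable {G : Type*} [AddCommGroup G] [MeasurableSpace G]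

namespace Wt

variable (W : Wt G)

theorem pos (x : G) : 0 < W x := one_pos.trans_le (W.one_le x)
theorem nonneg (x : G) : 0 ≤ W x := (W.pos x).le

theorem sub_le (x t : G) : W x ≤ W t * W (x - t) := by
  have := W.add_le t (x - t)
  rwa [add_sub_cancel] at this

theorem meas_ofReal : Measurable fun x => ENNReal.ofReal (W x) := W.meas.ennreal_ofReal

end Wt

section base

variable (μ : Measure G) (W : Wt G)

/-- the weighted measure -/
def mW : Measure G := μ.withDensity fun x => ENNReal.ofReal (W x)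

theorem mW_ac : mW μ W ≪ μ := withDensity_absolutelyContinuous _ _

theorem ac_mW : μ ≪ mW μ W :=
  withDensity_absolutelyContinuous' W.meas_ofReal.aemeasurable
    (Eventually.of_forall fun x => by simpa using W.pos x)

variable {μ W}

theorem integrable_mW_iff {E : Type*} [NormedAddCommGroup E] [NormedSpace ℝ E]
    {f : G → E} : Integrable f (mW μ W) ↔ Integrable (fun x => W x • f x) μ := by
  unfold mW
  rw [integrable_withDensity_iff_integrable_smul' W.meas_ofReal
    (Eventually.of_forall fun x => ENNReal.ofReal_lt_top)]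
  refine integrable_congr (Eventually.of_forall fun x => ?_)
  simp only [ENNReal.toReal_ofReal (W.nonneg x)]

theorem integral_mW {E : Type*} [NormedAddCommGroup E] [NormedSpace ℝ E]
    (f : G → E) : ∫ x, f x ∂(mW μ W) = ∫ x, W x • f x ∂μ := by
  unfold mW
  rw [integral_withDensity_eq_integral_toReal_smul W.meas_ofReal
    (Eventually.of_forall fun x => ENNReal.ofReal_lt_top)]
  refine integral_congr_ae (Eventually.of_forall fun x => ?_)
  simp only [ENNReal.toReal_ofReal (W.nonneg x)]

variable (μ W)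

/-- the weighted class of densities (function level) -/
def GInt (a : G → ℂ) : Prop := Integrable (fun x => W x • a x) μ

variable {μ W}

theorem GInt.integrable {a : G → ℂ} (h : GInt μ W a) : Integrable a μ := by
  have hm : AEStronglyMeasurable a μ := by
    have h1 : AEStronglyMeasurable (fun x => (W x)⁻¹ • (W x • a x)) μ :=
      (W.meas.inv.aestronglyMeasurable).smul h.aestronglyMeasurable
    refine h1.congr (Eventually.of_forall fun x => ?_)
    simp only [smul_smul, inv_mul_cancel₀ (W.pos x).ne', one_smul]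
  refine h.mono hm (Eventually.of_forall fun x => ?_)
  rw [norm_smul, Real.norm_of_nonneg (W.nonneg x)]
  nlinarith [W.one_le x, norm_nonneg (a x)]

theorem GInt.norm_int {a : G → ℂ} (h : GInt μ W a) : Integrable (fun x => W x * ‖a x‖) μ := by
  refine (Integrable.norm h).congr (Eventually.of_forall fun x => ?_)
  simp only [norm_smul, Real.norm_of_nonneg (W.nonneg x)]

theorem gint_iff {a : G → ℂ} (hm : AEStronglyMeasurable a μ) :
    GInt μ W a ↔ Integrable (fun x => W x * ‖a x‖) μ := by
  refine ⟨GInt.norm_int, fun h => ?_⟩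
  refine Integrable.mono h (W.meas.aestronglyMeasurable.smul hm) (Eventually.of_forall fun x => ?_)
  rw [norm_smul, Real.norm_of_nonneg (W.nonneg x),
    Real.norm_of_nonneg (mul_nonneg (W.nonneg x) (norm_nonneg _))]

theorem GInt.of_le {W' : Wt G} {C : ℝ} (hW : ∀ x, W' x ≤ C * W x) {a : G → ℂ}
    (h : GInt μ W a) : GInt μ W' a := by
  refine (h.norm_int.const_mul C).mono (W'.meas.aestronglyMeasurable.smul
    h.integrable.aestronglyMeasurable) (Eventually.of_forall fun x => ?_)
  have hC : 0 ≤ C * W x := (W'.nonneg x).trans (hW x)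
  rw [norm_smul, Real.norm_of_nonneg (W'.nonneg x),
    Real.norm_of_nonneg (by rw [← mul_assoc]; exact mul_nonneg hC (norm_nonneg _)), ← mul_assoc]
  exact mul_le_mul_of_nonneg_right (hW x) (norm_nonneg _)

theorem GInt.congr {a b : G → ℂ} (h : GInt μ W a) (hab : a =ᵐ[μ] b) : GInt μ W b :=
  Integrable.congr h (hab.mono fun x hx => by simp only [hx])

theorem GInt.add {a b : G → ℂ} (ha : GInt μ W a) (hb : GInt μ W b) :
    GInt μ W fun x => a x + b x := by
  refine (Integrable.add ha hb).congr (Eventually.of_forall fun x => ?_)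
  simp [smul_add]

theorem GInt.const_mul {a : G → ℂ} (ha : GInt μ W a) (c : ℂ) : GInt μ W fun x => c * a x := by
  refine (Integrable.const_mul ha c).congr (Eventually.of_forall fun x => ?_)
  simp only [mul_smul_comm]

/-- multiplication of the density by a bounded function (Fourier multiplier) -/
theorem GInt.bdd_mul {a : G → ℂ} (ha : GInt μ W a) {φ : G → ℂ} (hφ : AEStronglyMeasurable φ μ)
    {C : ℝ} (hC : ∀ x, ‖φ x‖ ≤ C) : GInt μ W fun x => φ x * a x := by
  refine (Integrable.bdd_mul ha hφ (Eventually.of_forall hC)).congr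
    (Eventually.of_forall fun x => ?_)
  simp only [mul_smul_comm]

theorem GInt.star [MeasurableNeg G] [μ.IsNegInvariant] {a : G → ℂ} (ha : GInt μ W a) :
    GInt μ W fun x => (starRingEnd ℂ) (a (-x)) := by
  have h1 : Integrable (fun x => W (-x) • a (-x)) μ := ha.comp_neg
  have h2 : Integrable (fun x => (starRingEnd ℂ) (W (-x) • a (-x))) μ :=
    (Complex.conjCLE.toContinuousLinearMap.integrable_comp h1)
  refine h2.congr (Eventually.of_forall fun x => ?_)
  simp only [W.neg, Complex.real_smul, map_mul, Complex.conj_ofReal]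

theorem GInt.zero : GInt μ W (fun _ => (0 : ℂ)) := by
  unfold GInt; simp

end base

/-! ### convolution -/

section conv

variable (μ : Measure G)

/-- convolution of densities -/
def cv (f g : G → ℂ) (x : G) : ℂ := ∫ t, f t * g (x - t) ∂μ

theorem cv_eq (f g : G → ℂ) : cv μ f g = f ⋆[ContinuousLinearMap.mul ℂ ℂ, μ] g := rfl

/-- convolution of real functions -/
def cvR (f g : G → ℝ) (x : G) : ℝ := ∫ t, f t * g (x - t) ∂μ


variable {μ}
variable [MeasurableAdd₂ G] [MeasurableNeg G] [SFinite μ] [μ.IsAddLeftInvariant]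

theorem cv_comm [μ.IsNegInvariant] (f g : G → ℂ) : cv μ f g = cv μ g f := by
  rw [cv_eq, cv_eq, ← convolution_flip]
  congr 1
  ext; simp

theorem integrable_cv {f g : G → ℂ} (hf : Integrable f μ) (hg : Integrable g μ) :
    Integrable (cv μ f g) μ := hf.integrable_convolution (ContinuousLinearMap.mul ℂ ℂ) hg

theorem integrable_cvR {f g : G → ℝ} (hf : Integrable f μ) (hg : Integrable g μ) :
    Integrable (cvR μ f g) μ := hf.integrable_convolution (ContinuousLinearMap.mul ℝ ℝ) hg

theorem integral_cvR {f g : G → ℝ} (hf : Integrable f μ) (hg : Integrable g μ) :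
    ∫ x, cvR μ f g x ∂μ = (∫ x, f x ∂μ) * ∫ x, g x ∂μ :=
  integral_convolution (ContinuousLinearMap.mul ℝ ℝ) hf hg

/-- testing a convolution with a bounded measurable function -/
theorem integral_mul_cv {f g : G → ℂ} (hf : Integrable f μ) (hg : Integrable g μ) {φ : G → ℂ}
    (hφ : Measurable φ) {C : ℝ} (hC : ∀ x, ‖φ x‖ ≤ C) :
    ∫ x, φ x * cv μ f g x ∂μ = ∫ ξ, ∫ η, φ (ξ + η) * (f ξ * g η) ∂μ ∂μ := by
  have h1 : Integrable (fun p : G × G => φ p.1 * (f p.2 * g (p.1 - p.2))) (μ.prod μ) :=
    Integrable.bdd_mul (hf.convolution_integrand (ContinuousLinearMap.mul ℂ ℂ) hg)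
      (hφ.comp measurable_fst).aestronglyMeasurable (Eventually.of_forall fun p => hC p.1)
  calc ∫ x, φ x * cv μ f g x ∂μ = ∫ x, ∫ t, φ x * (f t * g (x - t)) ∂μ ∂μ := by
        simp only [cv, integral_const_mul]
    _ = ∫ t, ∫ x, φ x * (f t * g (x - t)) ∂μ ∂μ := integral_integral_swap h1
    _ = ∫ t, ∫ η, φ (t + η) * (f t * g η) ∂μ ∂μ := by
        refine integral_congr_ae (Eventually.of_forall fun t => ?_)
        simp only
        rw [← integral_add_left_eq_self (fun x => φ x * (f t * g (x - t))) t]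
        simp only [add_sub_cancel_left]

theorem norm_cv_le {W : Wt G} {f g : G → ℂ} (hf : GInt μ W f) (hg : GInt μ W g) :
    ∀ᵐ x ∂μ, W x * ‖cv μ f g x‖ ≤ cvR μ (fun t => W t * ‖f t‖) (fun t => W t * ‖g t‖) x := by
  filter_upwards [hf.norm_int.ae_convolution_exists (ContinuousLinearMap.mul ℝ ℝ) hg.norm_int]
    with x hx
  have h1 : Integrable (fun t => W t * ‖f t‖ * (W (x - t) * ‖g (x - t)‖)) μ := hx
  calc W x * ‖cv μ f g x‖ = ‖∫ t, W x • (f t * g (x - t)) ∂μ‖ := by
        rw [integral_smul, norm_smul, Real.norm_of_nonneg (W.nonneg x)]; rfl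
    _ ≤ ∫ t, W t * ‖f t‖ * (W (x - t) * ‖g (x - t)‖) ∂μ := by
        refine norm_integral_le_of_norm_le h1 (Eventually.of_forall fun t => ?_)
        rw [norm_smul, norm_mul, Real.norm_of_nonneg (W.nonneg x)]
        have h2 := mul_le_mul_of_nonneg_right (W.sub_le x t)
          (mul_nonneg (norm_nonneg (f t)) (norm_nonneg (g (x - t))))
        calc W x * (‖f t‖ * ‖g (x - t)‖) ≤ _ := h2
          _ = _ := by ring

theorem GInt.cv {W : Wt G} {f g : G → ℂ} (hf : GInt μ W f) (hg : GInt μ W g) :
    GInt μ W (cv μ f g) := by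
  have hm : AEStronglyMeasurable (Wie.cv μ f g) μ :=
    (integrable_cv hf.integrable hg.integrable).aestronglyMeasurable
  rw [gint_iff hm]
  refine (integrable_cvR hf.norm_int hg.norm_int).mono
    (W.meas.aestronglyMeasurable.mul hm.norm) ?_
  filter_upwards [norm_cv_le hf hg] with x hx
  rw [Real.norm_of_nonneg (mul_nonneg (W.nonneg x) (norm_nonneg _))]
  exact hx.trans (le_abs_self _)

theorem integral_norm_cv_le {W : Wt G} {f g : G → ℂ} (hf : GInt μ W f) (hg : GInt μ W g) :
    ∫ x, W x * ‖cv μ f g x‖ ∂μ ≤ (∫ x, W x * ‖f x‖ ∂μ) * ∫ x, W x * ‖g x‖ ∂μ := by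
  rw [← integral_cvR hf.norm_int hg.norm_int]
  exact integral_mono_ae (hf.cv hg).norm_int (integrable_cvR hf.norm_int hg.norm_int)
    (norm_cv_le hf hg)

/-- bounded measurable functions separate integrable functions -/
theorem ae_eq_of_test [SigmaFinite μ] {f g : G → ℂ} (hf : Integrable f μ) (hg : Integrable g μ)
    (h : ∀ φ : G → ℂ, Measurable φ → (∀ x, ‖φ x‖ ≤ 1) →
      ∫ x, φ x * f x ∂μ = ∫ x, φ x * g x ∂μ) : f =ᵐ[μ] g := by
  refine Integrable.ae_eq_of_forall_setIntegral_eq f g hf hg fun s hs _ => ?_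
  have h1 := h (s.indicator fun _ => 1) (measurable_const.indicator hs) (fun x => by
    by_cases hx : x ∈ s <;> simp [hx])
  have e : ∀ k : G → ℂ, ∫ x, (s.indicator (fun _ => (1 : ℂ)) x) * k x ∂μ = ∫ x in s, k x ∂μ := by
    intro k
    rw [← integral_indicator hs]
    refine integral_congr_ae (Eventually.of_forall fun x => ?_)
    by_cases hx : x ∈ s <;> simp [hx]
  rwa [e, e] at h1

theorem cv_assoc [SigmaFinite μ] {f g h : G → ℂ} (hf : Integrable f μ) (hg : Integrable g μ)
    (hh : Integrable h μ) : cv μ (cv μ f g) h =ᵐ[μ] cv μ f (cv μ g h) := by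
  refine ae_eq_of_test (integrable_cv (integrable_cv hf hg) hh)
    (integrable_cv hf (integrable_cv hg hh)) fun φ hφ h1 => ?_
  rw [integral_mul_cv (integrable_cv hf hg) hh hφ h1, integral_mul_cv hf (integrable_cv hg hh) hφ h1]
  -- left: `∫ζ ∫κ φ(ζ+κ) (f⋆g)(ζ) h(κ)`
  have hI : Integrable (fun p : G × G => φ (p.1 + p.2) * (cv μ f g p.1 * h p.2)) (μ.prod μ) :=
    Integrable.bdd_mul ((integrable_cv hf hg).mul_prod hh)
      (hφ.comp measurable_add).aestronglyMeasurable (Eventually.of_forall fun p => h1 _)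
  have hL : ∫ ζ, ∫ κ, φ (ζ + κ) * (cv μ f g ζ * h κ) ∂μ ∂μ =
      ∫ κ, h κ * ∫ ξ, ∫ η, φ (ξ + η + κ) * (f ξ * g η) ∂μ ∂μ ∂μ := by
    rw [integral_integral_swap hI]
    refine integral_congr_ae (Eventually.of_forall fun κ => ?_)
    simp only
    rw [← integral_mul_cv (φ := fun x => φ (x + κ)) hf hg (hφ.comp (measurable_add_const κ))
      (fun x => h1 _), ← integral_const_mul]
    refine integral_congr_ae (Eventually.of_forall fun ζ => ?_)
    simp only; ring
  have hR : ∫ ξ, ∫ ζ, φ (ξ + ζ) * (f ξ * cv μ g h ζ) ∂μ ∂μ =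
      ∫ ξ, f ξ * ∫ η, ∫ κ, φ (ξ + (η + κ)) * (g η * h κ) ∂μ ∂μ ∂μ := by
    refine integral_congr_ae (Eventually.of_forall fun ξ => ?_)
    simp only
    rw [← integral_mul_cv (φ := fun x => φ (ξ + x)) hg hh (hφ.comp (measurable_const_add ξ))
      (fun x => h1 _), ← integral_const_mul]
    refine integral_congr_ae (Eventually.of_forall fun ζ => ?_)
    simp only; ring
  rw [hL, hR]
  -- both are the integral over `G × (G × G)` of `φ (ξ+η+κ) f(ξ) g(η) h(κ)`
  have h3 : Integrable (fun p : G × (G × G) => φ (p.1 + (p.2.1 + p.2.2)) *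
      (f p.1 * (g p.2.1 * h p.2.2))) (μ.prod (μ.prod μ)) := by
    refine Integrable.bdd_mul (hf.mul_prod (hg.mul_prod hh)) ?_
      (Eventually.of_forall fun p => h1 _)
    exact (hφ.comp (measurable_fst.add ((measurable_fst.comp measurable_snd).add
      (measurable_snd.comp measurable_snd)))).aestronglyMeasurable
  have eR : ∫ ξ, f ξ * ∫ η, ∫ κ, φ (ξ + (η + κ)) * (g η * h κ) ∂μ ∂μ ∂μ =
      ∫ p, φ (p.1 + (p.2.1 + p.2.2)) * (f p.1 * (g p.2.1 * h p.2.2)) ∂(μ.prod (μ.prod μ)) := by
    rw [integral_prod _ h3]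
    refine integral_congr_ae ?_
    filter_upwards with ξ
    have h5 : Integrable (fun q : G × G => φ (ξ + (q.1 + q.2)) * (g q.1 * h q.2))
        (μ.prod μ) := by
      refine Integrable.bdd_mul (hg.mul_prod hh) ?_ (Eventually.of_forall fun p => h1 _)
      exact (hφ.comp (measurable_const.add (measurable_fst.add
        measurable_snd))).aestronglyMeasurable
    rw [← integral_prod (fun q : G × G => φ (ξ + (q.1 + q.2)) * (g q.1 * h q.2)) h5,
      ← integral_const_mul]
    refine integral_congr_ae (Eventually.of_forall fun q => ?_)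
    simp only; ring
  have eL : ∫ κ, h κ * ∫ ξ, ∫ η, φ (ξ + η + κ) * (f ξ * g η) ∂μ ∂μ ∂μ =
      ∫ p, φ (p.1 + (p.2.1 + p.2.2)) * (f p.1 * (g p.2.1 * h p.2.2)) ∂(μ.prod (μ.prod μ)) := by
    have h6 : Integrable (fun p : (G × G) × G => φ (p.1.1 + (p.1.2 + p.2)) *
        (f p.1.1 * (g p.1.2 * h p.2))) ((μ.prod μ).prod μ) := by
      have h8 : Integrable (fun p : (G × G) × G => φ (p.1.1 + (p.1.2 + p.2)) *
          (f p.1.1 * g p.1.2 * h p.2)) ((μ.prod μ).prod μ) := by
        refine Integrable.bdd_mul ((hf.mul_prod hg).mul_prod hh) ?_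
          (Eventually.of_forall fun p => h1 _)
        exact (hφ.comp ((measurable_fst.comp measurable_fst).add
          ((measurable_snd.comp measurable_fst).add measurable_snd))).aestronglyMeasurable
      refine h8.congr (Eventually.of_forall fun p => ?_)
      simp only; ring
    have e1 : ∫ p, φ (p.1 + (p.2.1 + p.2.2)) * (f p.1 * (g p.2.1 * h p.2.2))
        ∂(μ.prod (μ.prod μ)) = ∫ p : (G × G) × G, φ (p.1.1 + (p.1.2 + p.2)) *
        (f p.1.1 * (g p.1.2 * h p.2)) ∂((μ.prod μ).prod μ) := by
      have := (measurePreserving_prodAssoc μ μ μ).integral_comp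
        MeasurableEquiv.prodAssoc.measurableEmbedding
        (fun p : G × (G × G) => φ (p.1 + (p.2.1 + p.2.2)) * (f p.1 * (g p.2.1 * h p.2.2)))
      rw [← this]
      rfl
    rw [e1, integral_prod_symm _ h6]
    refine integral_congr_ae (Eventually.of_forall fun κ => ?_)
    simp only
    have h7 : Integrable (fun q : G × G => φ (q.1 + q.2 + κ) * (f q.1 * g q.2)) (μ.prod μ) := by
      refine Integrable.bdd_mul (hf.mul_prod hg) ?_ (Eventually.of_forall fun p => h1 _)
      exact (hφ.comp ((measurable_fst.add measurable_snd).add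
        measurable_const)).aestronglyMeasurable
    rw [← integral_prod (fun q : G × G => φ (q.1 + q.2 + κ) * (f q.1 * g q.2)) h7,
      ← integral_const_mul]
    refine integral_congr_ae (Eventually.of_forall fun q => ?_)
    simp only
    rw [add_assoc]; ring
  rw [eL, eR]

end conv

end Crest.Agent.R086.Wie
end
end

-- ▼ part R086/WieX

/-!
# Row 86, node DA: the Banach algebra `XG μ W` (helper384)
-/

set_option autoImplicit false
set_option linter.unusedSectionVars false

open MeasureTheory Complex Filter Set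
open scoped ContDiff ENNReal NNReal Topology Convolution

noncomputable section

namespace Crest.Agent.R086.Wie

variable {G : Type*} [AddCommGroup G] [MeasurableSpace G]

/-- the Banach space of densities with weight `W` -/
def XG (μ : Measure G) (W : Wt G) : Type _ := Lp ℂ 1 (mW μ W)

instance (μ : Measure G) (W : Wt G) : NormedAddCommGroup (XG μ W) :=
  inferInstanceAs (NormedAddCommGroup (Lp ℂ 1 (mW μ W)))
instance (μ : Measure G) (W : Wt G) : NormedSpace ℂ (XG μ W) :=
  inferInstanceAs (NormedSpace ℂ (Lp ℂ 1 (mW μ W)))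
instance (μ : Measure G) (W : Wt G) : CompleteSpace (XG μ W) :=
  inferInstanceAs (CompleteSpace (Lp ℂ 1 (mW μ W)))

namespace XG

variable {μ : Measure G} {W : Wt G}

/-- the element as an element of `Lp` -/
def toLp (a : XG μ W) : Lp ℂ 1 (mW μ W) := a

/-- the density function of an element -/
def den (a : XG μ W) : G → ℂ := (toLp a : G → ℂ)

/-- element with a given density -/
def mk (a : G → ℂ) (ha : GInt μ W a) : XG μ W := (integrable_mW_iff.2 ha).toL1 a

theorem den_mk {a : G → ℂ} (ha : GInt μ W a) : den (mk a ha) =ᵐ[μ] a := by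
  have h : (den (mk a ha) : G → ℂ) =ᵐ[mW μ W] a := (integrable_mW_iff.2 ha).coeFn_toL1
  exact (ac_mW μ W).ae_le h

theorem gint_den (a : XG μ W) : GInt μ W (den a) := by
  have h : Integrable (den a) (mW μ W) := L1.integrable_coeFn (toLp a)
  exact integrable_mW_iff.1 h

theorem integrable_den (a : XG μ W) : Integrable (den a) μ := (gint_den a).integrable

theorem ext {a b : XG μ W} (h : den a =ᵐ[μ] den b) : a = b := by
  have h' : (toLp a : G → ℂ) =ᵐ[mW μ W] (toLp b : G → ℂ) := (mW_ac μ W).ae_le h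
  exact Lp.ext h'


theorem mk_congr {a b : G → ℂ} (ha : GInt μ W a) (hb : GInt μ W b) (h : a =ᵐ[μ] b) :
    mk a ha = mk b hb := ext (((den_mk ha).trans h).trans (den_mk hb).symm)

theorem norm_eq (a : XG μ W) : ‖a‖ = ∫ x, W x * ‖den a x‖ ∂μ := by
  have h1 : ‖a‖ = ∫ x, ‖den a x‖ ∂(mW μ W) := L1.norm_eq_integral_norm (toLp a)
  rw [h1, integral_mW]
  rfl

theorem norm_mk {a : G → ℂ} (ha : GInt μ W a) : ‖mk a ha‖ = ∫ x, W x * ‖a x‖ ∂μ := by
  rw [norm_eq]
  refine integral_congr_ae ((den_mk ha).mono fun x hx => ?_)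
  simp only [hx]

theorem integral_norm_le (a : XG μ W) : ∫ x, ‖den a x‖ ∂μ ≤ ‖a‖ := by
  rw [norm_eq]
  refine integral_mono a.integrable_den.norm (gint_den a).norm_int fun x => ?_
  nlinarith [W.one_le x, norm_nonneg (den a x)]

theorem den_add (a b : XG μ W) : den (a + b) =ᵐ[μ] fun x => den a x + den b x := by
  have h := Lp.coeFn_add (toLp a) (toLp b)
  exact (ac_mW μ W).ae_le h

theorem den_sub (a b : XG μ W) : den (a - b) =ᵐ[μ] fun x => den a x - den b x := by
  have h := Lp.coeFn_sub (toLp a) (toLp b)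
  exact (ac_mW μ W).ae_le h


theorem den_smul (c : ℂ) (a : XG μ W) : den (c • a) =ᵐ[μ] fun x => c * den a x := by
  have h := Lp.coeFn_smul c (toLp a)
  exact (ac_mW μ W).ae_le h

theorem den_zero : den (0 : XG μ W) =ᵐ[μ] fun _ => 0 := by
  have h := Lp.coeFn_zero ℂ 1 (mW μ W)
  exact (ac_mW μ W).ae_le h

theorem mk_add {a b : G → ℂ} (ha : GInt μ W a) (hb : GInt μ W b) :
    mk (fun x => a x + b x) (ha.add hb) = mk a ha + mk b hb := by
  refine ext ?_
  filter_upwards [den_mk (ha.add hb), den_add (mk a ha) (mk b hb), den_mk ha, den_mk hb]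
    with x h1 h2 h3 h4
  rw [h1, h2, h3, h4]

theorem mk_smul {a : G → ℂ} (c : ℂ) (ha : GInt μ W a) :
    mk (fun x => c * a x) (ha.const_mul c) = c • mk a ha := by
  refine ext ?_
  filter_upwards [den_mk (ha.const_mul c), den_smul c (mk a ha), den_mk ha] with x h1 h2 h3
  rw [h1, h2, h3]

/-! ### bounded operators given by a function-level map -/

/-- a linear map on densities which respects a.e. equality and is bounded in the weighted norms
gives a continuous linear map -/
def lift {H : Type*} [AddCommGroup H] [MeasurableSpace H] {ν : Measure H} {W' : Wt H}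
    (T : (G → ℂ) → H → ℂ) (hT : ∀ a, GInt μ W a → GInt ν W' (T a))
    (hadd : ∀ a b, GInt μ W a → GInt μ W b →
      T (fun x => a x + b x) =ᵐ[ν] fun x => T a x + T b x)
    (hsmul : ∀ (c : ℂ) a, GInt μ W a → T (fun x => c * a x) =ᵐ[ν] fun x => c * T a x)
    (hcongr : ∀ a b, GInt μ W a → a =ᵐ[μ] b → T a =ᵐ[ν] T b)
    (C : ℝ) (hC : ∀ a, GInt μ W a → ∫ x, W' x * ‖T a x‖ ∂ν ≤ C * ∫ x, W x * ‖a x‖ ∂μ) :
    XG μ W →L[ℂ] XG ν W' :=
  LinearMap.mkContinuous
    { toFun := fun a => mk (T (den a)) (hT _ (gint_den a))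
      map_add' := fun a b => by
        refine ext ?_
        have h1 := hcongr _ _ (gint_den (a + b)) (den_add a b)
        filter_upwards [den_mk (hT _ (gint_den (a + b))), h1,
          hadd _ _ (gint_den a) (gint_den b), den_add (mk (T (den a)) (hT _ (gint_den a)))
            (mk (T (den b)) (hT _ (gint_den b))), den_mk (hT _ (gint_den a)),
          den_mk (hT _ (gint_den b))] with x h1 h2 h3 h4 h5 h6
        rw [h1, h2, h3, h4, h5, h6]
      map_smul' := fun c a => by
        refine ext ?_
        have h1 := hcongr _ _ (gint_den (c • a)) (den_smul c a)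
        simp only [RingHom.id_apply]
        filter_upwards [den_mk (hT _ (gint_den (c • a))), h1, hsmul c _ (gint_den a),
          den_smul c (mk (T (den a)) (hT _ (gint_den a))), den_mk (hT _ (gint_den a))]
          with x h1 h2 h3 h4 h5
        rw [h1, h2, h3, h4, h5] } C
    (fun a => by
      show ‖mk (T (den a)) (hT _ (gint_den a))‖ ≤ C * ‖a‖
      rw [norm_mk, norm_eq]
      exact hC _ (gint_den a))

theorem den_lift {H : Type*} [AddCommGroup H] [MeasurableSpace H] {ν : Measure H} {W' : Wt H}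
    (T : (G → ℂ) → H → ℂ) (hT : ∀ a, GInt μ W a → GInt ν W' (T a))
    (hadd : ∀ a b, GInt μ W a → GInt μ W b →
      T (fun x => a x + b x) =ᵐ[ν] fun x => T a x + T b x)
    (hsmul : ∀ (c : ℂ) a, GInt μ W a → T (fun x => c * a x) =ᵐ[ν] fun x => c * T a x)
    (hcongr : ∀ a b, GInt μ W a → a =ᵐ[μ] b → T a =ᵐ[ν] T b)
    (C : ℝ) (hC : ∀ a, GInt μ W a → ∫ x, W' x * ‖T a x‖ ∂ν ≤ C * ∫ x, W x * ‖a x‖ ∂μ)
    (a : XG μ W) : den (lift T hT hadd hsmul hcongr C hC a) =ᵐ[ν] T (den a) :=
  den_mk (hT _ (gint_den a))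

theorem norm_lift_le {H : Type*} [AddCommGroup H] [MeasurableSpace H] {ν : Measure H} {W' : Wt H}
    (T : (G → ℂ) → H → ℂ) (hT : ∀ a, GInt μ W a → GInt ν W' (T a))
    (hadd : ∀ a b, GInt μ W a → GInt μ W b →
      T (fun x => a x + b x) =ᵐ[ν] fun x => T a x + T b x)
    (hsmul : ∀ (c : ℂ) a, GInt μ W a → T (fun x => c * a x) =ᵐ[ν] fun x => c * T a x)
    (hcongr : ∀ a b, GInt μ W a → a =ᵐ[μ] b → T a =ᵐ[ν] T b)
    (C : ℝ) (hC : ∀ a, GInt μ W a → ∫ x, W' x * ‖T a x‖ ∂ν ≤ C * ∫ x, W x * ‖a x‖ ∂μ)
    (hC0 : 0 ≤ C) : ‖lift T hT hadd hsmul hcongr C hC‖ ≤ C :=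
  LinearMap.mkContinuous_norm_le _ hC0 _

/-! ### inclusion between weights -/

/-- the inclusion `XG μ W → XG μ W'` for `W' ≤ W` -/
def incl {W' : Wt G} (h : ∀ x, W' x ≤ W x) : XG μ W →L[ℂ] XG μ W' :=
  lift (fun a => a) (fun _ ha => ha.of_le (C := 1) (fun x => by rw [one_mul]; exact h x))
    (fun _ _ _ _ => EventuallyEq.rfl) (fun _ _ _ => EventuallyEq.rfl) (fun _ _ _ h => h) 1
    (fun a ha => by
      rw [one_mul]
      have ha' : GInt μ W' a := ha.of_le (C := 1) (fun x => by rw [one_mul]; exact h x)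
      refine integral_mono ha'.norm_int ha.norm_int fun x => ?_
      exact mul_le_mul_of_nonneg_right (h x) (norm_nonneg _))

theorem den_incl {W' : Wt G} (h : ∀ x, W' x ≤ W x) (a : XG μ W) :
    den (incl h a) =ᵐ[μ] den a := den_lift _ _ _ _ _ _ _ a

theorem norm_incl_le {W' : Wt G} (h : ∀ x, W' x ≤ W x) (a : XG μ W) : ‖incl h a‖ ≤ ‖a‖ := by
  rw [norm_eq, norm_eq]
  have e : ∫ x, W' x * ‖den (incl h a) x‖ ∂μ = ∫ x, W' x * ‖den a x‖ ∂μ :=
    integral_congr_ae ((den_incl h a).mono fun x hx => by simp only [hx])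
  rw [e]
  have ha' : GInt μ W' (den a) :=
    (gint_den a).of_le (C := 1) (fun x => by rw [one_mul]; exact h x)
  refine integral_mono ha'.norm_int (gint_den a).norm_int fun x => ?_
  exact mul_le_mul_of_nonneg_right (h x) (norm_nonneg _)


/-! ### Fourier multipliers (multiplication of the density by a bounded function) -/

/-- multiplication of the density by a bounded measurable function -/
def fmul (φ : G → ℂ) (hφ : AEStronglyMeasurable φ μ) (C : ℝ) (hC : ∀ x, ‖φ x‖ ≤ C) :
    XG μ W →L[ℂ] XG μ W :=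
  lift (fun a x => φ x * a x) (fun _ ha => ha.bdd_mul hφ hC)
    (fun _ _ _ _ => Eventually.of_forall fun x => by simp only [mul_add])
    (fun _ _ _ => Eventually.of_forall fun x => by simp only; ring)
    (fun _ _ _ h => h.mono fun x hx => by simp only [hx]) C
    (fun a ha => by
      rw [← integral_const_mul]
      refine integral_mono (ha.bdd_mul hφ hC).norm_int (ha.norm_int.const_mul C) fun x => ?_
      simp only [norm_mul]
      have h1 := mul_le_mul_of_nonneg_right (hC x) (mul_nonneg (W.nonneg x) (norm_nonneg (a x)))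
      calc W x * (‖φ x‖ * ‖a x‖) = ‖φ x‖ * (W x * ‖a x‖) := by ring
        _ ≤ _ := h1)

theorem den_fmul {φ : G → ℂ} (hφ : AEStronglyMeasurable φ μ) {C : ℝ} (hC : ∀ x, ‖φ x‖ ≤ C)
    (a : XG μ W) : den (fmul φ hφ C hC a) =ᵐ[μ] fun x => φ x * den a x :=
  den_lift _ _ _ _ _ _ _ a


/-! ### product -/

section alg

variable [MeasurableAdd₂ G] [MeasurableNeg G] [SigmaFinite μ] [μ.IsAddLeftInvariant]
  [μ.IsNegInvariant]

instance : Mul (XG μ W) := ⟨fun a b => mk (cv μ (den a) (den b)) ((gint_den a).cv (gint_den b))⟩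

theorem mul_def (a b : XG μ W) :
    a * b = mk (cv μ (den a) (den b)) ((gint_den a).cv (gint_den b)) := rfl

theorem den_mul (a b : XG μ W) : den (a * b) =ᵐ[μ] cv μ (den a) (den b) := den_mk _

/-- the product is determined by testing -/
theorem integral_mul_den_mul (a b : XG μ W) {φ : G → ℂ} (hφ : Measurable φ) {C : ℝ}
    (hC : ∀ x, ‖φ x‖ ≤ C) :
    ∫ x, φ x * den (a * b) x ∂μ = ∫ ξ, ∫ η, φ (ξ + η) * (den a ξ * den b η) ∂μ ∂μ := by
  rw [← integral_mul_cv (integrable_den a) (integrable_den b) hφ hC]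
  exact integral_congr_ae ((den_mul a b).mono fun x hx => by simp only [hx])


theorem cv_congr {f f' g g' : G → ℂ} (hf : f =ᵐ[μ] f') (hg : g =ᵐ[μ] g') :
    cv μ f g = cv μ f' g' := by
  rw [cv_eq, cv_eq]
  exact convolution_congr _ hf hg

theorem norm_mul_le' (a b : XG μ W) : ‖a * b‖ ≤ ‖a‖ * ‖b‖ := by
  rw [mul_def, norm_mk, norm_eq, norm_eq]
  exact integral_norm_cv_le (gint_den a) (gint_den b)

theorem mul_comm' (a b : XG μ W) : a * b = b * a := by
  refine ext ?_
  rw [show den (a * b) =ᵐ[μ] den (b * a) ↔ _ from Iff.rfl]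
  exact ((den_mul a b).trans (by rw [cv_comm])).trans (den_mul b a).symm

theorem mul_assoc' (a b c : XG μ W) : a * b * c = a * (b * c) := by
  refine ext ?_
  refine ((den_mul (a * b) c).trans ?_).trans (den_mul a (b * c)).symm
  rw [cv_congr (den_mul a b) (EventuallyEq.refl _ (den c)),
    cv_congr (EventuallyEq.refl _ (den a)) (den_mul b c)]
  exact cv_assoc (integrable_den a) (integrable_den b) (integrable_den c)

theorem cv_add_ae {f g h : G → ℂ} (hf : Integrable f μ) (hg : Integrable g μ)
    (hh : Integrable h μ) : cv μ f (fun x => g x + h x) =ᵐ[μ] fun x => cv μ f g x + cv μ f h x := by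
  filter_upwards [hf.ae_convolution_exists (ContinuousLinearMap.mul ℂ ℂ) hg,
    hf.ae_convolution_exists (ContinuousLinearMap.mul ℂ ℂ) hh] with x h1 h2
  have h1' : Integrable (fun t => f t * g (x - t)) μ := h1
  have h2' : Integrable (fun t => f t * h (x - t)) μ := h2
  simp only [cv, mul_add]
  exact integral_add h1' h2'

theorem mul_add' (a b c : XG μ W) : a * (b + c) = a * b + a * c := by
  refine ext ?_
  refine (den_mul a (b + c)).trans ?_
  rw [cv_congr (EventuallyEq.refl _ (den a)) (den_add b c)]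
  filter_upwards [cv_add_ae (integrable_den a) (integrable_den b) (integrable_den c),
    den_add (a * b) (a * c), den_mul a b, den_mul a c] with x h1 h2 h3 h4
  rw [h1, h2, h3, h4]

theorem mul_smul' (r : ℂ) (a b : XG μ W) : a * (r • b) = r • (a * b) := by
  refine ext ?_
  refine (den_mul a (r • b)).trans ?_
  rw [cv_congr (EventuallyEq.refl _ (den a)) (den_smul r b)]
  filter_upwards [den_smul r (a * b), den_mul a b] with x h1 h2
  rw [h1, h2]
  simp only [cv]
  rw [← integral_const_mul]
  refine integral_congr_ae (Eventually.of_forall fun t => ?_)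
  simp only; ring

instance : NonUnitalNormedCommRing (XG μ W) :=
  { (inferInstance : NormedAddCommGroup (XG μ W)) with
    mul := (· * ·)
    left_distrib := mul_add'
    right_distrib := fun a b c => by rw [mul_comm', mul_add', mul_comm' c a, mul_comm' c b]
    zero_mul := fun a => by
      have h := mul_add' a 0 0
      rw [add_zero] at h
      rw [mul_comm']
      exact (left_eq_add.1 h)
    mul_zero := fun a => by
      have h := mul_add' a 0 0
      rw [add_zero] at h
      exact (left_eq_add.1 h)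
    mul_assoc := mul_assoc'
    mul_comm := mul_comm'
    norm_mul_le := norm_mul_le' }

instance : SMulCommClass ℂ (XG μ W) (XG μ W) :=
  ⟨fun r a b => (mul_smul' r a b).symm⟩

instance : IsScalarTower ℂ (XG μ W) (XG μ W) :=
  ⟨fun r a b => by
    show (r • a) * b = r • (a * b)
    rw [mul_comm' (r • a) b, mul_smul', mul_comm' b a]⟩

end alg

/-! ### involution -/

section star

variable [MeasurableNeg G] [μ.IsNegInvariant]

instance : Star (XG μ W) := ⟨fun a => mk _ (gint_den a).star⟩

theorem star_def (a : XG μ W) : star a = mk _ (gint_den a).star := rfl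

theorem den_star (a : XG μ W) : den (star a) =ᵐ[μ] fun x => (starRingEnd ℂ) (den a (-x)) :=
  den_mk _

theorem norm_star' (a : XG μ W) : ‖star a‖ = ‖a‖ := by
  rw [star_def, norm_mk, norm_eq, ← integral_neg_eq_self (fun x => W x * ‖den a x‖) μ]
  refine integral_congr_ae (Eventually.of_forall fun x => ?_)
  simp only [W.neg, RCLike.norm_conj]

theorem ae_neg {p : G → Prop} (h : ∀ᵐ x ∂μ, p x) : ∀ᵐ x ∂μ, p (-x) :=
  (Measure.measurePreserving_neg μ).quasiMeasurePreserving.ae h

theorem star_star' (a : XG μ W) : star (star a) = a := by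
  refine ext ?_
  filter_upwards [den_star (star a), ae_neg (den_star a)] with x h1 h2
  rw [h1, h2]; simp

theorem star_add' (a b : XG μ W) : star (a + b) = star a + star b := by
  refine ext ?_
  filter_upwards [den_star (a + b), ae_neg (den_add a b), den_add (star a) (star b), den_star a,
    den_star b] with x h1 h2 h3 h4 h5
  rw [h1, h2, h3, h4, h5, map_add]

theorem star_smul' (c : ℂ) (a : XG μ W) : star (c • a) = (starRingEnd ℂ) c • star a := by
  refine ext ?_
  filter_upwards [den_star (c • a), ae_neg (den_smul c a), den_smul ((starRingEnd ℂ) c) (star a),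
    den_star a] with x h1 h2 h3 h4
  rw [h1, h2, h3, h4, map_mul]

end star

section starmul

variable [MeasurableAdd₂ G] [MeasurableNeg G] [SigmaFinite μ] [μ.IsAddLeftInvariant]
  [μ.IsNegInvariant]

theorem star_mul' (a b : XG μ W) : star (a * b) = star a * star b := by
  refine ext ?_
  refine (den_star (a * b)).trans ?_
  refine EventuallyEq.trans ?_ (den_mul (star a) (star b)).symm
  rw [cv_congr (den_star a) (den_star b)]
  filter_upwards [ae_neg (den_mul a b)] with x hx
  rw [hx]
  simp only [cv]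
  rw [← integral_conj, ← integral_neg_eq_self]
  refine integral_congr_ae (Eventually.of_forall fun t => ?_)
  simp only [map_mul]
  congr 3
  abel

instance : StarRing (XG μ W) where
  star_involutive := star_star'
  star_mul a b := by rw [star_mul', mul_comm']
  star_add := star_add'

instance : NormedStarGroup (XG μ W) := ⟨fun a => (norm_star' a).le⟩

instance : StarModule ℂ (XG μ W) := ⟨fun c a => star_smul' c a⟩

end starmul

end XG

end Crest.Agent.R086.Wie
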